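import Vale.Agent.P154.Anti.Table
import Vale.Agent.P154.FastBern

/-!
P154: kernel checks of the polynomial side conditions of the table `V`.
-/

namespace Vale.Agent.P154.Anti

open Kron BudgetRow

/-- The derivative of the radial quotient. -/
def radT : List Term :=
  (row 0).map fun z => (z.1 * ((2 * z.2.1 + 3 * z.2.2 : ℕ) - 2 : ℤ), z.2.1, z.2.2, 0, 0)

/-- The potential less the quadratic invariant. -/
def lowT : List Term := terms 0 ++ [(-30000000, 1, 0, 0, 0)]

/-- Three times the quadratic invariant, less the potential. -/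
def upT : List Term := smulT (-1) (terms 0) ++ [(90000000, 1, 0, 0, 0)]

/-- The bound `39/25`, less the potential. -/
def maxT : List Term := smulT (-1) (terms 0) ++ [(46800000, 0, 0, 0, 0)]

/-- An increment of the coefficient functions. -/
def incT (i : ℕ) : List Term := terms (i + 1) ++ smulT (-1) (terms i)

/-- Degree bounds for these checks. -/
def sideCfg : Bern.Cfg := ⟨8, 8, 0, 2, 8, 96⟩

/-- The subdivision for the radial condition. -/
def radCov : Bern.Cover := (.split 0 .leaf (.split 1 .leaf .leaf))

/-- All the checks. -/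
def sideOK : Bool :=
  firstOnly radT && Bern.check sideCfg (posPoly radT) radCov &&
  firstOnly lowT && Bern.check sideCfg (posPoly lowT) .leaf &&
  firstOnly upT && Bern.check sideCfg (posPoly upT) .leaf &&
  firstOnly maxT && Bern.check sideCfg (posPoly maxT) .leaf &&
  (List.range 15).all fun i => firstOnly (incT i) && Bern.check sideCfg (posPoly (incT i)) .leaf

/-- The fast form of all the checks. -/
def sideF : Bool :=
  firstOnly radT && Bern.checkF sideCfg (posPoly radT) radCov &&
  firstOnly lowT && Bern.checkF sideCfg (posPoly lowT) .leaf &&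
  firstOnly upT && Bern.checkF sideCfg (posPoly upT) .leaf &&
  firstOnly maxT && Bern.checkF sideCfg (posPoly maxT) .leaf &&
  (List.range 15).all fun i => firstOnly (incT i) && Bern.checkF sideCfg (posPoly (incT i)) .leaf

theorem sideF_eq : sideF = true := by decide +kernel

theorem sideOK_eq : sideOK = true := by
  have h := sideF_eq
  simp only [sideF, Bool.and_eq_true, List.all_eq_true] at h
  simp only [sideOK, Bool.and_eq_true, List.all_eq_true]
  obtain ⟨⟨⟨⟨⟨⟨⟨⟨h1, h2⟩, h3⟩, h4⟩, h5⟩, h6⟩, h7⟩, h8⟩, h9⟩ := h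
  exact ⟨⟨⟨⟨⟨⟨⟨⟨h1, Bern.check_of_fast h2⟩, h3⟩, Bern.check_of_fast h4⟩, h5⟩,
    Bern.check_of_fast h6⟩, h7⟩, Bern.check_of_fast h8⟩,
    fun i hi => ⟨(h9 i hi).1, Bern.check_of_fast (h9 i hi).2⟩⟩

end Vale.Agent.P154.Anti
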