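import Vale.Agent.P154.Anti.D4RowData
import Vale.Agent.P154.Anti.SideCheck
import Vale.Agent.P154.FastBern

/-!
P154: the low stage for at most four children at the channel `-1/2`: side conditions.
-/

namespace Vale.Agent.P154.Anti

open Kron BudgetRow

/-- The increase of node 1 pays for the slope at budget zero. -/
def up1T (j : ℕ) : List Term :=
  smulT 400 (w4T (j + 1) 1) ++ (smulT (-400) (w4T j 1) ++ smulT (-7) b4T)

/-- The increase of node 2 pays for the slope at the end. -/
def up2T (j : ℕ) : List Term :=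
  smulT 200 (w4T (j + 1) 2) ++ (smulT (-200) (w4T j 2) ++ smulT (-7) (c4T j))

/-- Read through the channel `-1/2`, times `256`; weights at most `8`. -/
def chan8 (L : List Term) : List Term :=
  L.map fun t =>
    (t.1 * 2 ^ (8 - (2 * t.2.1 + 3 * t.2.2.1)) * (-1) ^ t.2.2.1, t.2)

/-- The weights are at most `8`. -/
def weight8 (L : List Term) : Bool :=
  L.all fun t => decide (2 * t.2.1 + 3 * t.2.2.1 ≤ 8)

/-- The slope of the last stage at the end, times `30000000`. -/
def s4 : ℕ := 29866715

/-- The last stage at node 0. -/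
def last0T : List Term := smulT 64 (terms 0) ++ smulT (-1) (chan8 (terms 0))

/-- The last stage at node 1. -/
def last1T : List Term :=
  smulT (32 * (30000000 + s4)) (terms 0) ++
    ((256 * 30000000 * 1575000, 0, 0, 0, 0) :: smulT (-30000000) (chan8 (w4T 3 1)))

/-- The last stage at node 2. -/
def last2T : List Term :=
  smulT (64 * s4) (terms 0) ++
    ((256 * 30000000 * 3137025, 0, 0, 0, 0) :: smulT (-30000000) (chan8 (w4T 3 2)))

/-- The potential is at most `tI + tI ^ 2 / 2`. -/
def handT : List Term :=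
  [(30000000, 1, 0, 0, 0), (15000000, 2, 0, 0, 0)] ++ smulT (-1) (terms 0)

/-- Degree bounds for these checks. -/
def sideCfg4 : Bern.Cfg := ⟨8, 8, 0, 2, 8, 160⟩

/-- Nonnegativity on the triangle. -/
def posOK (L : List Term) (cv : Bern.Cover) : Bool :=
  firstOnly L && Bern.check sideCfg4 (posPoly L) cv

/-- A subdivision for all these checks. -/
def cov4 : Bern.Cover :=
  .split 0 (.split 1 (.split 0 .leaf .leaf) .leaf)
    (.split 1 (.split 0 .leaf .leaf)
      (.split 0 .leaf (.split 1 (.split 0 .leaf (.split 1 .leaf .leaf)) .leaf)))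

/-- All the checks. -/
def side4OK : Bool :=
  ((List.range 3).all fun j => posOK (c4T j) .leaf && posOK (up1T j) cov4 && posOK (up2T j) cov4) &&
    posOK b4T .leaf && posOK last0T .leaf && posOK last1T cov4 && posOK last2T cov4 &&
    posOK handT .leaf && weight8 (terms 0) && weight8 (w4T 3 1) && weight8 (w4T 3 2)

/-- The fast form of `posOK`. -/
def posOKF (L : List Term) (cv : Bern.Cover) : Bool :=
  firstOnly L && Bern.checkF sideCfg4 (posPoly L) cv

lemma posOK_of_fast {L : List Term} {cv : Bern.Cover} (h : posOKF L cv = true) :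
    posOK L cv = true := by
  simp only [posOKF, Bool.and_eq_true] at h
  simp only [posOK, Bool.and_eq_true]
  exact ⟨h.1, Bern.check_of_fast h.2⟩

/-- The fast form of all the checks. -/
def side4F : Bool :=
  ((List.range 3).all fun j =>
      posOKF (c4T j) .leaf && posOKF (up1T j) cov4 && posOKF (up2T j) cov4) &&
    posOKF b4T .leaf && posOKF last0T .leaf && posOKF last1T cov4 && posOKF last2T cov4 &&
    posOKF handT .leaf && weight8 (terms 0) && weight8 (w4T 3 1) && weight8 (w4T 3 2)

theorem side4F_eq : side4F = true := by decide +kernel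

theorem side4OK_eq : side4OK = true := by
  have h := side4F_eq
  simp only [side4F, Bool.and_eq_true, List.all_eq_true] at h
  simp only [side4OK, Bool.and_eq_true, List.all_eq_true]
  obtain ⟨⟨⟨⟨⟨⟨⟨⟨h1, h2⟩, h3⟩, h4⟩, h5⟩, h6⟩, h7⟩, h8⟩, h9⟩ := h
  exact ⟨⟨⟨⟨⟨⟨⟨⟨fun j hj => ⟨⟨posOK_of_fast (h1 j hj).1.1, posOK_of_fast (h1 j hj).1.2⟩,
    posOK_of_fast (h1 j hj).2⟩, posOK_of_fast h2⟩, posOK_of_fast h3⟩, posOK_of_fast h4⟩,
    posOK_of_fast h5⟩, posOK_of_fast h6⟩, h7⟩, h8⟩, h9⟩

end Vale.Agent.P154.Anti
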