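import Vale.Agent.P154.Anti.RowData

/-!
P154: the low stage for at most four children at the channel `-1/2`: data.
-/

namespace Vale.Agent.P154.Anti

open Kron BudgetRow

/-- The coefficient functions of the four stages, times `30000000`. -/
def v4T : ℕ → ℕ → List Term
  | 1, 1 => [(525000, 0, 0, 0, 0), (-181918, 0, 1, 0, 0), (8587385, 0, 2, 0, 0),
    (29912605, 1, 0, 0, 0), (178789, 1, 1, 0, 0), (5772116, 2, 0, 0, 0), (2868, 3, 0, 0, 0)]
  | 1, 2 => [(1054029, 0, 0, 0, 0), (-127199, 0, 1, 0, 0), (9494144, 0, 2, 0, 0),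
    (29615318, 1, 0, 0, 0), (-6774509, 1, 1, 0, 0), (7042321, 2, 0, 0, 0),
    (6216515, 3, 0, 0, 0)]
  | 2, 1 => [(1050000, 0, 0, 0, 0), (-574515, 0, 1, 0, 0), (10200178, 0, 2, 0, 0),
    (29795093, 1, 0, 0, 0), (-3538313, 1, 1, 0, 0), (7210745, 2, 0, 0, 0),
    (6639523, 3, 0, 0, 0)]
  | 2, 2 => [(2099649, 0, 0, 0, 0), (-1075785, 0, 1, 0, 0), (13769665, 0, 2, 0, 0),
    (29482908, 1, 0, 0, 0), (-15311688, 1, 1, 0, 0), (8903040, 2, 0, 0, 0),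
    (18781989, 3, 0, 0, 0)]
  | 3, 1 => [(1575000, 0, 0, 0, 0), (-1381470, 0, 1, 0, 0), (9714431, 0, 2, 0, 0),
    (29880862, 1, 0, 0, 0), (-7185491, 1, 1, 0, 0), (8621025, 2, 0, 0, 0),
    (10094940, 3, 0, 0, 0)]
  | 3, 2 => [(3137025, 0, 0, 0, 0), (-2998079, 0, 1, 0, 0), (101485063, 0, 2, 0, 0),
    (29693872, 1, 0, 0, 0), (1599750, 1, 1, 0, 0), (7329682, 2, 0, 0, 0),
    (58771612, 3, 0, 0, 0)]
  | _, _ => []

/-- The slope at budget zero, times `30000000`. -/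
def b4T : List Term :=
  [(30000000, 0, 0, 0, 0), (-17177320, 0, 1, 0, 0), (4793931, 0, 2, 0, 0),
    (-9009844, 1, 0, 0, 0), (-305291691, 1, 1, 0, 0), (108996331, 2, 0, 0, 0),
    (218282039, 3, 0, 0, 0)]

/-- The slopes at the end of the budget range, times `30000000`. -/
def c4T : ℕ → List Term
  | 0 => [(30115102, 0, 0, 0, 0), (-7251171, 0, 1, 0, 0), (45659733, 0, 2, 0, 0),
    (-13385648, 1, 0, 0, 0), (-355334745, 1, 1, 0, 0), (96875612, 2, 0, 0, 0),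
    (267868531, 3, 0, 0, 0)]
  | 1 => [(29874842, 0, 0, 0, 0), (-27102463, 0, 1, 0, 0), (122097894, 0, 2, 0, 0),
    (-4751750, 1, 0, 0, 0), (-243919401, 1, 1, 0, 0), (59723506, 2, 0, 0, 0),
    (346041996, 3, 0, 0, 0)]
  | 2 => [(29639303, 0, 0, 0, 0), (-55080083, 0, 1, 0, 0), (2505819626, 0, 2, 0, 0),
    (5028027, 1, 0, 0, 0), (483808465, 1, 1, 0, 0), (-38216716, 2, 0, 0, 0),
    (1129385196, 3, 0, 0, 0)]
  | _ => []

end Vale.Agent.P154.Anti
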