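import Vale.Agent.P154.Anti.D4Low
import Vale.Agent.P154.AuxModel

/-!
P154: at most four children: from bounds on the first two moments of the quadratic potential to
nonreconstruction.
-/

namespace Vale.Agent.P154.Anti

open BudgetRow
open scoped BigOperators ENNReal

lemma potQ_eq_tI (p : Fin 3 → ℝ) : potQ p = 2 * tI p := by
  simp only [potQ, cmom, tI, Fin.sum_univ_three]
  push_cast
  ring

lemma pot_le_potQ {p : Fin 3 → ℝ} (hp : p ∈ stdSimplex ℝ (Fin 3)) :
    pot p ≤ 1 / 2 * potQ p + 1 / 8 * potQ p ^ 2 := by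
  rw [potQ_eq_tI]
  linarith [pot_le_quad hp]

/-- Nonreconstruction with at most four children from the two moments of one level. -/
theorem d4_of_moments (rows : ℕ → Row) (h : ∀ i ≤ 5, d4RowFor i (rows i) = true) {lam : ℝ}
    (hl0 : -1 / 2 ≤ lam) (hl1 : lam ≤ 0) {d : ℕ} (hd : d ≤ 4) {N : ℕ} {a b : ℝ} (ha : 0 ≤ a)
    (hb : 0 ≤ b) (hab : a / 2 + b / 8 ≤ 7 / 50)
    (hQ : meanPot 3 lam potQ (regularLaw d) N ≤ ENNReal.ofReal a)
    (hQ2 : meanPot 3 lam (fun p => potQ p ^ 2) (regularLaw d) N ≤ ENNReal.ofReal b) :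
    NonReconstruction 3 lam (regularLaw d) := by
  have hq : (2 : ℕ) ≤ 3 := by norm_num
  have h0 : -1 / (((3 : ℕ) : ℝ) - 1) ≤ lam := by norm_num; linarith
  have h1 : lam ≤ 1 := by linarith
  have hnn : ∀ p ∈ stdSimplex ℝ (Fin 3), (0 : ℝ) ≤ potQ p := fun p _ => potQ_nonneg p
  have hbd : BddOn (potQ (q := 3)) :=
    ⟨2, fun p hp => by rw [abs_of_nonneg (hnn p hp)]; have := potQ_le hp; push_cast at this; linarith⟩
  have hbd2 : BddOn (fun p : Fin 3 → ℝ => potQ p ^ 2) :=
    ⟨4, fun p hp => by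
      have := potQ_le hp
      push_cast at this
      rw [abs_of_nonneg (sq_nonneg _)]
      nlinarith [hnn p hp]⟩
  rw [treeMean_eq hq h0 h1 hbd hnn, ENNReal.ofReal_le_ofReal_iff ha] at hQ
  rw [treeMean_eq hq h0 h1 hbd2 (fun p _ => sq_nonneg _), ENNReal.ofReal_le_ofReal_iff hb] at hQ2
  refine d4_low_of_rows rows h hl0 hl1 hd (N := N) (le_trans ?_ hab)
  have hf : ∀ T : Tree N, famVal pot (lik 3 lam N T) ≤
      1 / 2 * famVal potQ (lik 3 lam N T) +
        1 / 8 * famVal (fun p => potQ p ^ 2) (lik 3 lam N T) := by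
    intro T
    simp only [famVal, Finset.mul_sum, ← Finset.sum_add_distrib]
    refine Finset.sum_le_sum fun τ _ => ?_
    have hv := (lik_balanced hq h0 h1 N T).1.nonneg τ
    rcases (Finset.sum_nonneg fun i (_ : i ∈ Finset.univ) => hv i).eq_or_lt with hz | hz
    · simp [hom, ← hz]
    · have := mul_le_mul_of_nonneg_left (pot_le_potQ (mem_simplex_of_nonneg hv hz))
        (div_nonneg hz.le (Nat.cast_nonneg 3))
      simp only [hom]
      push_cast at this ⊢
      linarith
  have sP := summable_treeTerm (ν := regularLaw d) (n := N) hq h0 h1 isPotential_pot.bddOn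
  have s1 := (summable_treeTerm (ν := regularLaw d) (n := N) hq h0 h1 hbd).mul_left (1 / 2)
  have s2 := (summable_treeTerm (ν := regularLaw d) (n := N) hq h0 h1 hbd2).mul_left (1 / 8)
  have hle : treeMean 3 lam pot (regularLaw d) N ≤ 1 / 2 * treeMean 3 lam potQ (regularLaw d) N +
      1 / 8 * treeMean 3 lam (fun p => potQ p ^ 2) (regularLaw d) N := by
    simp only [treeMean]
    rw [← tsum_mul_left, ← tsum_mul_left, ← s1.tsum_add s2]
    refine sP.tsum_le_tsum (fun T => ?_) (s1.add s2)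
    have := mul_le_mul_of_nonneg_left (hf T) (ENNReal.toReal_nonneg (a := treeProb (regularLaw d) N T))
    linarith
  linarith

end Vale.Agent.P154.Anti
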