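import Vale.Agent.P154.Anti.SideCheck

/-!
P154: the side conditions of the budget functional for three states, and nonreconstruction on
Poisson trees given the merge inequalities of the coefficient functions.
-/

namespace Vale.Agent.P154.Anti

open Kron BudgetRow
open scoped NNReal BigOperators

lemma checks :
    (∀ p ∈ stdSimplex ℝ (Fin 3), 0 ≤ polyT radT p) ∧
    (∀ p ∈ stdSimplex ℝ (Fin 3), 0 ≤ polyT lowT p) ∧
    (∀ p ∈ stdSimplex ℝ (Fin 3), 0 ≤ polyT upT p) ∧
    (∀ p ∈ stdSimplex ℝ (Fin 3), 0 ≤ polyT maxT p) ∧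
    ∀ i < 15, ∀ p ∈ stdSimplex ℝ (Fin 3), 0 ≤ polyT (incT i) p := by
  have h := sideOK_eq
  simp only [sideOK, Bool.and_eq_true, List.all_eq_true, List.mem_range] at h
  obtain ⟨⟨⟨⟨⟨⟨⟨⟨a1, a2⟩, b1⟩, b2⟩, c1⟩, c2⟩, d1⟩, d2⟩, e⟩ := h
  exact ⟨fun p hp => polyT_nonneg a1 a2 hp, fun p hp => polyT_nonneg b1 b2 hp,
    fun p hp => polyT_nonneg c1 c2 hp, fun p hp => polyT_nonneg d1 d2 hp,
    fun i hi p hp => polyT_nonneg (e i hi).1 (e i hi).2 hp⟩

lemma evalT_append (L M : List Term) (x : Fin 4 → ℝ) :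
    evalT (L ++ M) x = evalT L x + evalT M x := by simp [evalT]

lemma den_pos : (0 : ℝ) < den := by norm_num [den]

lemma coef_le_succ {i : ℕ} (hi : i < 15) {p : Fin 3 → ℝ} (hp : p ∈ stdSimplex ℝ (Fin 3)) :
    coef i p ≤ coef (i + 1) p := by
  have h := checks.2.2.2.2 i hi p hp
  simp only [polyT, incT, evalT_append, evalT_smulT] at h
  refine div_le_div_of_nonneg_right ?_ den_pos.le
  simp only [polyT]
  push_cast at h
  linarith

lemma tI_le_pot {p : Fin 3 → ℝ} (hp : p ∈ stdSimplex ℝ (Fin 3)) : tI p ≤ pot p := by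
  have h := checks.2.1 p hp
  simp only [polyT, lowT, evalT_append] at h
  have e : evalT [(-30000000, 1, 0, 0, 0)] ![tI p, cI p, 0, 0] = -den * tI p := by
    simp [evalT, termVal, den]
  rw [pot_eq, coef, le_div_iff₀ den_pos]
  simp only [polyT]
  linarith

lemma pot_le_tI {p : Fin 3 → ℝ} (hp : p ∈ stdSimplex ℝ (Fin 3)) : pot p ≤ 3 * tI p := by
  have h := checks.2.2.1 p hp
  simp only [polyT, upT, evalT_append, evalT_smulT] at h
  have e : evalT [(90000000, 1, 0, 0, 0)] ![tI p, cI p, 0, 0] = 3 * den * tI p := by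
    simp [evalT, termVal, den]; norm_num
  rw [pot_eq, coef, div_le_iff₀ den_pos]
  simp only [polyT]
  push_cast at h
  linarith

lemma pot_le {p : Fin 3 → ℝ} (hp : p ∈ stdSimplex ℝ (Fin 3)) : pot p ≤ 39 / 25 := by
  have h := checks.2.2.2.1 p hp
  simp only [polyT, maxT, evalT_append, evalT_smulT] at h
  have e : evalT [(46800000, 0, 0, 0, 0)] ![tI p, cI p, 0, 0] = 39 / 25 * den := by
    simp [evalT, termVal, den]; norm_num
  rw [pot_eq, coef, div_le_iff₀ den_pos]
  simp only [polyT]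
  push_cast at h
  linarith

lemma cI_shrink (r : ℝ) (p : Fin 3 → ℝ) : cI (shrink r p) = r ^ 3 * cI p := by
  simp only [cI, shrink, Fin.prod_univ_three]
  ring

/-- The radial scaling of the potential. -/
theorem pot_shrink_le {c : ℝ} (h0 : 0 ≤ c) (h1 : c ≤ 1) {p : Fin 3 → ℝ}
    (hp : p ∈ stdSimplex ℝ (Fin 3)) : pot (shrink c p) ≤ c ^ 2 * pot p := by
  obtain ⟨t, ht⟩ : ∃ t, tI p = t := ⟨_, rfl⟩
  obtain ⟨k, hk⟩ : ∃ k, cI p = k := ⟨_, rfl⟩
  set f : ℝ → ℝ := fun x => 30000000 * t + 5153940 * t ^ 2 * x ^ 2 + 7999830 * t * k * x ^ 3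
    + (9054540 * k ^ 2 - 14085960 * t ^ 3) * x ^ 4 + (-9521400) * t ^ 2 * k * x ^ 5
    + (20990880 * t ^ 4 - 5331570 * t * k ^ 2) * x ^ 6 with hf
  have hd : ∀ x, HasDerivAt f (2 * 5153940 * t ^ 2 * x + 3 * 7999830 * t * k * x ^ 2
      + 4 * (9054540 * k ^ 2 - 14085960 * t ^ 3) * x ^ 3 + 5 * (-9521400) * t ^ 2 * k * x ^ 4
      + 6 * (20990880 * t ^ 4 - 5331570 * t * k ^ 2) * x ^ 5) x := by
    intro x
    refine HasDerivAt.congr_deriv ((((((hasDerivAt_const x _).add
      ((hasDerivAt_pow 2 x).const_mul _)).add ((hasDerivAt_pow 3 x).const_mul _)).add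
      ((hasDerivAt_pow 4 x).const_mul _)).add ((hasDerivAt_pow 5 x).const_mul _)).add
      ((hasDerivAt_pow 6 x).const_mul _)) ?_
    norm_num
    ring
  have hmono : MonotoneOn f (Set.Icc 0 1) := by
    refine monotoneOn_of_deriv_nonneg (convex_Icc 0 1)
      (fun x _ => (hd x).continuousAt.continuousWithinAt)
      (fun x _ => (hd x).differentiableAt.differentiableWithinAt) fun x hx => ?_
    rw [interior_Icc] at hx
    obtain ⟨hx0, hx1⟩ := hx
    have h := checks.1 _ (shrink_mem hx0.le hx1.le hp)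
    simp [polyT, radT, row, evalT, termVal, tI_shrink, cI_shrink, ht, hk] at h
    rw [(hd x).deriv]
    refine nonneg_of_mul_nonneg_right ?_ (pow_pos hx0 3)
    refine h.trans_eq ?_
    ring
  have h := hmono ⟨h0, h1⟩ (Set.right_mem_Icc.mpr zero_le_one) h1
  have hrow : ∀ x, pot (shrink x p) = x ^ 2 * f x / den := by
    intro x
    simp [pot, phiOf, potP, terms, row, evalT, termVal, tI_shrink, cI_shrink, ht, hk, hf]
    ring
  have hone : shrink 1 p = p := by funext i; simp [shrink]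
  have h1' := hrow 1
  rw [hone, one_pow, one_mul] at h1'
  rw [hrow, h1', mul_div_assoc]
  exact mul_le_mul_of_nonneg_left (div_le_div_of_nonneg_right h den_pos.le) (sq_nonneg c)

lemma pot_good : Good potP :=
  ⟨fun _ hp => tI_le_pot hp, ⟨3, fun _ hp => pot_le_tI hp⟩,
    fun _ hc0 hc1 _ hp => pot_shrink_le hc0 hc1 hp⟩

lemma isPotential_pot : IsPotential pot := pot_good.isPotential

lemma bddOn_coef (i : ℕ) : BddOn (coef i) := by
  obtain ⟨M, hM⟩ := bddOn_polyT (terms i)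
  refine ⟨M / den, fun p hp => ?_⟩
  rw [coef, abs_div, abs_of_pos den_pos]
  exact div_le_div_of_nonneg_right (hM p hp) den_pos.le

lemma bddOn_comb (j : ℕ) (a b c d : ℝ) :
    BddOn fun s => a * coef (3 * j) s + b * coef (3 * j + 1) s + c * coef (3 * j + 2) s
      + d * coef (3 * j + 3) s := by
  obtain ⟨Ma, ha⟩ := bddOn_coef (3 * j)
  obtain ⟨Mb, hb⟩ := bddOn_coef (3 * j + 1)
  obtain ⟨Mc, hc⟩ := bddOn_coef (3 * j + 2)
  obtain ⟨Md, hd⟩ := bddOn_coef (3 * j + 3)
  refine ⟨|a| * Ma + |b| * Mb + |c| * Mc + |d| * Md, fun p hp => ?_⟩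
  refine (abs_add_le _ _).trans (add_le_add ?_ ?_)
  · refine (abs_add_three _ _ _).trans (add_le_add (add_le_add ?_ ?_) ?_) <;>
      rw [abs_mul] <;> refine mul_le_mul_of_nonneg_left ?_ (abs_nonneg _)
    · exact ha p hp
    · exact hb p hp
    · exact hc p hp
  · rw [abs_mul]
    exact mul_le_mul_of_nonneg_left (hd p hp) (abs_nonneg _)

lemma smooth_piece (j : ℕ) : Smooth (156 / 25) (Vp j) (Dp j) := by
  obtain ⟨α, hα⟩ : ∃ α, 1 / (4 * gap j) = α := ⟨_, rfl⟩
  obtain ⟨β, hβ⟩ : ∃ β, -knot j / gap j = β := ⟨_, rfl⟩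
  set a : Fin 4 → (Fin 3 → ℝ) → ℝ := ![
    fun s => (1 - β) ^ 3 * coef (3 * j) s + 3 * (1 - β) ^ 2 * β * coef (3 * j + 1) s
      + 3 * (1 - β) * β ^ 2 * coef (3 * j + 2) s + β ^ 3 * coef (3 * j + 3) s,
    fun s => (-3 * α * (1 - β) ^ 2) * coef (3 * j) s
      + (3 * α * (1 - β) * (1 - 3 * β)) * coef (3 * j + 1) s
      + (3 * α * β * (2 - 3 * β)) * coef (3 * j + 2) s + (3 * α * β ^ 2) * coef (3 * j + 3) s,
    fun s => (3 * α ^ 2 * (1 - β)) * coef (3 * j) s + (α ^ 2 * (9 * β - 6)) * coef (3 * j + 1) s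
      + (α ^ 2 * (3 - 9 * β)) * coef (3 * j + 2) s + (3 * α ^ 2 * β) * coef (3 * j + 3) s,
    fun s => (-α ^ 3) * coef (3 * j) s + (3 * α ^ 3) * coef (3 * j + 1) s
      + (-3 * α ^ 3) * coef (3 * j + 2) s + α ^ 3 * coef (3 * j + 3) s] with ha
  have hb : ∀ k, BddOn (a k) := by
    intro k
    fin_cases k <;> exact bddOn_comb j _ _ _ _
  have hloc : ∀ A, loc j A = α * A + β := by
    intro A
    rw [← hα, ← hβ, loc]
    ring
  have hsm := smooth_poly (R := 156 / 25) hb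
  convert hsm using 2 with s
  · funext A
    simp only [Vp, cub, hloc, Fin.sum_univ_four, ha, Matrix.cons_val_zero, Matrix.cons_val_one,
      Matrix.cons_val, Fin.val_zero, Fin.val_one, Fin.val_two]
    simp
    ring
  · funext A
    simp only [Dp, dcub, hloc, Fin.sum_univ_four, ha, Matrix.cons_val_zero, Matrix.cons_val_one,
      Matrix.cons_val, Fin.val_zero, Fin.val_one, Fin.val_two]
    simp [div_eq_mul_inv]
    rw [← hα]
    ring

lemma Vp_junction {j : ℕ} (hj : j < 4) (s : Fin 3 → ℝ) :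
    Vp j s (4 * knot (j + 1)) = Vp (j + 1) s (4 * knot (j + 1)) := by
  have h1 : loc j (4 * knot (j + 1)) = 1 := by
    rw [loc, show 4 * knot (j + 1) / 4 - knot j = gap j by rw [gap]; ring,
      div_self (gap_pos (by omega)).ne']
  have h2 : loc (j + 1) (4 * knot (j + 1)) = 0 := by simp [loc]
  simp [Vp, cub, h1, h2, Nat.mul_succ]

lemma smooth_V : Smooth (156 / 25) V D := by
  have e : ∀ j < 4, ∀ s, Vp j s (4 * knot (j + 1)) = Vp (j + 1) s (4 * knot (j + 1)) :=
    fun j hj s => Vp_junction hj s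
  refine smooth_glue (smooth_piece 0) (smooth_glue (smooth_piece 1) (smooth_glue (smooth_piece 2)
    (smooth_glue (smooth_piece 3) (smooth_piece 4) ?_) ?_) ?_) ?_
  all_goals intro s _
  · exact e 3 (by norm_num) s
  · rw [glue, if_pos (by norm_num [knot])]; exact e 2 (by norm_num) s
  · rw [glue, if_pos (by norm_num [knot])]; exact e 1 (by norm_num) s
  · rw [glue, if_pos (by norm_num [knot])]; exact e 0 (by norm_num) s

lemma V_zero (s : Fin 3 → ℝ) : V s 0 = pot s := by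
  have : piece 0 = 0 := by simp [piece, knot]
  rw [V_eq, this, pot_eq]
  simp [Vp, cub, loc, knot]

lemma Dp_nonneg {j : ℕ} (hj : j ≤ 4) {A : ℝ} (h0 : 4 * knot j ≤ A) (h1 : A ≤ 4 * knot (j + 1))
    {s : Fin 3 → ℝ} (hs : s ∈ stdSimplex ℝ (Fin 3)) : 0 ≤ Dp j s A := by
  obtain ⟨a, b⟩ := loc_mem hj h0 h1
  have e0 := sub_nonneg.mpr (coef_le_succ (i := 3 * j) (by omega) hs)
  have e1 := sub_nonneg.mpr (coef_le_succ (i := 3 * j + 1) (by omega) hs)
  have e2 := sub_nonneg.mpr (coef_le_succ (i := 3 * j + 2) (by omega) hs)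
  have hb := sub_nonneg.mpr b
  have hg := gap_pos hj
  unfold Dp dcub
  positivity

/-- The values of the coefficient functions at the uniform point, times `den`. -/
def unif : ℕ → ℤ
  | i => ((row i).filter fun z => z.2.1 = 0 ∧ z.2.2 = 0).map (fun z => z.1) |>.sum

lemma coef_uniform (i : ℕ) : coef i (fun _ => (1 : ℝ) / 3) = (unif i : ℝ) / den := by
  have ht : tI (fun _ => (1 : ℝ) / 3) = 0 := by simp [tI]
  have hc : cI (fun _ => (1 : ℝ) / 3) = 0 := by simp [cI]
  rw [coef, polyT, ht, hc, terms, unif]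
  congr 1
  generalize row i = L
  induction L with
  | nil => simp [evalT]
  | cons z L ih =>
      obtain ⟨a, m, n⟩ := z
      rcases m with _ | m <;> rcases n with _ | n <;>
        simp [evalT, termVal] at ih ⊢ <;> linarith

lemma cub_pos {a b c d x : ℝ} (ha : 0 < a) (hb : 0 < b) (hc : 0 < c) (hd : 0 < d) (h0 : 0 ≤ x)
    (h1 : x ≤ 1) : 0 < cub a b c d x := by
  have hy := sub_nonneg.mpr h1
  rcases eq_or_lt_of_le h0 with h | h
  · subst h; simpa [cub] using ha
  · have : 0 < x ^ 3 * d := by positivity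
    unfold cub
    have p1 : 0 ≤ (1 - x) ^ 3 * a := by positivity
    have p2 : 0 ≤ 3 * (1 - x) ^ 2 * x * b := by positivity
    have p3 : 0 ≤ 3 * (1 - x) * x ^ 2 * c := by positivity
    linarith

lemma gain {A : ℝ} (h0 : 0 < A) (h1 : A ≤ 156 / 25) :
    4 * V (fun _ => (1 : ℝ) / 3) A < A := by
  obtain ⟨a, b⟩ := piece_spec h0.le h1
  have hj := piece_le A
  obtain ⟨j, hjd⟩ : ∃ j, piece A = j := ⟨_, rfl⟩
  rw [hjd] at a b hj
  obtain ⟨x0, x1⟩ := loc_mem hj a b
  have hA : A = 4 * (knot j + gap j * loc j A) := by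
    rw [loc, mul_div_cancel₀ _ (gap_pos hj).ne']; ring
  rw [V_eq, hjd]
  simp only [Vp, coef_uniform]
  have hx : 4 * knot j < A ∨ 4 * knot j = A := a.lt_or_eq
  generalize loc j A = x at *
  subst hA
  interval_cases j
  · have hx0 : 0 < x := by norm_num [knot, gap] at h0; linarith
    have : 0 < cub (0 : ℝ) 0 (2 * (2 / 75) - (unif 2 : ℝ) / den)
        (2 / 25 - (unif 3 : ℝ) / den) x := by
      norm_num [cub, unif, row, den]
      have e1 := mul_pos (pow_pos hx0 2) (show (0 : ℝ) < 1 by norm_num)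
      have e2 := mul_nonneg (sub_nonneg.mpr x1) (sq_nonneg x)
      have e3 : 0 < x ^ 3 := pow_pos hx0 3
      nlinarith
    norm_num [cub, unif, row, den, knot, gap] at this ⊢
    linarith
  all_goals
    have key := cub_pos (x := x) (show (0 : ℝ) < 1 by norm_num) one_pos one_pos one_pos x0 x1
    norm_num [cub, unif, row, den, knot, gap] at key ⊢
    nlinarith [pow_nonneg x0 3, pow_nonneg (sub_nonneg.mpr x1) 3,
      mul_nonneg (pow_nonneg x0 2) (sub_nonneg.mpr x1),
      mul_nonneg (pow_nonneg (sub_nonneg.mpr x1) 2) x0]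

/-- The elevated coefficient of the derivative in the budget. -/
noncomputable def slope (j : ℕ) : ℕ → (Fin 3 → ℝ) → ℝ
  | 0 => fun s => 3 * (coef (3 * j + 1) s - coef (3 * j) s) / (4 * gap j)
  | 1 => fun s => ((coef (3 * j + 1) s - coef (3 * j) s)
      + 2 * (coef (3 * j + 2) s - coef (3 * j + 1) s)) / (4 * gap j)
  | 2 => fun s => (2 * (coef (3 * j + 2) s - coef (3 * j + 1) s)
      + (coef (3 * j + 3) s - coef (3 * j + 2) s)) / (4 * gap j)
  | _ => fun s => 3 * (coef (3 * j + 3) s - coef (3 * j + 2) s) / (4 * gap j)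

/-- The twenty merge inequalities. -/
def MergeRows : Prop :=
  ∀ j ≤ 4, ∀ m ≤ 3, ∀ s ∈ stdSimplex ℝ (Fin 3), ∀ u ∈ stdSimplex ℝ (Fin 3),
    mergeAvg (coef (3 * j + m)) s (chanMap (-1 / 2) u) ≤
      coef (3 * j + m) s + slope j m s * pot u

lemma merge (h : MergeRows) {A : ℝ} (hA : A ∈ Set.Icc (0 : ℝ) (156 / 25)) {s u : Fin 3 → ℝ}
    (hs : s ∈ stdSimplex ℝ (Fin 3)) (hu : u ∈ stdSimplex ℝ (Fin 3)) :
    mergeAvg (V · A) s (chanMap (-1 / 2) u) ≤ V s A + D s A * pot u := by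
  obtain ⟨a, b⟩ := piece_spec hA.1 hA.2
  have hj := piece_le A
  rw [V_eq, D_eq]
  simp only [V_eq]
  generalize piece A = j at *
  obtain ⟨x0, x1⟩ := loc_mem hj a b
  obtain ⟨x, hx⟩ : ∃ x, loc j A = x := ⟨_, rfl⟩
  rw [hx] at x0 x1
  set w : Fin 4 → ℝ := ![(1 - x) ^ 3, 3 * (1 - x) ^ 2 * x, 3 * (1 - x) * x ^ 2, x ^ 3] with hw
  have hw0 : ∀ m, 0 ≤ w m := by
    have := sub_nonneg.mpr x1
    intro m
    fin_cases m <;> simp [hw] <;> positivity
  have e : (fun p => Vp j p A) = fun p => ∑ m : Fin 4, w m * coef (3 * j + m) p := by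
    funext p
    simp [Vp, cub, hx, hw, Fin.sum_univ_four]
  have eD : Dp j s A = ∑ m : Fin 4, w m * slope j m s := by
    simp [Dp, dcub, hx, hw, Fin.sum_univ_four, slope]
    ring
  rw [e, mergeAvg_sum, eD, congrFun e s, Finset.sum_mul, ← Finset.sum_add_distrib]
  refine Finset.sum_le_sum fun m _ => ?_
  refine (mul_le_mul_of_nonneg_left (h j hj m (by omega) s hs u hu) (hw0 m)).trans_eq ?_
  ring

/-- Nonreconstruction on the Poisson trees from the twenty merge inequalities. -/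
theorem antiPoisson_of_merge (h : MergeRows) {lam : ℝ} (h0 : -1 / 2 ≤ lam) (h1 : lam ≤ 0)
    {d : ℝ≥0} (hd : (d : ℝ) * lam ^ 2 ≤ 1) : NonReconstruction 3 lam (poissonLaw d) := by
  obtain ⟨L, C, B, _, hC, hs⟩ := smooth_V
  have hu : (fun _ => (1 : ℝ) / (3 : ℕ)) ∈ stdSimplex ℝ (Fin 3) :=
    ⟨fun _ => by positivity, by simp⟩
  have hb : BddOn fun s => V s 0 := by simpa [V_zero] using isPotential_pot.bddOn
  have key := nonReconstruction_poisson_of_budget (q := 3) (by norm_num) (l0 := -1 / 2)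
    (c := -2 * lam) (by norm_num) (by norm_num) (by linarith) (by linarith) (Φ := pot) (V := V)
    (D := D) (R := 156 / 25) (C := C) (D0 := 4) (M := 39 / 25) (d := d) B hC isPotential_pot
    (fun p hp => pot_le hp)
    (fun p hp => by
      rw [chanMap_simplex _ hp]
      exact pot_shrink_le (by linarith) (by linarith) hp)
    (fun A hA => (smooth_V.bdd hb hA).1) (fun A hA => (smooth_V.bdd hb hA).2)
    (fun A hA p hp => by
      obtain ⟨a, b⟩ := piece_spec hA.1 hA.2
      rw [D_eq]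
      exact Dp_nonneg (piece_le A) a b hp)
    (fun p _ => (V_zero p).ge)
    (fun A hA s hs u hu => merge h hA hs hu)
    (fun s hs' => (hs s hs').2.2)
    (smooth_V.continuousOn hu)
    (by rw [V_zero]; exact isPotential_pot.uniform.le)
    (fun A hA0 hA => by push_cast; exact gain hA0 hA)
    (by norm_num) (by norm_num) (by nlinarith)
  rwa [show (-1 / 2 : ℝ) * (-2 * lam) = lam by ring] at key

end Vale.Agent.P154.Anti
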