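import Vale.Agent.P154.Anti.D4Check
import Vale.Agent.P154.Anti.Side
import Vale.Agent.P154.BudgetStep

/-!
P154: three states on the regular trees with at most four children, channel in `[-1/2, 0]`: once
the mean potential is at most `7/50` it tends to zero, from six rows of data.
-/

namespace Vale.Agent.P154.Anti

open Kron BudgetRow
open scoped BigOperators
open Filter Topology

/-- The functional of stage `j` at a node. -/
noncomputable def w4 (j i : ℕ) (s : Fin 3 → ℝ) : ℝ := polyT (w4T j i) s / den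

/-- The slope at budget zero. -/
noncomputable def b4 (s : Fin 3 → ℝ) : ℝ := polyT b4T s / den

/-- The slope at the end of the range. -/
noncomputable def c4 (j : ℕ) (s : Fin 3 → ℝ) : ℝ := polyT (c4T j) s / den

/-- The functional of stage `j` at the budget coordinate `x`. -/
noncomputable def stage (j : ℕ) (x : ℝ) (s : Fin 3 → ℝ) : ℝ :=
  (1 - x) ^ 2 * pot s + 2 * x * (1 - x) * w4 j 1 s + x ^ 2 * w4 j 2 s

/-- The slope of stage `j`. -/
noncomputable def slope4 (j : ℕ) (x : ℝ) (s : Fin 3 → ℝ) : ℝ := (1 - x) * b4 s + x * c4 j s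

lemma stage_zero (x : ℝ) : stage 0 x = pot := by
  funext s
  simp only [stage, w4, w4T, pot_eq, coef]
  ring

lemma side4 :
    (∀ j < 3, ∀ p ∈ stdSimplex ℝ (Fin 3),
      0 ≤ polyT (c4T j) p ∧ 0 ≤ polyT (up1T j) p ∧ 0 ≤ polyT (up2T j) p) ∧
    (∀ p ∈ stdSimplex ℝ (Fin 3), 0 ≤ polyT b4T p ∧ 0 ≤ polyT last0T p ∧ 0 ≤ polyT last1T p ∧
      0 ≤ polyT last2T p ∧ 0 ≤ polyT handT p) ∧
    weight8 (terms 0) = true ∧ weight8 (w4T 3 1) = true ∧ weight8 (w4T 3 2) = true := by
  have h := side4OK_eq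
  simp only [side4OK, posOK, Bool.and_eq_true, List.all_eq_true, List.mem_range] at h
  obtain ⟨⟨⟨⟨⟨⟨⟨⟨a, b⟩, l0⟩, l1⟩, l2⟩, hd⟩, w0⟩, w1⟩, w2⟩ := h
  exact ⟨fun j hj p hp => ⟨polyT_nonneg (a j hj).1.1.1 (a j hj).1.1.2 hp,
    polyT_nonneg (a j hj).1.2.1 (a j hj).1.2.2 hp, polyT_nonneg (a j hj).2.1 (a j hj).2.2 hp⟩,
    fun p hp => ⟨polyT_nonneg b.1 b.2 hp, polyT_nonneg l0.1 l0.2 hp, polyT_nonneg l1.1 l1.2 hp,
      polyT_nonneg l2.1 l2.2 hp, polyT_nonneg hd.1 hd.2 hp⟩, w0, w1, w2⟩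

lemma slope4_nonneg {j : ℕ} (hj : j < 3) {x : ℝ} (x0 : 0 ≤ x) (x1 : x ≤ 1) {p : Fin 3 → ℝ}
    (hp : p ∈ stdSimplex ℝ (Fin 3)) : 0 ≤ slope4 j x p :=
  add_nonneg (mul_nonneg (sub_nonneg.mpr x1) (div_nonneg (side4.2.1 p hp).1 den_pos.le))
    (mul_nonneg x0 (div_nonneg (side4.1 j hj p hp).1 den_pos.le))

lemma bddOn_w4 (j i : ℕ) : BddOn (w4 j i) := by
  obtain ⟨M, hM⟩ := bddOn_polyT (w4T j i)
  refine ⟨M / den, fun p hp => ?_⟩
  rw [w4, abs_div, abs_of_pos den_pos]
  exact div_le_div_of_nonneg_right (hM p hp) den_pos.le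

lemma bddOn_stage (j : ℕ) (x : ℝ) : BddOn (stage j x) := by
  obtain ⟨A, ha⟩ := isPotential_pot.bddOn
  obtain ⟨B, hb⟩ := bddOn_w4 j 1
  obtain ⟨C, hc⟩ := bddOn_w4 j 2
  refine ⟨|(1 - x) ^ 2| * A + |2 * x * (1 - x)| * B + |x ^ 2| * C, fun p hp => ?_⟩
  refine (abs_add_three _ _ _).trans (add_le_add (add_le_add ?_ ?_) ?_)
  all_goals rw [abs_mul]
  · exact mul_le_mul_of_nonneg_left (ha p hp) (abs_nonneg _)
  · exact mul_le_mul_of_nonneg_left (hb p hp) (abs_nonneg _)
  · exact mul_le_mul_of_nonneg_left (hc p hp) (abs_nonneg _)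

lemma bddOn_slope4 (j : ℕ) (x : ℝ) : BddOn (slope4 j x) := by
  obtain ⟨B, hb⟩ := bddOn_polyT b4T
  obtain ⟨C, hc⟩ := bddOn_polyT (c4T j)
  refine ⟨|1 - x| * (B / den) + |x| * (C / den), fun p hp => ?_⟩
  refine (abs_add_le _ _).trans (add_le_add ?_ ?_)
  all_goals rw [abs_mul]; refine mul_le_mul_of_nonneg_left ?_ (abs_nonneg _)
  · rw [b4, abs_div, abs_of_pos den_pos]
    exact div_le_div_of_nonneg_right (hb p hp) den_pos.le
  · rw [c4, abs_div, abs_of_pos den_pos]
    exact div_le_div_of_nonneg_right (hc p hp) den_pos.le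

lemma d4_row {rows : ℕ → Row} (h : ∀ i ≤ 5, d4RowFor i (rows i) = true) {i : ℕ} (hi : i ≤ 5)
    {s u : Fin 3 → ℝ} (hs : s ∈ stdSimplex ℝ (Fin 3)) (hu : u ∈ stdSimplex ℝ (Fin 3)) :
    mergeAvg (fun p => polyT (d4W i) p / den) s (chanMap (-1 / 2) u) ≤
      polyT (d4W i) s / den + polyT (d4D i) s / d4E i * pot u := by
  have hr := h i hi
  simp only [d4RowFor, Bool.and_eq_true, decide_eq_true_eq] at hr
  obtain ⟨⟨⟨hW, hD⟩, he⟩, hc⟩ := hr
  have key := row_sound hc hs hu
  rw [hW, hD, he] at key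
  have hd := den_pos
  have hE : (0 : ℝ) < d4E i := by interval_cases i <;> norm_num [d4E]
  have e : mergeAvg (fun p => polyT (d4W i) p / den) s (chanMap (-1 / 2) u) =
      mergeAvg (polyT (d4W i)) s (chanMap (-1 / 2) u) / den := by
    have := mergeAvg_sum ![1 / den] ![polyT (d4W i)] s (chanMap (-1 / 2) u)
    simpa [Fin.sum_univ_one, div_eq_inv_mul] using this
  have ep : polyT (terms 0) u = den * pot u := by
    rw [pot_eq, coef, mul_div_cancel₀ _ hd.ne']
  rw [ep] at key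
  rw [e, div_le_iff₀ hd]
  refine le_of_mul_le_mul_left (key.trans_eq ?_) hE
  field_simp

lemma merge4 {rows : ℕ → Row} (h : ∀ i ≤ 5, d4RowFor i (rows i) = true) {j : ℕ} (hj : j < 3)
    {x : ℝ} (x0 : 0 ≤ x) (x1 : x ≤ 1) {s u : Fin 3 → ℝ} (hs : s ∈ stdSimplex ℝ (Fin 3))
    (hu : u ∈ stdSimplex ℝ (Fin 3)) :
    mergeAvg (stage j x) s (chanMap (-1 / 2) u) ≤
      stage (j + 1) x s + slope4 j x s * (pot u / 4 - 7 / 200 * x) := by
  have hw : 0 ≤ 2 * x * (1 - x) := mul_nonneg (by linarith) (by linarith)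
  have key : mergeAvg (stage j x) s (chanMap (-1 / 2) u) ≤
      stage j x s + slope4 j x s * (pot u / 4) := by
    rcases Nat.eq_zero_or_pos j with rfl | hj0
    · have r0 := d4_row h (i := 0) (by norm_num) hs hu
      have r1 := d4_row h (i := 1) (by norm_num) hs hu
      have e : (fun p => polyT (terms 0) p / den) = pot := by rw [pot_eq]; rfl
      simp only [d4W, e, d4D, d4E] at r0 r1
      rw [show ∀ p, polyT (terms 0) p / den = pot p from congrFun e] at r0 r1
      have a0 := mul_le_mul_of_nonneg_left r0 (sub_nonneg.mpr x1)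
      have a1 := mul_le_mul_of_nonneg_left r1 x0
      rw [stage_zero]
      simp only [slope4, b4, c4, den] at a0 a1 ⊢
      push_cast at a0 a1
      linarith
    obtain ⟨k, hk5, hW1, hW2, hD1, hD2, hE1, hE2⟩ : ∃ k, k + 1 ≤ 5 ∧ d4W k = w4T j 1 ∧
        d4W (k + 1) = w4T j 2 ∧ d4D k = b4T ++ c4T j ∧ d4D (k + 1) = c4T j ∧
        d4E k = 240000000 ∧ d4E (k + 1) = 120000000 := by
      interval_cases j
      · exact ⟨2, by norm_num, rfl, rfl, rfl, rfl, rfl, rfl⟩
      · exact ⟨4, by norm_num, rfl, rfl, rfl, rfl, rfl, rfl⟩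
    have r1 := d4_row h (i := k) (by omega) hs hu
    have r2 := d4_row h (i := k + 1) hk5 hs hu
    simp only [hW1, hW2, hD1, hD2, hE1, hE2, polyT, evalT_append] at r1 r2
    have r0 := d4_row h (i := 0) (by norm_num) hs hu
    have e : (fun p => polyT (terms 0) p / den) = pot := by rw [pot_eq]; rfl
    simp only [d4W, e, d4D, d4E] at r0
    rw [show ∀ p, polyT (terms 0) p / den = pot p from congrFun e] at r0
    have a0 := mul_le_mul_of_nonneg_left r0 (sq_nonneg (1 - x))
    have a1 := mul_le_mul_of_nonneg_left r1 hw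
    have a2 := mul_le_mul_of_nonneg_left r2 (sq_nonneg x)
    have hm := mergeAvg_sum ![(1 - x) ^ 2, 2 * x * (1 - x), x ^ 2] ![pot, w4 j 1, w4 j 2] s
      (chanMap (-1 / 2) u)
    simp [Fin.sum_univ_three] at hm
    rw [show stage j x = fun p => (1 - x) ^ 2 * pot p + 2 * x * (1 - x) * w4 j 1 p + x ^ 2 * w4 j 2 p
      from rfl, hm]
    simp only [slope4, b4, c4, polyT, den] at a0 a1 a2 ⊢
    simp only [show ∀ i, w4 j i = fun p => evalT (w4T j i) ![tI p, cI p, 0, 0] / den from fun i => rfl,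
      den] at a0 a1 a2 ⊢
    push_cast at a0 a1 a2
    linarith
  refine key.trans ?_
  obtain ⟨-, u1, u2⟩ := side4.1 j hj s hs
  simp only [polyT, up1T, up2T, evalT_append, evalT_smulT] at u1 u2
  push_cast at u1 u2
  have a1 := mul_nonneg (mul_nonneg x0 (sub_nonneg.mpr x1)) u1
  have a2 := mul_nonneg (mul_nonneg x0 x0) u2
  simp only [stage, slope4, w4, b4, c4, polyT, den]
  linarith

lemma evalT_chan8 : ∀ (L : List Term), weight8 L = true → firstOnly L = true → ∀ t c : ℝ,
    evalT (chan8 L) ![t, c, 0, 0] = 256 * evalT L ![t / 4, -c / 8, 0, 0]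
  | [], _, _, _, _ => by simp [chan8, evalT]
  | (z, a, b, k, l) :: L, hw, hf, t, c => by
      simp only [weight8, List.all_cons, Bool.and_eq_true, decide_eq_true_eq] at hw
      simp only [firstOnly, List.all_cons, Bool.and_eq_true, decide_eq_true_eq] at hf
      obtain ⟨⟨rfl, rfl⟩, hf⟩ := hf
      have ih := evalT_chan8 L hw.2 hf t c
      obtain ⟨w, hw8⟩ : ∃ w, 2 * a + 3 * b + w = 8 := ⟨8 - (2 * a + 3 * b), by omega⟩
      simp only [evalT, chan8] at ih
      simp only [evalT, chan8, List.map_cons, List.sum_cons, termVal, ih, Matrix.cons_val_zero,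
        Matrix.cons_val_one, Matrix.cons_val, pow_zero, mul_one,
        show 8 - (2 * a + 3 * b) = w by omega]
      have e : (256 : ℝ) = 4 ^ a * 8 ^ b * 2 ^ w := by
        rw [show (4 : ℝ) = 2 ^ 2 by norm_num, show (8 : ℝ) = 2 ^ 3 by norm_num, ← pow_mul,
          ← pow_mul, ← pow_add, ← pow_add, hw8]
        norm_num
      rw [mul_add, e, div_pow, div_pow, neg_eq_neg_one_mul c, mul_pow]
      push_cast
      field_simp

/-- The last stage at the uniform point. -/
lemma last4 {x : ℝ} (x0 : 0 ≤ x) (x1 : x ≤ 1) {u : Fin 3 → ℝ} (hu : u ∈ stdSimplex ℝ (Fin 3)) :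
    stage 3 x (chanMap (-1 / 2) u) ≤ 2 * x * (1 - x) * (21 / 400) + x ^ 2 * (3137025 / 30000000)
      + ((1 - x) + x * ((s4 : ℝ) / 30000000)) * (pot u / 4) := by
  obtain ⟨hA, hB⟩ := tI_half hu
  obtain ⟨w0, w1, w2⟩ := side4.2.2
  obtain ⟨-, l0, l1, l2, -⟩ := side4.2.1 u hu
  have hP : ∀ L, evalT L ![tI (chanMap (-1 / 2) u), cI (chanMap (-1 / 2) u), 0, 0] =
      evalT L ![tI u / 4, -cI u / 8, 0, 0] := by
    intro L
    rw [show tI (chanMap (-1 / 2) u) = tI u / 4 by linarith,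
      show cI (chanMap (-1 / 2) u) = -cI u / 8 by linarith]
  simp only [polyT, last0T, last1T, last2T, evalT_append, evalT_smulT,
    evalT_chan8 _ w0 (by decide +kernel)] at l0 l1 l2
  have ec : ∀ (z : ℤ) (L : List Term), evalT ((z, 0, 0, 0, 0) :: L) ![tI u, cI u, 0, 0] =
      (z : ℝ) + evalT L ![tI u, cI u, 0, 0] := by
    intro z L
    simp [evalT, termVal]
  simp only [ec, evalT_smulT, evalT_chan8 _ w1 (by decide +kernel),
    evalT_chan8 _ w2 (by decide +kernel)] at l1 l2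
  push_cast at l0 l1 l2
  have hw : 0 ≤ 2 * x * (1 - x) := mul_nonneg (by linarith) (by linarith)
  have hs : (0 : ℝ) ≤ s4 := Nat.cast_nonneg _
  have a0 := mul_nonneg (sq_nonneg (1 - x)) l0
  have a1 := mul_nonneg hw l1
  have a2 := mul_nonneg (sq_nonneg x) l2
  rw [pot_eq]
  simp only [stage, w4, pot_eq, coef, polyT, hP, den]
  have es : (s4 : ℝ) = 29866715 := by norm_num [s4]
  rw [es] at a1 a2 ⊢
  linarith

variable {ν : PMF ℕ}

/-- One child: the value passes through the channel. -/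
lemma childMean_one_le {q : ℕ} (hq : 2 ≤ q) {lam : ℝ} (h0 : -1 / ((q : ℝ) - 1) ≤ lam) (h1 : lam ≤ 1)
    {F Φ : (Fin q → ℝ) → ℝ} (hF : BddOn F) (hΦ : BddOn Φ) {a b : ℝ}
    (h : ∀ u ∈ stdSimplex ℝ (Fin q), F (chanMap lam u) ≤ a + b * Φ u) (n : ℕ) :
    childMean q lam F ν n 1 ≤ a + b * treeMean q lam Φ ν n := by
  haveI : NeZero q := ⟨by omega⟩
  have hpt : ∀ g : Fin 1 → Tree n,
      childProb ν n 1 g * famVal F (prodFam lam fun i => lik q lam n (g i)) ≤
        a * (treeProb ν n (g 0)).toReal +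
          b * ((treeProb ν n (g 0)).toReal * famVal Φ (lik q lam n (g 0))) := by
    intro g
    have hp : childProb ν n 1 g = (treeProb ν n (g 0)).toReal := by
      simp [childProb]
    have hb := (lik_balanced hq h0 h1 n (g 0)).1
    have hv : famVal F (prodFam lam fun i => lik q lam n (g i)) ≤
        a + b * famVal Φ (lik q lam n (g 0)) := by
      rw [famVal_prodFam_succ]
      simp only [Fintype.sum_unique, prodFam, Finset.univ_eq_empty, Finset.prod_empty, one_mul]
      calc ∑ τ, hom F (chanMap lam (lik q lam n (g 0) τ))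
          ≤ ∑ τ, (a * ((∑ i, lik q lam n (g 0) τ i) / (q : ℝ)) +
              b * hom Φ (lik q lam n (g 0) τ)) := by
            refine Finset.sum_le_sum fun τ _ => ?_
            set w := lik q lam n (g 0) τ with hw
            rcases (Finset.sum_nonneg fun i (_ : i ∈ Finset.univ) => hb.nonneg τ i).eq_or_lt with
              hz | hz
            · have hS : ∑ i, w i = 0 := by rw [hw]; exact hz.symm
              simp [hom, sum_chanMap, hS]
            · have hm := mem_simplex_of_nonneg (hb.nonneg τ) hz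
              have := mul_le_mul_of_nonneg_left (h _ hm) (div_nonneg hz.le (Nat.cast_nonneg q))
              have e : (fun i => chanMap lam w i / ∑ j, w j) =
                  chanMap lam fun i => w i / ∑ j, w j := by
                funext i
                simp only [chanMap, Finset.sum_div, mul_div_assoc]
              simp only [hom, sum_chanMap, e, ← hw] at this ⊢
              linarith
        _ = a + b * famVal Φ (lik q lam n (g 0)) := by
            rw [Finset.sum_add_distrib, ← Finset.mul_sum, ← Finset.mul_sum, hb.mass, mul_one]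
            rfl
    rw [hp]
    refine (mul_le_mul_of_nonneg_left hv ENNReal.toReal_nonneg).trans_eq ?_
    ring
  have sT := summable_treeProb (ν := ν) (n := n)
  have sΦ := summable_treeTerm (ν := ν) (n := n) hq h0 h1 hΦ
  have sR : Summable fun T : Tree n => a * (treeProb ν n T).toReal +
      b * ((treeProb ν n T).toReal * famVal Φ (lik q lam n T)) :=
    (sT.mul_left a).add (sΦ.mul_left b)
  refine ((summable_childTerm hq h0 h1 hF).tsum_le_tsum hpt
    (sR.comp_injective (Equiv.funUnique (Fin 1) (Tree n)).injective)).trans_eq ?_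
  refine ((Equiv.funUnique (Fin 1) (Tree n)).tsum_eq fun T => a * (treeProb ν n T).toReal +
      b * ((treeProb ν n T).toReal * famVal Φ (lik q lam n T))).trans ?_
  rw [(sT.mul_left a).tsum_add (sΦ.mul_left b), tsum_mul_left, tsum_mul_left, tsum_treeProb_toReal,
    mul_one]
  rfl

/-- On a regular tree one generation is `d` independent children. -/
lemma treeMean_regular_succ {q : ℕ} (hq : 2 ≤ q) {lam : ℝ} (h0 : -1 / ((q : ℝ) - 1) ≤ lam)
    (h1 : lam ≤ 1) {Φ : (Fin q → ℝ) → ℝ} (hΦ : IsPotential Φ) (d n : ℕ) :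
    treeMean q lam Φ (regularLaw d) (n + 1) = childMean q lam Φ (regularLaw d) n d := by
  obtain ⟨M, hM⟩ := hΦ.bounded
  have hnn : 0 ≤ childMean q lam Φ (regularLaw d) n d := tsum_nonneg fun f =>
    mul_nonneg (childProb_nonneg f) (famVal_nonneg' hΦ.nonneg (prodFam_lik_facts hq h0 h1 f).1)
  refine (ENNReal.ofReal_eq_ofReal_iff
    (treeMean_mem hq h0 h1 hΦ.nonneg hM (regularLaw d) (n + 1)).1 hnn).mp ?_
  rw [← treeMean_eq hq h0 h1 hΦ.bddOn hΦ.nonneg,
    meanPot_succ_childMean hq h0 h1 hΦ.bddOn hΦ.nonneg, tsum_eq_single d]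
  · simp [regularLaw]
  · intro b hb
    simp [regularLaw, hb]

/-- Nonreconstruction when one step is below the diagonal as soon as the mean is at most `M`. -/
theorem nonReconstruction_of_low {q : ℕ} (hq : 2 ≤ q) {lam : ℝ} (h0 : -1 / ((q : ℝ) - 1) ≤ lam)
    (h1 : lam ≤ 1) {Φ : (Fin q → ℝ) → ℝ} (hΦ : IsPotential Φ) {g : ℝ → ℝ} {M : ℝ}
    (hg : ContinuousOn g (Set.Icc 0 M)) (hg0 : g 0 ≤ 0) (hlt : ∀ X, 0 < X → X ≤ M → g X < X)
    (hrec : ∀ n, treeMean q lam Φ ν n ≤ M →
      treeMean q lam Φ ν (n + 1) ≤ g (treeMean q lam Φ ν n))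
    {N : ℕ} (hN : treeMean q lam Φ ν N ≤ M) : NonReconstruction q lam ν := by
  obtain ⟨B, hB⟩ := hΦ.bounded
  set x := fun n => treeMean q lam Φ ν (n + N) with hx
  have hnn : ∀ n, 0 ≤ x n := fun n => (treeMean_mem hq h0 h1 hΦ.nonneg hB ν _).1
  have hdec : ∀ n, treeMean q lam Φ ν n ≤ M →
      treeMean q lam Φ ν (n + 1) ≤ treeMean q lam Φ ν n := by
    intro n hn
    refine (hrec n hn).trans ?_
    rcases (treeMean_mem hq h0 h1 hΦ.nonneg hB ν n).1.eq_or_lt with h | h
    · rw [← h]; exact hg0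
    · exact (hlt _ h hn).le
  have hle : ∀ n, x n ≤ M := by
    intro n
    induction n with
    | zero => simpa [hx] using hN
    | succ n ih =>
        have := hdec _ ih
        simp only [hx, Nat.add_right_comm n 1 N] at this ih ⊢
        exact this.trans ih
  have hstep : ∀ n, x (n + 1) ≤ g (x n) := fun n => by
    simpa [hx, Nat.add_right_comm n 1 N] using hrec _ (hle n)
  have hanti : Antitone x := antitone_nat_of_succ_le fun n => by
    simpa [hx, Nat.add_right_comm n 1 N] using hdec _ (hle n)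
  have hlim : Tendsto x atTop (𝓝 (⨅ n, x n)) :=
    tendsto_atTop_ciInf hanti ⟨0, by rintro _ ⟨n, rfl⟩; exact hnn n⟩
  set L := ⨅ n, x n with hL
  have hLmem : L ∈ Set.Icc 0 M :=
    isClosed_Icc.mem_of_tendsto hlim (Eventually.of_forall fun n => ⟨hnn n, hle n⟩)
  have hLle : L ≤ g L := by
    have ht : Tendsto (fun n => g (x n)) atTop (𝓝 (g L)) :=
      (hg L hLmem).tendsto.comp
        (tendsto_nhdsWithin_iff.mpr ⟨hlim, Eventually.of_forall fun n => ⟨hnn n, hle n⟩⟩)
    exact le_of_tendsto_of_tendsto' (hlim.comp (tendsto_add_atTop_nat 1)) ht hstep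
  have hL0 : L = 0 := by
    rcases hLmem.1.eq_or_lt with h | h
    · exact h.symm
    · exact absurd hLle (not_le.mpr (hlt L h hLmem.2))
  have hlim' : Tendsto (treeMean q lam Φ ν) atTop (𝓝 0) :=
    (tendsto_add_atTop_iff_nat N).mp (hL0 ▸ hlim)
  refine reconDist_tendsto_zero hq h0 h1 hΦ ?_
  have e : meanPot q lam Φ ν = fun n => ENNReal.ofReal (treeMean q lam Φ ν n) :=
    funext fun n => treeMean_eq hq h0 h1 hΦ.bddOn hΦ.nonneg
  rw [e, ← ENNReal.ofReal_zero]
  exact ENNReal.tendsto_ofReal hlim'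

/-- The bound after one generation with `d` children, as a function of the budget coordinate. -/
noncomputable def end4 : ℕ → ℝ → ℝ
  | 1 => fun x => 2 * x * (1 - x) * (7 / 400) + x ^ 2 * (1054029 / 30000000)
  | 2 => fun x => 2 * x * (1 - x) * (14 / 400) + x ^ 2 * (2099649 / 30000000)
  | 3 => fun x => 2 * x * (1 - x) * (21 / 400) + x ^ 2 * (3137025 / 30000000)
  | 4 => fun x => 7 / 50 * x - x ^ 2 * (7 / 50 - (3137025 / 30000000 +
      7 / 200 * ((s4 : ℝ) / 30000000)))
  | _ => fun _ => 0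

lemma end4_lt {d : ℕ} (hd : d ≤ 4) {x : ℝ} (x0 : 0 < x) (x1 : x ≤ 1) :
    end4 d x < 7 / 50 * x := by
  have h1 : 0 ≤ x * (1 - x) := mul_nonneg x0.le (sub_nonneg.mpr x1)
  have h2 : 0 < x * x := mul_pos x0 x0
  interval_cases d <;> norm_num [end4, s4] <;> nlinarith

lemma stage_uniform {j : ℕ} (hj : j ≤ 3) (x : ℝ) :
    stage j x (fun _ => (1 : ℝ) / ((3 : ℕ) : ℝ)) = end4 j x := by
  push_cast
  have ht : tI (fun _ => (1 : ℝ) / 3) = 0 := by simp [tI]
  have hc : cI (fun _ => (1 : ℝ) / 3) = 0 := by simp [cI]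
  have hp : pot (fun _ => (1 : ℝ) / 3) = 0 := by simpa using isPotential_pot.uniform
  interval_cases j
  · rw [stage_zero, hp]; simp [end4]
  all_goals
    simp only [stage, w4, polyT, ht, hc, hp]
    simp [w4T, v4T, evalT, termVal, den, end4]
    try norm_num

/-- Nonreconstruction with at most four children, once the mean potential is low. -/
theorem d4_low_of_rows (rows : ℕ → Row) (h : ∀ i ≤ 5, d4RowFor i (rows i) = true) {lam : ℝ}
    (hl0 : -1 / 2 ≤ lam) (hl1 : lam ≤ 0) {d : ℕ} (hd : d ≤ 4) {N : ℕ}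
    (hN : treeMean 3 lam pot (regularLaw d) N ≤ 7 / 50) :
    NonReconstruction 3 lam (regularLaw d) := by
  have h0 : -1 / (((3 : ℕ) : ℝ) - 1) ≤ lam := by norm_num; linarith
  have h1 : lam ≤ 1 := by linarith
  have hsq : lam ^ 2 ≤ 1 / 4 := by nlinarith
  refine nonReconstruction_of_low (ν := regularLaw d) (by norm_num) h0 h1 isPotential_pot
    (M := 7 / 50) (g := fun X => end4 d (200 / 7 * (lam ^ 2 * X))) ?_ ?_ ?_ ?_ hN
  · interval_cases d <;> simp only [end4] <;> fun_prop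
  · interval_cases d <;> simp [end4]
  · intro X hX0 hXM
    rcases (sq_nonneg lam).eq_or_lt with hz | hz
    · rw [← hz]
      simp only [zero_mul, mul_zero]
      interval_cases d <;> simpa [end4] using hX0
    · refine lt_of_lt_of_le (end4_lt hd (by positivity) ?_) ?_
      · nlinarith
      · nlinarith
  intro n hn
  obtain ⟨X, hXe⟩ : ∃ X, treeMean 3 lam pot (regularLaw d) n = X := ⟨_, rfl⟩
  rw [hXe] at hn ⊢
  have hX0 : 0 ≤ X := hXe ▸
    (treeMean_mem (by norm_num) h0 h1 isPotential_pot.nonneg (fun p hp => pot_le hp) _ n).1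
  obtain ⟨x, hxe⟩ : ∃ x, 200 / 7 * (lam ^ 2 * X) = x := ⟨_, rfl⟩
  have x0 : 0 ≤ x := hxe ▸ by positivity
  have x1 : x ≤ 1 := by rw [← hxe]; nlinarith
  rw [hxe, treeMean_regular_succ (by norm_num) h0 h1 isPotential_pot, ← stage_zero x]
  have hc : ∀ u ∈ stdSimplex ℝ (Fin 3), chanMap lam u = chanMap (-1 / 2) (chanMap (-2 * lam) u) ∧
      chanMap (-2 * lam) u ∈ stdSimplex ℝ (Fin 3) ∧
      pot (chanMap (-2 * lam) u) / 4 ≤ lam ^ 2 * pot u := by
    intro u hu
    refine ⟨by rw [chanMap_comp]; congr 1; ring, ?_, ?_⟩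
    · exact chanMap_mem (by norm_num) (by norm_num; linarith) (by linarith) hu
    · have := pot_shrink_le (c := -2 * lam) (by linarith) (by linarith) hu
      rw [chanMap_simplex _ hu]
      linarith
  have hstep : ∀ j < 3, ∀ k, childMean 3 lam (stage j x) (regularLaw d) n (k + 1) ≤
      childMean 3 lam (stage (j + 1) x) (regularLaw d) n k := by
    intro j hj k
    refine childMean_budget_succ (by norm_num) h0 h1 (kap := 7 / 200 * x) (β := slope4 j x)
      (Φ := pot) (bddOn_stage j x) (bddOn_stage _ x) (bddOn_slope4 j x) isPotential_pot.bddOn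
      (fun p hp => slope4_nonneg hj x0 x1 hp) (fun s hs u hu => ?_) ?_
    · obtain ⟨e, hm, hp⟩ := hc u hu
      rw [e]
      exact (merge4 h hj x0 x1 hs hm).trans (add_le_add le_rfl
        (mul_le_mul_of_nonneg_left (by linarith) (slope4_nonneg hj x0 x1 hs)))
    · rw [hXe, ← hxe]; exact le_of_eq (by ring)
  have hzero : ∀ j ≤ 3, childMean 3 lam (stage j x) (regularLaw d) n 0 = end4 j x :=
    fun j hj => by rw [childMean_zero, stage_uniform hj]
  interval_cases d
  · exact (hzero 0 (by norm_num)).le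
  · exact (hstep 0 (by norm_num) 0).trans (hzero 1 (by norm_num)).le
  · exact (hstep 0 (by norm_num) 1).trans ((hstep 1 (by norm_num) 0).trans
      (hzero 2 (by norm_num)).le)
  · exact (hstep 0 (by norm_num) 2).trans ((hstep 1 (by norm_num) 1).trans
      ((hstep 2 (by norm_num) 0).trans (hzero 3 (by norm_num)).le))
  refine (hstep 0 (by norm_num) 3).trans ((hstep 1 (by norm_num) 2).trans
    ((hstep 2 (by norm_num) 1).trans ?_))
  obtain ⟨S, hS⟩ : ∃ S, (1 - x) + x * ((s4 : ℝ) / 30000000) = S := ⟨_, rfl⟩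
  have hS0 : 0 ≤ S := by
    rw [← hS]
    exact add_nonneg (by linarith) (mul_nonneg x0 (by positivity))
  refine (childMean_one_le (by norm_num) h0 h1 (bddOn_stage 3 x) isPotential_pot.bddOn
    (a := 2 * x * (1 - x) * (21 / 400) + x ^ 2 * (3137025 / 30000000)) (b := S * lam ^ 2)
    (fun u hu => ?_) n).trans_eq ?_
  · obtain ⟨e, hm, hp⟩ := hc u hu
    rw [e, mul_assoc S]
    refine (last4 x0 x1 hm).trans (add_le_add le_rfl ?_)
    rw [hS]
    exact mul_le_mul_of_nonneg_left hp hS0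
  · rw [hXe, mul_assoc S, show lam ^ 2 * X = 7 / 200 * x by rw [← hxe]; ring, ← hS]
    simp only [end4]
    ring

/-- The potential below the first two powers of the quadratic invariant. -/
lemma pot_le_quad {p : Fin 3 → ℝ} (hp : p ∈ stdSimplex ℝ (Fin 3)) :
    pot p ≤ tI p + 1 / 2 * tI p ^ 2 := by
  obtain ⟨-, -, -, -, hd⟩ := side4.2.1 p hp
  simp only [polyT, handT, evalT_append, evalT_smulT] at hd
  have e : evalT [(30000000, 1, 0, 0, 0), (15000000, 2, 0, 0, 0)] ![tI p, cI p, 0, 0] =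
      den * (tI p + 1 / 2 * tI p ^ 2) := by
    simp [evalT, termVal, den]
    ring
  rw [pot_eq, coef, div_le_iff₀ den_pos]
  simp only [polyT]
  push_cast at hd
  linarith

end Vale.Agent.P154.Anti
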