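import Vale.Agent.P154.Anti.D4RowData
import Vale.Agent.P154.RowQuick

/-!
P154: the certificate of row 0 of the low stage with at most four children.
-/

namespace Vale.Agent.P154.Anti

open Kron BudgetRow

/-- The polynomial which dominates the merged coefficient. -/
def d4sym0 : List Term :=
  [
    (510238718437500, 0, 0, 0, 0), (5095352068062187500, 0, 0, 1, 0),
    (83892902533827062805, 0, 0, 2, 0), (-2227472876238750000, 0, 1, 0, 0),
    (-56501875635523601400, 0, 1, 1, 0), (535161781329142725, 0, 1, 2, 0),
    (10479589735798164600, 0, 2, 0, 0), (-18690786419552229600, 0, 2, 1, 0),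
    (13642110581434874640, 0, 3, 0, 0), (438198724378095300, 0, 4, 0, 0),
    (881017796823750000, 1, 0, 0, 0), (-20082564586302187500, 1, 0, 1, 0),
    (-144137315574345950775, 1, 0, 2, 0), (5962062027695625000, 1, 1, 0, 0),
    (98440483295331276750, 1, 1, 1, 0), (-524419647119415900, 1, 1, 2, 0),
    (-26526717897232995900, 1, 2, 0, 0), (28693865761844945400, 1, 2, 1, 0),
    (-24826924465147381500, 1, 3, 0, 0), (-473950925823841200, 1, 4, 0, 0),
    (-4447377515958750000, 2, 0, 0, 0), (49393178508585471300, 2, 0, 1, 0),
    (102208101778714411575, 2, 0, 2, 0), (-12137951581797213900, 2, 1, 0, 0),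
    (-63955693276855225200, 2, 1, 1, 0), (188659503416962350, 2, 1, 2, 0),
    (25042685432980367385, 2, 2, 0, 0), (-17692090654264696800, 2, 2, 1, 0),
    (18442207858089651975, 2, 3, 0, 0), (194075558462179800, 2, 4, 0, 0),
    (11072234933437500000, 3, 0, 0, 0), (-62847462610896405930, 3, 0, 1, 0),
    (-38223764697443495850, 3, 0, 2, 0), (16544377216018716300, 3, 1, 0, 0),
    (16198442353029131100, 3, 1, 1, 0), (-28848721622836860, 3, 1, 2, 0),
    (-10452178028531617425, 3, 2, 0, 0), (5463011030871790800, 3, 2, 1, 0),
    (-7185782433386007900, 3, 3, 0, 0), (-35501252200530480, 3, 4, 0, 0),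
    (-15703550575943745600, 4, 0, 0, 0), (44391463937709334200, 4, 0, 1, 0),
    (7938389801007653175, 4, 0, 2, 0), (-14026171757943265470, 4, 1, 0, 0),
    (987160714335601200, 4, 1, 1, 0), (1512541103203125, 4, 1, 2, 0),
    (1134525011349593925, 4, 2, 0, 0), (-843324581593733760, 4, 2, 1, 0),
    (1551331353354125850, 4, 3, 0, 0), (2438438841562500, 4, 4, 0, 0),
    (14190165300546108000, 5, 0, 0, 0), (-18547164339485002200, 5, 0, 1, 0),
    (-866684415014601255, 5, 0, 2, 0), (7415862286021582500, 5, 1, 0, 0),
    (-1442592992943382050, 5, 1, 1, 0), (630002519612889750, 5, 2, 0, 0),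
    (51995995216875000, 5, 2, 1, 0), (-176020819824920400, 5, 3, 0, 0),
    (-8629229311436503800, 6, 0, 0, 0), (4662799245989894700, 6, 0, 1, 0),
    (38806197008203125, 6, 0, 2, 0), (-2470492263757270500, 6, 1, 0, 0),
    (292906050691588200, 6, 1, 1, 0), (-259208302353078825, 6, 2, 0, 0),
    (8199779722734375, 6, 3, 0, 0), (3621334592464680600, 7, 0, 0, 0),
    (-681384003195668850, 7, 0, 1, 0), (513046367825352300, 7, 1, 0, 0),
    (-19890771564375000, 7, 1, 1, 0), (38204261969280975, 7, 2, 0, 0),
    (-1052947591969480200, 8, 0, 0, 0), (51520620375475740, 8, 0, 1, 0),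
    (-63260166506284350, 8, 1, 0, 0), (-2073523650703125, 8, 2, 0, 0),
    (208541744485549200, 9, 0, 0, 0), (-1435254693750000, 9, 0, 1, 0),
    (4096644463675020, 9, 1, 0, 0), (-26861719701825600, 10, 0, 0, 0),
    (-99410172812500, 10, 1, 0, 0), (2029245084876040, 11, 0, 0, 0), (-68216612187500, 12, 0, 0, 0)
  ]

/-- The nonnegative remainder in the invariants. -/
def d4rem0 : Bern.Poly where
  pks := [(0, 1), (0, 2), (0, 3), (0, 4), (1, 0), (1, 1), (1, 2), (1, 3), (2, 0), (2, 1), (2, 2), (3, 0), (3, 1), (3, 2), (4, 0), (4, 1), (5, 0), (6, 0)]
  rows :=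
  [((0, 0),
    [
      0, 8900975001600000000, 0, 0, 0, 9436983459840000000, -5503203901440000000, 0,
      4053223342080000000, -10295908761600000000, 0, -13847062118400000000, 0, 0,
      21666618408960000000, 0, 0, 0]),
   ((0, 1),
    [
      88667125186560000000, -7326430650968309760, -7638103818240000000, 0, -10268075622400000000,
      -83551345131934187520, -7040120708839505920, 1834401300480000000, 121414039139663216640,
      22586833315142041600, 523775508480000000, -152011685388101877760, 18392573337600000000, 0,
      85036084608006881280, -7222206136320000000, -19259216363520000000, 0]),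
   ((0, 2),
    [
      15121341480960000000, -1313661334927239278592, 238213980468750000000, -121328325234375000000,
      436034979495936000000, 1077561465496195977216, 518447498721387255936, -138257002089843750000,
      -1503996301533052403712, -2740067755363032209280, 490339245034147500000,
      3118528616056504055808, 1515181564586310000000, 58505119028320312500, -2745532081996947445824,
      -175693685124380625000, 854717032253503125000, -170082387443847656250]),
   ((0, 3),
    [
      -488838644367360000000, -1905711843750000000000, -20758663125000000000,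
      -103950120937500000000, -78267788820480000000, 9131926431890400000000,
      -4265860825588140000000, -675479994140625000000, 757536663797760000000,
      -22500663875536860000000, 4820882485119390000000, -2230192554715080000000,
      16615650971644140000000, -2462780626289062500000, 6686441931283155000000,
      -4908996388670077500000, -5308187251320480000000, 1207548402290039062500]),
   ((0, 4),
    [
      0, -7765012815000000000000, 831600967500000000000, 258919181250000000000, 0,
      -99591183750000000000, 18263192701875000000000, -7109647145625000000000, 0,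
      7852497178125000000000, -19007234385000000000000, 3882506407500000000000,
      -9303437470312500000000, -310894241718750000000, -9648573853125000000000,
      4189229703105468750000, 8522055045234375000000, -2311734726562500000]),
   ((1, 0),
    [
      -3871824936960000000, 24086583735597662208, 611467100160000000, 0, 392582660096000000,
      -37115046407316701184, -10795722673135550464, 0, -9156617232199974912, 33913855254168862720,
      1222934200320000000, -24588462576885563392, -11071177850880000000, 0, 11654842766538571776, 0,
      -4814804090880000000, 0]),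
   ((1, 1),
    [
      -314993281597440000000, -634728949873055705088, 570745401993150000000, 778056123046875000,
      -43355420491776000000, 1414378808083803431424, 1822098263553142701504, -637960428767733750000,
      -926107215520509984768, -1913837143963121761920, -885017639681790000000,
      626095816536022336512, 2271767434363702500000, -333602872045898437500, 321815762759109132864,
      -966114283432754062500, -135821282402030625000, -50800809199218750000]),
   ((1, 2),
    [
      327716689674240000000, 2077363427067720000000, 2132930412794070000000, 1141449543867187500000,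
      -798382337556480000000, -14121652668428280000000, 16513556290435500000000,
      -3056350364179687500000, 6088790413148160000000, 28868288947024230000000,
      -16603450243128483750000, -23407643198680740000000, -13987377846211162500000,
      -1865917358100585937500, 26360296921682077500000, 1337552710352458125000,
      -8235656106731103750000, 2909903077404785156250]),
   ((1, 3),
    [
      469606732922880000000, 4424224066875000000000, -2701919976562500000000,
      3554823572812500000000, 0, -40829467441134960000000, 24450802913437500000000,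
      -3401960984531250000000, -704410099384320000000, 89068017903235140000000,
      -19451940631308885000000, 15044887509185460000000, -53945239222805310000000,
      2164774758867187500000, -50186666973094260000000, 22847828222140323750000,
      32760294321631005000000, -1752531784965820312500]),
   ((2, 0),
    [
      -249016835112960000000, -341719912017026875392, -23673020743680000000, 0,
      84156718514176000000, 466032423071426543616, 360237729829104910336, 5503203901440000000,
      -102993528061747648512, -252621304694460321280, -280495017204720000000, 42344539304762219008,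
      48677998384125000000, 1167084184570312500, 365048666170819704576, -226387703113160625000,
      -265241725125997500000, -12700202299804687500]),
   ((2, 1),
    [
      269924350033920000000, 5476944698528220000000, -5625165968884215000000,
      -245390536816406250000, -989292983746560000000, -8061749273544360000000,
      -14434144473512115000000, 5566751118952196250000, 1730781177447360000000,
      23545139820380370000000, 7905957493748859375000, 14261232869232030000000,
      -28885141775957625000000, 2093375507124023437500, -19540475249676817500000,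
      9444326520222520312500, 1811153755038524062500, 1407098069505615234375]),
   ((2, 2),
    [
      -67043265085440000000, 7845427920546360000000, -9641764970238780000000,
      -4751808596250000000000, 313071155281920000000, 28320564469817280000000,
      -66413800972513935000000, 9725970315654442500000, -17951681101102080000000,
      -63247659949990875000000, 66101053524980632500000, 103294266050950200000000,
      39687923644844415000000, 1121244388212890625000, -118583209411295437500000,
      -8220235320209815312500, 21581173715914891875000, -5054320247563476562500]),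
   ((3, 0),
    [
      1283750135070720000000, 3189970565666658711552, 278774069339385000000, 60664162617187500000,
      -235504597467136000000, -890542234125577783296, -5892588067602936855616,
      -470152734662045625000, 423353203749831862272, -7203260053455288144320,
      6455891628184387500000, -4757552662473569294848, 10074084397560967500000,
      -1745223030710449218750, 5034231753193585054944, -1355486916537724687500,
      -1056725559269670937500, 579847466546630859375]),
   ((3, 1),
    [
      1177124693606400000000, -12121452516690480000000, 16615650971644140000000,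
      1162929683789062500000, 1417110764912640000000, 36348278949819240000000,
      27974755692422325000000, -13486309805701327500000, -1557695948292000000000,
      -115540567103830500000000, -19843961822422207500000, -80592675180487740000000,
      126122599368769556250000, -3032989259677734375000, 110945484452560488750000,
      -30235515943693340625000, -17495463858001001250000, -4194032333536376953125]),
   ((3, 2),
    [
      0, 3744327617812500000000, 19702245010312500000000, -310894241718750000000, 0,
      42701167621875000000000, -29854677729609375000000, -4329549517734375000000,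
      298773551250000000000, -66988016227968750000000, 4484977552851562500000,
      -111694273965468750000000, 24263914077421875000000, 14353449537685546875000,
      184320934288828125000000, -2895074541269531250000, -56035595843935546875000,
      -4855646518872070312500]),
   ((4, 0),
    [
      -3124442140508160000000, -10996197258176100000000, -3343220965641577500000,
      -603035865820312500000, 1168974403338240000000, -4366428191506440000000,
      26360296921682077500000, 6273333371636782500000, 4561276077973440000000,
      39080950499353635000000, -29645802352823859375000, 19496326476793950000000,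
      -55472742226280244375000, 11520058393051757812500, -33909841369162642500000,
      11491655201903893593750, 10190908587783873750000, -3200929513073730468750]),
   ((4, 1),
    [
      -1848884770897920000000, 5622197923980180000000, -19635985554680310000000,
      -2094614851552734375000, 0, -61831314139696260000000, -10700421682819665000000,
      22847828222140323750000, 28977625998484560000000, 151109224323560325000000,
      16440470640419630625000, 43375581329207190000000, -120942063774773362500000,
      1447537270634765625000, -91933241615231148750000, -6140670584062776562500,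
      532876421251026562500, 2894795192138671875000]),
   ((5, 0),
    [
      2465179694530560000000, 13675472516056050000000, 10616374502640960000000,
      2130513761308593750000, -1232589847265280000000, 4346281036864980000000,
      -32942624426924415000000, -16380147160815502500000, -16975470408063840000000,
      -14489230040308192500000, 21581173715914891875000, -16907608948314735000000,
      34990927716002002500000, -14008898960983886718750, 40763634351135495000000,
      -266438210625513281250, -3425268479791777500000, 4460358542662353515625]),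
   ((6, 0),
    [
      0, -10885272796406250000000, -9660387218320312500000, -2311734726562500000, 0,
      6502503577500000000000, 46558449238476562500000, 3505063569931640625000,
      -3251251788750000000000, -45027138224179687500000, -20217280990253906250000,
      37110237858984375000000, 33552258668291015625000, -4855646518872070312500,
      -51214872209179687500000, -5789590384277343750000, 17841434170649414062500,
      8164894325727539062500])]

/-- The nonnegative remainder in three variables. -/
def d4dom0 : Bern.Poly where
  pks := [(0, 1), (1, 0), (1, 1), (2, 0), (2, 1), (3, 0), (3, 1), (4, 0), (5, 0)]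
  rows :=
  [((0, 0),
    [
      7935283036035000000, 510238718437500, 5327362631965587187500, -325183502909480625000,
      199246214313064251562500, -44471907735977404687500, 460516716459385557187500,
      -459225360432005616562500, -100310595811354631250000]),
   ((0, 1),
    [
      0, 0, 275149011675358125000, 0, 41307922503427314375000, -6458338248838565625000,
      -56635470128496130312500, -63524058811222193437500, 161089626740861553750000]),
   ((0, 2),
    [
      -210237469147791360, 0, -18921372223301222400, -2522849629773496320, -596023225033988505600,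
      -113528233339807334400, -860033366130192702187500, 241770792308476570312500,
      752081265469641633750000]),
   ((1, 0),
    [
      -696570347520000000, 0, -1202494709618519062500, 51782923488206250000,
      36977579437550563125000, 8605203876693551250000, 2465928881902793413125000,
      -672703484689889192812500, -2754422973775491710625000]),
   ((1, 1),
    [
      -185748145440030720, 0, -16717333089602764800, -2228977745280368640, 81853138684270923750000,
      -100303998537616588800, 3468049640245807270312500, -1039601977811283166875000,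
      -3537767523630821858437500]),
   ((1, 2),
    [
      123793785590906880, 0, 11141440703181619200, 1485525427090882560, 350955382150221004800,
      66848644219089715200, 7580636254444773703680, 1684585834321060823040, -9645916277128463437500]),
   ((2, 0),
    [
      -119669392563240960, 0, -10770245330691686400, -1436032710758891520,
      -206275209857790246562500, 7574999445412711875000, -6563792275306326531562500,
      1886924529889737873750000, 7363792039974314265000000]),
   ((2, 1),
    [
      221077496895897600, 0, 19896974720630784000, 2652929962750771200, 626754703699869696000,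
      119381848323784704000, -722243596592175885000000, 3008422577759374540800,
      1521109148310153801562500]),
   ((3, 0),
    [
      327062068411760640, 0, 29435586157058457600, 3924744820941127680, 927220963947341414400,
      176613516942350745600, 2299503457444273720312500, -264067001947435398750000,
      -3738748486752920219062500]),
   ((4, 0),
    [
      -487387485878353920, 0, -43864873729051852800, -5848649830540247040, -1381743522465133363200,
      -263189242374311116800, -29845660085246880645120, -6632368907832640143360,
      104966796488304141562500])]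

/-- A part of a subdivision. -/
def d4row0P0 : Bern.Cover :=
  (.split 0 (.split 0 (.split 2 .leaf .leaf) .leaf) (.split 3 .leaf (.split 3 .leaf (.split 1
    (.split 0 .leaf .leaf) .leaf))))

/-- A part of a subdivision. -/
def d4row0P1 : Bern.Cover :=
  (.split 3 (.split 2 (.split 1 (.split 2 .leaf (.split 0 .leaf .leaf)) .leaf) (.split 1 (.split 0
    .leaf (.split 2 .leaf (.split 0 .leaf .leaf))) .leaf)) (.split 3 (.split 2 .leaf .leaf)
    .leaf))

/-- A part of a subdivision. -/
def d4row0P2 : Bern.Cover :=
  (.split 1 (.split 2 .leaf (.split 1 .leaf .leaf)) .leaf)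

/-- A part of a subdivision. -/
def d4row0P3 : Bern.Cover :=
  (.split 3 (.split 1 (.split 2 .leaf (.split 0 .leaf .leaf)) (.split 0 .leaf .leaf)) .leaf)

/-- A part of a subdivision. -/
def d4row0P4 : Bern.Cover :=
  (.split 3 (.split 2 (.split 1 .leaf (.split 0 .leaf (.split 0 .leaf (.split 3 (.split 2 (.split
    1 .leaf .leaf) (.split 1 (.split 1 .leaf .leaf) .leaf)) .leaf)))) (.split 3 (.split 1 .leaf
    .leaf) (.split 1 .leaf .leaf))) .leaf)

/-- A part of a subdivision. -/
def d4row0P5 : Bern.Cover :=
  (.split 2 .leaf (.split 3 (.split 0 .leaf (.split 2 (.split 0 .leaf .leaf) (.split 3 (.split 0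
    (.split 2 (.split 3 (.split 0 .leaf (.split 0 .leaf .leaf)) .leaf) (.split 0 .leaf .leaf))
    .leaf) (.split 0 .leaf .leaf)))) .leaf))

/-- A part of a subdivision. -/
def d4row0R0 : Bern.Cover :=
  (.split 2 (.split 2 .leaf (.split 1 (.split 2 .leaf .leaf) (.split 2 .leaf .leaf))) (.split 0
    (.split 2 (.split 2 .leaf (.split 1 .leaf .leaf)) .leaf) (.split 1 (.split 2 (.split 0 .leaf
    .leaf) (.split 0 (.split 0 .leaf .leaf) (.split 2 .leaf .leaf))) (.split 2 (.split 0 (.split 0
    (.split 2 .leaf .leaf) .leaf) .leaf) (.split 0 (.split 0 (.split 1 .leaf .leaf) (.split 1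
    (.split 0 .leaf .leaf) .leaf)) .leaf)))))

/-- A part of a subdivision. -/
def d4row0R1 : Bern.Cover :=
  (.split 2 (.split 2 .leaf (.split 2 .leaf (.split 2 (.split 2 .leaf .leaf) .leaf))) .leaf)

/-- A part of a subdivision. -/
def d4row0R2 : Bern.Cover :=
  (.split 2 (.split 2 (.split 1 .leaf .leaf) (.split 0 (.split 2 .leaf .leaf) (.split 2 (.split 1
    .leaf (.split 0 (.split 2 .leaf (.split 2 .leaf (.split 0 .leaf .leaf))) (.split 2 .leaf
    .leaf))) .leaf))) (.split 1 (.split 1 (.split 0 .leaf (.split 1 (.split 0 .leaf (.split 1
    (.split 0 (.split 1 (.split 0 .leaf (.split 1 (.split 0 .leaf .leaf) .leaf)) .leaf) (.split 1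
    (.split 0 (.split 1 .leaf (.split 0 .leaf .leaf)) .leaf) (.split 0 (.split 1 (.split 0 .leaf
    .leaf) .leaf) (.split 1 .leaf (.split 0 .leaf .leaf))))) (.split 0 .leaf (.split 1 (.split 0
    .leaf (.split 1 (.split 0 .leaf .leaf) .leaf)) .leaf)))) .leaf)) .leaf) .leaf))

/-- A part of a subdivision. -/
def d4row0R3 : Bern.Cover :=
  (.split 1 (.split 0 .leaf .leaf) (.split 0 (.split 2 .leaf (.split 1 (.split 2 .leaf .leaf)
    (.split 2 .leaf .leaf))) (.split 2 .leaf (.split 0 (.split 1 (.split 2 .leaf (.split 0 .leaf
    .leaf)) (.split 2 .leaf (.split 0 (.split 1 .leaf .leaf) .leaf))) .leaf))))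

/-- A part of a subdivision. -/
def d4row0R4 : Bern.Cover :=
  (.split 1 (.split 0 (.split 2 .leaf .leaf) (.split 2 .leaf (.split 2 .leaf (.split 1 (.split 0
    (.split 1 (.split 0 (.split 2 .leaf .leaf) (.split 2 .leaf (.split 0 .leaf .leaf))) (.split 0
    .leaf .leaf)) (.split 1 .leaf (.split 0 (.split 2 .leaf (.split 0 .leaf .leaf)) (.split 1
    .leaf .leaf)))) (.split 0 .leaf (.split 1 (.split 0 .leaf (.split 2 .leaf (.split 0 .leaf
    .leaf))) .leaf)))))) (.split 2 .leaf .leaf))

/-- A part of a subdivision. -/
def d4row0R5 : Bern.Cover :=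
  (.split 0 (.split 1 .leaf (.split 0 (.split 1 (.split 0 (.split 1 (.split 0 .leaf .leaf) (.split
    0 .leaf .leaf)) .leaf) (.split 0 (.split 1 .leaf .leaf) (.split 1 (.split 0 .leaf .leaf)
    (.split 0 .leaf .leaf)))) (.split 1 .leaf (.split 0 .leaf .leaf)))) (.split 1 (.split 2
    (.split 0 (.split 1 (.split 0 .leaf .leaf) .leaf) (.split 1 .leaf (.split 0 .leaf .leaf)))
    .leaf) (.split 0 .leaf (.split 2 (.split 1 (.split 0 .leaf .leaf) .leaf) .leaf))))

/-- A part of a subdivision. -/
def d4row0R6 : Bern.Cover :=
  (.split 0 (.split 1 (.split 0 .leaf (.split 1 (.split 0 (.split 1 (.split 0 .leaf .leaf) (.split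
    0 .leaf .leaf)) (.split 1 .leaf (.split 0 .leaf .leaf))) (.split 0 .leaf (.split 1 (.split 0
    .leaf .leaf) .leaf)))) .leaf) (.split 1 (.split 0 (.split 1 .leaf (.split 0 (.split 1 .leaf
    (.split 0 .leaf .leaf)) .leaf)) .leaf) (.split 0 (.split 1 (.split 0 (.split 1 (.split 0 .leaf
    .leaf) .leaf) (.split 1 (.split 0 .leaf .leaf) (.split 0 .leaf .leaf))) .leaf) (.split 1
    (.split 0 .leaf .leaf) (.split 0 (.split 1 (.split 0 .leaf .leaf) .leaf) (.split 1 .leaf
    (.split 0 .leaf .leaf)))))))

/-- A part of a subdivision. -/
def d4row0R7 : Bern.Cover :=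
  (.split 2 (.split 0 .leaf .leaf) (.split 0 (.split 1 (.split 1 .leaf (.split 0 (.split 2 .leaf
    (.split 2 .leaf (.split 1 (.split 0 .leaf .leaf) (.split 0 (.split 1 (.split 0 .leaf .leaf)
    .leaf) (.split 0 .leaf .leaf))))) .leaf)) (.split 2 (.split 0 .leaf .leaf) (.split 0 (.split 1
    (.split 2 .leaf (.split 1 (.split 0 .leaf (.split 1 (.split 0 .leaf .leaf) (.split 0 .leaf
    .leaf))) .leaf)) .leaf) (.split 1 (.split 2 .leaf (.split 0 (.split 1 (.split 1 .leaf .leaf)
    (.split 0 .leaf .leaf)) .leaf)) (.split 0 (.split 2 .leaf .leaf) (.split 2 .leaf (.split 0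
    .leaf .leaf))))))) (.split 1 (.split 2 (.split 2 .leaf .leaf) .leaf) (.split 2 .leaf (.split 1
    .leaf (.split 0 .leaf .leaf))))))

/-- A part of a subdivision. -/
def d4row0R8 : Bern.Cover :=
  (.split 1 (.split 0 (.split 2 (.split 1 .leaf (.split 0 (.split 1 (.split 0 (.split 0 .leaf
    .leaf) .leaf) (.split 0 .leaf (.split 2 .leaf .leaf))) .leaf)) .leaf) .leaf) (.split 0 (.split
    2 (.split 1 (.split 0 (.split 1 (.split 0 .leaf .leaf) .leaf) (.split 2 (.split 1 (.split 0
    .leaf .leaf) (.split 0 .leaf .leaf)) .leaf)) (.split 0 .leaf .leaf)) .leaf) (.split 2 (.split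
    1 .leaf (.split 0 .leaf .leaf)) (.split 1 (.split 2 .leaf .leaf) (.split 2 (.split 2 (.split 1
    .leaf .leaf) (.split 1 .leaf .leaf)) .leaf)))))

/-- A part of a subdivision. -/
def d4row0R9 : Bern.Cover :=
  (.split 1 (.split 0 .leaf (.split 1 (.split 0 .leaf (.split 1 (.split 0 .leaf (.split 1 .leaf
    .leaf)) .leaf)) .leaf)) .leaf)

/-- A part of a subdivision. -/
def d4row0R10 : Bern.Cover :=
  (.split 2 (.split 0 (.split 1 (.split 2 (.split 0 (.split 2 (.split 1 .leaf .leaf) .leaf)
    (.split 1 (.split 2 .leaf (.split 0 .leaf .leaf)) (.split 2 (.split 0 (.split 1 .leaf (.split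
    2 .leaf (.split 0 .leaf .leaf))) (.split 1 .leaf .leaf)) (.split 0 (.split 1 (.split 2 .leaf
    .leaf) .leaf) (.split 1 (.split 2 .leaf .leaf) (.split 2 .leaf .leaf)))))) (.split 0 .leaf
    (.split 1 (.split 2 (.split 0 .leaf .leaf) .leaf) .leaf))) (.split 2 (.split 0 .leaf (.split 2
    .leaf .leaf)) .leaf)) (.split 1 (.split 2 (.split 1 .leaf (.split 2 .leaf .leaf)) (.split 0
    (.split 1 (.split 2 .leaf .leaf) (.split 0 .leaf .leaf)) .leaf)) (.split 2 .leaf .leaf)))
    (.split 1 (.split 0 (.split 1 (.split 0 (.split 1 (.split 0 (.split 1 .leaf .leaf) .leaf)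
    (.split 0 .leaf (.split 1 .leaf .leaf))) (.split 1 .leaf (.split 0 .leaf .leaf))) (.split 0
    .leaf (.split 1 (.split 0 .leaf .leaf) .leaf))) (.split 1 .leaf (.split 1 .leaf (.split 0
    .leaf .leaf)))) (.split 0 .leaf (.split 0 .leaf .leaf))))

/-- A part of a subdivision. -/
def d4row0R11 : Bern.Cover :=
  (.split 2 (.split 2 .leaf .leaf) (.split 2 .leaf (.split 2 .leaf (.split 2 .leaf (.split 2 .leaf
    .leaf)))))

/-- The row. -/
def d4row0 : Row where
  W := d4W 0
  D := d4D 0
  G := d4sym0
  a := 7739670528
  e := d4E 0
  kR := 524288
  kG := 754974720000000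
  kP := 15
  I := 12
  J := 8
  P := d4rem0
  cfg := ⟨12, 12, 10, 12, 12, 330⟩
  cov := (.split 0 d4row0P0 (.split 1 (.split 0 d4row0P1 (.split 2 d4row0P2 (.split 1 d4row0P3
    d4row0P4))) d4row0P5))
  lay := ⟨166, 13, 13, 13, 13⟩
  R3 := d4dom0
  cfg3 := ⟨8, 8, 8, 10, 10, 555⟩
  cov3 := (.split 2 d4row0R0 (.split 0 d4row0R1 (.split 0 d4row0R2 (.split 1 (.split 2 d4row0R3 (.split 1
    (.split 0 (.split 2 d4row0R4 (.split 1 d4row0R5 d4row0R6)) (.split 2 d4row0R7 d4row0R8))
    (.split 0 d4row0R9 d4row0R10))) d4row0R11))))
  lay3 := ⟨97, 5, 3, 15, 1⟩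

set_option maxHeartbeats 8000000 in
theorem d4row0_parts :
    rowRest (terms 0) d4row0 = true ∧
    Bern.coverU d4row0.cfg d4row0.P d4row0P0
      ((Bern.unitBox).cut 0 Bern.Ax.left) = true ∧
    Bern.coverU d4row0.cfg d4row0.P d4row0P1
      ((((Bern.unitBox).cut 0 Bern.Ax.right).cut 1 Bern.Ax.left).cut 0 Bern.Ax.left) = true ∧
    Bern.coverU d4row0.cfg d4row0.P d4row0P2
      (((((Bern.unitBox).cut 0 Bern.Ax.right).cut 1 Bern.Ax.left).cut 0 Bern.Ax.right).cut 2
    Bern.Ax.left) = true ∧
    Bern.coverU d4row0.cfg d4row0.P d4row0P3
      ((((((Bern.unitBox).cut 0 Bern.Ax.right).cut 1 Bern.Ax.left).cut 0 Bern.Ax.right).cut 2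
    Bern.Ax.right).cut 1 Bern.Ax.left) = true ∧
    Bern.coverU d4row0.cfg d4row0.P d4row0P4
      ((((((Bern.unitBox).cut 0 Bern.Ax.right).cut 1 Bern.Ax.left).cut 0 Bern.Ax.right).cut 2
    Bern.Ax.right).cut 1 Bern.Ax.right) = true ∧
    Bern.coverU d4row0.cfg d4row0.P d4row0P5
      (((Bern.unitBox).cut 0 Bern.Ax.right).cut 1 Bern.Ax.right) = true ∧
    Bern.coverU d4row0.cfg3 d4row0.R3 d4row0R0
      ((box3).cut 2 Bern.Ax.left) = true ∧
    Bern.coverU d4row0.cfg3 d4row0.R3 d4row0R1
      (((box3).cut 2 Bern.Ax.right).cut 0 Bern.Ax.left) = true ∧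
    Bern.coverU d4row0.cfg3 d4row0.R3 d4row0R2
      ((((box3).cut 2 Bern.Ax.right).cut 0 Bern.Ax.right).cut 0 Bern.Ax.left) = true ∧
    Bern.coverU d4row0.cfg3 d4row0.R3 d4row0R3
      ((((((box3).cut 2 Bern.Ax.right).cut 0 Bern.Ax.right).cut 0 Bern.Ax.right).cut 1
    Bern.Ax.left).cut 2 Bern.Ax.left) = true ∧
    Bern.coverU d4row0.cfg3 d4row0.R3 d4row0R4
      (((((((((box3).cut 2 Bern.Ax.right).cut 0 Bern.Ax.right).cut 0 Bern.Ax.right).cut 1
    Bern.Ax.left).cut 2 Bern.Ax.right).cut 1 Bern.Ax.left).cut 0 Bern.Ax.left).cut 2
    Bern.Ax.left) = true ∧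
    Bern.coverU d4row0.cfg3 d4row0.R3 d4row0R5
      ((((((((((box3).cut 2 Bern.Ax.right).cut 0 Bern.Ax.right).cut 0 Bern.Ax.right).cut 1
    Bern.Ax.left).cut 2 Bern.Ax.right).cut 1 Bern.Ax.left).cut 0 Bern.Ax.left).cut 2
    Bern.Ax.right).cut 1 Bern.Ax.left) = true ∧
    Bern.coverU d4row0.cfg3 d4row0.R3 d4row0R6
      ((((((((((box3).cut 2 Bern.Ax.right).cut 0 Bern.Ax.right).cut 0 Bern.Ax.right).cut 1
    Bern.Ax.left).cut 2 Bern.Ax.right).cut 1 Bern.Ax.left).cut 0 Bern.Ax.left).cut 2
    Bern.Ax.right).cut 1 Bern.Ax.right) = true ∧
    Bern.coverU d4row0.cfg3 d4row0.R3 d4row0R7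
      (((((((((box3).cut 2 Bern.Ax.right).cut 0 Bern.Ax.right).cut 0 Bern.Ax.right).cut 1
    Bern.Ax.left).cut 2 Bern.Ax.right).cut 1 Bern.Ax.left).cut 0 Bern.Ax.right).cut 2
    Bern.Ax.left) = true ∧
    Bern.coverU d4row0.cfg3 d4row0.R3 d4row0R8
      (((((((((box3).cut 2 Bern.Ax.right).cut 0 Bern.Ax.right).cut 0 Bern.Ax.right).cut 1
    Bern.Ax.left).cut 2 Bern.Ax.right).cut 1 Bern.Ax.left).cut 0 Bern.Ax.right).cut 2
    Bern.Ax.right) = true ∧
    Bern.coverU d4row0.cfg3 d4row0.R3 d4row0R9
      ((((((((box3).cut 2 Bern.Ax.right).cut 0 Bern.Ax.right).cut 0 Bern.Ax.right).cut 1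
    Bern.Ax.left).cut 2 Bern.Ax.right).cut 1 Bern.Ax.right).cut 0 Bern.Ax.left) = true ∧
    Bern.coverU d4row0.cfg3 d4row0.R3 d4row0R10
      ((((((((box3).cut 2 Bern.Ax.right).cut 0 Bern.Ax.right).cut 0 Bern.Ax.right).cut 1
    Bern.Ax.left).cut 2 Bern.Ax.right).cut 1 Bern.Ax.right).cut 0 Bern.Ax.right) = true ∧
    Bern.coverU d4row0.cfg3 d4row0.R3 d4row0R11
      (((((box3).cut 2 Bern.Ax.right).cut 0 Bern.Ax.right).cut 0 Bern.Ax.right).cut 1
    Bern.Ax.right) = true := by
  exact ⟨by decide +kernel,
    by decide +kernel,
    by decide +kernel,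
    by decide +kernel,
    by decide +kernel,
    by decide +kernel,
    by decide +kernel,
    by decide +kernel,
    by decide +kernel,
    by decide +kernel,
    by decide +kernel,
    by decide +kernel,
    by decide +kernel,
    by decide +kernel,
    by decide +kernel,
    by decide +kernel,
    by decide +kernel,
    by decide +kernel,
    by decide +kernel⟩

theorem d4row0_cover : Bern.coverU d4row0.cfg d4row0.P d4row0.cov Bern.unitBox = true :=
  (Bern.coverU_split (d4row0_parts.2.1) (Bern.coverU_split (Bern.coverU_split (d4row0_parts.2.2.1)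
    (Bern.coverU_split (d4row0_parts.2.2.2.1) (Bern.coverU_split (d4row0_parts.2.2.2.2.1)
    (d4row0_parts.2.2.2.2.2.1)))) (d4row0_parts.2.2.2.2.2.2.1)))

theorem d4row0_cover3 : Bern.coverU d4row0.cfg3 d4row0.R3 d4row0.cov3 box3 = true :=
  (Bern.coverU_split (d4row0_parts.2.2.2.2.2.2.2.1) (Bern.coverU_split
    (d4row0_parts.2.2.2.2.2.2.2.2.1) (Bern.coverU_split (d4row0_parts.2.2.2.2.2.2.2.2.2.1)
    (Bern.coverU_split (Bern.coverU_split (d4row0_parts.2.2.2.2.2.2.2.2.2.2.1) (Bern.coverU_split
    (Bern.coverU_split (Bern.coverU_split (d4row0_parts.2.2.2.2.2.2.2.2.2.2.2.1)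
    (Bern.coverU_split (d4row0_parts.2.2.2.2.2.2.2.2.2.2.2.2.1)
    (d4row0_parts.2.2.2.2.2.2.2.2.2.2.2.2.2.1))) (Bern.coverU_split
    (d4row0_parts.2.2.2.2.2.2.2.2.2.2.2.2.2.2.1) (d4row0_parts.2.2.2.2.2.2.2.2.2.2.2.2.2.2.2.1)))
    (Bern.coverU_split (d4row0_parts.2.2.2.2.2.2.2.2.2.2.2.2.2.2.2.2.1)
    (d4row0_parts.2.2.2.2.2.2.2.2.2.2.2.2.2.2.2.2.2.1))))
    (d4row0_parts.2.2.2.2.2.2.2.2.2.2.2.2.2.2.2.2.2.2)))))

theorem d4row0_ok : d4RowFor 0 d4row0 = true := by
  simp only [d4RowFor, Bool.and_eq_true, decide_eq_true_eq]
  exact ⟨⟨⟨rfl, rfl⟩, rfl⟩, rowCheck_of_quick d4row0_parts.1 d4row0_cover d4row0_cover3⟩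

end Vale.Agent.P154.Anti
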