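import Vale.Agent.P154.Anti.D4RowData
import Vale.Agent.P154.RowQuick

/-!
P154: the certificate of row 4 of the low stage with at most four children.
-/

namespace Vale.Agent.P154.Anti

open Kron BudgetRow

/-- The polynomial which dominates the merged coefficient. -/
def d4sym4 : List Term :=
  [
    (11478008743523437500, 0, 0, 0, 0), (-1099096836477411032100, 0, 0, 1, 0),
    (594796310489987277651, 0, 0, 2, 0), (314604902890082987028, 0, 1, 0, 0),
    (-544418048243340458460, 0, 1, 1, 0), (-8401764789332578125, 0, 1, 2, 0),
    (115624063735294690800, 0, 2, 0, 0), (-136782216455291718750, 0, 2, 1, 0),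
    (60343468445671844868, 0, 3, 0, 0), (141846697926562500, 0, 4, 0, 0),
    (-69840831045099262500, 1, 0, 0, 0), (3477038746698432615150, 1, 0, 1, 0),
    (-1094833022559527093355, 1, 0, 2, 0), (-1005264396667141514064, 1, 1, 0, 0),
    (1045908863159342723334, 1, 1, 1, 0), (11202353052443437500, 1, 1, 2, 0),
    (-252478131884857115280, 1, 2, 0, 0), (221531897132822812500, 1, 2, 1, 0),
    (-109793025349509349890, 1, 3, 0, 0), (-189128930568750000, 1, 4, 0, 0),
    (190230703459607754324, 2, 0, 0, 0), (-4754461885993254446280, 2, 0, 1, 0),
    (839875914054373857030, 2, 0, 2, 0), (1393495409822440187142, 2, 1, 0, 0),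
    (-774827944908452456310, 2, 1, 1, 0), (-5601176526221718750, 2, 1, 2, 0),
    (211386164585142140775, 2, 2, 0, 0), (-143395622337884062500, 2, 2, 1, 0),
    (82754107879981231665, 2, 3, 0, 0), (94564465284375000, 2, 4, 0, 0),
    (-305639978933041008012, 3, 0, 0, 0), (3728246610255395957316, 3, 0, 1, 0),
    (-343822663546970546430, 3, 0, 2, 0), (-1107437396507315791416, 3, 1, 0, 0),
    (256305043298258852040, 3, 1, 1, 0), (1244705894715937500, 3, 1, 2, 0),
    (-77607792121150987695, 3, 2, 0, 0), (46367771084628750000, 3, 2, 1, 0),
    (-33057056599151835240, 3, 3, 0, 0), (-21014325618750000, 3, 4, 0, 0),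
    (323971921667007768636, 4, 0, 0, 0), (-1870814166317866422000, 4, 0, 1, 0),
    (79265035994306484375, 4, 0, 2, 0), (561372513001191218412, 4, 1, 0, 0),
    (-20396168938740989880, 4, 1, 1, 0), (-103725491226328125, 4, 1, 2, 0),
    (4345082619922793610, 4, 2, 0, 0), (-7489500231660468750, 4, 2, 1, 0),
    (7375726100279531250, 4, 3, 0, 0), (1751193801562500, 4, 4, 0, 0),
    (-239204524872167062308, 5, 0, 0, 0), (632206935601401283290, 5, 0, 1, 0),
    (-9765014044158984375, 5, 0, 2, 0), (-191272526395719380460, 5, 1, 0, 0),
    (-10146801367700156250, 5, 1, 1, 0), (6330850487203718970, 5, 2, 0, 0),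
    (483402574392187500, 5, 2, 1, 0), (-870700796554218750, 5, 3, 0, 0),
    (126405109038017586096, 6, 0, 0, 0), (-146160929163343113360, 6, 0, 1, 0),
    (502718354133750000, 6, 0, 2, 0), (45028710300098102310, 6, 1, 0, 0),
    (2823196386488906250, 6, 1, 1, 0), (-2248508015826328125, 6, 2, 0, 0),
    (42433115296640625, 6, 3, 0, 0), (-48256740790733227500, 7, 0, 0, 0),
    (22592058542949375000, 7, 0, 1, 0), (-7403042216634573960, 7, 1, 0, 0),
    (-219696325675312500, 7, 1, 1, 0), (317786350669453125, 7, 2, 0, 0),
    (13230143829188143740, 8, 0, 0, 0), (-2132347681476562500, 8, 0, 1, 0),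
    (837653825950312500, 8, 1, 0, 0), (-16979275349062500, 8, 2, 0, 0),
    (-2543941584662269560, 9, 0, 0, 0), (93381227907187500, 9, 0, 1, 0),
    (-60321058045312500, 9, 1, 0, 0), (326054987288437500, 10, 0, 0, 0),
    (2105818128750000, 10, 1, 0, 0), (-25038179493125000, 11, 0, 0, 0),
    (872021769687500, 12, 0, 0, 0)
  ]

/-- The nonnegative remainder in the invariants. -/
def d4rem4 : Bern.Poly where
  pks := [(0, 1), (0, 2), (0, 3), (0, 4), (1, 0), (1, 1), (1, 2), (1, 3), (2, 0), (2, 1), (2, 2), (3, 0), (3, 1), (3, 2), (4, 0), (4, 1), (5, 0), (6, 0)]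
  rows :=
  [((0, 0),
    [
      -301211320320000000, 8768817936651517952, 0, 0, 25751453696000000, 7874227956499349504,
      -5556948062624546816, 0, 3481555685497372672, -9923892077469368320, 0, -15116534594244968448,
      0, 0, 21878214099933855744, 0, 0, 0]),
   ((0, 1),
    [
      78037808316416000000, -10174921891461988352, -5849190072320000000, 0, 5583317499904000000,
      -57193213639463010304, -10626991899931049984, 0, -48401944580243587072, 27088531555163832320,
      0, 71934399320107778048, -3807368069120000000, 0, -36297440906176364544, 0, 0, 0]),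
   ((0, 2),
    [
      -10072459575296000000, 8783891770140989452288, -1082161644375000000000,
      -1444886390097656250000, 1607472895229952000000, 3919338062916329022976,
      -19015086268164119199104, 535503594667968750000, -162010076091260076032,
      -16200277285209643390080, 13402792666582031250000, -4758465550823039629312,
      17995331780214677500000, -582864178784179687500, 8574751304969749685536,
      -5166422880703125000000, -3425314540664062500000, -502816958005371093750]),
   ((0, 3),
    [
      -374348164628480000000, 8657293155000000000000, 35725957005937500000000,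
      -18089631644296875000000, 0, 24196936848750000000000, -30977729218125000000000,
      -39008081050781250000000, 0, -76271325731250000000000, 24950647379296875000000,
      -4113223758131040000000, 59315918967115180000000, 991061959746093750000,
      21743292836015625000000, -3823774039863281250000, -20464751453789062500000,
      4260330317856445312500]),
   ((0, 4),
    [
      0, -92472728966250000000000, 144717053154375000000000, -41925041547187500000000, 0,
      6829661973750000000000, 180881843463750000000000, -135078158583750000000000, 0,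
      61370703245625000000000, -128170574087812500000000, 46236364483125000000000,
      -161771091161250000000000, 32880225725039062500000, -92537491403437500000000,
      90110217189667968750000, 56413949138203125000000, -1440665477373046875000]),
   ((1, 0),
    [
      -21733503401984000000, 17569189963599183872, 0, 0, 2525279813632000000, 33589534495585337344,
      -4642581952372146176, 0, -18328113484642910208, -18210400001348075520, 0,
      -1343670845626646528, 0, 0, -4724156918730326016, 0, 0, 0]),
   ((1, 1),
    [
      -188364444663808000000, -1755919737872714633984, 1512308553046875000000,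
      -53356734169921875000, -179575565844480000000, 4325960502861141560832, 5997720571265836006272,
      -3164695703144531250000, 932868705086158667776, -14072665291467720730560,
      -2314267188457031250000, -3328860236552588205184, 18728251086806985000000,
      -2901825839194335937500, 5863030901347901698752, -8242231312236328125000,
      -2684386075605468750000, -36483204199218750000]),
   ((1, 2),
    [
      555508584939520000000, -75124629969375000000000, 15488864609062500000000,
      11305115216484375000000, -320869855395840000000, -48114832314587120000000,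
      157494428741862630000000, -179962433554687500000, 1019316645396480000000,
      203731754773066620000000, -142208597492167968750000, 8408736464294500000000,
      -155994085141002442500000, -7889851148188476562500, -13781658335347362500000,
      1362699178330078125000, 8113260647812500000000, 10779362996345214843750]),
   ((1, 3),
    [
      0, -17136115029375000000000, -156032324203125000000000, 67539079291875000000000, 0,
      -202540525001250000000000, 1439699468437500000000, 238213515348281250000000, 0,
      724208830773750000000000, -178111814675625000000000, 48841924583437500000000,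
      -407529229035000000000000, -30442234686855468750000, -217928699024531250000000,
      -60864623957929687500000, 208275892146914062500000, -5430646319077148437500]),
   ((2, 0),
    [
      83787205050368000000, -85836147935113379840, 0, 0, -34768956162048000000,
      -448499207023878471680, 57112333242500382720, 0, -60072747307242762240, 780717554706719094400,
      -355582990019531250000, -1125566921584961091840, 48055866180165000000, -80035101254882812500,
      3005794966715121107520, -1032205088496093750000, -1927000447031250000000, -9120801049804687500]),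
   ((2, 1),
    [
      241040099901440000000, 31565029782750340000000, -19067831432812500000000,
      -1917834476425781250000, 603934991319040000000, -56171841454031260000000,
      -101865877386533310000000, 45263051923359375000000, -6339961426191440000000,
      144234872729007875000000, 69229190446376953125000, 99843690854835150000000,
      -147397379846239890000000, 9027500001108398437500, -186642572023177627500000,
      55037347221357421875000, 75238951715375976562500, 6149572859586181640625]),
   ((2, 2),
    [
      0, 214444682665312500000000, -49901294758593750000000, -32042643521953125000000, 0,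
      74056550030625000000000, -568834389968671875000000, 89055907337812500000000,
      -22757311361250000000000, -553833523571015625000000, 470710506578437500000000,
      364293243773906250000000, 552827920582382812500000, -4347439239697265625000,
      -654728007894257812500000, -18870221505541992187500, 230812695327744140625000,
      -15239505135563964843750]),
   ((3, 0),
    [
      -433174359310336000000, -3927173564186833909760, 514152969766380000000, 722443195048828125000,
      669383763951616000000, 6758243058957810612480, 1976613955895934294080,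
      -1526310143232421875000, -4311185832645466383360, -50146095268105376958400,
      22768327735869140625000, 38875909340071868522240, 65006027830043403750000,
      -14256415603601074218750, -60976836660208166068720, -16825852347128906250000,
      24066409992070312500000, 2510110839635009765625]),
   ((3, 1),
    [
      -243671556423680000000, -143962654241717420000000, 59315918967115180000000,
      20221386395156250000000, 0, 299652017388911760000000, 311988170282004885000000,
      -101882307258750000000000, -1537787717765280000000, -589589519384959560000000,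
      -276413960291191406250000, -520048222640347230000000, 829950669630147731250000,
      -89349124951831054687500, 824383002780459003750000, -381514301241108398437500,
      -267281879752382812500000, -12178473858907470703125]),
   ((3, 2),
    [
      0, -37303307442187500000000, -7928495677968750000000, 32880225725039062500000, 0,
      371433707416875000000000, -126237618371015625000000, 60884469373710937500000,
      -20488985921250000000000, -288880000035468750000000, -17389756958789062500000,
      -912410598630468750000000, 714792999614648437500000, -288540118025859375000000,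
      1246173875059921875000000, -535195191552099609375000, -271752600650830078125000,
      64970485776269531250000]),
   ((4, 0),
    [
      313292001116160000000, 30615009052301890000000, -10871646418007812500000,
      -5783593212714843750000, -208861334077440000000, -46380347298404760000000,
      -13781658335347362500000, 27241087378066406250000, 47677280253906960000000,
      373285144046355255000000, -163682001973564453125000, -245884871582919655000000,
      -412191501390229501875000, 77885867191245117187500, 181034332402929710000000,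
      120213724600642089843750, 10391607089912109375000, -9592508848099365234375]),
   ((4, 1),
    [
      0, 165325532182500000000000, -15295096159453125000000, -45055108594833984375000, 0,
      -527502803983125000000000, -10901593426640625000000, -60864623957929687500000,
      132122251327500000000000, 880597555541718750000000, 37740443011083984375000,
      538427275108125000000000, -1526057204964433593750000, 267597595776049804687500,
      -961709796805136718750000, 1019110512919892578125000, 118990770659604492187500,
      8934140363085937500000]),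
   ((5, 0),
    [
      0, -54805032650625000000000, 40929502907578125000000, 14103487284550781250000, 0,
      85900354419375000000000, 32453042591250000000000, -104137946073457031250000,
      -123328028610000000000000, -601911613723007812500000, 230812695327744140625000,
      385062559873125000000000, 534563759504765625000000, -67938150162707519531250,
      41566428359648437500000, -59495385329802246093750, -309770251806708984375000,
      13752918065083007812500]),
   ((6, 0),
    [
      0, -32180285312343750000000, -34082642542851562500000, -1440665477373046875000, 0,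
      4669850137500000000000, 172469807941523437500000, 10861292638154296875000,
      -2334925068750000000000, -196786331506757812500000, -60958020542255859375000,
      160647093736640625000000, 97427790871259765625000, 64970485776269531250000,
      -153480141569589843750000, -17868280726171875000000, 55011672260332031250000,
      -96725319526625976562500])]

/-- The nonnegative remainder in three variables. -/
def d4dom4 : Bern.Poly where
  pks := [(0, 1), (1, 0), (1, 1), (2, 0), (2, 1), (3, 0), (3, 1), (4, 0), (5, 0)]
  rows :=
  [((0, 0),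
    [
      -490855754445775312500, 11478008743523437500, -260305317939689190000000,
      17392937832760899375000, -8572712433180550962187500, 1985539998815935635937500,
      -28751116629191418691875000, 21357577389924747638437500, 16242620097556697824687500]),
   ((0, 1),
    [
      13339670440181760, 0, -59350028599440579375000, 160076045282181120,
      -6653260640242546025625000, 977633284280113600312500, -40567124494623247360312500,
      23183857114143678219375000, 28033175749853477494687500]),
   ((0, 2),
    [
      -236838051140861952, 0, -21315424602677575680, -2842056613690343424, -671435874984343633920,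
      -127892547616065454080, -7934188362286256040937500, 1731203149188878052187500,
      8956457468817259874062500]),
   ((1, 0),
    [
      -691812609513357312, 0, 231311840473542591562500, -8502634129346400937500,
      14289916194260521306875000, -2516105979645504418125000, 75611993069984712870937500,
      -45153557282251332118125000, -52332046251735972453750000]),
   ((1, 1),
    [
      82156130534817792, 0, 7394051748133601280, 985873566417813504, 793994426968856596875000,
      44364310488801607680, 32784398120694050915625000, -9401438073853501458750000,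
      -35038666122973739386875000]),
   ((1, 2),
    [
      0, 0, 0, 0, 0, 0, 0, 0, 661487745393732540937500]),
   ((2, 0),
    [
      -167426371684270080, 0, -15068373451584307200, -2009116460211240960,
      -1836146639012100066562500, 84199532222320323750000, -44669659462033009120312500,
      13952446793476692114375000, 49655906488511047690312500]),
   ((2, 1),
    [
      0, 0, 0, 0, 0, 0, -5384568732979013800312500, 0, 11888133930846962305312500]),
   ((3, 0),
    [
      -154163161449234432, 0, -13874684530431098880, -1849957937390813184, -437052562708579614720,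
      -83248107182586593280, 13264031952709641115312500, -1189838341717160104687500,
      -25101900353383466546250000]),
   ((4, 0),
    [
      0, 0, 0, 0, 0, 0, 0, 0, 75383150992790301562500])]

/-- A part of a subdivision. -/
def d4row4P0 : Bern.Cover :=
  (.split 3 (.split 2 .leaf .leaf) (.split 0 (.split 3 .leaf .leaf) (.split 3 .leaf .leaf)))

/-- A part of a subdivision. -/
def d4row4P1 : Bern.Cover :=
  (.split 3 (.split 2 (.split 2 (.split 0 .leaf (.split 1 .leaf .leaf)) (.split 1 .leaf .leaf))
    .leaf) (.split 3 (.split 1 (.split 0 .leaf (.split 3 .leaf .leaf)) .leaf) (.split 0 .leaf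
    .leaf)))

/-- A part of a subdivision. -/
def d4row4P2 : Bern.Cover :=
  (.split 1 .leaf (.split 1 (.split 1 .leaf .leaf) .leaf))

/-- A part of a subdivision. -/
def d4row4P3 : Bern.Cover :=
  (.split 1 (.split 0 (.split 0 .leaf (.split 1 (.split 0 (.split 0 .leaf .leaf) (.split 0 (.split
    1 (.split 0 .leaf (.split 0 .leaf .leaf)) .leaf) .leaf)) .leaf)) (.split 3 .leaf .leaf))
    (.split 3 .leaf .leaf))

/-- A part of a subdivision. -/
def d4row4P4 : Bern.Cover :=
  (.split 3 .leaf .leaf)

/-- A part of a subdivision. -/
def d4row4P5 : Bern.Cover :=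
  (.split 3 .leaf (.split 1 .leaf (.split 0 .leaf .leaf)))

/-- A part of a subdivision. -/
def d4row4P6 : Bern.Cover :=
  .leaf

/-- A part of a subdivision. -/
def d4row4P7 : Bern.Cover :=
  .leaf

/-- A part of a subdivision. -/
def d4row4P8 : Bern.Cover :=
  .leaf

/-- A part of a subdivision. -/
def d4row4P9 : Bern.Cover :=
  .leaf

/-- A part of a subdivision. -/
def d4row4P10 : Bern.Cover :=
  (.split 1 .leaf (.split 3 (.split 2 (.split 2 .leaf (.split 3 .leaf .leaf)) (.split 3 .leaf
    (.split 2 .leaf .leaf))) (.split 2 .leaf (.split 3 .leaf .leaf))))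

/-- A part of a subdivision. -/
def d4row4P11 : Bern.Cover :=
  (.split 3 (.split 2 (.split 2 .leaf (.split 3 .leaf .leaf)) (.split 3 .leaf .leaf)) (.split 2
    .leaf (.split 3 .leaf .leaf)))

/-- A part of a subdivision. -/
def d4row4P12 : Bern.Cover :=
  (.split 3 (.split 0 .leaf .leaf) (.split 1 (.split 2 (.split 3 .leaf .leaf) .leaf) (.split 2
    (.split 3 .leaf .leaf) .leaf)))

/-- A part of a subdivision. -/
def d4row4P13 : Bern.Cover :=
  (.split 3 (.split 1 (.split 2 .leaf (.split 3 .leaf .leaf)) (.split 2 .leaf (.split 3 (.split 0
    .leaf (.split 2 .leaf (.split 3 .leaf .leaf))) .leaf))) .leaf)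

/-- A part of a subdivision. -/
def d4row4P14 : Bern.Cover :=
  (.split 0 (.split 3 .leaf (.split 3 .leaf .leaf)) (.split 3 (.split 2 .leaf (.split 0 .leaf
    (.split 1 (.split 3 (.split 2 .leaf (.split 0 .leaf (.split 1 (.split 3 (.split 2 .leaf .leaf)
    .leaf) .leaf))) .leaf) .leaf))) .leaf))

/-- A part of a subdivision. -/
def d4row4R0 : Bern.Cover :=
  (.split 2 (.split 2 .leaf (.split 2 .leaf (.split 2 .leaf .leaf))) (.split 0 (.split 2 .leaf
    .leaf) (.split 1 (.split 2 (.split 1 (.split 1 .leaf .leaf) .leaf) (.split 1 (.split 0 (.split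
    2 (.split 0 .leaf (.split 1 .leaf .leaf)) (.split 0 (.split 2 (.split 0 .leaf (.split 1
    (.split 2 (.split 0 .leaf .leaf) (.split 0 .leaf .leaf)) (.split 2 .leaf .leaf))) (.split 0
    .leaf .leaf)) (.split 2 (.split 1 (.split 2 (.split 0 .leaf .leaf) .leaf) (.split 0 (.split 2
    (.split 1 (.split 0 .leaf .leaf) .leaf) (.split 1 (.split 0 .leaf .leaf) (.split 0 .leaf
    .leaf))) (.split 1 .leaf .leaf))) (.split 0 .leaf .leaf)))) (.split 2 (.split 2 (.split 1
    .leaf (.split 2 (.split 1 .leaf (.split 2 (.split 1 .leaf .leaf) .leaf)) .leaf)) .leaf)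
    .leaf)) (.split 0 (.split 2 .leaf (.split 0 .leaf (.split 2 (.split 0 .leaf .leaf) .leaf)))
    (.split 2 (.split 2 (.split 2 .leaf .leaf) .leaf) .leaf)))) .leaf)))

/-- A part of a subdivision. -/
def d4row4R1 : Bern.Cover :=
  (.split 2 (.split 2 (.split 2 .leaf .leaf) (.split 2 (.split 2 .leaf .leaf) .leaf)) (.split 2
    (.split 0 .leaf (.split 1 (.split 0 .leaf (.split 2 .leaf (.split 1 (.split 0 (.split 2 .leaf
    .leaf) (.split 2 .leaf (.split 1 (.split 0 (.split 1 (.split 2 (.split 0 (.split 2 .leaf
    (.split 1 (.split 2 .leaf (.split 0 .leaf (.split 1 .leaf .leaf))) .leaf)) (.split 2 .leaf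
    (.split 1 (.split 0 (.split 2 .leaf (.split 1 .leaf .leaf)) (.split 1 .leaf .leaf)) (.split 0
    .leaf (.split 1 (.split 0 .leaf .leaf) .leaf))))) (.split 0 .leaf (.split 1 .leaf .leaf)))
    (.split 2 .leaf .leaf)) (.split 1 (.split 2 (.split 0 (.split 1 .leaf (.split 2 .leaf (.split
    2 .leaf .leaf))) .leaf) (.split 0 .leaf .leaf)) (.split 2 (.split 0 (.split 1 (.split 0
    (.split 0 .leaf .leaf) (.split 0 .leaf .leaf)) .leaf) (.split 1 .leaf .leaf)) (.split 0
    (.split 0 .leaf .leaf) .leaf)))) (.split 2 (.split 0 .leaf .leaf) .leaf)))) .leaf))) .leaf))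
    (.split 0 .leaf (.split 1 (.split 0 .leaf (.split 1 (.split 0 .leaf .leaf) .leaf)) .leaf))))

/-- A part of a subdivision. -/
def d4row4R2 : Bern.Cover :=
  (.split 0 (.split 1 (.split 0 .leaf .leaf) (.split 2 (.split 2 (.split 0 (.split 0 (.split 2
    .leaf (.split 0 .leaf .leaf)) .leaf) .leaf) (.split 0 (.split 0 .leaf .leaf) .leaf)) .leaf))
    (.split 1 (.split 2 .leaf (.split 0 (.split 0 .leaf .leaf) (.split 2 .leaf .leaf))) (.split 0
    (.split 1 (.split 0 (.split 1 (.split 0 .leaf (.split 1 .leaf .leaf)) .leaf) (.split 1 .leaf
    .leaf)) .leaf) .leaf)))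

/-- A part of a subdivision. -/
def d4row4R3 : Bern.Cover :=
  (.split 2 (.split 0 (.split 2 .leaf (.split 1 (.split 0 (.split 0 (.split 2 .leaf (.split 1
    (.split 2 .leaf .leaf) (.split 0 (.split 1 (.split 2 (.split 0 .leaf .leaf) .leaf) (.split 0
    .leaf .leaf)) (.split 1 .leaf (.split 0 .leaf .leaf))))) (.split 2 .leaf .leaf)) .leaf)
    (.split 0 (.split 1 (.split 0 (.split 2 .leaf .leaf) (.split 2 .leaf (.split 0 .leaf .leaf)))
    .leaf) (.split 1 .leaf (.split 0 .leaf .leaf))))) (.split 0 (.split 0 .leaf .leaf) .leaf))
    (.split 2 (.split 0 (.split 1 (.split 0 (.split 0 .leaf .leaf) .leaf) (.split 0 .leaf .leaf))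
    (.split 1 (.split 2 (.split 1 .leaf .leaf) (.split 2 (.split 1 .leaf (.split 2 (.split 1 .leaf
    (.split 2 (.split 1 .leaf .leaf) (.split 1 .leaf (.split 1 .leaf .leaf)))) .leaf)) .leaf))
    (.split 2 .leaf (.split 2 (.split 2 (.split 1 (.split 2 .leaf .leaf) .leaf) (.split 1 .leaf
    .leaf)) .leaf)))) .leaf))

/-- A part of a subdivision. -/
def d4row4R4 : Bern.Cover :=
  (.split 0 (.split 2 (.split 1 (.split 2 .leaf (.split 0 .leaf .leaf)) .leaf) .leaf) (.split 2
    (.split 1 (.split 0 (.split 1 (.split 0 (.split 2 (.split 1 (.split 0 .leaf (.split 2 (.split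
    2 (.split 0 .leaf .leaf) .leaf) .leaf)) (.split 2 .leaf .leaf)) .leaf) (.split 2 (.split 1
    (.split 2 .leaf .leaf) (.split 0 (.split 2 (.split 1 (.split 0 (.split 1 .leaf .leaf) .leaf)
    .leaf) (.split 1 (.split 0 .leaf .leaf) (.split 0 .leaf .leaf))) .leaf)) (.split 0 .leaf
    .leaf))) (.split 0 .leaf (.split 2 (.split 0 .leaf .leaf) .leaf))) (.split 1 .leaf .leaf))
    (.split 0 .leaf .leaf)) (.split 1 (.split 1 .leaf (.split 0 .leaf (.split 2 .leaf (.split 1
    .leaf (.split 2 .leaf (.split 1 .leaf (.split 2 .leaf .leaf))))))) (.split 0 .leaf (.split 0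
    .leaf (.split 2 (.split 0 (.split 2 .leaf .leaf) (.split 2 (.split 0 (.split 0 (.split 1 .leaf
    .leaf) (.split 0 .leaf .leaf)) .leaf) (.split 0 (.split 1 .leaf .leaf) .leaf))) (.split 1
    (.split 1 (.split 1 (.split 2 .leaf .leaf) .leaf) .leaf) .leaf)))))))

/-- The row. -/
def d4row4 : Row where
  W := d4W 4
  D := d4D 4
  G := d4sym4
  a := 7739670528
  e := d4E 4
  kR := 262144
  kG := 754974720000000
  kP := 15
  I := 12
  J := 8
  P := d4rem4
  cfg := ⟨12, 12, 10, 12, 12, 375⟩
  cov := (.split 0 (.split 1 d4row4P0 d4row4P1) (.split 2 d4row4P2 (.split 1 d4row4P3 (.split 1 (.split 1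
    d4row4P4 (.split 3 (.split 0 d4row4P5 (.split 2 (.split 0 d4row4P6 (.split 0 d4row4P7 (.split
    0 d4row4P8 (.split 0 d4row4P9 (.split 1 d4row4P10 d4row4P11))))) d4row4P12)) d4row4P13))
    d4row4P14))))
  lay := ⟨170, 13, 13, 13, 13⟩
  R3 := d4dom4
  cfg3 := ⟨8, 8, 8, 10, 10, 575⟩
  cov3 := (.split 2 d4row4R0 (.split 0 d4row4R1 (.split 2 d4row4R2 (.split 1 d4row4R3 d4row4R4))))
  lay3 := ⟨101, 5, 3, 15, 1⟩

set_option maxHeartbeats 8000000 in
theorem d4row4_parts :
    rowRest (terms 0) d4row4 = true ∧
    Bern.coverU d4row4.cfg d4row4.P d4row4P0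
      (((Bern.unitBox).cut 0 Bern.Ax.left).cut 1 Bern.Ax.left) = true ∧
    Bern.coverU d4row4.cfg d4row4.P d4row4P1
      (((Bern.unitBox).cut 0 Bern.Ax.left).cut 1 Bern.Ax.right) = true ∧
    Bern.coverU d4row4.cfg d4row4.P d4row4P2
      (((Bern.unitBox).cut 0 Bern.Ax.right).cut 2 Bern.Ax.left) = true ∧
    Bern.coverU d4row4.cfg d4row4.P d4row4P3
      ((((Bern.unitBox).cut 0 Bern.Ax.right).cut 2 Bern.Ax.right).cut 1 Bern.Ax.left) = true ∧
    Bern.coverU d4row4.cfg d4row4.P d4row4P4
      ((((((Bern.unitBox).cut 0 Bern.Ax.right).cut 2 Bern.Ax.right).cut 1 Bern.Ax.right).cut 1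
    Bern.Ax.left).cut 1 Bern.Ax.left) = true ∧
    Bern.coverU d4row4.cfg d4row4.P d4row4P5
      ((((((((Bern.unitBox).cut 0 Bern.Ax.right).cut 2 Bern.Ax.right).cut 1 Bern.Ax.right).cut
    1 Bern.Ax.left).cut 1 Bern.Ax.right).cut 3 Bern.Ax.left).cut 0 Bern.Ax.left) = true ∧
    Bern.coverU d4row4.cfg d4row4.P d4row4P6
      ((((((((((Bern.unitBox).cut 0 Bern.Ax.right).cut 2 Bern.Ax.right).cut 1
    Bern.Ax.right).cut 1 Bern.Ax.left).cut 1 Bern.Ax.right).cut 3 Bern.Ax.left).cut 0
    Bern.Ax.right).cut 2 Bern.Ax.left).cut 0 Bern.Ax.left) = true ∧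
    Bern.coverU d4row4.cfg d4row4.P d4row4P7
      (((((((((((Bern.unitBox).cut 0 Bern.Ax.right).cut 2 Bern.Ax.right).cut 1
    Bern.Ax.right).cut 1 Bern.Ax.left).cut 1 Bern.Ax.right).cut 3 Bern.Ax.left).cut 0
    Bern.Ax.right).cut 2 Bern.Ax.left).cut 0 Bern.Ax.right).cut 0 Bern.Ax.left) = true ∧
    Bern.coverU d4row4.cfg d4row4.P d4row4P8
      ((((((((((((Bern.unitBox).cut 0 Bern.Ax.right).cut 2 Bern.Ax.right).cut 1
    Bern.Ax.right).cut 1 Bern.Ax.left).cut 1 Bern.Ax.right).cut 3 Bern.Ax.left).cut 0
    Bern.Ax.right).cut 2 Bern.Ax.left).cut 0 Bern.Ax.right).cut 0 Bern.Ax.right).cut 0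
    Bern.Ax.left) = true ∧
    Bern.coverU d4row4.cfg d4row4.P d4row4P9
      (((((((((((((Bern.unitBox).cut 0 Bern.Ax.right).cut 2 Bern.Ax.right).cut 1
    Bern.Ax.right).cut 1 Bern.Ax.left).cut 1 Bern.Ax.right).cut 3 Bern.Ax.left).cut 0
    Bern.Ax.right).cut 2 Bern.Ax.left).cut 0 Bern.Ax.right).cut 0 Bern.Ax.right).cut 0
    Bern.Ax.right).cut 0 Bern.Ax.left) = true ∧
    Bern.coverU d4row4.cfg d4row4.P d4row4P10
      ((((((((((((((Bern.unitBox).cut 0 Bern.Ax.right).cut 2 Bern.Ax.right).cut 1
    Bern.Ax.right).cut 1 Bern.Ax.left).cut 1 Bern.Ax.right).cut 3 Bern.Ax.left).cut 0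
    Bern.Ax.right).cut 2 Bern.Ax.left).cut 0 Bern.Ax.right).cut 0 Bern.Ax.right).cut 0
    Bern.Ax.right).cut 0 Bern.Ax.right).cut 1 Bern.Ax.left) = true ∧
    Bern.coverU d4row4.cfg d4row4.P d4row4P11
      ((((((((((((((Bern.unitBox).cut 0 Bern.Ax.right).cut 2 Bern.Ax.right).cut 1
    Bern.Ax.right).cut 1 Bern.Ax.left).cut 1 Bern.Ax.right).cut 3 Bern.Ax.left).cut 0
    Bern.Ax.right).cut 2 Bern.Ax.left).cut 0 Bern.Ax.right).cut 0 Bern.Ax.right).cut 0
    Bern.Ax.right).cut 0 Bern.Ax.right).cut 1 Bern.Ax.right) = true ∧
    Bern.coverU d4row4.cfg d4row4.P d4row4P12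
      (((((((((Bern.unitBox).cut 0 Bern.Ax.right).cut 2 Bern.Ax.right).cut 1
    Bern.Ax.right).cut 1 Bern.Ax.left).cut 1 Bern.Ax.right).cut 3 Bern.Ax.left).cut 0
    Bern.Ax.right).cut 2 Bern.Ax.right) = true ∧
    Bern.coverU d4row4.cfg d4row4.P d4row4P13
      (((((((Bern.unitBox).cut 0 Bern.Ax.right).cut 2 Bern.Ax.right).cut 1 Bern.Ax.right).cut
    1 Bern.Ax.left).cut 1 Bern.Ax.right).cut 3 Bern.Ax.right) = true ∧
    Bern.coverU d4row4.cfg d4row4.P d4row4P14
      (((((Bern.unitBox).cut 0 Bern.Ax.right).cut 2 Bern.Ax.right).cut 1 Bern.Ax.right).cut 1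
    Bern.Ax.right) = true ∧
    Bern.coverU d4row4.cfg3 d4row4.R3 d4row4R0
      ((box3).cut 2 Bern.Ax.left) = true ∧
    Bern.coverU d4row4.cfg3 d4row4.R3 d4row4R1
      (((box3).cut 2 Bern.Ax.right).cut 0 Bern.Ax.left) = true ∧
    Bern.coverU d4row4.cfg3 d4row4.R3 d4row4R2
      ((((box3).cut 2 Bern.Ax.right).cut 0 Bern.Ax.right).cut 2 Bern.Ax.left) = true ∧
    Bern.coverU d4row4.cfg3 d4row4.R3 d4row4R3
      (((((box3).cut 2 Bern.Ax.right).cut 0 Bern.Ax.right).cut 2 Bern.Ax.right).cut 1
    Bern.Ax.left) = true ∧
    Bern.coverU d4row4.cfg3 d4row4.R3 d4row4R4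
      (((((box3).cut 2 Bern.Ax.right).cut 0 Bern.Ax.right).cut 2 Bern.Ax.right).cut 1
    Bern.Ax.right) = true := by
  exact ⟨by decide +kernel,
    by decide +kernel,
    by decide +kernel,
    by decide +kernel,
    by decide +kernel,
    by decide +kernel,
    by decide +kernel,
    by decide +kernel,
    by decide +kernel,
    by decide +kernel,
    by decide +kernel,
    by decide +kernel,
    by decide +kernel,
    by decide +kernel,
    by decide +kernel,
    by decide +kernel,
    by decide +kernel,
    by decide +kernel,
    by decide +kernel,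
    by decide +kernel,
    by decide +kernel⟩

theorem d4row4_cover : Bern.coverU d4row4.cfg d4row4.P d4row4.cov Bern.unitBox = true :=
  (Bern.coverU_split (Bern.coverU_split (d4row4_parts.2.1) (d4row4_parts.2.2.1))
    (Bern.coverU_split (d4row4_parts.2.2.2.1) (Bern.coverU_split (d4row4_parts.2.2.2.2.1)
    (Bern.coverU_split (Bern.coverU_split (d4row4_parts.2.2.2.2.2.1) (Bern.coverU_split
    (Bern.coverU_split (d4row4_parts.2.2.2.2.2.2.1) (Bern.coverU_split (Bern.coverU_split
    (d4row4_parts.2.2.2.2.2.2.2.1) (Bern.coverU_split (d4row4_parts.2.2.2.2.2.2.2.2.1)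
    (Bern.coverU_split (d4row4_parts.2.2.2.2.2.2.2.2.2.1) (Bern.coverU_split
    (d4row4_parts.2.2.2.2.2.2.2.2.2.2.1) (Bern.coverU_split (d4row4_parts.2.2.2.2.2.2.2.2.2.2.2.1)
    (d4row4_parts.2.2.2.2.2.2.2.2.2.2.2.2.1)))))) (d4row4_parts.2.2.2.2.2.2.2.2.2.2.2.2.2.1)))
    (d4row4_parts.2.2.2.2.2.2.2.2.2.2.2.2.2.2.1)))
    (d4row4_parts.2.2.2.2.2.2.2.2.2.2.2.2.2.2.2.1)))))

theorem d4row4_cover3 : Bern.coverU d4row4.cfg3 d4row4.R3 d4row4.cov3 box3 = true :=
  (Bern.coverU_split (d4row4_parts.2.2.2.2.2.2.2.2.2.2.2.2.2.2.2.2.1) (Bern.coverU_split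
    (d4row4_parts.2.2.2.2.2.2.2.2.2.2.2.2.2.2.2.2.2.1) (Bern.coverU_split
    (d4row4_parts.2.2.2.2.2.2.2.2.2.2.2.2.2.2.2.2.2.2.1) (Bern.coverU_split
    (d4row4_parts.2.2.2.2.2.2.2.2.2.2.2.2.2.2.2.2.2.2.2.1)
    (d4row4_parts.2.2.2.2.2.2.2.2.2.2.2.2.2.2.2.2.2.2.2.2)))))

theorem d4row4_ok : d4RowFor 4 d4row4 = true := by
  simp only [d4RowFor, Bool.and_eq_true, decide_eq_true_eq]
  exact ⟨⟨⟨rfl, rfl⟩, rfl⟩, rowCheck_of_quick d4row4_parts.1 d4row4_cover d4row4_cover3⟩

end Vale.Agent.P154.Anti
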