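import Vale.Agent.P154.Anti.D4RowData
import Vale.Agent.P154.RowQuick

/-!
P154: the certificate of row 5 of the low stage with at most four children.
-/

namespace Vale.Agent.P154.Anti

open Kron BudgetRow

/-- The polynomial which dominates the merged coefficient. -/
def d4sym5 : List Term :=
  [
    (779778950625000, 0, 0, 0, 0), (-788048688565575291150, 0, 0, 1, 0),
    (852515831221162438680, 0, 0, 2, 0), (670626962436578240268, 0, 1, 0, 0),
    (-611137578218828307210, 0, 1, 1, 0), (-18954949478816953125, 0, 1, 2, 0),
    (200686536440064296100, 0, 2, 0, 0), (-150994943999492343750, 0, 2, 1, 0),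
    (104989623656856849324, 0, 3, 0, 0), (-11091856424062500, 0, 4, 0, 0),
    (16761168060538460724, 1, 0, 0, 0), (2452667686702173944100, 1, 0, 1, 0),
    (-1577946002610333152025, 1, 0, 2, 0), (-2217320574312502304334, 1, 1, 0, 0),
    (1053318477038395311648, 1, 1, 1, 0), (25273265971755937500, 1, 1, 2, 0),
    (-422755790951053031130, 1, 2, 0, 0), (247517656984746562500, 1, 2, 1, 0),
    (-194274574691579145270, 1, 3, 0, 0), (14789141898750000, 1, 4, 0, 0),
    (-80193347763180246756, 2, 0, 0, 0), (-3308830019411622670080, 2, 0, 1, 0),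
    (1219471515974953422900, 2, 0, 2, 0), (3237004813466372882652, 2, 1, 0, 0),
    (-639060399147284796780, 2, 1, 1, 0), (-12636632985877968750, 2, 1, 2, 0),
    (330593314302994871160, 2, 2, 0, 0), (-162251382646892812500, 2, 2, 1, 0),
    (149194963521950280345, 2, 3, 0, 0), (-7394570949375000, 2, 4, 0, 0),
    (172977349129687549728, 3, 0, 0, 0), (2600416633478095547334, 3, 0, 1, 0),
    (-504019074020680146150, 3, 0, 2, 0), (-2768882295991927731696, 3, 1, 0, 0),
    (102989500703626008960, 3, 1, 1, 0), (2808140663528437500, 3, 1, 2, 0),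
    (-97121425707898556895, 3, 2, 0, 0), (53163664656873750000, 3, 2, 1, 0),
    (-60868972942343140320, 3, 3, 0, 0), (1643237988750000, 3, 4, 0, 0),
    (-220077012983204674584, 4, 0, 0, 0), (-1346320911937263480090, 4, 0, 1, 0),
    (117607297743677812500, 4, 0, 2, 0), (1551337798189512159018, 4, 1, 0, 0),
    (56515347794721295350, 4, 1, 1, 0), (-234011721960703125, 4, 1, 2, 0),
    (-14555202748249009140, 4, 2, 0, 0), (-8707255849686093750, 4, 2, 1, 0),
    (13913031447957656250, 4, 3, 0, 0), (-136936499062500, 4, 4, 0, 0),
    (183483607966788393252, 5, 0, 0, 0), (487878070841793964530, 5, 0, 1, 0),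
    (-14705447272541015625, 5, 0, 2, 0), (-601654665885418494090, 5, 1, 0, 0),
    (-30738187075708125000, 5, 1, 1, 0), (18901982200844669220, 5, 2, 0, 0),
    (570260061548437500, 5, 2, 1, 0), (-1688976617069531250, 5, 3, 0, 0),
    (-105241730285628045828, 6, 0, 0, 0), (-125495244120499107300, 6, 0, 1, 0),
    (770717070714375000, 6, 0, 2, 0), (165525925485655154790, 6, 1, 0, 0),
    (5704036851948750000, 6, 1, 1, 0), (-5617519843744687500, 6, 2, 0, 0),
    (85050870899765625, 6, 3, 0, 0), (42367830098470619220, 7, 0, 0, 0),
    (22039317814653281250, 7, 0, 1, 0), (-32204764083838844340, 7, 1, 0, 0),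
    (-386205254555625000, 7, 1, 1, 0), (758623893655078125, 7, 2, 0, 0),
    (-11967391101098260980, 8, 0, 0, 0), (-2359656717471562500, 8, 0, 1, 0),
    (4258348395262031250, 8, 1, 0, 0), (-40171656156562500, 8, 2, 0, 0),
    (2323071832089350760, 9, 0, 0, 0), (115007119544531250, 9, 0, 1, 0),
    (-344618606972812500, 9, 1, 0, 0), (-294878271223125000, 10, 0, 0, 0),
    (12855224639843750, 10, 1, 0, 0), (21996824314687500, 11, 0, 0, 0),
    (-728905217187500, 12, 0, 0, 0)
  ]

/-- The nonnegative remainder in the invariants. -/
def d4rem5 : Bern.Poly where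
  pks := [(0, 1), (0, 2), (0, 3), (0, 4), (1, 0), (1, 1), (1, 2), (1, 3), (2, 0), (2, 1), (2, 2), (3, 0), (3, 1), (3, 2), (4, 0), (4, 1), (5, 0), (6, 0)]
  rows :=
  [((0, 0),
    [
      -564021166080000000, 8477811503639035904, 0, 0, 163992043520000000, 6280640124454699008,
      -5523339780929093632, 0, 3005442138354745344, -9863872628538736640, 0, -15823510467977936896,
      0, 0, 21745895212987711488, 0, 0, 0]),
   ((0, 1),
    [
      71955443089408000000, -4654784436915666944, -7896076697600000000, 0, 24186050314240000000,
      -55251025605807833088, -20074588154702594048, 0, -161881591486070390784, 41256180556145623040,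
      0, 164864844136349433856, -10770343772160000000, 0, -68106569159559610368, 0, 0, 0]),
   ((0, 2),
    [
      -102215290191872000000, 9869747055823650183168, -2779906105312500000000,
      -2138003590722656250000, 2932254779113472000000, 4757119041298614068736,
      -18040596231876445654144, 79305221425781250000, 308039108638852251648,
      -16796303260254604570880, 12513265260703125000000, -6163158384616519314432,
      19282712616750830000000, 196998269926757812500, 8230120597524316816896,
      -4775669828789062500000, -1783390484150390625000, -881191832321777343750]),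
   ((0, 3),
    [
      -505348908646400000000, 22239248842500000000000, 15726171974062500000000,
      -16824391655156250000000, 0, 29222282970000000000000, -105519930360937500000000,
      -19962836142187500000000, 0, -109502712406875000000000, 63359073881718750000000,
      -10648636193379280000000, 123596425928146150000000, -5996876540390625000000,
      55586264258203125000000, -32794791366210937500000, -41368425712851562500000,
      7366579820083007812500]),
   ((0, 4),
    [
      0, -136832229806250000000000, 134595133241250000000000, -45265714889062500000000, 0,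
      15408179223750000000000, 194863419457500000000000, -142525501659375000000000, 0,
      61370703245625000000000, -135088102091250000000000, 68416114903125000000000,
      -166826879086406250000000, 36853519061484375000000, -101253324201562500000000,
      94955915328808593750000, 59872713139921875000000, -2521118242705078125000]),
   ((1, 0),
    [
      -40970851713024000000, 20635794200944705536, 0, 0, 5613535887360000000, 86110225126231375872,
      -7705048015608741888, 0, -9962028681085845504, -43707558353185013760, 0, 269249893248270336,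
      0, 0, -5542738095199223808, 0, 0, 0]),
   ((1, 1),
    [
      -159399381565440000000, -1875112716353449562880, 1826392685625000000000,
      -120376400185546875000, -170324589019136000000, 4364086787201415690240,
      5974627438582759311040, -3938764659843750000000, 1939776195704987320320,
      -14314606616951264699200, -2280177297656250000000, -4367142386324732746880,
      19777646604990345000000, -3478778801381835937500, 6098980960933394264640,
      -8940089367890625000000, -2534041657617187500000, 2852843730468750000]),
   ((1, 2),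
    [
      970843682242560000000, -70294528153125000000000, 52759965180468750000000,
      12178963716093750000000, -433156207411200000000, -48518288437579800000000,
      96442334096018400000000, 9586218956367187500000, 581293446266880000000,
      171229710783456390000000, -135737547233730468750000, -6423396540902220000000,
      -115419305289067462500000, -15101221750883789062500, 73988915882731972500000,
      -39999483036826171875000, -50429666601503906250000, 19159088707888183593750]),
   ((1, 3),
    [
      0, -2537767085625000000000, -79851344568750000000000, 71262750829687500000000, 0,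
      -252080938230000000000000, -76689751650937500000000, 215033852240625000000000, 0,
      1019322265070625000000000, -197821232080546875000000, 16153035471562500000000,
      -670618007610000000000000, -16566121119140625000000, -201169195894218750000000,
      -33612510759140625000000, 264639180214687500000000, -18708468691977539062500]),
   ((2, 0),
    [
      303918571585536000000, -47936644031119884288, 0, 0, -83544306614272000000,
      -936996622125263486976, 43452597194775855104, 0, -235354362397217875968,
      1158007824694388510080, -381026786132812500000, -1077733371977052402688,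
      285430527412785000000, -180564600278320312500, 3297503131234882510464,
      -1438375857363281250000, -2283056409902343750000, 713210932617187500]),
   ((2, 1),
    [
      366811061944320000000, 31924747757369160000000, -27375678101718750000000,
      -1917834476425781250000, 1345095865466880000000, -56614386346433940000000,
      -85614855391728195000000, 63707641566914062500000, -9162315314522160000000,
      136840328161385340000000, 55993716082880859375000, 100704516886284120000000,
      -140170165324423717500000, 7936652889536132812500, -175921298963258062500000,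
      42508896547851562500000, 67882946274184570312500, 11946014501627197265625]),
   ((2, 2),
    [
      0, 200212244171250000000000, -126718147763437500000000, -33772025522812500000000, 0,
      72965673525000000000000, -542950188934921875000000, 98910616040273437500000,
      -24385714312500000000000, -447949728663046875000000, 394040978895820312500000,
      515875466355937500000000, 712604542654218750000000, 42036298651464843750000,
      -1213491950352890625000000, -23706930475151367187500, 562696457706884765625000,
      -48609275120705566406250]),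
   ((3, 0),
    [
      -1101973734555648000000, -4572016360954262531072, 1331079524172410000000,
      1069001795361328125000, 1228162189492224000000, 8573680545408267008256,
      -1816312187648184556224, -504782358486328125000, -4182744827050236628992,
      -50728114505678390772480, 32242216647246093750000, 42190690434850234339328,
      59616555105046045000000, -17729738123151855468750, -62834640354577617192384,
      -15567779136796875000000, 20855418144272460937500, 4866524983883056640625]),
   ((3, 1),
    [
      -689302001418240000000, -154261700934006640000000, 123596425928146150000000,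
      20853359885800781250000, 0, 316442345679845520000000, 230838610578134925000000,
      -167654501902500000000000, -9133776877209120000000, -560680661297694870000000,
      -356302271327109375000000, -476932440840368360000000, 982383561620972315000000,
      -52576399915986328125000, 662337331081863723750000, -351789867661699218750000,
      -237247183053779296875000, -17297571808370361328125]),
   ((3, 2),
    [
      0, 12607889275312500000000, 47975012323125000000000, 36853519061484375000000, 0,
      445283686576875000000000, -241619548014140625000000, 33132242238281250000000,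
      -46224537671250000000000, -253972892465156250000000, 168145194605859375000000,
      -1134703239881718750000000, 420611199327890625000000, -324469594669101562500000,
      1614338436443203125000000, -573607879214414062500000, -340285732977451171875000,
      90728159951499023437500]),
   ((4, 0),
    [
      886245430394880000000, 25566558985131360000000, -27793132129101562500000,
      -6328332762597656250000, -590830286929920000000, -45952145773276680000000,
      73988915882731972500000, 25146149486777343750000, 53208674253447840000000,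
      351842597926516125000000, -303372987588222656250000, -254653010766504060000000,
      -331168665540931861875000, 100896152277700195312500, 87238959229972837500000,
      128387835376384277343750, 106310673590083007812500, -14171236776185302734375]),
   ((4, 1),
    [
      0, 152821434521250000000000, -131179165464843750000000, -47477957664404296875000, 0,
      -572165719545000000000000, 319995864294609375000000, -33612510759140625000000,
      184112109742500000000000, 680142344765625000000000, 47413860950302734375000,
      498168932377500000000000, -1407159470646796875000000, 286803939607207031250000,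
      -1027102683011074218750000, 870902977991162109375000, 147181988758491210937500,
      47546772113459472656250]),
   ((5, 0),
    [
      0, -28534247746406250000000, 82736851425703125000000, 14968178284980468750000, 0,
      81089333043750000000000, -201718666406015625000000, -132319590107343750000000,
      -146115610233750000000000, -543063570193476562500000, 562696457706884765625000,
      333686690308359375000000, 474494366107558593750000, -85071433244362792968750,
      425242694360332031250000, -73590994379245605468750, -825588216121962890625000,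
      70491555605061035156250]),
   ((6, 0),
    [
      0, -56396277268593750000000, -58932638560664062500000, -2521118242705078125000, 0,
      -365163997500000000000, 306545419326210937500000, 37416937383955078125000,
      182581998750000000000, -382272464052070312500000, -194437100482822265625000,
      311457598968515625000000, 138380574466962890625000, 90728159951499023437500,
      -226739788418964843750000, -95093544226918945312500, 281966222420244140625000,
      -125011341297319335937500])]

/-- The nonnegative remainder in three variables. -/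
def d4dom5 : Bern.Poly where
  pks := [(0, 1), (1, 0), (1, 1), (2, 0), (2, 1), (3, 0), (3, 1), (4, 0), (5, 0)]
  rows :=
  [((0, 0),
    [
      150811118117800312500, 779778950625000, -281077945280057528437500, 13420958126320282500000,
      -9949679935813930823437500, 2296323433214228601562500, -31946498732639818009687500,
      24347948773613337039375000, 17536865397255174501562500]),
   ((0, 1),
    [
      24978664376893440, 0, -42552381102747145312500, 299743972522721280,
      -4889748957017598210937500, 681354434025527270625000, -35424103990284797748750000,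
      18609774053089325087812500, 26072456168672614985625000]),
   ((0, 2),
    [
      -319718011142799360, 0, -28774621002851942400, -3836616133713592320, -906400561589836185600,
      -172647726017111654400, -11599959178545007649062500, 2481585441145278457500000,
      13252902345624437564062500]),
   ((1, 0),
    [
      -684563982382006272, 0, 385296096743883928125000, -18115142753576196562500,
      18077513815519224117187500, -3558228304076831548125000, 83507701537377226999687500,
      -52827175385392684699687500, -55217299547845373934375000]),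
   ((1, 1),
    [
      355522261042593792, 0, 31997003493833441280, 4266267132511125504, 892046494653107425312500,
      191982020963000647680, 36456534835386048092812500, -10582152531775664613750000,
      -37747040627218382358750000]),
   ((1, 2),
    [
      0, 0, 0, 0, 0, 0, 0, 0, 1492361082366216353437500]),
   ((2, 0),
    [
      -206719788892815360, 0, -18604781000353382400, -2480637466713784320,
      -2355238857818265114375000, 146188856378804751562500, -48422725271509924951875000,
      15887687932792193616562500, 52335898570273997621250000]),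
   ((2, 1),
    [
      0, 0, 0, 0, 0, 0, -5944066965484015604062500, 0, 11888133930846962305312500]),
   ((3, 0),
    [
      -436099220161560576, 0, -39248929814540451840, -5233190641938726912, -1236341289158024232960,
      -235493578887242711040, 18506424410014420546875000, -2072445200625871881562500,
      -32149917993802678931250000]),
   ((4, 0),
    [
      0, 0, 0, 0, 0, 0, 0, 0, -5894667269860199062500])]

/-- A part of a subdivision. -/
def d4row5P0 : Bern.Cover :=
  (.split 1 .leaf (.split 1 (.split 0 (.split 2 (.split 0 .leaf .leaf) (.split 0 .leaf .leaf))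
    .leaf) (.split 0 (.split 0 .leaf (.split 2 .leaf (.split 0 .leaf .leaf))) .leaf)))

/-- A part of a subdivision. -/
def d4row5P1 : Bern.Cover :=
  (.split 0 (.split 3 .leaf .leaf) (.split 1 (.split 3 .leaf .leaf) (.split 3 (.split 1 .leaf
    .leaf) (.split 1 (.split 3 (.split 3 .leaf .leaf) .leaf) (.split 3 .leaf .leaf)))))

/-- A part of a subdivision. -/
def d4row5P2 : Bern.Cover :=
  .leaf

/-- A part of a subdivision. -/
def d4row5P3 : Bern.Cover :=
  .leaf

/-- A part of a subdivision. -/
def d4row5P4 : Bern.Cover :=
  .leaf

/-- A part of a subdivision. -/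
def d4row5P5 : Bern.Cover :=
  .leaf

/-- A part of a subdivision. -/
def d4row5P6 : Bern.Cover :=
  .leaf

/-- A part of a subdivision. -/
def d4row5P7 : Bern.Cover :=
  (.split 1 (.split 0 (.split 0 .leaf (.split 1 (.split 0 .leaf .leaf) .leaf)) (.split 1 (.split 3
    (.split 0 (.split 0 .leaf .leaf) .leaf) (.split 0 .leaf (.split 3 (.split 0 (.split 3 .leaf
    (.split 0 .leaf .leaf)) .leaf) (.split 0 .leaf .leaf)))) .leaf)) .leaf)

/-- A part of a subdivision. -/
def d4row5P8 : Bern.Cover :=
  .leaf

/-- A part of a subdivision. -/
def d4row5P9 : Bern.Cover :=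
  .leaf

/-- A part of a subdivision. -/
def d4row5P10 : Bern.Cover :=
  .leaf

/-- A part of a subdivision. -/
def d4row5P11 : Bern.Cover :=
  .leaf

/-- A part of a subdivision. -/
def d4row5P12 : Bern.Cover :=
  (.split 3 (.split 2 .leaf (.split 3 (.split 1 (.split 2 .leaf (.split 3 (.split 1 (.split 1
    (.split 1 (.split 3 .leaf .leaf) .leaf) .leaf) .leaf) (.split 1 (.split 0 .leaf .leaf)
    .leaf))) .leaf) .leaf)) .leaf)

/-- A part of a subdivision. -/
def d4row5P13 : Bern.Cover :=
  (.split 2 (.split 1 .leaf .leaf) (.split 0 (.split 1 .leaf (.split 1 .leaf (.split 3 .leaf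
    .leaf))) (.split 1 .leaf (.split 0 (.split 3 .leaf (.split 1 .leaf (.split 0 .leaf .leaf)))
    (.split 3 (.split 2 .leaf .leaf) (.split 1 .leaf .leaf))))))

/-- A part of a subdivision. -/
def d4row5P14 : Bern.Cover :=
  (.split 2 .leaf (.split 0 .leaf (.split 1 (.split 3 (.split 2 .leaf (.split 0 .leaf (.split 1
    (.split 3 (.split 2 .leaf (.split 1 (.split 0 .leaf .leaf) .leaf)) .leaf) .leaf))) .leaf)
    .leaf)))

/-- A part of a subdivision. -/
def d4row5P15 : Bern.Cover :=
  (.split 0 .leaf (.split 1 (.split 0 (.split 0 (.split 1 (.split 0 .leaf (.split 1 (.split 0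
    (.split 1 .leaf .leaf) .leaf) .leaf)) .leaf) (.split 1 .leaf .leaf)) .leaf) .leaf))

/-- A part of a subdivision. -/
def d4row5P16 : Bern.Cover :=
  (.split 1 (.split 1 .leaf (.split 3 (.split 0 (.split 3 .leaf .leaf) (.split 1 (.split 0 .leaf
    .leaf) (.split 3 (.split 1 (.split 0 .leaf (.split 3 (.split 1 .leaf .leaf) .leaf)) .leaf)
    .leaf))) .leaf)) (.split 3 .leaf .leaf))

/-- A part of a subdivision. -/
def d4row5R0 : Bern.Cover :=
  (.split 2 .leaf (.split 0 (.split 2 .leaf (.split 0 .leaf (.split 2 .leaf (.split 1 (.split 2
    .leaf (.split 0 .leaf (.split 1 (.split 2 (.split 0 .leaf (.split 1 (.split 0 .leaf .leaf)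
    .leaf)) (.split 0 .leaf (.split 1 (.split 0 .leaf (.split 1 .leaf .leaf)) .leaf))) .leaf)))
    .leaf)))) (.split 1 (.split 2 (.split 1 (.split 1 (.split 2 .leaf .leaf) .leaf) .leaf) (.split
    1 (.split 0 (.split 2 .leaf (.split 0 (.split 2 (.split 0 .leaf .leaf) (.split 0 (.split 1
    (.split 2 (.split 0 (.split 1 (.split 0 .leaf .leaf) .leaf) .leaf) (.split 1 (.split 0 .leaf
    .leaf) .leaf)) (.split 0 .leaf .leaf)) (.split 1 .leaf .leaf))) (.split 1 .leaf .leaf)))
    (.split 2 (.split 2 (.split 1 .leaf (.split 2 (.split 1 (.split 2 .leaf .leaf) (.split 2 .leaf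
    (.split 1 (.split 1 .leaf .leaf) .leaf))) (.split 1 .leaf .leaf))) .leaf) .leaf)) (.split 2
    (.split 2 .leaf .leaf) (.split 0 (.split 0 .leaf .leaf) .leaf)))) .leaf)))

/-- A part of a subdivision. -/
def d4row5R1 : Bern.Cover :=
  (.split 2 (.split 2 (.split 2 (.split 0 (.split 2 .leaf (.split 2 .leaf .leaf)) (.split 1
    (.split 0 .leaf .leaf) (.split 2 .leaf (.split 0 .leaf (.split 0 .leaf (.split 2 .leaf
    .leaf)))))) (.split 0 .leaf (.split 0 .leaf .leaf))) .leaf) (.split 0 (.split 2 (.split 2
    (.split 2 (.split 2 .leaf .leaf) .leaf) .leaf) .leaf) (.split 2 (.split 1 (.split 2 .leaf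
    (.split 0 (.split 2 .leaf .leaf) (.split 1 (.split 2 (.split 0 (.split 1 (.split 0 .leaf
    .leaf) .leaf) (.split 1 .leaf .leaf)) (.split 0 (.split 1 (.split 2 (.split 0 (.split 1
    (.split 0 (.split 2 .leaf .leaf) (.split 2 (.split 1 (.split 2 (.split 0 .leaf .leaf) (.split
    0 (.split 0 .leaf .leaf) .leaf)) (.split 0 .leaf .leaf)) .leaf)) .leaf) (.split 1 (.split 2
    (.split 1 .leaf .leaf) .leaf) (.split 0 .leaf .leaf))) .leaf) .leaf) (.split 1 .leaf .leaf)))
    .leaf))) .leaf) (.split 1 (.split 0 .leaf .leaf) .leaf))))

/-- A part of a subdivision. -/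
def d4row5R2 : Bern.Cover :=
  (.split 0 (.split 1 (.split 2 (.split 1 .leaf .leaf) .leaf) (.split 2 (.split 2 .leaf .leaf)
    .leaf)) (.split 1 (.split 2 .leaf (.split 2 (.split 2 (.split 2 .leaf .leaf) .leaf) .leaf))
    (.split 0 (.split 1 .leaf .leaf) .leaf)))

/-- A part of a subdivision. -/
def d4row5R3 : Bern.Cover :=
  (.split 2 (.split 0 (.split 1 (.split 2 .leaf .leaf) (.split 2 .leaf .leaf)) (.split 1 .leaf
    .leaf)) (.split 2 (.split 1 .leaf (.split 2 (.split 1 .leaf (.split 2 (.split 1 .leaf .leaf)
    (.split 1 (.split 2 (.split 1 .leaf (.split 2 (.split 1 .leaf .leaf) .leaf)) .leaf) (.split 2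
    (.split 2 .leaf .leaf) .leaf)))) .leaf)) .leaf))

/-- A part of a subdivision. -/
def d4row5R4 : Bern.Cover :=
  (.split 0 (.split 2 .leaf .leaf) (.split 2 (.split 0 (.split 1 (.split 2 (.split 0 (.split 1
    (.split 2 .leaf .leaf) .leaf) (.split 1 (.split 2 (.split 0 (.split 0 (.split 1 .leaf (.split
    2 .leaf (.split 0 .leaf .leaf))) .leaf) .leaf) (.split 0 (.split 0 (.split 0 .leaf .leaf)
    .leaf) .leaf)) (.split 2 (.split 0 (.split 0 (.split 1 (.split 2 .leaf .leaf) .leaf) (.split 1
    (.split 1 .leaf .leaf) .leaf)) .leaf) (.split 0 (.split 1 (.split 0 .leaf .leaf) .leaf)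
    .leaf)))) .leaf) .leaf) (.split 1 .leaf (.split 0 .leaf (.split 0 .leaf .leaf)))) (.split 1
    (.split 2 (.split 2 .leaf .leaf) (.split 1 .leaf (.split 1 .leaf (.split 2 (.split 1 .leaf
    .leaf) (.split 1 .leaf (.split 1 (.split 2 .leaf .leaf) (.split 2 .leaf .leaf))))))) (.split 0
    .leaf (.split 0 .leaf (.split 0 (.split 2 .leaf .leaf) (.split 2 (.split 2 (.split 2 (.split 0
    (.split 0 (.split 2 .leaf .leaf) (.split 2 .leaf .leaf)) .leaf) .leaf) .leaf) (.split 1
    (.split 1 (.split 1 (.split 2 .leaf (.split 1 .leaf .leaf)) .leaf) .leaf) .leaf))))))))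

/-- The row. -/
def d4row5 : Row where
  W := d4W 5
  D := d4D 5
  G := d4sym5
  a := 7739670528
  e := d4E 5
  kR := 524288
  kG := 754974720000000
  kP := 15
  I := 12
  J := 8
  P := d4rem5
  cfg := ⟨12, 12, 10, 12, 12, 441⟩
  cov := (.split 2 d4row5P0 (.split 0 d4row5P1 (.split 3 (.split 1 (.split 2 d4row5P2 (.split 0 (.split 3
    (.split 2 d4row5P3 (.split 3 (.split 2 d4row5P4 (.split 1 (.split 0 d4row5P5 (.split 3 (.split
    2 d4row5P6 d4row5P7) d4row5P8)) d4row5P9)) d4row5P10)) d4row5P11) d4row5P12)) (.split 1
    d4row5P13 d4row5P14)) (.split 1 d4row5P15 d4row5P16))))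
  lay := ⟨170, 13, 13, 13, 13⟩
  R3 := d4dom5
  cfg3 := ⟨8, 8, 8, 10, 10, 575⟩
  cov3 := (.split 2 d4row5R0 (.split 0 d4row5R1 (.split 2 d4row5R2 (.split 1 d4row5R3 d4row5R4))))
  lay3 := ⟨101, 5, 3, 15, 1⟩

set_option maxHeartbeats 8000000 in
theorem d4row5_parts :
    rowRest (terms 0) d4row5 = true ∧
    Bern.coverU d4row5.cfg d4row5.P d4row5P0
      ((Bern.unitBox).cut 2 Bern.Ax.left) = true ∧
    Bern.coverU d4row5.cfg d4row5.P d4row5P1
      (((Bern.unitBox).cut 2 Bern.Ax.right).cut 0 Bern.Ax.left) = true ∧
    Bern.coverU d4row5.cfg d4row5.P d4row5P2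
      ((((((Bern.unitBox).cut 2 Bern.Ax.right).cut 0 Bern.Ax.right).cut 3 Bern.Ax.left).cut 1
    Bern.Ax.left).cut 2 Bern.Ax.left) = true ∧
    Bern.coverU d4row5.cfg d4row5.P d4row5P3
      (((((((((Bern.unitBox).cut 2 Bern.Ax.right).cut 0 Bern.Ax.right).cut 3 Bern.Ax.left).cut
    1 Bern.Ax.left).cut 2 Bern.Ax.right).cut 0 Bern.Ax.left).cut 3 Bern.Ax.left).cut 2
    Bern.Ax.left) = true ∧
    Bern.coverU d4row5.cfg d4row5.P d4row5P4
      (((((((((((Bern.unitBox).cut 2 Bern.Ax.right).cut 0 Bern.Ax.right).cut 3
    Bern.Ax.left).cut 1 Bern.Ax.left).cut 2 Bern.Ax.right).cut 0 Bern.Ax.left).cut 3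
    Bern.Ax.left).cut 2 Bern.Ax.right).cut 3 Bern.Ax.left).cut 2 Bern.Ax.left) = true ∧
    Bern.coverU d4row5.cfg d4row5.P d4row5P5
      (((((((((((((Bern.unitBox).cut 2 Bern.Ax.right).cut 0 Bern.Ax.right).cut 3
    Bern.Ax.left).cut 1 Bern.Ax.left).cut 2 Bern.Ax.right).cut 0 Bern.Ax.left).cut 3
    Bern.Ax.left).cut 2 Bern.Ax.right).cut 3 Bern.Ax.left).cut 2 Bern.Ax.right).cut 1
    Bern.Ax.left).cut 0 Bern.Ax.left) = true ∧
    Bern.coverU d4row5.cfg d4row5.P d4row5P6
      (((((((((((((((Bern.unitBox).cut 2 Bern.Ax.right).cut 0 Bern.Ax.right).cut 3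
    Bern.Ax.left).cut 1 Bern.Ax.left).cut 2 Bern.Ax.right).cut 0 Bern.Ax.left).cut 3
    Bern.Ax.left).cut 2 Bern.Ax.right).cut 3 Bern.Ax.left).cut 2 Bern.Ax.right).cut 1
    Bern.Ax.left).cut 0 Bern.Ax.right).cut 3 Bern.Ax.left).cut 2 Bern.Ax.left) = true ∧
    Bern.coverU d4row5.cfg d4row5.P d4row5P7
      (((((((((((((((Bern.unitBox).cut 2 Bern.Ax.right).cut 0 Bern.Ax.right).cut 3
    Bern.Ax.left).cut 1 Bern.Ax.left).cut 2 Bern.Ax.right).cut 0 Bern.Ax.left).cut 3
    Bern.Ax.left).cut 2 Bern.Ax.right).cut 3 Bern.Ax.left).cut 2 Bern.Ax.right).cut 1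
    Bern.Ax.left).cut 0 Bern.Ax.right).cut 3 Bern.Ax.left).cut 2 Bern.Ax.right) = true ∧
    Bern.coverU d4row5.cfg d4row5.P d4row5P8
      ((((((((((((((Bern.unitBox).cut 2 Bern.Ax.right).cut 0 Bern.Ax.right).cut 3
    Bern.Ax.left).cut 1 Bern.Ax.left).cut 2 Bern.Ax.right).cut 0 Bern.Ax.left).cut 3
    Bern.Ax.left).cut 2 Bern.Ax.right).cut 3 Bern.Ax.left).cut 2 Bern.Ax.right).cut 1
    Bern.Ax.left).cut 0 Bern.Ax.right).cut 3 Bern.Ax.right) = true ∧
    Bern.coverU d4row5.cfg d4row5.P d4row5P9
      ((((((((((((Bern.unitBox).cut 2 Bern.Ax.right).cut 0 Bern.Ax.right).cut 3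
    Bern.Ax.left).cut 1 Bern.Ax.left).cut 2 Bern.Ax.right).cut 0 Bern.Ax.left).cut 3
    Bern.Ax.left).cut 2 Bern.Ax.right).cut 3 Bern.Ax.left).cut 2 Bern.Ax.right).cut 1
    Bern.Ax.right) = true ∧
    Bern.coverU d4row5.cfg d4row5.P d4row5P10
      ((((((((((Bern.unitBox).cut 2 Bern.Ax.right).cut 0 Bern.Ax.right).cut 3
    Bern.Ax.left).cut 1 Bern.Ax.left).cut 2 Bern.Ax.right).cut 0 Bern.Ax.left).cut 3
    Bern.Ax.left).cut 2 Bern.Ax.right).cut 3 Bern.Ax.right) = true ∧
    Bern.coverU d4row5.cfg d4row5.P d4row5P11
      ((((((((Bern.unitBox).cut 2 Bern.Ax.right).cut 0 Bern.Ax.right).cut 3 Bern.Ax.left).cut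
    1 Bern.Ax.left).cut 2 Bern.Ax.right).cut 0 Bern.Ax.left).cut 3 Bern.Ax.right) = true ∧
    Bern.coverU d4row5.cfg d4row5.P d4row5P12
      (((((((Bern.unitBox).cut 2 Bern.Ax.right).cut 0 Bern.Ax.right).cut 3 Bern.Ax.left).cut 1
    Bern.Ax.left).cut 2 Bern.Ax.right).cut 0 Bern.Ax.right) = true ∧
    Bern.coverU d4row5.cfg d4row5.P d4row5P13
      ((((((Bern.unitBox).cut 2 Bern.Ax.right).cut 0 Bern.Ax.right).cut 3 Bern.Ax.left).cut 1
    Bern.Ax.right).cut 1 Bern.Ax.left) = true ∧
    Bern.coverU d4row5.cfg d4row5.P d4row5P14
      ((((((Bern.unitBox).cut 2 Bern.Ax.right).cut 0 Bern.Ax.right).cut 3 Bern.Ax.left).cut 1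
    Bern.Ax.right).cut 1 Bern.Ax.right) = true ∧
    Bern.coverU d4row5.cfg d4row5.P d4row5P15
      (((((Bern.unitBox).cut 2 Bern.Ax.right).cut 0 Bern.Ax.right).cut 3 Bern.Ax.right).cut 1
    Bern.Ax.left) = true ∧
    Bern.coverU d4row5.cfg d4row5.P d4row5P16
      (((((Bern.unitBox).cut 2 Bern.Ax.right).cut 0 Bern.Ax.right).cut 3 Bern.Ax.right).cut 1
    Bern.Ax.right) = true ∧
    Bern.coverU d4row5.cfg3 d4row5.R3 d4row5R0
      ((box3).cut 2 Bern.Ax.left) = true ∧
    Bern.coverU d4row5.cfg3 d4row5.R3 d4row5R1
      (((box3).cut 2 Bern.Ax.right).cut 0 Bern.Ax.left) = true ∧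
    Bern.coverU d4row5.cfg3 d4row5.R3 d4row5R2
      ((((box3).cut 2 Bern.Ax.right).cut 0 Bern.Ax.right).cut 2 Bern.Ax.left) = true ∧
    Bern.coverU d4row5.cfg3 d4row5.R3 d4row5R3
      (((((box3).cut 2 Bern.Ax.right).cut 0 Bern.Ax.right).cut 2 Bern.Ax.right).cut 1
    Bern.Ax.left) = true ∧
    Bern.coverU d4row5.cfg3 d4row5.R3 d4row5R4
      (((((box3).cut 2 Bern.Ax.right).cut 0 Bern.Ax.right).cut 2 Bern.Ax.right).cut 1
    Bern.Ax.right) = true := by
  exact ⟨by decide +kernel,
    by decide +kernel,
    by decide +kernel,
    by decide +kernel,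
    by decide +kernel,
    by decide +kernel,
    by decide +kernel,
    by decide +kernel,
    by decide +kernel,
    by decide +kernel,
    by decide +kernel,
    by decide +kernel,
    by decide +kernel,
    by decide +kernel,
    by decide +kernel,
    by decide +kernel,
    by decide +kernel,
    by decide +kernel,
    by decide +kernel,
    by decide +kernel,
    by decide +kernel,
    by decide +kernel,
    by decide +kernel⟩

theorem d4row5_cover : Bern.coverU d4row5.cfg d4row5.P d4row5.cov Bern.unitBox = true :=
  (Bern.coverU_split (d4row5_parts.2.1) (Bern.coverU_split (d4row5_parts.2.2.1) (Bern.coverU_split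
    (Bern.coverU_split (Bern.coverU_split (d4row5_parts.2.2.2.1) (Bern.coverU_split
    (Bern.coverU_split (Bern.coverU_split (d4row5_parts.2.2.2.2.1) (Bern.coverU_split
    (Bern.coverU_split (d4row5_parts.2.2.2.2.2.1) (Bern.coverU_split (Bern.coverU_split
    (d4row5_parts.2.2.2.2.2.2.1) (Bern.coverU_split (Bern.coverU_split
    (d4row5_parts.2.2.2.2.2.2.2.1) (d4row5_parts.2.2.2.2.2.2.2.2.1))
    (d4row5_parts.2.2.2.2.2.2.2.2.2.1))) (d4row5_parts.2.2.2.2.2.2.2.2.2.2.1)))
    (d4row5_parts.2.2.2.2.2.2.2.2.2.2.2.1))) (d4row5_parts.2.2.2.2.2.2.2.2.2.2.2.2.1))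
    (d4row5_parts.2.2.2.2.2.2.2.2.2.2.2.2.2.1))) (Bern.coverU_split
    (d4row5_parts.2.2.2.2.2.2.2.2.2.2.2.2.2.2.1) (d4row5_parts.2.2.2.2.2.2.2.2.2.2.2.2.2.2.2.1)))
    (Bern.coverU_split (d4row5_parts.2.2.2.2.2.2.2.2.2.2.2.2.2.2.2.2.1)
    (d4row5_parts.2.2.2.2.2.2.2.2.2.2.2.2.2.2.2.2.2.1)))))

theorem d4row5_cover3 : Bern.coverU d4row5.cfg3 d4row5.R3 d4row5.cov3 box3 = true :=
  (Bern.coverU_split (d4row5_parts.2.2.2.2.2.2.2.2.2.2.2.2.2.2.2.2.2.2.1) (Bern.coverU_split
    (d4row5_parts.2.2.2.2.2.2.2.2.2.2.2.2.2.2.2.2.2.2.2.1) (Bern.coverU_split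
    (d4row5_parts.2.2.2.2.2.2.2.2.2.2.2.2.2.2.2.2.2.2.2.2.1) (Bern.coverU_split
    (d4row5_parts.2.2.2.2.2.2.2.2.2.2.2.2.2.2.2.2.2.2.2.2.2.1)
    (d4row5_parts.2.2.2.2.2.2.2.2.2.2.2.2.2.2.2.2.2.2.2.2.2.2)))))

theorem d4row5_ok : d4RowFor 5 d4row5 = true := by
  simp only [d4RowFor, Bool.and_eq_true, decide_eq_true_eq]
  exact ⟨⟨⟨rfl, rfl⟩, rfl⟩, rowCheck_of_quick d4row5_parts.1 d4row5_cover d4row5_cover3⟩

end Vale.Agent.P154.Anti
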