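import Vale.Agent.P154.Anti.D4Data

/-!
P154: the data of the six rows of the low stage with at most four children, channel `-1/2`.
-/

namespace Vale.Agent.P154.Anti

open Kron BudgetRow

/-- The functional of stage `j` at the node `i`; stage `0` is the potential. -/
def w4T : ℕ → ℕ → List Term
  | 0, _ => terms 0
  | j, i => v4T j i

/-- The left coefficient of a row. -/
def d4W : ℕ → List Term
  | 0 => terms 0
  | 1 => terms 0
  | 2 => w4T 1 1
  | 3 => w4T 1 2
  | 4 => w4T 2 1
  | _ => w4T 2 2

/-- The right coefficient of a row. -/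
def d4D : ℕ → List Term
  | 0 => b4T
  | 1 => c4T 0
  | 2 => b4T ++ c4T 1
  | 3 => c4T 1
  | 4 => b4T ++ c4T 2
  | _ => c4T 2

/-- The left factor of a row. -/
def d4E : ℕ → ℕ
  | 2 => 240000000
  | 4 => 240000000
  | _ => 120000000

/-- The row is the one with index `i`, and passes the check. -/
def d4RowFor (i : ℕ) (r : Row) : Bool :=
  decide (r.W = d4W i) && decide (r.D = d4D i) && decide (r.e = d4E i) && rowCheck (terms 0) r

end Vale.Agent.P154.Anti
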