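import Vale.Agent.P154.Anti.D4Glue
import Vale.Agent.P154.Anti.D4Row0
import Vale.Agent.P154.Anti.D4Row1
import Vale.Agent.P154.Anti.D4Row2
import Vale.Agent.P154.Anti.D4Row3
import Vale.Agent.P154.Anti.D4Row4
import Vale.Agent.P154.Anti.D4Row5

/-!
P154: the six certified rows of the low stage with at most four children.
-/

namespace Vale.Agent.P154.Anti

open BudgetRow

/-- The six rows. -/
def d4Rows : ℕ → Row
  | 0 => d4row0
  | 1 => d4row1
  | 2 => d4row2
  | 3 => d4row3
  | 4 => d4row4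
  | _ => d4row5

theorem d4Rows_ok : ∀ i ≤ 5, d4RowFor i (d4Rows i) = true := by
  intro i hi
  interval_cases i
  exacts [d4row0_ok, d4row1_ok, d4row2_ok, d4row3_ok, d4row4_ok, d4row5_ok]

/-- Nonreconstruction once the mean potential is low, with the certified rows. -/
theorem d4_low {lam : ℝ} (hl0 : -1 / 2 ≤ lam) (hl1 : lam ≤ 0) {d : ℕ} (hd : d ≤ 4) {N : ℕ}
    (hN : treeMean 3 lam pot (regularLaw d) N ≤ 7 / 50) :
    NonReconstruction 3 lam (regularLaw d) :=
  d4_low_of_rows d4Rows d4Rows_ok hl0 hl1 hd hN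

end Vale.Agent.P154.Anti
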