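import Vale.Agent.P154.Anti.D4Glue
import Vale.Agent.P154.Upgrade.Final

/-!
P154: nonreconstruction with at most four children on the antiferromagnetic side, from the rows
of the low part and the computed upper part.
-/

namespace Vale.Agent.P154.Anti

open BudgetRow

/-- At most four children, every parameter in `[-1/2, 0]`. -/
theorem d4_of_rows (rows : ℕ → Row) (h : ∀ i ≤ 5, d4RowFor i (rows i) = true) {lam : ℝ}
    (hl0 : -1 / 2 ≤ lam) (hl1 : lam ≤ 0) {d : ℕ} (hd : d ≤ 4) :
    NonReconstruction 3 lam (regularLaw d) := by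
  have hν : ∀ k, regularLaw d k ≠ 0 → k ≤ 4 := fun k hk => by
    by_contra hc
    refine hk ?_
    have hne : k ≠ d := by omega
    simp [regularLaw, hne]
  obtain ⟨h1, h2⟩ := Upgrade.upgrade_four hl0 hl1 hν (n := 145) le_rfl
  exact d4_of_moments rows h hl0 hl1 hd (by norm_num) (by norm_num) (by norm_num) h1 h2

/-- The form used by the assembly. -/
theorem antiSmall_of_rows (rows : ℕ → Row) (h : ∀ i ≤ 5, d4RowFor i (rows i) = true) :
    ∀ l : ℝ, -1 / 2 ≤ l → l ≤ -9 / 20 → ∀ d : ℕ, 2 ≤ d → d ≤ 4 →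
      NonReconstruction 3 l (regularLaw d) :=
  fun _ h0 h1 _ _ hd => d4_of_rows rows h h0 (le_trans h1 (by norm_num)) hd

end Vale.Agent.P154.Anti
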