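import Vale.Agent.P154.Anti.RowData
import Vale.Agent.P154.BudgetRowGen

/-!
P154: the data of the seven rows at the channel `-9/20`. The modules of checked rows need only
this file and the checkers.
-/

namespace Vale.Agent.P154.Anti

open Kron BudgetRow

/-- Bernstein coefficient 1, times `30000000`. -/
def regB1 : List Term :=
  [(23400000, 0, 0, 0, 0), (-19051560, 0, 1, 0, 0), (41729070, 0, 2, 0, 0),
   (28643670, 1, 0, 0, 0), (-62698920, 1, 1, 0, 0), (115718610, 1, 2, 0, 0),
   (287820, 2, 0, 0, 0), (-446937540, 2, 1, 0, 0), (286494240, 3, 0, 0, 0),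
   (78114840, 4, 0, 0, 0)]

/-- Bernstein coefficient 2, times `30000000`. -/
def regB2 : List Term :=
  [(46612800, 0, 0, 0, 0), (-8232870, 0, 1, 0, 0), (3757950, 0, 2, 0, 0),
   (27996270, 1, 0, 0, 0), (276966660, 1, 1, 0, 0), (406559700, 1, 2, 0, 0),
   (-202709130, 2, 0, 0, 0), (-892516290, 2, 1, 0, 0), (362707200, 3, 0, 0, 0),
   (25081260, 4, 0, 0, 0)]

/-- The two blossom arguments of a row, times fifty. -/
def regPts : ℕ → ℕ × ℕ
  | 0 => (0, 0)
  | 1 => (0, 7)
  | 2 => (7, 7)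
  | 3 => (7, 19)
  | 4 => (19, 19)
  | 5 => (19, 50)
  | _ => (50, 50)

/-- The concavity. -/
def regK : List Term :=
  [(187200, 0, 0, 0, 0), (-29870250, 0, 1, 0, 0), (70645650, 0, 2, 0, 0),
   (-708930, 1, 0, 0, 0), (-410364330, 1, 1, 0, 0), (-169790910, 1, 2, 0, 0),
   (198130830, 2, 0, 0, 0), (8162610, 2, 1, 0, 0), (224367240, 3, 0, 0, 0),
   (110157540, 4, 0, 0, 0)]

/-- The last increment. -/
def regInc : List Term := regB2 ++ smulT (-1) regB1

/-- The left coefficient of a row, times `30000000 * 2500`. -/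
def regW (i : ℕ) : List Term :=
  let a : ℤ := (regPts i).1
  let b : ℤ := (regPts i).2
  smulT ((50 - a) * (50 - b)) (terms 0) ++
    (smulT ((50 - a) * b + a * (50 - b)) regB1 ++ smulT (a * b) regB2)

/-- The slope of a row, times `30000000 * 2500`. -/
def regD (i : ℕ) : List Term :=
  let a : ℤ := (regPts i).1
  let b : ℤ := (regPts i).2
  smulT (50 * (100 - a - b)) (regB1 ++ smulT (-1) (terms 0)) ++ smulT (50 * (a + b)) regInc

/-- The left factor of a row. -/
def regE : ℕ := 10816 * 30000000 ^ 2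

/-- The square of the potential at the second point. -/
def regP2 : List Term :=
  [(81984694611600, 0, 0, 0, 4), (543272400000000, 0, 0, 1, 2), (144869561456400, 0, 0, 1, 3),
   (-96549827655600, 0, 0, 1, 4), (900000000000000, 0, 0, 2, 0), (479989800000000, 0, 0, 2, 1),
   (-162563808195900, 0, 0, 2, 2), (-257727101578200, 0, 0, 2, 3), (28425638664900, 0, 0, 2, 4),
   (309236400000000, 0, 0, 3, 0), (-488822712339600, 0, 0, 3, 1), (-462380123012400, 0, 0, 3, 2),
   (101528021196000, 0, 0, 3, 3), (-818594502476400, 0, 0, 4, 0), (-323516019405600, 0, 0, 4, 1),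
   (620983146664800, 0, 0, 4, 2), (1114256414635200, 0, 0, 5, 0), (604083062188800, 0, 0, 5, 1),
   (-223828692163200, 0, 0, 5, 2), (414785741256000, 0, 0, 6, 0), (-399725129664000, 0, 0, 6, 1),
   (-591353392089600, 0, 0, 7, 0), (440617043174400, 0, 0, 8, 0)]

/-- The right side of a row. -/
def regR (i : ℕ) : List Term :=
  smulT regE (regW i) ++
    (smulT (1404 * 30000000) (lmul (regD i) (toSnd (terms 0))) ++
      smulT (-455625) (lmul regK regP2))

/-- A certified row: `Q` is the average of the node bound, and `P` the slack left to the right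
side. -/
structure RegCert where
  r : Row
  Q : List Term
  P : Bern.Poly
  cfg : Bern.Cfg
  cov : Bern.Cover
  m1 : ℕ
  m2 : ℕ
  m3 : ℕ
  lay : Lay

/-- The polynomial of the splitting of the right side, which vanishes. -/
def gapPoly {α : Type} (o : Ops α) (i : ℕ) (c : RegCert) (x : Fin 4 → α) : α :=
  Aux3.evO o (smulT c.m3 (regR i) ++ (smulT (-(c.m1 : ℤ)) c.Q ++
    smulT (-(c.m2 : ℤ)) (Aux3.toTerms c.P))) x

/-- The row is the one with index `i`, and passes the checks. -/
def regRowFor (i : ℕ) (c : RegCert) : Bool :=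
  decide (c.r.W = regW i) && decide (0 < c.m3) && decide (c.m1 * c.r.e = c.m3 * regE) &&
    rowCheckGen 9 20 12 c.Q c.r && Bern.check c.cfg c.P c.cov &&
    zeroOK c.lay (gapPoly kOps i c c.lay.var)

lemma regRow_sound {i : ℕ} {c : RegCert} (h : regRowFor i c = true) {s u : Fin 3 → ℝ}
    (hs : s ∈ stdSimplex ℝ (Fin 3)) (hu : u ∈ stdSimplex ℝ (Fin 3)) :
    (regE : ℝ) * mergeAvg (polyT (regW i)) s (chanMap (-((9 : ℕ) : ℝ) / (20 : ℕ)) u) ≤
      evalT (regR i) ![tI s, cI s, tI u, cI u] := by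
  simp only [regRowFor, Bool.and_eq_true, decide_eq_true_eq] at h
  obtain ⟨⟨⟨⟨⟨hW, h3⟩, hm⟩, hc⟩, hb⟩, hz⟩ := h
  have key := rowGen_sound hc hs hu
  rw [hW] at key
  have hrel : Rel c.lay (fun x => gapPoly rOps i c x) (gapPoly kOps i c c.lay.var) :=
    Aux3.rel_evO (F := fun x => x) (V := c.lay.var) (fun k => rel_var c.lay k) _
  have hzero := rel_zero hrel hz ![tI s, cI s, tI u, cI u]
  simp only [gapPoly, Aux3.evO_r, Aux3.evalT_append, evalT_smulT, Aux3.evalT_toTerms] at hzero
  push_cast at hzero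
  obtain ⟨ρ, v, hρ, hv, e1, e2⟩ := Aux3.param hs
  obtain ⟨ρ', v', hρ', hv', e3, e4⟩ := Aux3.param hu
  have hP := Bern.check_sound hb hρ hv hρ' hv'
  rw [← e1, ← e2, ← e3, ← e4] at hP
  have h3' : (0 : ℝ) < c.m3 := Nat.cast_pos.mpr h3
  have hm' : (c.m1 : ℝ) * c.r.e = c.m3 * regE := by exact_mod_cast hm
  refine le_of_mul_le_mul_left ?_ h3'
  have h1 := mul_le_mul_of_nonneg_left key (Nat.cast_nonneg c.m1)
  rw [← mul_assoc, hm', mul_assoc] at h1
  have h2 := mul_nonneg (Nat.cast_nonneg c.m2 : (0 : ℝ) ≤ c.m2) hP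
  linarith

end Vale.Agent.P154.Anti
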