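import Vale.Agent.P154.Anti.RegTable
import Vale.Agent.P154.Anti.Reg.Row0
import Vale.Agent.P154.Anti.Reg.Row1
import Vale.Agent.P154.Anti.Reg.Row2
import Vale.Agent.P154.Anti.Reg.Row3
import Vale.Agent.P154.Anti.Reg.Row4
import Vale.Agent.P154.Anti.Reg.Row5
import Vale.Agent.P154.Anti.Reg.Row6

/-!
P154: three states on regular trees, every channel in `[-9/20, 0]` up to the threshold.
-/

namespace Vale.Agent.P154.Anti

open scoped NNReal

/-- The seven certified rows. -/
def regRows : ℕ → RegCert
  | 0 => regData0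
  | 1 => regData1
  | 2 => regData2
  | 3 => regData3
  | 4 => regData4
  | 5 => regData5
  | _ => regData6

/-- Nonreconstruction on the regular trees for every channel in `[-9/20, 0]` with `d λ² ≤ 1`. -/
theorem antiRegular {lam : ℝ} (h0 : -9 / 20 ≤ lam) (h1 : lam ≤ 0) {d : ℕ}
    (hd : (d : ℝ) * lam ^ 2 ≤ 1) : NonReconstruction 3 lam (regularLaw d) :=
  antiRegular_of_rows regRows (fun i hi => by
    interval_cases i
    exacts [regRow0_ok, regRow1_ok, regRow2_ok, regRow3_ok, regRow4_ok, regRow5_ok, regRow6_ok])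
    h0 h1 hd

end Vale.Agent.P154.Anti
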