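import Vale.Agent.P154.Anti.Side
import Vale.Agent.P154.Anti.RegData
import Vale.Agent.P154.BudgetRowGen
import Vale.Agent.P154.FastBern

/-!
P154: three states on regular trees at the channel `-9/20`: one quadratic budget functional and
the theorem from seven rows of data.
-/

namespace Vale.Agent.P154.Anti

open Kron BudgetRow
open scoped NNReal

/-- The middle coefficient. -/
noncomputable def rb1 (s : Fin 3 → ℝ) : ℝ := polyT regB1 s / den

/-- The last coefficient. -/
noncomputable def rb2 (s : Fin 3 → ℝ) : ℝ := polyT regB2 s / den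

/-- The second-order coefficient in the budget. -/
noncomputable def rK (s : Fin 3 → ℝ) : ℝ := (2 * rb1 s - pot s - rb2 s) * (625 / 1521)

/-- The blossom of the quadratic. -/
noncomputable def rPolar (a b : ℝ) (s : Fin 3 → ℝ) : ℝ :=
  (1 - a) * (1 - b) * pot s + ((1 - a) * b + a * (1 - b)) * rb1 s + a * b * rb2 s

/-- The derivative in the budget at the coordinate `x`. -/
noncomputable def rSlope (x : ℝ) (s : Fin 3 → ℝ) : ℝ :=
  2 * ((1 - x) * (rb1 s - pot s) + x * (rb2 s - rb1 s)) * (25 / 39)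

/-- The budget functional. -/
noncomputable def rV (s : Fin 3 → ℝ) (A : ℝ) : ℝ := rPolar (A * (25 / 39)) (A * (25 / 39)) s

/-- The subdivision for concavity. -/
def regKCov : Bern.Cover :=
  .split 0 (.split 1 (.split 0 .leaf .leaf) (.split 0 .leaf .leaf))
    (.split 1 (.split 0 .leaf .leaf) (.split 0 .leaf .leaf))

/-- The checks of concavity and monotonicity. -/
def regSideOK : Bool :=
  firstOnly regK && Bern.check sideCfg (posPoly regK) regKCov &&
  firstOnly regInc && Bern.check sideCfg (posPoly regInc) .leaf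

/-- The fast form of the checks. -/
def regSideF : Bool :=
  firstOnly regK && Bern.checkF sideCfg (posPoly regK) regKCov &&
  firstOnly regInc && Bern.checkF sideCfg (posPoly regInc) .leaf

theorem regSideF_eq : regSideF = true := by decide +kernel

theorem regSideOK_eq : regSideOK = true := by
  have h := regSideF_eq
  simp only [regSideF, Bool.and_eq_true] at h
  simp only [regSideOK, Bool.and_eq_true]
  exact ⟨⟨⟨h.1.1.1, Bern.check_of_fast h.1.1.2⟩, h.1.2⟩, Bern.check_of_fast h.2⟩

lemma rK_nonneg {p : Fin 3 → ℝ} (hp : p ∈ stdSimplex ℝ (Fin 3)) : 0 ≤ rK p := by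
  have h := regSideOK_eq
  simp only [regSideOK, Bool.and_eq_true] at h
  have h1 := polyT_nonneg h.1.1.1 h.1.1.2 hp
  have e : polyT regK p = 2 * polyT regB1 p - polyT (terms 0) p - polyT regB2 p := by
    simp [polyT, evalT, regK, regB1, regB2, termVal, terms, row]
    ring
  rw [e] at h1
  refine mul_nonneg ?_ (by norm_num)
  rw [pot_eq]
  simp only [rb1, rb2, coef, mul_div_assoc', ← sub_div]
  refine div_nonneg ?_ den_pos.le
  linarith

lemma rb1_le_rb2 {p : Fin 3 → ℝ} (hp : p ∈ stdSimplex ℝ (Fin 3)) : rb1 p ≤ rb2 p := by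
  have h := regSideOK_eq
  simp only [regSideOK, Bool.and_eq_true] at h
  have h1 := polyT_nonneg h.1.2 h.2 hp
  simp only [polyT, regInc, evalT_append, evalT_smulT] at h1
  refine div_le_div_of_nonneg_right ?_ den_pos.le
  simp only [polyT]
  push_cast at h1
  linarith

lemma rSlope_nonneg {x : ℝ} (_hx0 : 0 ≤ x) (hx1 : x ≤ 1) {p : Fin 3 → ℝ}
    (hp : p ∈ stdSimplex ℝ (Fin 3)) : 0 ≤ rSlope x p := by
  have h2 := rb1_le_rb2 hp
  have hk := rK_nonneg hp
  rw [rK] at hk
  unfold rSlope
  have : rb2 p - rb1 p ≤ rb1 p - pot p := by linarith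
  have := mul_le_mul_of_nonneg_left this (sub_nonneg.mpr hx1)
  nlinarith

lemma reg_row (i : ℕ) (r : RegCert) (h : regRowFor i r = true) {s u : Fin 3 → ℝ}
    (hs : s ∈ stdSimplex ℝ (Fin 3)) (hu : u ∈ stdSimplex ℝ (Fin 3)) :
    mergeAvg (rPolar (((regPts i).1 : ℝ) / 50) (((regPts i).2 : ℝ) / 50)) s (chanMap (-9 / 20) u) ≤
      rPolar (((regPts i).1 : ℝ) / 50) (((regPts i).2 : ℝ) / 50) s
        + rSlope ((((regPts i).1 : ℝ) + (regPts i).2) / 100) s * (81 / 400 * pot u)
        - rK s * (81 / 400 * pot u) ^ 2 := by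
  have key := regRow_sound h hs hu
  have hWp : ∀ p, polyT (regW i) p =
      2500 * den * rPolar (((regPts i).1 : ℝ) / 50) (((regPts i).2 : ℝ) / 50) p := by
    intro p
    simp only [polyT, regW, evalT_append, evalT_smulT, rPolar, rb1, rb2, pot_eq, coef]
    push_cast
    field_simp [den_pos.ne']
    ring
  have hm : mergeAvg (polyT (regW i)) s (chanMap (-((9 : ℕ) : ℝ) / (20 : ℕ)) u) = 2500 * den *
      mergeAvg (rPolar (((regPts i).1 : ℝ) / 50) (((regPts i).2 : ℝ) / 50)) s
        (chanMap (-9 / 20) u) := by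
    rw [funext hWp, mergeAvg_eq, mergeAvg_eq]
    push_cast
    rw [Finset.sum_div, Finset.sum_div, Finset.mul_sum]
    exact Finset.sum_congr rfl fun σ _ => by ring
  rw [hm] at key
  have hD : evalT (regD i) ![tI s, cI s, tI u, cI u] = den * 2500 * (39 / 25) *
      rSlope ((((regPts i).1 : ℝ) + (regPts i).2) / 100) s := by
    rw [evalT_first _ (by simp [regD, regInc, regB1, regB2, firstOnly, smulT, terms, row]) _]
    simp only [regD, regInc, evalT_append, evalT_smulT, rSlope, rb1, rb2, pot_eq, coef, polyT,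
      Matrix.cons_val_zero, Matrix.cons_val_one]
    push_cast
    field_simp [den_pos.ne']
    ring
  have hK : evalT regK ![tI s, cI s, tI u, cI u] = den * (1521 / 625) * rK s := by
    simp [evalT, regK, regB1, regB2, rK, rb1, rb2, pot_eq, coef, polyT, termVal, terms, row]
    field_simp [den_pos.ne']
    ring
  have hP : evalT (toSnd (terms 0)) ![tI s, cI s, tI u, cI u] = den * pot u := by
    rw [evalT_toSnd _ (by decide +kernel) _, pot_eq]
    simp only [coef, polyT, Matrix.cons_val_two, Matrix.cons_val_three, Matrix.tail_cons,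
      Matrix.head_cons]
    field_simp [den_pos.ne']
  have hR : evalT (regR i) ![tI s, cI s, tI u, cI u] = (regE : ℝ) * (2500 * den) *
      (rPolar (((regPts i).1 : ℝ) / 50) (((regPts i).2 : ℝ) / 50) s
        + rSlope ((((regPts i).1 : ℝ) + (regPts i).2) / 100) s * (81 / 400 * pot u)
        - rK s * (81 / 400 * pot u) ^ 2) := by
    have hd : den = 30000000 := rfl
    have hf : evalT (regW i) ![tI s, cI s, tI u, cI u] = polyT (regW i) s := by
      rw [evalT_first _ (by simp [regW, regB1, regB2, firstOnly, smulT, terms, row]) _]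
      rfl
    have hP2 : evalT regP2 ![tI s, cI s, tI u, cI u] =
        evalT (toSnd (terms 0)) ![tI s, cI s, tI u, cI u] ^ 2 := by
      simp [evalT, regP2, termVal, toSnd, terms, row]
      ring
    simp only [regR, evalT_append, evalT_smulT, evalT_lmul, hD, hK, hP, hP2, hf, hWp, regE, hd]
    push_cast
    ring
  rw [hR] at key
  have hpos : (0 : ℝ) < (regE : ℝ) * (2500 * den) := by
    have := den_pos
    have : (0 : ℝ) < (regE : ℝ) := by norm_num [regE]
    positivity
  refine le_of_mul_le_mul_left (le_trans (le_of_eq ?_) key) hpos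
  ring

lemma reg_merge (rows : ℕ → RegCert) (h : ∀ i ≤ 6, regRowFor i (rows i) = true) {r : ℝ} (h0 : 0 ≤ r)
    (h1 : r ≤ 39 / 25) {s u : Fin 3 → ℝ} (hs : s ∈ stdSimplex ℝ (Fin 3))
    (hu : u ∈ stdSimplex ℝ (Fin 3)) :
    mergeAvg (rV · r) s (chanMap (-9 / 20) u) ≤
      rV s r + rSlope (r * (25 / 39)) s * (81 / 400 * pot u) - rK s * (81 / 400 * pot u) ^ 2 := by
  obtain ⟨x, hx⟩ : ∃ x, r * (25 / 39) = x := ⟨_, rfl⟩
  have hx0 : 0 ≤ x := by rw [← hx]; positivity
  have hx1 : x ≤ 1 := by rw [← hx]; linarith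
  simp only [rV, hx]
  obtain ⟨i, hi, ha, hb, hab⟩ : ∃ i, i + 2 ≤ 6 ∧ ((regPts i).1 : ℝ) / 50 ≤ x ∧
      x ≤ ((regPts (i + 2)).1 : ℝ) / 50 ∧
      ((regPts i).1 = (regPts i).2 ∧ (regPts (i + 1)).1 = (regPts i).1 ∧
        (regPts (i + 1)).2 = (regPts (i + 2)).1 ∧ (regPts (i + 2)).2 = (regPts (i + 2)).1 ∧
        (regPts i).1 < (regPts (i + 2)).1) := by
    rcases le_total x (7 / 50) with c1 | c1
    · exact ⟨0, by norm_num, by norm_num [regPts]; linarith, by norm_num [regPts]; linarith,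
        by decide⟩
    rcases le_total x (19 / 50) with c2 | c2
    · exact ⟨2, by norm_num, by norm_num [regPts]; linarith, by norm_num [regPts]; linarith,
        by decide⟩
    · exact ⟨4, by norm_num, by norm_num [regPts]; linarith, by norm_num [regPts]; linarith,
        by decide⟩
  obtain ⟨e0, e1, e2, e3, hlt⟩ := hab
  have k0 := reg_row i _ (h i (by omega)) hs hu
  have k1 := reg_row (i + 1) _ (h (i + 1) (by omega)) hs hu
  have k2 := reg_row (i + 2) _ (h (i + 2) (by omega)) hs hu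
  rw [← e0] at k0
  rw [e1, e2] at k1
  rw [e3] at k2
  obtain ⟨a, hae⟩ : ∃ a : ℝ, ((regPts i).1 : ℝ) = a := ⟨_, rfl⟩
  obtain ⟨b, hbe⟩ : ∃ b : ℝ, ((regPts (i + 2)).1 : ℝ) = b := ⟨_, rfl⟩
  rw [hae] at k0 k1 ha
  rw [hbe] at k1 k2 hb
  have hab' : a < b := by rw [← hae, ← hbe]; exact_mod_cast hlt
  obtain ⟨z, hz⟩ : ∃ z, (50 * x - a) / (b - a) = z := ⟨_, rfl⟩
  have hba : 0 < b - a := sub_pos.mpr hab'
  have hz0 : 0 ≤ z := by rw [← hz]; exact div_nonneg (by linarith) hba.le
  have hz1 : z ≤ 1 := by rw [← hz, div_le_one hba]; linarith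
  have hxz : x = (1 - z) * (a / 50) + z * (b / 50) := by
    rw [← hz]
    field_simp
    ring
  have hw0 : 0 ≤ (1 - z) ^ 2 := sq_nonneg _
  have hw1 : 0 ≤ 2 * z * (1 - z) := mul_nonneg (by linarith) (by linarith)
  have hw2 : 0 ≤ z ^ 2 := sq_nonneg _
  have hV : ∀ p, rPolar x x p = (1 - z) ^ 2 * rPolar (a / 50) (a / 50) p +
      2 * z * (1 - z) * rPolar (a / 50) (b / 50) p + z ^ 2 * rPolar (b / 50) (b / 50) p := by
    intro p
    rw [hxz]
    simp only [rPolar]
    ring
  have hD : rSlope x s = (1 - z) ^ 2 * rSlope ((a + a) / 100) s +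
      2 * z * (1 - z) * rSlope ((a + b) / 100) s + z ^ 2 * rSlope ((b + b) / 100) s := by
    rw [hxz]
    simp only [rSlope]
    ring
  rw [funext hV, hD]
  have := mul_le_mul_of_nonneg_left k0 hw0
  have := mul_le_mul_of_nonneg_left k1 hw1
  have := mul_le_mul_of_nonneg_left k2 hw2
  have hm := mergeAvg_sum ![(1 - z) ^ 2, 2 * z * (1 - z), z ^ 2]
    ![rPolar (a / 50) (a / 50), rPolar (a / 50) (b / 50), rPolar (b / 50) (b / 50)] s
    (chanMap (-9 / 20) u)
  simp [Fin.sum_univ_three] at hm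
  rw [hm]
  have hK : rK s = ((1 - z) ^ 2 + 2 * z * (1 - z) + z ^ 2) * rK s := by ring
  rw [hK]
  linarith

lemma bddOn_rV (A : ℝ) : BddOn (rV · A) := by
  obtain ⟨M0, h0⟩ := isPotential_pot.bddOn
  obtain ⟨M1, g1⟩ := bddOn_polyT regB1
  obtain ⟨M2, g2⟩ := bddOn_polyT regB2
  refine ⟨|(1 - A * (25 / 39)) * (1 - A * (25 / 39))| * M0 + |(1 - A * (25 / 39)) * (A * (25 / 39))
    + A * (25 / 39) * (1 - A * (25 / 39))| * (M1 / den) + |A * (25 / 39) * (A * (25 / 39))| *
    (M2 / den), fun p hp => ?_⟩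
  simp only [rV, rPolar]
  refine (abs_add_le _ _).trans (add_le_add ((abs_add_le _ _).trans (add_le_add ?_ ?_)) ?_)
  all_goals
    rw [abs_mul]
    refine mul_le_mul_of_nonneg_left ?_ (abs_nonneg _)
  · exact h0 p hp
  · rw [rb1, abs_div, abs_of_pos den_pos]
    exact div_le_div_of_nonneg_right (g1 p hp) den_pos.le
  · rw [rb2, abs_div, abs_of_pos den_pos]
    exact div_le_div_of_nonneg_right (g2 p hp) den_pos.le

/-- Nonreconstruction on the regular trees from the seven rows, for every channel in `[-9/20, 0]`. -/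
theorem antiRegular_of_rows (rows : ℕ → RegCert) (h : ∀ i ≤ 6, regRowFor i (rows i) = true) {lam : ℝ}
    (h0 : -9 / 20 ≤ lam) (h1 : lam ≤ 0) {d : ℕ} (hd : (d : ℝ) * lam ^ 2 ≤ 1) :
    NonReconstruction 3 lam (regularLaw d) := by
  have hu : rb1 (fun _ => (1 : ℝ) / 3) = 39 / 50 ∧
      rb2 (fun _ => (1 : ℝ) / 3) = 97110 / 62500 := by
    have ht : tI (fun _ => (1 : ℝ) / 3) = 0 := by simp [tI]
    have hc : cI (fun _ => (1 : ℝ) / 3) = 0 := by simp [cI]
    constructor <;>
      simp only [rb1, rb2, polyT, ht, hc] <;>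
      simp [evalT, regB1, regB2, termVal, den] <;> norm_num
  have hp0 : pot (fun _ => (1 : ℝ) / 3) = 0 := isPotential_pot.uniform
  have hV : ∀ A, rV (fun _ => (1 : ℝ) / ((3 : ℕ) : ℝ)) A =
      A - (2 * (39 / 50) - 97110 / 62500) * (A * (25 / 39)) ^ 2 := by
    intro A
    push_cast
    simp only [rV, rPolar, hu.1, hu.2, hp0]
    ring
  have key := nonReconstruction_regular_of_budget (q := 3) (by norm_num) (l0 := -9 / 20)
    (c := -20 / 9 * lam) (by norm_num) (by norm_num) (by linarith) (by linarith) (Φ := pot)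
    (V := rV) (β := fun s r k => rSlope ((r + k) * (25 / 39)) s) (M := 39 / 25) (d := d)
    isPotential_pot (fun p hp => pot_le hp)
    (fun p hp => by
      rw [chanMap_simplex _ hp]
      exact pot_shrink_le (by linarith) (by linarith) hp)
    (by rw [show (-9 / 20 : ℝ) * (-20 / 9 * lam) = lam by ring]; exact hd)
    (fun A _ => bddOn_rV A)
    (fun p _ => by simp [rV, rPolar])
    ?_ ?_ ?_ ?_
  · rwa [show (-9 / 20 : ℝ) * (-20 / 9 * lam) = lam by ring] at key
  · intro kap hk0 hkM r hr hrk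
    have hx1 : (r + kap) * (25 / 39) ≤ 1 := by linarith
    have hr0 := hr.1
    have hx0 : 0 ≤ (r + kap) * (25 / 39) := by positivity
    refine ⟨?_, fun p hp => rSlope_nonneg hx0 hx1 hp, fun s hs u hu' => ?_⟩
    · obtain ⟨M0, g0⟩ := bddOn_rV 0
      obtain ⟨M1, g1⟩ := bddOn_polyT regB1
      obtain ⟨M2, g2⟩ := bddOn_polyT regB2
      refine ⟨2 * (M0 + 3 * (M1 / den) + 3 * (M2 / den)), fun p hp => ?_⟩
      have a0 := g0 p hp
      have a1 := div_le_div_of_nonneg_right (g1 p hp) den_pos.le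
      have a2 := div_le_div_of_nonneg_right (g2 p hp) den_pos.le
      rw [← abs_of_pos den_pos, ← abs_div, abs_of_pos den_pos] at a1 a2
      simp only [rV, rPolar, zero_mul, sub_zero, one_mul, mul_zero, add_zero] at a0
      rw [abs_le] at a0
      have b1 : |rb1 p| ≤ M1 / den := a1
      have b2 : |rb2 p| ≤ M2 / den := a2
      rw [abs_le] at b1 b2
      have := rSlope_nonneg hx0 hx1 hp
      rw [abs_of_nonneg this]
      simp only [rSlope]
      nlinarith
    · have hm := reg_merge rows h hr.1 (by linarith) hs hu'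
      have hk := rK_nonneg hs
      refine hm.trans ?_
      have e : rV s r + rSlope (r * (25 / 39)) s * (81 / 400 * pot u) -
          rK s * (81 / 400 * pot u) ^ 2 =
          rV s (r + kap) + rSlope ((r + kap) * (25 / 39)) s * ((-9 / 20) ^ 2 * pot u - kap) -
            rK s * (81 / 400 * pot u - kap) ^ 2 := by
        simp only [rV, rPolar, rSlope, rK]
        ring
      rw [e]
      nlinarith [sq_nonneg (81 / 400 * pot u - kap)]
  · simp only [funext hV]
    fun_prop
  · rw [hV]; norm_num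
  · intro A hA0 hA
    rw [hV]
    have := pow_pos (show (0 : ℝ) < A * (25 / 39) by positivity) 2
    linarith

end Vale.Agent.P154.Anti
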