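import Vale.Agent.P154.Anti.RowData
import Vale.Agent.P154.RowQuick

/-!
P154: the certificate of the row of piece 0 and index 0.
-/

namespace Vale.Agent.P154.Anti

open Kron BudgetRow

/-- The polynomial which dominates the merged coefficient. -/
noncomputable def sym00 : List Term :=
  [
    (452555226562500, 0, 0, 0, 0), (4775847773637656250, 0, 0, 1, 0),
    (193477629075040172790, 0, 0, 2, 0), (-7029039506411250000, 0, 1, 0, 0),
    (-93145845049548772950, 0, 1, 1, 0), (1801904816579068800, 0, 1, 2, 0),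
    (20479407187871368800, 0, 2, 0, 0), (-12218812384128407550, 0, 2, 1, 0),
    (18337411482871498920, 0, 3, 0, 0), (1305685326380535900, 0, 4, 0, 0),
    (342414190029375000, 1, 0, 0, 0), (-8244436935720937500, 1, 0, 1, 0),
    (-345007253190424258575, 1, 0, 2, 0), (19310529570650156250, 1, 1, 0, 0),
    (136345330527401799000, 1, 1, 1, 0), (-1835151571480435200, 1, 1, 2, 0),
    (-45517081155404143950, 1, 2, 0, 0), (16866609089434992450, 1, 2, 1, 0),
    (-33986532055371675750, 1, 3, 0, 0), (-1409971648466523600, 1, 4, 0, 0),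
    (-4022823841875000, 2, 0, 0, 0), (24891459146288445150, 2, 0, 1, 0),
    (255425623545709562850, 2, 0, 2, 0), (-36524455539899141700, 2, 1, 0, 0),
    (-65063835693550988100, 2, 1, 1, 0), (696924825311980800, 2, 1, 2, 0),
    (39673893066921024030, 2, 2, 0, 0), (-9515784228581277900, 2, 2, 1, 0),
    (25250281586782159050, 2, 3, 0, 0), (576286110884039400, 2, 4, 0, 0),
    (15827395545000000, 3, 0, 0, 0), (-33736548270112967790, 3, 0, 1, 0),
    (-100410801166181425050, 3, 0, 2, 0), (44833945583444430150, 3, 1, 0, 0),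
    (1974221928380362050, 3, 1, 1, 0), (-115645345993198080, 3, 1, 2, 0),
    (-15342796725218133525, 3, 2, 0, 0), (2729816424495684900, 3, 2, 1, 0),
    (-9716625945488648700, 3, 3, 0, 0), (-105183631156591440, 3, 4, 0, 0),
    (-30163472157174300, 4, 0, 0, 0), (21048182962170346350, 4, 0, 1, 0),
    (22092999792943350150, 4, 0, 2, 0), (-35153063157739171410, 4, 1, 0, 0),
    (8995583109732584850, 4, 1, 1, 0), (6962555070000000, 4, 1, 2, 0),
    (1209162457767609900, 4, 2, 0, 0), (-396928618419795030, 4, 2, 1, 0),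
    (2049433582475346300, 4, 3, 0, 0), (7205306070937500, 4, 4, 0, 0),
    (34012644127074000, 5, 0, 0, 0), (-6318870044445944100, 5, 0, 1, 0),
    (-2578735704138960015, 5, 0, 2, 0), (17781468523006466250, 5, 1, 0, 0),
    (-3404279077315614900, 5, 1, 1, 0), (1092195319988200500, 5, 2, 0, 0),
    (23351042892656250, 5, 2, 1, 0), (-224734967055229950, 5, 3, 0, 0),
    (-24553775633261400, 6, 0, 0, 0), (637973452854527850, 6, 0, 1, 0),
    (124727783086406250, 6, 0, 2, 0), (-5841029026436499000, 6, 1, 0, 0),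
    (523268983838514600, 6, 1, 1, 0), (-405085606681033350, 6, 2, 0, 0),
    (9996617054531250, 6, 3, 0, 0), (11797856898729300, 7, 0, 0, 0),
    (115152118417368450, 7, 0, 1, 0), (1231705642942150650, 7, 1, 0, 0),
    (-30381502262343750, 7, 1, 1, 0), (57206814557999175, 7, 2, 0, 0),
    (-3823038072503100, 8, 0, 0, 0), (-34856943256385280, 8, 0, 1, 0),
    (-159761541127603050, 8, 1, 0, 0), (-3009443554687500, 8, 2, 0, 0),
    (826670079147600, 9, 0, 0, 0), (2502087510937500, 9, 0, 1, 0), (11493250314150060, 9, 1, 0, 0),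
    (-114422082976800, 10, 0, 0, 0), (-345996950625000, 10, 1, 0, 0), (9174488065620, 11, 0, 0, 0),
    (-324230937500, 12, 0, 0, 0)
  ]

/-- The nonnegative remainder in the invariants. -/
noncomputable def rem00 : Bern.Poly where
  pks := [(0, 1), (0, 2), (0, 3), (0, 4), (1, 0), (1, 1), (1, 2), (1, 3), (2, 0), (2, 1), (2, 2), (3, 0), (3, 1), (3, 2), (4, 0), (4, 1), (5, 0), (6, 0)]
  rows :=
  [((0, 0),
    [
      0, 59339833344000000, 0, 0, 0, 62913223065600000, -36688026009600000, 0, 27021488947200000,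
      -68639391744000000, 0, -92313747456000000, 0, 0, 144444122726400000, 0, 0, 0]),
   ((0, 1),
    [
      591114167910400000, -37552093665951744, -50920692121600000, 0, -31044612915200000,
      -547033386313842688, -53582468039835648, 12229342003200000, 815853757559996416,
      138705949074391040, 3491836723200000, -1030976063950290944, 122617155584000000, 0,
      593082315513004032, -48148040908800000, -128394775756800000, 0]),
   ((0, 2),
    [
      100808943206400000, -8330771275228825600, 3100558387500000000, -871389813281250000,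
      3462739997491200000, 403927689329868800, 10820358614710364800, -3155234049218750000,
      -9931149786847641600, -2585034810874504000, -4110026611100475000, 20399601843825894400,
      -1534730869424600000, 1103036164648437500, -19509012050253053200, 2668088669353087500,
      7484842508903562500, -787368147167968750]),
   ((0, 3),
    [
      -3258924295782400000, -24804467100000000000, 4974505850000000000, -1622403850000000000,
      -521785258803200000, 28208248595936000000, 6720252804412400000, -6069818612500000000,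
      5050244425318400000, -74557006371287400000, 13736389740900100000, -8818089627267200000,
      52897317818252600000, -6685455992968750000, 20438667812200200000, -12221200837813537500,
      -18112700700990700000, 4182775791601562500]),
   ((0, 4),
    [
      0, -55768948050000000000, 12979230800000000000, 57545412500000000, 0, -1018755200000000000,
      69531549962500000000, -19789388087500000000, 0, 9215718937500000000, -48902105462500000000,
      27884474025000000000, -23623297193750000000, -868747337500000000, -38069262018750000000,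
      10480401142968750000, 23299087864062500000, -22900767578125000]),
   ((1, 0),
    [
      -25812166246400000, 161486905076613120, 4076447334400000, 0, 5631220121600000,
      -246629925824757760, -72507129977896960, 0, -60526315299143680, 225135784283340800,
      8152894668800000, -165338254414970880, -73807852339200000, 0, 79807837191536640, 0,
      -32098693939200000, 0]),
   ((1, 1),
    [
      -2099955210649600000, -749022893951795200, 1763015537246000000, 7959025000000000,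
      -227789661798400000, 5538626412612249600, 6614277454138581600, -2261717045235412500,
      -6163526081590067200, -1570014668013768000, -5495548445534850000, 9341242155428044800,
      1223146110731975000, -510743785839843750, -6715275140821124400, -1367096714649350000,
      2295138911916150000, -333578984765625000]),
   ((1, 2),
    [
      2184777931161600000, 43611723036068194816, -3360126402206200000, 4345721872656250000,
      -5616327668531200000, -50045413333505741568, -4749804167619304128, -267203471093750000,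
      40541465485706264576, 118089822190725461440, -32062145922288850000, -136646207564377936384,
      -47606202300782750000, -8978343853906250000, 161522853288443952352, -12244154450514862500,
      -60611917226514650000, 9967339425683593750]),
   ((1, 3),
    [
      3130711552819200000, 100967489575000000000, -24279274450000000000, 9894694043750000000, 0,
      -144749890895066400000, 2137627768750000000, -3865991284375000000, -4696067329228800000,
      339187402709067600000, -71793231332163400000, 1931292204986400000, -170758436759847900000,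
      388568557812500000, -72502289167503400000, 42504140666026637500, 77205931895769200000,
      -4402424216992187500]),
   ((2, 0),
    [
      -1660112234086400000, -2421346651649605632, -157820138291200000, 0, 86540602572800000,
      2980351059327451136, 2485913275229536256, 36688026009600000, -867882640819505152,
      -2691172379760762880, -1244930720817925000, 2228233591373856768, 1011805638446250000,
      11938537500000000, -1319206170020056704, -746181145689300000, 61663416868350000,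
      -83394746191406250]),
   ((2, 1),
    [
      1799495666892800000, 4446673749780678272, -18639251592821850000, -287991216796875000,
      -7752602248806400000, -9220253991305753856, -58792614358089841376, 21199212669316725000,
      20600744561986568192, 9076163795447920480, 54103163525838750000, 11676301308170167872,
      -27228648171944062500, 2354545363769531250, -22700504165035239216, 15744669227118234375,
      -10830705775361662500, 4791837753369140625]),
   ((2, 2),
    [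
      -446955100569600000, -65760425777607600000, -27472779481800200000, -12225526365625000000,
      2087141035212800000, 175857550257115200000, -128248583689155400000, 35896615666081700000,
      -79675566132347200000, -432825308206710000000, 235515172929818800000, 418834474361543000000,
      233097843899483600000, -50714025390625000, -499563048119573750000, -8710746303840175000,
      110287255343534175000, -12987132632519531250]),
   ((3, 0),
    [
      8558334233804800000, 21515190005796791296, 1102261203408400000, 435694906640625000,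
      -316547530752000000, -15994747615500484608, -34689986074929443968, -60352881405825000,
      9930267634548473856, -6448573543269315360, 26177154647596437500, -43344903573167675904,
      24892734149625200000, -5325186576074218750, 50648323936758241912, -5710069147100456250,
      -16723190629571243750, 1995471916064453125]),
   ((3, 1),
    [
      7847497957376000000, 12277846955396800000, 52897317818252600000, 2952912149218750000,
      9447405099417600000, 19570337771711600000, 95212404601565500000, -42689609189961975000,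
      -32377780430280000000, -108914592687776250000, -116548921949741800000, -199141873197001600000,
      196634011699739750000, -3383867992968750000, 281720876188554300000, -70117852234501828125,
      -24317438619811362500, -13330316015869140625]),
   ((3, 2),
    [
      0, 70594314537500000000, 53483647943750000000, -868747337500000000, 0, 65375204587500000000,
      -143653501662500000000, -777137115625000000, 3056265600000000000, -75345451640625000000,
      -202856101562500000, -340811940868750000000, 27070943943750000000, 30212782588671875000,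
      524892420245312500000, -10978529114453125000, -138816303359375000000, -11815005453906250000]),
   ((4, 0),
    [
      -20829614270054400000, -79745533138415121472, -10219333906100100000, -2379328876171875000,
      7594315717017600000, 42065993772165507456, 161763747990744906976, 9062786145937925000,
      -24359338525589563392, 43844580063258791520, -124890762029893437500, 194907762025767528928,
      -140860438094277150000, 32805776265332031250, -289697050192198041184, 46148578316810462500,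
      111207476299581293750, -10353323668896484375]),
   ((4, 1),
    [
      -12325898472652800000, -85378837419298800000, -48884803351254150000, -5240200571484375000, 0,
      -87494189737558400000, 97953235604118900000, 42504140666026637500, 95511186648230400000,
      251914707633891750000, 17421492607680350000, 182722212707214600000, -280471408938007312500,
      5489264557226562500, -369188626534483700000, 33043331108884875000, 35751308962604500000,
      5362064812304687500]),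
   ((5, 0),
    [
      16434531296870400000, 119757480142457000000, 36225401401981400000, 5824771966015625000,
      -8217265648435200000, -73444445181316800000, -242447668906058600000, -38602965947884600000,
      3946458679574400000, 86645646202893300000, 110287255343534175000, -267571050073139900000,
      48634877239622725000, -34704075839843750000, 444829905198325175000, -17875654481302250000,
      -132047130413650912500, 8518766992675781250]),
   ((6, 0),
    [
      0, -50391561418750000000, -33462206332812500000, -22900767578125000, 0, 42698110050000000000,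
      159477430810937500000, 8804848433984375000, -21349055025000000000, -153338808107812500000,
      -51948530530078125000, 127710202628125000000, 106642528126953125000, -11815005453906250000,
      -165653178702343750000, -10724129624609375000, 34075067970703125000, 19321809229003906250])]

/-- The nonnegative remainder in three variables. -/
noncomputable def dom00 : Bern.Poly where
  pks := [(0, 1), (1, 0), (1, 1), (2, 0), (2, 1), (3, 0), (3, 1), (4, 0), (5, 0)]
  rows :=
  [((0, 0),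
    [
      3087158372983125000, 452555226562500, 2829225635803099687500, -153088452910732500000,
      107610657822715055625000, -24599936607879026250000, 188048395151626294687500,
      -227418150718451680312500, -10032422332705520625000]),
   ((0, 1),
    [
      0, 0, 257895779776433437500, 0, -51802335805621950000000, -912046993443174375000,
      -1315626715653794223750000, 480706486556439287812500, 1131394487260468770000000]),
   ((0, 2),
    [
      -630712407443374080, 0, -56764116669903667200, -7568548889320488960, -1788069675101965516800,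
      -340584700019422003200, -2322823461117890970937500, 555598031942327709375000,
      2430678726511492100625000]),
   ((1, 0),
    [
      -2089711042560000000, 0, -2989967549085793125000, 164707534162383750000,
      134893299269645552812500, 11030696885588810625000, 3696603975400282166250000,
      -1286557966153223012812500, -3450066484441511154375000]),
   ((1, 1),
    [
      -557244436320092160, 0, -50151999268808294400, -6686933235841105920, 134226854105274649687500,
      -300911995612849766400, 6217517113703743868437500, -1859569003631556320625000,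
      -6061038094664928374062500]),
   ((1, 2),
    [
      371381356772720640, 0, 33424322109544857600, 4456576281272647680, 1052866146450663014400,
      200545932657269145600, 22741908763334321111040, 5053757502963182469120,
      -44402246747470440000000]),
   ((2, 0),
    [
      -359008177689722880, 0, -32310735992075059200, -4308098132276674560,
      -324211466688221385000000, 14735623424005777500000, -8425466674664064201562500,
      2689199518799488570312500, 8525554925135094523125000]),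
   ((2, 1),
    [
      663232490687692800, 0, 59690924161892352000, 7958789888252313600, 1880264111099609088000,
      358145544971354112000, -440392063513847335312500, 9025267733278123622400,
      803330625881882348437500]),
   ((3, 0),
    [
      981186205235281920, 0, 88306758471175372800, 11774234462823383040, 2781662891842024243200,
      529840550827052236800, 2470981522338795746250000, -347583288336517996875000,
      -3636714840132771630000000]),
   ((4, 0),
    [
      -1462162457635061760, 0, -131594621187155558400, -17545949491620741120,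
      -4145230567395400089600, -789567727122933350400, -89536980255740641935360,
      -19897106723497920430080, 310164800155252770937500])]

/-- A subdivision. -/
noncomputable def cov00 : Bern.Cover :=
  (.split 0 (.split 2 (.split 1 .leaf .leaf) (.split 3 .leaf .leaf)) (.split 1
  (.split 2 (.split 0 (.split 2 (.split 0 (.split 2 .leaf .leaf) (.split 2 .leaf
  (.split 0 .leaf .leaf))) (.split 0 .leaf .leaf)) .leaf) (.split 3 (.split 0 (.split
  0 .leaf (.split 2 .leaf (.split 1 (.split 3 (.split 2 .leaf .leaf) .leaf) .leaf)))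
  (.split 2 (.split 1 .leaf (.split 1 .leaf (.split 0 .leaf (.split 3 (.split 2
  (.split 1 .leaf .leaf) (.split 1 .leaf (.split 2 .leaf .leaf))) .leaf)))) (.split 1
  (.split 0 (.split 2 (.split 0 .leaf .leaf) (.split 3 .leaf .leaf)) .leaf) (.split 3
  .leaf .leaf)))) (.split 0 (.split 3 (.split 0 .leaf (.split 3 (.split 0 .leaf
  .leaf) .leaf)) .leaf) (.split 1 .leaf .leaf)))) (.split 2 (.split 0 (.split 2
  (.split 0 (.split 2 .leaf (.split 1 .leaf .leaf)) (.split 2 .leaf (.split 1 (.split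
  0 .leaf .leaf) .leaf))) (.split 0 .leaf .leaf)) .leaf) (.split 3 (.split 0 (.split
  2 (.split 3 (.split 2 (.split 0 .leaf .leaf) (.split 0 .leaf (.split 3 (.split 0
  .leaf .leaf) .leaf))) .leaf) (.split 3 (.split 0 .leaf (.split 2 (.split 3 .leaf
  (.split 0 .leaf .leaf)) .leaf)) (.split 2 (.split 0 .leaf (.split 3 (.split 0 .leaf
  .leaf) .leaf)) (.split 3 (.split 0 .leaf .leaf) .leaf)))) (.split 2 (.split 3
  (.split 2 .leaf (.split 3 (.split 0 .leaf .leaf) .leaf)) .leaf) (.split 3 (.split 0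
  (.split 2 (.split 3 .leaf .leaf) .leaf) (.split 1 (.split 2 .leaf (.split 1 (.split
  0 .leaf .leaf) (.split 3 (.split 0 .leaf .leaf) .leaf))) .leaf)) (.split 2 .leaf
  (.split 3 .leaf .leaf))))) (.split 0 .leaf .leaf)))))

/-- A subdivision. -/
noncomputable def covDom00 : Bern.Cover :=
  (.split 2 (.split 2 (.split 2 (.split 2 .leaf .leaf) (.split 1 (.split 0 .leaf
  (.split 1 .leaf (.split 2 .leaf (.split 1 .leaf (.split 1 .leaf .leaf))))) (.split
  2 .leaf .leaf))) (.split 0 (.split 2 (.split 0 .leaf (.split 1 (.split 0 (.split 0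
  .leaf .leaf) .leaf) (.split 0 .leaf .leaf))) (.split 0 .leaf (.split 1 (.split 0
  .leaf .leaf) (.split 0 .leaf .leaf)))) (.split 1 (.split 1 .leaf (.split 2 (.split
  1 .leaf .leaf) .leaf)) (.split 2 .leaf .leaf)))) (.split 0 (.split 2 .leaf (.split
  2 (.split 2 (.split 2 .leaf (.split 2 (.split 2 .leaf .leaf) .leaf)) .leaf) .leaf))
  (.split 1 (.split 2 (.split 0 (.split 2 .leaf .leaf) (.split 1 .leaf (.split 0
  (.split 2 .leaf .leaf) (.split 1 .leaf .leaf)))) (.split 0 (.split 1 (.split 0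
  .leaf (.split 1 (.split 0 (.split 1 (.split 0 (.split 0 .leaf (.split 1 (.split 0
  .leaf (.split 1 .leaf .leaf)) .leaf)) (.split 1 (.split 0 .leaf .leaf) (.split 0
  (.split 0 .leaf (.split 0 .leaf .leaf)) .leaf))) (.split 0 .leaf (.split 1 (.split
  0 .leaf (.split 0 .leaf .leaf)) .leaf))) (.split 2 .leaf (.split 1 .leaf (.split 0
  (.split 1 (.split 0 .leaf .leaf) (.split 0 .leaf .leaf)) .leaf)))) (.split 0 .leaf
  (.split 1 (.split 0 (.split 0 .leaf .leaf) (.split 1 .leaf .leaf)) .leaf)))) .leaf)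
  (.split 1 (.split 2 (.split 0 (.split 1 (.split 0 (.split 1 (.split 0 .leaf .leaf)
  .leaf) (.split 1 .leaf (.split 0 .leaf (.split 0 .leaf .leaf)))) (.split 2 .leaf
  (.split 0 .leaf (.split 1 .leaf .leaf)))) (.split 1 .leaf (.split 0 (.split 2 .leaf
  (.split 1 (.split 0 (.split 0 .leaf .leaf) .leaf) (.split 0 (.split 2 .leaf .leaf)
  (.split 2 (.split 0 .leaf .leaf) (.split 0 .leaf .leaf))))) (.split 2 .leaf
  .leaf)))) (.split 0 (.split 1 (.split 0 (.split 2 (.split 1 (.split 0 .leaf .leaf)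
  .leaf) .leaf) (.split 2 (.split 1 (.split 0 (.split 0 .leaf .leaf) .leaf) (.split 0
  .leaf (.split 0 .leaf .leaf))) .leaf)) (.split 0 (.split 1 .leaf (.split 0 (.split
  0 .leaf .leaf) .leaf)) .leaf)) (.split 1 (.split 2 (.split 0 .leaf .leaf) (.split 2
  .leaf .leaf)) (.split 0 (.split 1 (.split 2 (.split 0 .leaf .leaf) .leaf) .leaf)
  (.split 2 .leaf (.split 2 .leaf (.split 2 (.split 1 .leaf .leaf) (.split 1 (.split
  1 (.split 1 .leaf .leaf) .leaf) .leaf)))))))) (.split 0 (.split 1 (.split 2 (.split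
  2 .leaf .leaf) (.split 0 (.split 1 (.split 0 .leaf .leaf) .leaf) (.split 1 (.split
  0 .leaf .leaf) (.split 0 .leaf .leaf)))) .leaf) (.split 2 (.split 1 (.split 2
  (.split 0 (.split 1 (.split 0 (.split 1 .leaf .leaf) (.split 1 (.split 0 (.split 0
  .leaf .leaf) .leaf) (.split 2 .leaf (.split 0 (.split 1 .leaf .leaf) (.split 1
  .leaf .leaf))))) (.split 2 .leaf (.split 0 .leaf .leaf))) (.split 1 .leaf .leaf))
  (.split 0 (.split 1 (.split 0 .leaf (.split 2 (.split 1 (.split 0 (.split 2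
  (.split 1 .leaf (.split 0 .leaf .leaf)) .leaf) (.split 2 (.split 1 .leaf (.split 2
  .leaf .leaf)) .leaf)) (.split 0 (.split 2 .leaf .leaf) (.split 2 (.split 2 (.split
  0 .leaf .leaf) .leaf) .leaf))) .leaf)) .leaf) (.split 1 (.split 2 (.split 1 .leaf
  .leaf) .leaf) .leaf))) .leaf) (.split 1 (.split 0 (.split 0 .leaf .leaf) .leaf)
  (.split 0 (.split 1 (.split 0 .leaf .leaf) .leaf) (.split 1 .leaf (.split 0 (.split
  1 .leaf .leaf) (.split 1 .leaf .leaf)))))))))) (.split 2 (.split 0 (.split 2 (.split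
  0 .leaf .leaf) (.split 0 .leaf (.split 2 (.split 0 (.split 2 (.split 0 (.split 0
  .leaf .leaf) .leaf) .leaf) .leaf) .leaf))) .leaf) (.split 2 .leaf (.split 2 .leaf
  (.split 2 .leaf (.split 2 .leaf (.split 0 .leaf (.split 0 .leaf .leaf))))))))))

/-- The row. -/
noncomputable def row00 : Row where
  W := terms 0
  D := slopeT 0 0
  G := sym00
  a := 23219011584
  e := slopeE 0
  kR := 131072
  kG := 125829120000000
  kP := 1125
  I := 12
  J := 8
  P := rem00
  cfg := ⟨12, 12, 10, 12, 12, 286⟩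
  cov := cov00
  lay := ⟨164, 13, 13, 13, 13⟩
  R3 := dom00
  cfg3 := ⟨8, 8, 8, 10, 10, 532⟩
  cov3 := covDom00
  lay3 := ⟨98, 5, 3, 15, 1⟩

set_option maxHeartbeats 8000000 in
/-- All parts of the check, evaluated one after another. -/
theorem row00_parts :
    rowRest (terms 0) row00 = true ∧
    Bern.coverU row00.cfg row00.P (.split 1 .leaf .leaf) (Bern.Box.cut (Bern.Box.cut Bern.unitBox
      0 Bern.Ax.left) 2 Bern.Ax.left) = true ∧
    Bern.coverU row00.cfg row00.P (.split 3 .leaf .leaf) (Bern.Box.cut (Bern.Box.cut Bern.unitBox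
      0 Bern.Ax.left) 2 Bern.Ax.right) = true ∧
    Bern.coverU row00.cfg row00.P (.split 2 .leaf .leaf) (Bern.Box.cut (Bern.Box.cut (Bern.Box.cut
      (Bern.Box.cut (Bern.Box.cut (Bern.Box.cut Bern.unitBox 0 Bern.Ax.right) 1 Bern.Ax.left) 2
      Bern.Ax.left) 0 Bern.Ax.left) 2 Bern.Ax.left) 0 Bern.Ax.left) = true ∧
    Bern.coverU row00.cfg row00.P (.split 2 .leaf (.split 0 .leaf .leaf)) (Bern.Box.cut
      (Bern.Box.cut (Bern.Box.cut (Bern.Box.cut (Bern.Box.cut (Bern.Box.cut Bern.unitBox 0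
      Bern.Ax.right) 1 Bern.Ax.left) 2 Bern.Ax.left) 0 Bern.Ax.left) 2 Bern.Ax.left) 0
      Bern.Ax.right) = true ∧
    Bern.coverU row00.cfg row00.P (.split 0 .leaf .leaf) (Bern.Box.cut (Bern.Box.cut (Bern.Box.cut
      (Bern.Box.cut (Bern.Box.cut Bern.unitBox 0 Bern.Ax.right) 1 Bern.Ax.left) 2 Bern.Ax.left) 0
      Bern.Ax.left) 2 Bern.Ax.right) = true ∧
    Bern.coverU row00.cfg row00.P .leaf (Bern.Box.cut (Bern.Box.cut (Bern.Box.cut (Bern.Box.cut
      Bern.unitBox 0 Bern.Ax.right) 1 Bern.Ax.left) 2 Bern.Ax.left) 0 Bern.Ax.right) = true ∧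
    Bern.coverU row00.cfg row00.P .leaf (Bern.Box.cut (Bern.Box.cut (Bern.Box.cut (Bern.Box.cut
      (Bern.Box.cut (Bern.Box.cut Bern.unitBox 0 Bern.Ax.right) 1 Bern.Ax.left) 2 Bern.Ax.right) 3
      Bern.Ax.left) 0 Bern.Ax.left) 0 Bern.Ax.left) = true ∧
    Bern.coverU row00.cfg row00.P .leaf (Bern.Box.cut (Bern.Box.cut (Bern.Box.cut (Bern.Box.cut
      (Bern.Box.cut (Bern.Box.cut (Bern.Box.cut Bern.unitBox 0 Bern.Ax.right) 1 Bern.Ax.left) 2
      Bern.Ax.right) 3 Bern.Ax.left) 0 Bern.Ax.left) 0 Bern.Ax.right) 2 Bern.Ax.left) = true ∧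
    Bern.coverU row00.cfg row00.P (.split 3 (.split 2 .leaf .leaf) .leaf) (Bern.Box.cut
      (Bern.Box.cut (Bern.Box.cut (Bern.Box.cut (Bern.Box.cut (Bern.Box.cut (Bern.Box.cut
      (Bern.Box.cut Bern.unitBox 0 Bern.Ax.right) 1 Bern.Ax.left) 2 Bern.Ax.right) 3 Bern.Ax.left)
      0 Bern.Ax.left) 0 Bern.Ax.right) 2 Bern.Ax.right) 1 Bern.Ax.left) = true ∧
    Bern.coverU row00.cfg row00.P .leaf (Bern.Box.cut (Bern.Box.cut (Bern.Box.cut (Bern.Box.cut
      (Bern.Box.cut (Bern.Box.cut (Bern.Box.cut (Bern.Box.cut Bern.unitBox 0 Bern.Ax.right) 1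
      Bern.Ax.left) 2 Bern.Ax.right) 3 Bern.Ax.left) 0 Bern.Ax.left) 0 Bern.Ax.right) 2
      Bern.Ax.right) 1 Bern.Ax.right) = true ∧
    Bern.coverU row00.cfg row00.P .leaf (Bern.Box.cut (Bern.Box.cut (Bern.Box.cut (Bern.Box.cut
      (Bern.Box.cut (Bern.Box.cut (Bern.Box.cut Bern.unitBox 0 Bern.Ax.right) 1 Bern.Ax.left) 2
      Bern.Ax.right) 3 Bern.Ax.left) 0 Bern.Ax.right) 2 Bern.Ax.left) 1 Bern.Ax.left) = true ∧
    Bern.coverU row00.cfg row00.P .leaf (Bern.Box.cut (Bern.Box.cut (Bern.Box.cut (Bern.Box.cut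
      (Bern.Box.cut (Bern.Box.cut (Bern.Box.cut (Bern.Box.cut Bern.unitBox 0 Bern.Ax.right) 1
      Bern.Ax.left) 2 Bern.Ax.right) 3 Bern.Ax.left) 0 Bern.Ax.right) 2 Bern.Ax.left) 1
      Bern.Ax.right) 1 Bern.Ax.left) = true ∧
    Bern.coverU row00.cfg row00.P .leaf (Bern.Box.cut (Bern.Box.cut (Bern.Box.cut (Bern.Box.cut
      (Bern.Box.cut (Bern.Box.cut (Bern.Box.cut (Bern.Box.cut (Bern.Box.cut Bern.unitBox 0
      Bern.Ax.right) 1 Bern.Ax.left) 2 Bern.Ax.right) 3 Bern.Ax.left) 0 Bern.Ax.right) 2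
      Bern.Ax.left) 1 Bern.Ax.right) 1 Bern.Ax.right) 0 Bern.Ax.left) = true ∧
    Bern.coverU row00.cfg row00.P (.split 1 .leaf .leaf) (Bern.Box.cut (Bern.Box.cut (Bern.Box.cut
      (Bern.Box.cut (Bern.Box.cut (Bern.Box.cut (Bern.Box.cut (Bern.Box.cut (Bern.Box.cut
      (Bern.Box.cut (Bern.Box.cut Bern.unitBox 0 Bern.Ax.right) 1 Bern.Ax.left) 2 Bern.Ax.right) 3
      Bern.Ax.left) 0 Bern.Ax.right) 2 Bern.Ax.left) 1 Bern.Ax.right) 1 Bern.Ax.right) 0
      Bern.Ax.right) 3 Bern.Ax.left) 2 Bern.Ax.left) = true ∧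
    Bern.coverU row00.cfg row00.P (.split 1 .leaf (.split 2 .leaf .leaf)) (Bern.Box.cut
      (Bern.Box.cut (Bern.Box.cut (Bern.Box.cut (Bern.Box.cut (Bern.Box.cut (Bern.Box.cut
      (Bern.Box.cut (Bern.Box.cut (Bern.Box.cut (Bern.Box.cut Bern.unitBox 0 Bern.Ax.right) 1
      Bern.Ax.left) 2 Bern.Ax.right) 3 Bern.Ax.left) 0 Bern.Ax.right) 2 Bern.Ax.left) 1
      Bern.Ax.right) 1 Bern.Ax.right) 0 Bern.Ax.right) 3 Bern.Ax.left) 2 Bern.Ax.right) = true ∧
    Bern.coverU row00.cfg row00.P .leaf (Bern.Box.cut (Bern.Box.cut (Bern.Box.cut (Bern.Box.cut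
      (Bern.Box.cut (Bern.Box.cut (Bern.Box.cut (Bern.Box.cut (Bern.Box.cut (Bern.Box.cut
      Bern.unitBox 0 Bern.Ax.right) 1 Bern.Ax.left) 2 Bern.Ax.right) 3 Bern.Ax.left) 0
      Bern.Ax.right) 2 Bern.Ax.left) 1 Bern.Ax.right) 1 Bern.Ax.right) 0 Bern.Ax.right) 3
      Bern.Ax.right) = true ∧
    Bern.coverU row00.cfg row00.P (.split 0 .leaf .leaf) (Bern.Box.cut (Bern.Box.cut (Bern.Box.cut
      (Bern.Box.cut (Bern.Box.cut (Bern.Box.cut (Bern.Box.cut (Bern.Box.cut (Bern.Box.cut
      Bern.unitBox 0 Bern.Ax.right) 1 Bern.Ax.left) 2 Bern.Ax.right) 3 Bern.Ax.left) 0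
      Bern.Ax.right) 2 Bern.Ax.right) 1 Bern.Ax.left) 0 Bern.Ax.left) 2 Bern.Ax.left) = true ∧
    Bern.coverU row00.cfg row00.P (.split 3 .leaf .leaf) (Bern.Box.cut (Bern.Box.cut (Bern.Box.cut
      (Bern.Box.cut (Bern.Box.cut (Bern.Box.cut (Bern.Box.cut (Bern.Box.cut (Bern.Box.cut
      Bern.unitBox 0 Bern.Ax.right) 1 Bern.Ax.left) 2 Bern.Ax.right) 3 Bern.Ax.left) 0
      Bern.Ax.right) 2 Bern.Ax.right) 1 Bern.Ax.left) 0 Bern.Ax.left) 2 Bern.Ax.right) = true ∧
    Bern.coverU row00.cfg row00.P .leaf (Bern.Box.cut (Bern.Box.cut (Bern.Box.cut (Bern.Box.cut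
      (Bern.Box.cut (Bern.Box.cut (Bern.Box.cut (Bern.Box.cut Bern.unitBox 0 Bern.Ax.right) 1
      Bern.Ax.left) 2 Bern.Ax.right) 3 Bern.Ax.left) 0 Bern.Ax.right) 2 Bern.Ax.right) 1
      Bern.Ax.left) 0 Bern.Ax.right) = true ∧
    Bern.coverU row00.cfg row00.P (.split 3 .leaf .leaf) (Bern.Box.cut (Bern.Box.cut (Bern.Box.cut
      (Bern.Box.cut (Bern.Box.cut (Bern.Box.cut (Bern.Box.cut Bern.unitBox 0 Bern.Ax.right) 1
      Bern.Ax.left) 2 Bern.Ax.right) 3 Bern.Ax.left) 0 Bern.Ax.right) 2 Bern.Ax.right) 1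
      Bern.Ax.right) = true ∧
    Bern.coverU row00.cfg row00.P .leaf (Bern.Box.cut (Bern.Box.cut (Bern.Box.cut (Bern.Box.cut
      (Bern.Box.cut (Bern.Box.cut (Bern.Box.cut Bern.unitBox 0 Bern.Ax.right) 1 Bern.Ax.left) 2
      Bern.Ax.right) 3 Bern.Ax.right) 0 Bern.Ax.left) 3 Bern.Ax.left) 0 Bern.Ax.left) = true ∧
    Bern.coverU row00.cfg row00.P (.split 3 (.split 0 .leaf .leaf) .leaf) (Bern.Box.cut
      (Bern.Box.cut (Bern.Box.cut (Bern.Box.cut (Bern.Box.cut (Bern.Box.cut (Bern.Box.cut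
      Bern.unitBox 0 Bern.Ax.right) 1 Bern.Ax.left) 2 Bern.Ax.right) 3 Bern.Ax.right) 0
      Bern.Ax.left) 3 Bern.Ax.left) 0 Bern.Ax.right) = true ∧
    Bern.coverU row00.cfg row00.P .leaf (Bern.Box.cut (Bern.Box.cut (Bern.Box.cut (Bern.Box.cut
      (Bern.Box.cut (Bern.Box.cut Bern.unitBox 0 Bern.Ax.right) 1 Bern.Ax.left) 2 Bern.Ax.right) 3
      Bern.Ax.right) 0 Bern.Ax.left) 3 Bern.Ax.right) = true ∧
    Bern.coverU row00.cfg row00.P (.split 1 .leaf .leaf) (Bern.Box.cut (Bern.Box.cut (Bern.Box.cut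
      (Bern.Box.cut (Bern.Box.cut Bern.unitBox 0 Bern.Ax.right) 1 Bern.Ax.left) 2 Bern.Ax.right) 3
      Bern.Ax.right) 0 Bern.Ax.right) = true ∧
    Bern.coverU row00.cfg row00.P (.split 2 .leaf (.split 1 .leaf .leaf)) (Bern.Box.cut
      (Bern.Box.cut (Bern.Box.cut (Bern.Box.cut (Bern.Box.cut (Bern.Box.cut Bern.unitBox 0
      Bern.Ax.right) 1 Bern.Ax.right) 2 Bern.Ax.left) 0 Bern.Ax.left) 2 Bern.Ax.left) 0
      Bern.Ax.left) = true ∧
    Bern.coverU row00.cfg row00.P .leaf (Bern.Box.cut (Bern.Box.cut (Bern.Box.cut (Bern.Box.cut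
      (Bern.Box.cut (Bern.Box.cut (Bern.Box.cut Bern.unitBox 0 Bern.Ax.right) 1 Bern.Ax.right) 2
      Bern.Ax.left) 0 Bern.Ax.left) 2 Bern.Ax.left) 0 Bern.Ax.right) 2 Bern.Ax.left) = true ∧
    Bern.coverU row00.cfg row00.P (.split 1 (.split 0 .leaf .leaf) .leaf) (Bern.Box.cut
      (Bern.Box.cut (Bern.Box.cut (Bern.Box.cut (Bern.Box.cut (Bern.Box.cut (Bern.Box.cut
      Bern.unitBox 0 Bern.Ax.right) 1 Bern.Ax.right) 2 Bern.Ax.left) 0 Bern.Ax.left) 2
      Bern.Ax.left) 0 Bern.Ax.right) 2 Bern.Ax.right) = true ∧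
    Bern.coverU row00.cfg row00.P (.split 0 .leaf .leaf) (Bern.Box.cut (Bern.Box.cut (Bern.Box.cut
      (Bern.Box.cut (Bern.Box.cut Bern.unitBox 0 Bern.Ax.right) 1 Bern.Ax.right) 2 Bern.Ax.left) 0
      Bern.Ax.left) 2 Bern.Ax.right) = true ∧
    Bern.coverU row00.cfg row00.P .leaf (Bern.Box.cut (Bern.Box.cut (Bern.Box.cut (Bern.Box.cut
      Bern.unitBox 0 Bern.Ax.right) 1 Bern.Ax.right) 2 Bern.Ax.left) 0 Bern.Ax.right) = true ∧
    Bern.coverU row00.cfg row00.P (.split 0 .leaf .leaf) (Bern.Box.cut (Bern.Box.cut (Bern.Box.cut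
      (Bern.Box.cut (Bern.Box.cut (Bern.Box.cut (Bern.Box.cut (Bern.Box.cut Bern.unitBox 0
      Bern.Ax.right) 1 Bern.Ax.right) 2 Bern.Ax.right) 3 Bern.Ax.left) 0 Bern.Ax.left) 2
      Bern.Ax.left) 3 Bern.Ax.left) 2 Bern.Ax.left) = true ∧
    Bern.coverU row00.cfg row00.P .leaf (Bern.Box.cut (Bern.Box.cut (Bern.Box.cut (Bern.Box.cut
      (Bern.Box.cut (Bern.Box.cut (Bern.Box.cut (Bern.Box.cut (Bern.Box.cut Bern.unitBox 0
      Bern.Ax.right) 1 Bern.Ax.right) 2 Bern.Ax.right) 3 Bern.Ax.left) 0 Bern.Ax.left) 2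
      Bern.Ax.left) 3 Bern.Ax.left) 2 Bern.Ax.right) 0 Bern.Ax.left) = true ∧
    Bern.coverU row00.cfg row00.P (.split 3 (.split 0 .leaf .leaf) .leaf) (Bern.Box.cut
      (Bern.Box.cut (Bern.Box.cut (Bern.Box.cut (Bern.Box.cut (Bern.Box.cut (Bern.Box.cut
      (Bern.Box.cut (Bern.Box.cut Bern.unitBox 0 Bern.Ax.right) 1 Bern.Ax.right) 2 Bern.Ax.right)
      3 Bern.Ax.left) 0 Bern.Ax.left) 2 Bern.Ax.left) 3 Bern.Ax.left) 2 Bern.Ax.right) 0
      Bern.Ax.right) = true ∧
    Bern.coverU row00.cfg row00.P .leaf (Bern.Box.cut (Bern.Box.cut (Bern.Box.cut (Bern.Box.cut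
      (Bern.Box.cut (Bern.Box.cut (Bern.Box.cut Bern.unitBox 0 Bern.Ax.right) 1 Bern.Ax.right) 2
      Bern.Ax.right) 3 Bern.Ax.left) 0 Bern.Ax.left) 2 Bern.Ax.left) 3 Bern.Ax.right) = true ∧
    Bern.coverU row00.cfg row00.P .leaf (Bern.Box.cut (Bern.Box.cut (Bern.Box.cut (Bern.Box.cut
      (Bern.Box.cut (Bern.Box.cut (Bern.Box.cut (Bern.Box.cut Bern.unitBox 0 Bern.Ax.right) 1
      Bern.Ax.right) 2 Bern.Ax.right) 3 Bern.Ax.left) 0 Bern.Ax.left) 2 Bern.Ax.right) 3
      Bern.Ax.left) 0 Bern.Ax.left) = true ∧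
    Bern.coverU row00.cfg row00.P (.split 3 .leaf (.split 0 .leaf .leaf)) (Bern.Box.cut
      (Bern.Box.cut (Bern.Box.cut (Bern.Box.cut (Bern.Box.cut (Bern.Box.cut (Bern.Box.cut
      (Bern.Box.cut (Bern.Box.cut Bern.unitBox 0 Bern.Ax.right) 1 Bern.Ax.right) 2 Bern.Ax.right)
      3 Bern.Ax.left) 0 Bern.Ax.left) 2 Bern.Ax.right) 3 Bern.Ax.left) 0 Bern.Ax.right) 2
      Bern.Ax.left) = true ∧
    Bern.coverU row00.cfg row00.P .leaf (Bern.Box.cut (Bern.Box.cut (Bern.Box.cut (Bern.Box.cut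
      (Bern.Box.cut (Bern.Box.cut (Bern.Box.cut (Bern.Box.cut (Bern.Box.cut Bern.unitBox 0
      Bern.Ax.right) 1 Bern.Ax.right) 2 Bern.Ax.right) 3 Bern.Ax.left) 0 Bern.Ax.left) 2
      Bern.Ax.right) 3 Bern.Ax.left) 0 Bern.Ax.right) 2 Bern.Ax.right) = true ∧
    Bern.coverU row00.cfg row00.P .leaf (Bern.Box.cut (Bern.Box.cut (Bern.Box.cut (Bern.Box.cut
      (Bern.Box.cut (Bern.Box.cut (Bern.Box.cut (Bern.Box.cut (Bern.Box.cut Bern.unitBox 0
      Bern.Ax.right) 1 Bern.Ax.right) 2 Bern.Ax.right) 3 Bern.Ax.left) 0 Bern.Ax.left) 2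
      Bern.Ax.right) 3 Bern.Ax.right) 2 Bern.Ax.left) 0 Bern.Ax.left) = true ∧
    Bern.coverU row00.cfg row00.P (.split 3 (.split 0 .leaf .leaf) .leaf) (Bern.Box.cut
      (Bern.Box.cut (Bern.Box.cut (Bern.Box.cut (Bern.Box.cut (Bern.Box.cut (Bern.Box.cut
      (Bern.Box.cut (Bern.Box.cut Bern.unitBox 0 Bern.Ax.right) 1 Bern.Ax.right) 2 Bern.Ax.right)
      3 Bern.Ax.left) 0 Bern.Ax.left) 2 Bern.Ax.right) 3 Bern.Ax.right) 2 Bern.Ax.left) 0
      Bern.Ax.right) = true ∧
    Bern.coverU row00.cfg row00.P (.split 3 (.split 0 .leaf .leaf) .leaf) (Bern.Box.cut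
      (Bern.Box.cut (Bern.Box.cut (Bern.Box.cut (Bern.Box.cut (Bern.Box.cut (Bern.Box.cut
      (Bern.Box.cut Bern.unitBox 0 Bern.Ax.right) 1 Bern.Ax.right) 2 Bern.Ax.right) 3
      Bern.Ax.left) 0 Bern.Ax.left) 2 Bern.Ax.right) 3 Bern.Ax.right) 2 Bern.Ax.right) = true ∧
    Bern.coverU row00.cfg row00.P .leaf (Bern.Box.cut (Bern.Box.cut (Bern.Box.cut (Bern.Box.cut
      (Bern.Box.cut (Bern.Box.cut (Bern.Box.cut (Bern.Box.cut Bern.unitBox 0 Bern.Ax.right) 1
      Bern.Ax.right) 2 Bern.Ax.right) 3 Bern.Ax.left) 0 Bern.Ax.right) 2 Bern.Ax.left) 3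
      Bern.Ax.left) 2 Bern.Ax.left) = true ∧
    Bern.coverU row00.cfg row00.P (.split 3 (.split 0 .leaf .leaf) .leaf) (Bern.Box.cut
      (Bern.Box.cut (Bern.Box.cut (Bern.Box.cut (Bern.Box.cut (Bern.Box.cut (Bern.Box.cut
      (Bern.Box.cut Bern.unitBox 0 Bern.Ax.right) 1 Bern.Ax.right) 2 Bern.Ax.right) 3
      Bern.Ax.left) 0 Bern.Ax.right) 2 Bern.Ax.left) 3 Bern.Ax.left) 2 Bern.Ax.right) = true ∧
    Bern.coverU row00.cfg row00.P .leaf (Bern.Box.cut (Bern.Box.cut (Bern.Box.cut (Bern.Box.cut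
      (Bern.Box.cut (Bern.Box.cut (Bern.Box.cut Bern.unitBox 0 Bern.Ax.right) 1 Bern.Ax.right) 2
      Bern.Ax.right) 3 Bern.Ax.left) 0 Bern.Ax.right) 2 Bern.Ax.left) 3 Bern.Ax.right) = true ∧
    Bern.coverU row00.cfg row00.P (.split 2 (.split 3 .leaf .leaf) .leaf) (Bern.Box.cut
      (Bern.Box.cut (Bern.Box.cut (Bern.Box.cut (Bern.Box.cut (Bern.Box.cut (Bern.Box.cut
      (Bern.Box.cut Bern.unitBox 0 Bern.Ax.right) 1 Bern.Ax.right) 2 Bern.Ax.right) 3
      Bern.Ax.left) 0 Bern.Ax.right) 2 Bern.Ax.right) 3 Bern.Ax.left) 0 Bern.Ax.left) = true ∧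
    Bern.coverU row00.cfg row00.P .leaf (Bern.Box.cut (Bern.Box.cut (Bern.Box.cut (Bern.Box.cut
      (Bern.Box.cut (Bern.Box.cut (Bern.Box.cut (Bern.Box.cut (Bern.Box.cut (Bern.Box.cut
      Bern.unitBox 0 Bern.Ax.right) 1 Bern.Ax.right) 2 Bern.Ax.right) 3 Bern.Ax.left) 0
      Bern.Ax.right) 2 Bern.Ax.right) 3 Bern.Ax.left) 0 Bern.Ax.right) 1 Bern.Ax.left) 2
      Bern.Ax.left) = true ∧
    Bern.coverU row00.cfg row00.P (.split 0 .leaf .leaf) (Bern.Box.cut (Bern.Box.cut (Bern.Box.cut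
      (Bern.Box.cut (Bern.Box.cut (Bern.Box.cut (Bern.Box.cut (Bern.Box.cut (Bern.Box.cut
      (Bern.Box.cut (Bern.Box.cut Bern.unitBox 0 Bern.Ax.right) 1 Bern.Ax.right) 2 Bern.Ax.right)
      3 Bern.Ax.left) 0 Bern.Ax.right) 2 Bern.Ax.right) 3 Bern.Ax.left) 0 Bern.Ax.right) 1
      Bern.Ax.left) 2 Bern.Ax.right) 1 Bern.Ax.left) = true ∧
    Bern.coverU row00.cfg row00.P (.split 3 (.split 0 .leaf .leaf) .leaf) (Bern.Box.cut
      (Bern.Box.cut (Bern.Box.cut (Bern.Box.cut (Bern.Box.cut (Bern.Box.cut (Bern.Box.cut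
      (Bern.Box.cut (Bern.Box.cut (Bern.Box.cut (Bern.Box.cut Bern.unitBox 0 Bern.Ax.right) 1
      Bern.Ax.right) 2 Bern.Ax.right) 3 Bern.Ax.left) 0 Bern.Ax.right) 2 Bern.Ax.right) 3
      Bern.Ax.left) 0 Bern.Ax.right) 1 Bern.Ax.left) 2 Bern.Ax.right) 1 Bern.Ax.right) = true ∧
    Bern.coverU row00.cfg row00.P .leaf (Bern.Box.cut (Bern.Box.cut (Bern.Box.cut (Bern.Box.cut
      (Bern.Box.cut (Bern.Box.cut (Bern.Box.cut (Bern.Box.cut (Bern.Box.cut Bern.unitBox 0
      Bern.Ax.right) 1 Bern.Ax.right) 2 Bern.Ax.right) 3 Bern.Ax.left) 0 Bern.Ax.right) 2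
      Bern.Ax.right) 3 Bern.Ax.left) 0 Bern.Ax.right) 1 Bern.Ax.right) = true ∧
    Bern.coverU row00.cfg row00.P (.split 2 .leaf (.split 3 .leaf .leaf)) (Bern.Box.cut
      (Bern.Box.cut (Bern.Box.cut (Bern.Box.cut (Bern.Box.cut (Bern.Box.cut (Bern.Box.cut
      Bern.unitBox 0 Bern.Ax.right) 1 Bern.Ax.right) 2 Bern.Ax.right) 3 Bern.Ax.left) 0
      Bern.Ax.right) 2 Bern.Ax.right) 3 Bern.Ax.right) = true ∧
    Bern.coverU row00.cfg row00.P (.split 0 .leaf .leaf) (Bern.Box.cut (Bern.Box.cut (Bern.Box.cut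
      (Bern.Box.cut Bern.unitBox 0 Bern.Ax.right) 1 Bern.Ax.right) 2 Bern.Ax.right) 3
      Bern.Ax.right) = true ∧
    Bern.coverU row00.cfg3 row00.R3 (.split 2 .leaf .leaf) (Bern.Box.cut (Bern.Box.cut
      (Bern.Box.cut box3 2 Bern.Ax.left) 2 Bern.Ax.left) 2 Bern.Ax.left) = true ∧
    Bern.coverU row00.cfg3 row00.R3 (.split 1 (.split 0 .leaf (.split 1 .leaf (.split 2 .leaf
      (.split 1 .leaf (.split 1 .leaf .leaf))))) (.split 2 .leaf .leaf)) (Bern.Box.cut
      (Bern.Box.cut (Bern.Box.cut box3 2 Bern.Ax.left) 2 Bern.Ax.left) 2 Bern.Ax.right) = true ∧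
    Bern.coverU row00.cfg3 row00.R3 (.split 0 .leaf (.split 1 (.split 0 (.split 0 .leaf .leaf)
      .leaf) (.split 0 .leaf .leaf))) (Bern.Box.cut (Bern.Box.cut (Bern.Box.cut (Bern.Box.cut box3
      2 Bern.Ax.left) 2 Bern.Ax.right) 0 Bern.Ax.left) 2 Bern.Ax.left) = true ∧
    Bern.coverU row00.cfg3 row00.R3 (.split 0 .leaf (.split 1 (.split 0 .leaf .leaf) (.split 0
      .leaf .leaf))) (Bern.Box.cut (Bern.Box.cut (Bern.Box.cut (Bern.Box.cut box3 2 Bern.Ax.left)
      2 Bern.Ax.right) 0 Bern.Ax.left) 2 Bern.Ax.right) = true ∧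
    Bern.coverU row00.cfg3 row00.R3 (.split 1 (.split 1 .leaf (.split 2 (.split 1 .leaf .leaf)
      .leaf)) (.split 2 .leaf .leaf)) (Bern.Box.cut (Bern.Box.cut (Bern.Box.cut box3 2
      Bern.Ax.left) 2 Bern.Ax.right) 0 Bern.Ax.right) = true ∧
    Bern.coverU row00.cfg3 row00.R3 (.split 2 .leaf (.split 2 (.split 2 (.split 2 .leaf (.split 2
      (.split 2 .leaf .leaf) .leaf)) .leaf) .leaf)) (Bern.Box.cut (Bern.Box.cut box3 2
      Bern.Ax.right) 0 Bern.Ax.left) = true ∧
    Bern.coverU row00.cfg3 row00.R3 (.split 0 (.split 2 .leaf .leaf) (.split 1 .leaf (.split 0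
      (.split 2 .leaf .leaf) (.split 1 .leaf .leaf)))) (Bern.Box.cut (Bern.Box.cut (Bern.Box.cut
      (Bern.Box.cut box3 2 Bern.Ax.right) 0 Bern.Ax.right) 1 Bern.Ax.left) 2 Bern.Ax.left) = true
      ∧
    Bern.coverU row00.cfg3 row00.R3 .leaf (Bern.Box.cut (Bern.Box.cut (Bern.Box.cut (Bern.Box.cut
      (Bern.Box.cut (Bern.Box.cut (Bern.Box.cut box3 2 Bern.Ax.right) 0 Bern.Ax.right) 1
      Bern.Ax.left) 2 Bern.Ax.right) 0 Bern.Ax.left) 1 Bern.Ax.left) 0 Bern.Ax.left) = true ∧
    Bern.coverU row00.cfg3 row00.R3 (.split 0 .leaf (.split 1 (.split 0 .leaf (.split 1 .leaf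
      .leaf)) .leaf)) (Bern.Box.cut (Bern.Box.cut (Bern.Box.cut (Bern.Box.cut (Bern.Box.cut
      (Bern.Box.cut (Bern.Box.cut (Bern.Box.cut (Bern.Box.cut (Bern.Box.cut (Bern.Box.cut box3 2
      Bern.Ax.right) 0 Bern.Ax.right) 1 Bern.Ax.left) 2 Bern.Ax.right) 0 Bern.Ax.left) 1
      Bern.Ax.left) 0 Bern.Ax.right) 1 Bern.Ax.left) 0 Bern.Ax.left) 1 Bern.Ax.left) 0
      Bern.Ax.left) = true ∧
    Bern.coverU row00.cfg3 row00.R3 (.split 1 (.split 0 .leaf .leaf) (.split 0 (.split 0 .leaf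
      (.split 0 .leaf .leaf)) .leaf)) (Bern.Box.cut (Bern.Box.cut (Bern.Box.cut (Bern.Box.cut
      (Bern.Box.cut (Bern.Box.cut (Bern.Box.cut (Bern.Box.cut (Bern.Box.cut (Bern.Box.cut
      (Bern.Box.cut box3 2 Bern.Ax.right) 0 Bern.Ax.right) 1 Bern.Ax.left) 2 Bern.Ax.right) 0
      Bern.Ax.left) 1 Bern.Ax.left) 0 Bern.Ax.right) 1 Bern.Ax.left) 0 Bern.Ax.left) 1
      Bern.Ax.left) 0 Bern.Ax.right) = true ∧
    Bern.coverU row00.cfg3 row00.R3 (.split 0 .leaf (.split 1 (.split 0 .leaf (.split 0 .leaf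
      .leaf)) .leaf)) (Bern.Box.cut (Bern.Box.cut (Bern.Box.cut (Bern.Box.cut (Bern.Box.cut
      (Bern.Box.cut (Bern.Box.cut (Bern.Box.cut (Bern.Box.cut (Bern.Box.cut box3 2 Bern.Ax.right)
      0 Bern.Ax.right) 1 Bern.Ax.left) 2 Bern.Ax.right) 0 Bern.Ax.left) 1 Bern.Ax.left) 0
      Bern.Ax.right) 1 Bern.Ax.left) 0 Bern.Ax.left) 1 Bern.Ax.right) = true ∧
    Bern.coverU row00.cfg3 row00.R3 (.split 2 .leaf (.split 1 .leaf (.split 0 (.split 1 (.split 0
      .leaf .leaf) (.split 0 .leaf .leaf)) .leaf))) (Bern.Box.cut (Bern.Box.cut (Bern.Box.cut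
      (Bern.Box.cut (Bern.Box.cut (Bern.Box.cut (Bern.Box.cut (Bern.Box.cut (Bern.Box.cut box3 2
      Bern.Ax.right) 0 Bern.Ax.right) 1 Bern.Ax.left) 2 Bern.Ax.right) 0 Bern.Ax.left) 1
      Bern.Ax.left) 0 Bern.Ax.right) 1 Bern.Ax.left) 0 Bern.Ax.right) = true ∧
    Bern.coverU row00.cfg3 row00.R3 (.split 0 .leaf (.split 1 (.split 0 (.split 0 .leaf .leaf)
      (.split 1 .leaf .leaf)) .leaf)) (Bern.Box.cut (Bern.Box.cut (Bern.Box.cut (Bern.Box.cut
      (Bern.Box.cut (Bern.Box.cut (Bern.Box.cut (Bern.Box.cut box3 2 Bern.Ax.right) 0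
      Bern.Ax.right) 1 Bern.Ax.left) 2 Bern.Ax.right) 0 Bern.Ax.left) 1 Bern.Ax.left) 0
      Bern.Ax.right) 1 Bern.Ax.right) = true ∧
    Bern.coverU row00.cfg3 row00.R3 .leaf (Bern.Box.cut (Bern.Box.cut (Bern.Box.cut (Bern.Box.cut
      (Bern.Box.cut (Bern.Box.cut box3 2 Bern.Ax.right) 0 Bern.Ax.right) 1 Bern.Ax.left) 2
      Bern.Ax.right) 0 Bern.Ax.left) 1 Bern.Ax.right) = true ∧
    Bern.coverU row00.cfg3 row00.R3 (.split 0 (.split 1 (.split 0 .leaf .leaf) .leaf) (.split 1
      .leaf (.split 0 .leaf (.split 0 .leaf .leaf)))) (Bern.Box.cut (Bern.Box.cut (Bern.Box.cut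
      (Bern.Box.cut (Bern.Box.cut (Bern.Box.cut (Bern.Box.cut (Bern.Box.cut (Bern.Box.cut box3 2
      Bern.Ax.right) 0 Bern.Ax.right) 1 Bern.Ax.left) 2 Bern.Ax.right) 0 Bern.Ax.right) 1
      Bern.Ax.left) 2 Bern.Ax.left) 0 Bern.Ax.left) 1 Bern.Ax.left) = true ∧
    Bern.coverU row00.cfg3 row00.R3 (.split 2 .leaf (.split 0 .leaf (.split 1 .leaf .leaf)))
      (Bern.Box.cut (Bern.Box.cut (Bern.Box.cut (Bern.Box.cut (Bern.Box.cut (Bern.Box.cut
      (Bern.Box.cut (Bern.Box.cut (Bern.Box.cut box3 2 Bern.Ax.right) 0 Bern.Ax.right) 1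
      Bern.Ax.left) 2 Bern.Ax.right) 0 Bern.Ax.right) 1 Bern.Ax.left) 2 Bern.Ax.left) 0
      Bern.Ax.left) 1 Bern.Ax.right) = true ∧
    Bern.coverU row00.cfg3 row00.R3 .leaf (Bern.Box.cut (Bern.Box.cut (Bern.Box.cut (Bern.Box.cut
      (Bern.Box.cut (Bern.Box.cut (Bern.Box.cut (Bern.Box.cut (Bern.Box.cut box3 2 Bern.Ax.right)
      0 Bern.Ax.right) 1 Bern.Ax.left) 2 Bern.Ax.right) 0 Bern.Ax.right) 1 Bern.Ax.left) 2
      Bern.Ax.left) 0 Bern.Ax.right) 1 Bern.Ax.left) = true ∧
    Bern.coverU row00.cfg3 row00.R3 .leaf (Bern.Box.cut (Bern.Box.cut (Bern.Box.cut (Bern.Box.cut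
      (Bern.Box.cut (Bern.Box.cut (Bern.Box.cut (Bern.Box.cut (Bern.Box.cut (Bern.Box.cut
      (Bern.Box.cut box3 2 Bern.Ax.right) 0 Bern.Ax.right) 1 Bern.Ax.left) 2 Bern.Ax.right) 0
      Bern.Ax.right) 1 Bern.Ax.left) 2 Bern.Ax.left) 0 Bern.Ax.right) 1 Bern.Ax.right) 0
      Bern.Ax.left) 2 Bern.Ax.left) = true ∧
    Bern.coverU row00.cfg3 row00.R3 (.split 0 (.split 0 .leaf .leaf) .leaf) (Bern.Box.cut
      (Bern.Box.cut (Bern.Box.cut (Bern.Box.cut (Bern.Box.cut (Bern.Box.cut (Bern.Box.cut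
      (Bern.Box.cut (Bern.Box.cut (Bern.Box.cut (Bern.Box.cut (Bern.Box.cut box3 2 Bern.Ax.right)
      0 Bern.Ax.right) 1 Bern.Ax.left) 2 Bern.Ax.right) 0 Bern.Ax.right) 1 Bern.Ax.left) 2
      Bern.Ax.left) 0 Bern.Ax.right) 1 Bern.Ax.right) 0 Bern.Ax.left) 2 Bern.Ax.right) 1
      Bern.Ax.left) = true ∧
    Bern.coverU row00.cfg3 row00.R3 (.split 0 (.split 2 .leaf .leaf) (.split 2 (.split 0 .leaf
      .leaf) (.split 0 .leaf .leaf))) (Bern.Box.cut (Bern.Box.cut (Bern.Box.cut (Bern.Box.cut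
      (Bern.Box.cut (Bern.Box.cut (Bern.Box.cut (Bern.Box.cut (Bern.Box.cut (Bern.Box.cut
      (Bern.Box.cut (Bern.Box.cut box3 2 Bern.Ax.right) 0 Bern.Ax.right) 1 Bern.Ax.left) 2
      Bern.Ax.right) 0 Bern.Ax.right) 1 Bern.Ax.left) 2 Bern.Ax.left) 0 Bern.Ax.right) 1
      Bern.Ax.right) 0 Bern.Ax.left) 2 Bern.Ax.right) 1 Bern.Ax.right) = true ∧
    Bern.coverU row00.cfg3 row00.R3 (.split 2 .leaf .leaf) (Bern.Box.cut (Bern.Box.cut
      (Bern.Box.cut (Bern.Box.cut (Bern.Box.cut (Bern.Box.cut (Bern.Box.cut (Bern.Box.cut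
      (Bern.Box.cut (Bern.Box.cut box3 2 Bern.Ax.right) 0 Bern.Ax.right) 1 Bern.Ax.left) 2
      Bern.Ax.right) 0 Bern.Ax.right) 1 Bern.Ax.left) 2 Bern.Ax.left) 0 Bern.Ax.right) 1
      Bern.Ax.right) 0 Bern.Ax.right) = true ∧
    Bern.coverU row00.cfg3 row00.R3 (.split 2 (.split 1 (.split 0 .leaf .leaf) .leaf) .leaf)
      (Bern.Box.cut (Bern.Box.cut (Bern.Box.cut (Bern.Box.cut (Bern.Box.cut (Bern.Box.cut
      (Bern.Box.cut (Bern.Box.cut (Bern.Box.cut (Bern.Box.cut box3 2 Bern.Ax.right) 0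
      Bern.Ax.right) 1 Bern.Ax.left) 2 Bern.Ax.right) 0 Bern.Ax.right) 1 Bern.Ax.left) 2
      Bern.Ax.right) 0 Bern.Ax.left) 1 Bern.Ax.left) 0 Bern.Ax.left) = true ∧
    Bern.coverU row00.cfg3 row00.R3 (.split 2 (.split 1 (.split 0 (.split 0 .leaf .leaf) .leaf)
      (.split 0 .leaf (.split 0 .leaf .leaf))) .leaf) (Bern.Box.cut (Bern.Box.cut (Bern.Box.cut
      (Bern.Box.cut (Bern.Box.cut (Bern.Box.cut (Bern.Box.cut (Bern.Box.cut (Bern.Box.cut
      (Bern.Box.cut box3 2 Bern.Ax.right) 0 Bern.Ax.right) 1 Bern.Ax.left) 2 Bern.Ax.right) 0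
      Bern.Ax.right) 1 Bern.Ax.left) 2 Bern.Ax.right) 0 Bern.Ax.left) 1 Bern.Ax.left) 0
      Bern.Ax.right) = true ∧
    Bern.coverU row00.cfg3 row00.R3 (.split 0 (.split 1 .leaf (.split 0 (.split 0 .leaf .leaf)
      .leaf)) .leaf) (Bern.Box.cut (Bern.Box.cut (Bern.Box.cut (Bern.Box.cut (Bern.Box.cut
      (Bern.Box.cut (Bern.Box.cut (Bern.Box.cut (Bern.Box.cut box3 2 Bern.Ax.right) 0
      Bern.Ax.right) 1 Bern.Ax.left) 2 Bern.Ax.right) 0 Bern.Ax.right) 1 Bern.Ax.left) 2
      Bern.Ax.right) 0 Bern.Ax.left) 1 Bern.Ax.right) = true ∧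
    Bern.coverU row00.cfg3 row00.R3 (.split 2 (.split 0 .leaf .leaf) (.split 2 .leaf .leaf))
      (Bern.Box.cut (Bern.Box.cut (Bern.Box.cut (Bern.Box.cut (Bern.Box.cut (Bern.Box.cut
      (Bern.Box.cut (Bern.Box.cut (Bern.Box.cut box3 2 Bern.Ax.right) 0 Bern.Ax.right) 1
      Bern.Ax.left) 2 Bern.Ax.right) 0 Bern.Ax.right) 1 Bern.Ax.left) 2 Bern.Ax.right) 0
      Bern.Ax.right) 1 Bern.Ax.left) = true ∧
    Bern.coverU row00.cfg3 row00.R3 (.split 1 (.split 2 (.split 0 .leaf .leaf) .leaf) .leaf)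
      (Bern.Box.cut (Bern.Box.cut (Bern.Box.cut (Bern.Box.cut (Bern.Box.cut (Bern.Box.cut
      (Bern.Box.cut (Bern.Box.cut (Bern.Box.cut (Bern.Box.cut box3 2 Bern.Ax.right) 0
      Bern.Ax.right) 1 Bern.Ax.left) 2 Bern.Ax.right) 0 Bern.Ax.right) 1 Bern.Ax.left) 2
      Bern.Ax.right) 0 Bern.Ax.right) 1 Bern.Ax.right) 0 Bern.Ax.left) = true ∧
    Bern.coverU row00.cfg3 row00.R3 (.split 2 .leaf (.split 2 .leaf (.split 2 (.split 1 .leaf
      .leaf) (.split 1 (.split 1 (.split 1 .leaf .leaf) .leaf) .leaf)))) (Bern.Box.cut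
      (Bern.Box.cut (Bern.Box.cut (Bern.Box.cut (Bern.Box.cut (Bern.Box.cut (Bern.Box.cut
      (Bern.Box.cut (Bern.Box.cut (Bern.Box.cut box3 2 Bern.Ax.right) 0 Bern.Ax.right) 1
      Bern.Ax.left) 2 Bern.Ax.right) 0 Bern.Ax.right) 1 Bern.Ax.left) 2 Bern.Ax.right) 0
      Bern.Ax.right) 1 Bern.Ax.right) 0 Bern.Ax.right) = true ∧
    Bern.coverU row00.cfg3 row00.R3 (.split 2 .leaf .leaf) (Bern.Box.cut (Bern.Box.cut
      (Bern.Box.cut (Bern.Box.cut (Bern.Box.cut (Bern.Box.cut (Bern.Box.cut (Bern.Box.cut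
      (Bern.Box.cut box3 2 Bern.Ax.right) 0 Bern.Ax.right) 1 Bern.Ax.left) 2 Bern.Ax.right) 0
      Bern.Ax.right) 1 Bern.Ax.right) 0 Bern.Ax.left) 1 Bern.Ax.left) 2 Bern.Ax.left) = true ∧
    Bern.coverU row00.cfg3 row00.R3 (.split 0 (.split 1 (.split 0 .leaf .leaf) .leaf) (.split 1
      (.split 0 .leaf .leaf) (.split 0 .leaf .leaf))) (Bern.Box.cut (Bern.Box.cut (Bern.Box.cut
      (Bern.Box.cut (Bern.Box.cut (Bern.Box.cut (Bern.Box.cut (Bern.Box.cut (Bern.Box.cut box3 2
      Bern.Ax.right) 0 Bern.Ax.right) 1 Bern.Ax.left) 2 Bern.Ax.right) 0 Bern.Ax.right) 1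
      Bern.Ax.right) 0 Bern.Ax.left) 1 Bern.Ax.left) 2 Bern.Ax.right) = true ∧
    Bern.coverU row00.cfg3 row00.R3 .leaf (Bern.Box.cut (Bern.Box.cut (Bern.Box.cut (Bern.Box.cut
      (Bern.Box.cut (Bern.Box.cut (Bern.Box.cut (Bern.Box.cut box3 2 Bern.Ax.right) 0
      Bern.Ax.right) 1 Bern.Ax.left) 2 Bern.Ax.right) 0 Bern.Ax.right) 1 Bern.Ax.right) 0
      Bern.Ax.left) 1 Bern.Ax.right) = true ∧
    Bern.coverU row00.cfg3 row00.R3 (.split 1 .leaf .leaf) (Bern.Box.cut (Bern.Box.cut
      (Bern.Box.cut (Bern.Box.cut (Bern.Box.cut (Bern.Box.cut (Bern.Box.cut (Bern.Box.cut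
      (Bern.Box.cut (Bern.Box.cut (Bern.Box.cut (Bern.Box.cut (Bern.Box.cut box3 2 Bern.Ax.right)
      0 Bern.Ax.right) 1 Bern.Ax.left) 2 Bern.Ax.right) 0 Bern.Ax.right) 1 Bern.Ax.right) 0
      Bern.Ax.right) 2 Bern.Ax.left) 1 Bern.Ax.left) 2 Bern.Ax.left) 0 Bern.Ax.left) 1
      Bern.Ax.left) 0 Bern.Ax.left) = true ∧
    Bern.coverU row00.cfg3 row00.R3 (.split 1 (.split 0 (.split 0 .leaf .leaf) .leaf) (.split 2
      .leaf (.split 0 (.split 1 .leaf .leaf) (.split 1 .leaf .leaf)))) (Bern.Box.cut (Bern.Box.cut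
      (Bern.Box.cut (Bern.Box.cut (Bern.Box.cut (Bern.Box.cut (Bern.Box.cut (Bern.Box.cut
      (Bern.Box.cut (Bern.Box.cut (Bern.Box.cut (Bern.Box.cut (Bern.Box.cut box3 2 Bern.Ax.right)
      0 Bern.Ax.right) 1 Bern.Ax.left) 2 Bern.Ax.right) 0 Bern.Ax.right) 1 Bern.Ax.right) 0
      Bern.Ax.right) 2 Bern.Ax.left) 1 Bern.Ax.left) 2 Bern.Ax.left) 0 Bern.Ax.left) 1
      Bern.Ax.left) 0 Bern.Ax.right) = true ∧
    Bern.coverU row00.cfg3 row00.R3 (.split 2 .leaf (.split 0 .leaf .leaf)) (Bern.Box.cut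
      (Bern.Box.cut (Bern.Box.cut (Bern.Box.cut (Bern.Box.cut (Bern.Box.cut (Bern.Box.cut
      (Bern.Box.cut (Bern.Box.cut (Bern.Box.cut (Bern.Box.cut (Bern.Box.cut box3 2 Bern.Ax.right)
      0 Bern.Ax.right) 1 Bern.Ax.left) 2 Bern.Ax.right) 0 Bern.Ax.right) 1 Bern.Ax.right) 0
      Bern.Ax.right) 2 Bern.Ax.left) 1 Bern.Ax.left) 2 Bern.Ax.left) 0 Bern.Ax.left) 1
      Bern.Ax.right) = true ∧
    Bern.coverU row00.cfg3 row00.R3 (.split 1 .leaf .leaf) (Bern.Box.cut (Bern.Box.cut
      (Bern.Box.cut (Bern.Box.cut (Bern.Box.cut (Bern.Box.cut (Bern.Box.cut (Bern.Box.cut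
      (Bern.Box.cut (Bern.Box.cut (Bern.Box.cut box3 2 Bern.Ax.right) 0 Bern.Ax.right) 1
      Bern.Ax.left) 2 Bern.Ax.right) 0 Bern.Ax.right) 1 Bern.Ax.right) 0 Bern.Ax.right) 2
      Bern.Ax.left) 1 Bern.Ax.left) 2 Bern.Ax.left) 0 Bern.Ax.right) = true ∧
    Bern.coverU row00.cfg3 row00.R3 .leaf (Bern.Box.cut (Bern.Box.cut (Bern.Box.cut (Bern.Box.cut
      (Bern.Box.cut (Bern.Box.cut (Bern.Box.cut (Bern.Box.cut (Bern.Box.cut (Bern.Box.cut
      (Bern.Box.cut (Bern.Box.cut (Bern.Box.cut box3 2 Bern.Ax.right) 0 Bern.Ax.right) 1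
      Bern.Ax.left) 2 Bern.Ax.right) 0 Bern.Ax.right) 1 Bern.Ax.right) 0 Bern.Ax.right) 2
      Bern.Ax.left) 1 Bern.Ax.left) 2 Bern.Ax.right) 0 Bern.Ax.left) 1 Bern.Ax.left) 0
      Bern.Ax.left) = true ∧
    Bern.coverU row00.cfg3 row00.R3 (.split 0 (.split 2 (.split 1 .leaf (.split 0 .leaf .leaf))
      .leaf) (.split 2 (.split 1 .leaf (.split 2 .leaf .leaf)) .leaf)) (Bern.Box.cut (Bern.Box.cut
      (Bern.Box.cut (Bern.Box.cut (Bern.Box.cut (Bern.Box.cut (Bern.Box.cut (Bern.Box.cut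
      (Bern.Box.cut (Bern.Box.cut (Bern.Box.cut (Bern.Box.cut (Bern.Box.cut (Bern.Box.cut
      (Bern.Box.cut box3 2 Bern.Ax.right) 0 Bern.Ax.right) 1 Bern.Ax.left) 2 Bern.Ax.right) 0
      Bern.Ax.right) 1 Bern.Ax.right) 0 Bern.Ax.right) 2 Bern.Ax.left) 1 Bern.Ax.left) 2
      Bern.Ax.right) 0 Bern.Ax.left) 1 Bern.Ax.left) 0 Bern.Ax.right) 2 Bern.Ax.left) 1
      Bern.Ax.left) = true ∧
    Bern.coverU row00.cfg3 row00.R3 (.split 0 (.split 2 .leaf .leaf) (.split 2 (.split 2 (.split 0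
      .leaf .leaf) .leaf) .leaf)) (Bern.Box.cut (Bern.Box.cut (Bern.Box.cut (Bern.Box.cut
      (Bern.Box.cut (Bern.Box.cut (Bern.Box.cut (Bern.Box.cut (Bern.Box.cut (Bern.Box.cut
      (Bern.Box.cut (Bern.Box.cut (Bern.Box.cut (Bern.Box.cut (Bern.Box.cut box3 2 Bern.Ax.right)
      0 Bern.Ax.right) 1 Bern.Ax.left) 2 Bern.Ax.right) 0 Bern.Ax.right) 1 Bern.Ax.right) 0
      Bern.Ax.right) 2 Bern.Ax.left) 1 Bern.Ax.left) 2 Bern.Ax.right) 0 Bern.Ax.left) 1
      Bern.Ax.left) 0 Bern.Ax.right) 2 Bern.Ax.left) 1 Bern.Ax.right) = true ∧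
    Bern.coverU row00.cfg3 row00.R3 .leaf (Bern.Box.cut (Bern.Box.cut (Bern.Box.cut (Bern.Box.cut
      (Bern.Box.cut (Bern.Box.cut (Bern.Box.cut (Bern.Box.cut (Bern.Box.cut (Bern.Box.cut
      (Bern.Box.cut (Bern.Box.cut (Bern.Box.cut (Bern.Box.cut box3 2 Bern.Ax.right) 0
      Bern.Ax.right) 1 Bern.Ax.left) 2 Bern.Ax.right) 0 Bern.Ax.right) 1 Bern.Ax.right) 0
      Bern.Ax.right) 2 Bern.Ax.left) 1 Bern.Ax.left) 2 Bern.Ax.right) 0 Bern.Ax.left) 1
      Bern.Ax.left) 0 Bern.Ax.right) 2 Bern.Ax.right) = true ∧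
    Bern.coverU row00.cfg3 row00.R3 .leaf (Bern.Box.cut (Bern.Box.cut (Bern.Box.cut (Bern.Box.cut
      (Bern.Box.cut (Bern.Box.cut (Bern.Box.cut (Bern.Box.cut (Bern.Box.cut (Bern.Box.cut
      (Bern.Box.cut (Bern.Box.cut box3 2 Bern.Ax.right) 0 Bern.Ax.right) 1 Bern.Ax.left) 2
      Bern.Ax.right) 0 Bern.Ax.right) 1 Bern.Ax.right) 0 Bern.Ax.right) 2 Bern.Ax.left) 1
      Bern.Ax.left) 2 Bern.Ax.right) 0 Bern.Ax.left) 1 Bern.Ax.right) = true ∧
    Bern.coverU row00.cfg3 row00.R3 (.split 1 (.split 2 (.split 1 .leaf .leaf) .leaf) .leaf)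
      (Bern.Box.cut (Bern.Box.cut (Bern.Box.cut (Bern.Box.cut (Bern.Box.cut (Bern.Box.cut
      (Bern.Box.cut (Bern.Box.cut (Bern.Box.cut (Bern.Box.cut (Bern.Box.cut box3 2 Bern.Ax.right)
      0 Bern.Ax.right) 1 Bern.Ax.left) 2 Bern.Ax.right) 0 Bern.Ax.right) 1 Bern.Ax.right) 0
      Bern.Ax.right) 2 Bern.Ax.left) 1 Bern.Ax.left) 2 Bern.Ax.right) 0 Bern.Ax.right) = true ∧
    Bern.coverU row00.cfg3 row00.R3 .leaf (Bern.Box.cut (Bern.Box.cut (Bern.Box.cut (Bern.Box.cut
      (Bern.Box.cut (Bern.Box.cut (Bern.Box.cut (Bern.Box.cut (Bern.Box.cut box3 2 Bern.Ax.right)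
      0 Bern.Ax.right) 1 Bern.Ax.left) 2 Bern.Ax.right) 0 Bern.Ax.right) 1 Bern.Ax.right) 0
      Bern.Ax.right) 2 Bern.Ax.left) 1 Bern.Ax.right) = true ∧
    Bern.coverU row00.cfg3 row00.R3 (.split 0 (.split 0 .leaf .leaf) .leaf) (Bern.Box.cut
      (Bern.Box.cut (Bern.Box.cut (Bern.Box.cut (Bern.Box.cut (Bern.Box.cut (Bern.Box.cut
      (Bern.Box.cut (Bern.Box.cut box3 2 Bern.Ax.right) 0 Bern.Ax.right) 1 Bern.Ax.left) 2
      Bern.Ax.right) 0 Bern.Ax.right) 1 Bern.Ax.right) 0 Bern.Ax.right) 2 Bern.Ax.right) 1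
      Bern.Ax.left) = true ∧
    Bern.coverU row00.cfg3 row00.R3 (.split 0 (.split 1 (.split 0 .leaf .leaf) .leaf) (.split 1
      .leaf (.split 0 (.split 1 .leaf .leaf) (.split 1 .leaf .leaf)))) (Bern.Box.cut (Bern.Box.cut
      (Bern.Box.cut (Bern.Box.cut (Bern.Box.cut (Bern.Box.cut (Bern.Box.cut (Bern.Box.cut
      (Bern.Box.cut box3 2 Bern.Ax.right) 0 Bern.Ax.right) 1 Bern.Ax.left) 2 Bern.Ax.right) 0
      Bern.Ax.right) 1 Bern.Ax.right) 0 Bern.Ax.right) 2 Bern.Ax.right) 1 Bern.Ax.right) = true ∧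
    Bern.coverU row00.cfg3 row00.R3 (.split 0 .leaf .leaf) (Bern.Box.cut (Bern.Box.cut
      (Bern.Box.cut (Bern.Box.cut (Bern.Box.cut (Bern.Box.cut box3 2 Bern.Ax.right) 0
      Bern.Ax.right) 1 Bern.Ax.right) 2 Bern.Ax.left) 0 Bern.Ax.left) 2 Bern.Ax.left) = true ∧
    Bern.coverU row00.cfg3 row00.R3 (.split 0 .leaf (.split 2 (.split 0 (.split 2 (.split 0
      (.split 0 .leaf .leaf) .leaf) .leaf) .leaf) .leaf)) (Bern.Box.cut (Bern.Box.cut
      (Bern.Box.cut (Bern.Box.cut (Bern.Box.cut (Bern.Box.cut box3 2 Bern.Ax.right) 0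
      Bern.Ax.right) 1 Bern.Ax.right) 2 Bern.Ax.left) 0 Bern.Ax.left) 2 Bern.Ax.right) = true ∧
    Bern.coverU row00.cfg3 row00.R3 .leaf (Bern.Box.cut (Bern.Box.cut (Bern.Box.cut (Bern.Box.cut
      (Bern.Box.cut box3 2 Bern.Ax.right) 0 Bern.Ax.right) 1 Bern.Ax.right) 2 Bern.Ax.left) 0
      Bern.Ax.right) = true ∧
    Bern.coverU row00.cfg3 row00.R3 (.split 2 .leaf (.split 2 .leaf (.split 2 .leaf (.split 2
      .leaf (.split 0 .leaf (.split 0 .leaf .leaf)))))) (Bern.Box.cut (Bern.Box.cut (Bern.Box.cut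
      (Bern.Box.cut box3 2 Bern.Ax.right) 0 Bern.Ax.right) 1 Bern.Ax.right) 2 Bern.Ax.right) =
      true := by
  exact ⟨by decide +kernel, by decide +kernel, by decide +kernel,
    by decide +kernel, by decide +kernel, by decide +kernel, by decide +kernel,
    by decide +kernel, by decide +kernel, by decide +kernel, by decide +kernel,
    by decide +kernel, by decide +kernel, by decide +kernel, by decide +kernel,
    by decide +kernel, by decide +kernel, by decide +kernel, by decide +kernel,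
    by decide +kernel, by decide +kernel, by decide +kernel, by decide +kernel,
    by decide +kernel, by decide +kernel, by decide +kernel, by decide +kernel,
    by decide +kernel, by decide +kernel, by decide +kernel, by decide +kernel,
    by decide +kernel, by decide +kernel, by decide +kernel, by decide +kernel,
    by decide +kernel, by decide +kernel, by decide +kernel, by decide +kernel,
    by decide +kernel, by decide +kernel, by decide +kernel, by decide +kernel,
    by decide +kernel, by decide +kernel, by decide +kernel, by decide +kernel,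
    by decide +kernel, by decide +kernel, by decide +kernel, by decide +kernel,
    by decide +kernel, by decide +kernel, by decide +kernel, by decide +kernel,
    by decide +kernel, by decide +kernel, by decide +kernel, by decide +kernel,
    by decide +kernel, by decide +kernel, by decide +kernel, by decide +kernel,
    by decide +kernel, by decide +kernel, by decide +kernel, by decide +kernel,
    by decide +kernel, by decide +kernel, by decide +kernel, by decide +kernel,
    by decide +kernel, by decide +kernel, by decide +kernel, by decide +kernel,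
    by decide +kernel, by decide +kernel, by decide +kernel, by decide +kernel,
    by decide +kernel, by decide +kernel, by decide +kernel, by decide +kernel,
    by decide +kernel, by decide +kernel, by decide +kernel, by decide +kernel,
    by decide +kernel, by decide +kernel, by decide +kernel, by decide +kernel,
    by decide +kernel, by decide +kernel, by decide +kernel, by decide +kernel,
    by decide +kernel, by decide +kernel⟩

/-- The row passes the check. -/
theorem row00_ok : rowFor 0 0 row00 = true := by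
  obtain ⟨hrest, h1, h2, h3, h4, h5, h6, h7, h8, h9, h10, h11, h12, h13, h14, h15, h16, h17, h18,
    h19, h20, h21, h22, h23, h24, h25, h26, h27, h28, h29, h30, h31, h32, h33, h34, h35, h36, h37,
    h38, h39, h40, h41, h42, h43, h44, h45, h46, h47, h48, h49, h50, h51, h52, h53, h54, h55, h56,
    h57, h58, h59, h60, h61, h62, h63, h64, h65, h66, h67, h68, h69, h70, h71, h72, h73, h74, h75,
    h76, h77, h78, h79, h80, h81, h82, h83, h84, h85, h86, h87, h88, h89, h90, h91, h92, h93, h94,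
    h95, h96⟩ := row00_parts
  simp only [rowFor, Bool.and_eq_true, decide_eq_true_eq]
  exact ⟨⟨⟨rfl, rfl⟩, rfl⟩, rowCheck_of_quick hrest
    ((Bern.coverU_split (Bern.coverU_split h1 h2) (Bern.coverU_split (Bern.coverU_split
      (Bern.coverU_split (Bern.coverU_split (Bern.coverU_split h3 h4) h5) h6) (Bern.coverU_split
      (Bern.coverU_split (Bern.coverU_split h7 (Bern.coverU_split h8 (Bern.coverU_split h9 h10)))
      (Bern.coverU_split (Bern.coverU_split h11 (Bern.coverU_split h12 (Bern.coverU_split h13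
      (Bern.coverU_split (Bern.coverU_split h14 h15) h16)))) (Bern.coverU_split (Bern.coverU_split
      (Bern.coverU_split h17 h18) h19) h20))) (Bern.coverU_split (Bern.coverU_split
      (Bern.coverU_split h21 h22) h23) h24))) (Bern.coverU_split (Bern.coverU_split
      (Bern.coverU_split (Bern.coverU_split h25 (Bern.coverU_split h26 h27)) h28) h29)
      (Bern.coverU_split (Bern.coverU_split (Bern.coverU_split (Bern.coverU_split
      (Bern.coverU_split h30 (Bern.coverU_split h31 h32)) h33) (Bern.coverU_split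
      (Bern.coverU_split h34 (Bern.coverU_split h35 h36)) (Bern.coverU_split (Bern.coverU_split
      h37 h38) h39))) (Bern.coverU_split (Bern.coverU_split (Bern.coverU_split h40 h41) h42)
      (Bern.coverU_split (Bern.coverU_split h43 (Bern.coverU_split (Bern.coverU_split h44
      (Bern.coverU_split h45 h46)) h47)) h48))) h49)))))
    ((Bern.coverU_split (Bern.coverU_split (Bern.coverU_split h50 h51) (Bern.coverU_split
      (Bern.coverU_split h52 h53) h54)) (Bern.coverU_split h55 (Bern.coverU_split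
      (Bern.coverU_split h56 (Bern.coverU_split (Bern.coverU_split (Bern.coverU_split h57
      (Bern.coverU_split (Bern.coverU_split (Bern.coverU_split (Bern.coverU_split h58 h59) h60)
      h61) h62)) h63) (Bern.coverU_split (Bern.coverU_split (Bern.coverU_split (Bern.coverU_split
      h64 h65) (Bern.coverU_split h66 (Bern.coverU_split (Bern.coverU_split h67 (Bern.coverU_split
      h68 h69)) h70))) (Bern.coverU_split (Bern.coverU_split (Bern.coverU_split h71 h72) h73)
      (Bern.coverU_split h74 (Bern.coverU_split h75 h76)))) (Bern.coverU_split (Bern.coverU_split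
      (Bern.coverU_split h77 h78) h79) (Bern.coverU_split (Bern.coverU_split (Bern.coverU_split
      (Bern.coverU_split (Bern.coverU_split (Bern.coverU_split h80 h81) h82) h83)
      (Bern.coverU_split (Bern.coverU_split (Bern.coverU_split h84 (Bern.coverU_split
      (Bern.coverU_split h85 h86) h87)) h88) h89)) h90) (Bern.coverU_split h91 h92))))))
      (Bern.coverU_split (Bern.coverU_split (Bern.coverU_split h93 h94) h95) h96)))))⟩

end Vale.Agent.P154.Anti
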