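import Vale.Agent.P154.Anti.RowData
import Vale.Agent.P154.RowQuick

/-!
P154: the certificate of the row of piece 0 and index 1.
-/

namespace Vale.Agent.P154.Anti

open Kron BudgetRow

/-- The polynomial which dominates the merged coefficient. -/
noncomputable def sym01 : List Term :=
  [
    (59510320312500, 0, 0, 0, 0), (1709510178377601270, 0, 0, 1, 0),
    (51565908460315429080, 0, 0, 2, 0), (-1812159011409611940, 0, 1, 0, 0),
    (-22540556498787484650, 0, 1, 1, 0), (650904889195654785, 0, 1, 2, 0),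
    (5315222595897287460, 0, 2, 0, 0), (-9438837281910552726, 0, 2, 1, 0),
    (7405701484152252348, 0, 3, 0, 0), (419489971230764340, 0, 4, 0, 0),
    (114314529557362500, 1, 0, 0, 0), (-4585771966630171680, 1, 0, 1, 0),
    (-87860546563251972150, 1, 0, 2, 0), (3883297599917532630, 1, 1, 0, 0),
    (25943223960115785000, 1, 1, 1, 0), (-638989466678356140, 1, 1, 2, 0),
    (-11120485386446069670, 1, 2, 0, 0), (13787631511912633968, 1, 2, 1, 0),
    (-13582035596248307298, 1, 3, 0, 0), (-452992306296645360, 1, 4, 0, 0),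
    (-1861505335546020, 2, 0, 0, 0), (10327892512385610720, 2, 0, 1, 0),
    (61834781250843395805, 2, 0, 2, 0), (-6256532739516910740, 2, 1, 0, 0),
    (-427117928350309866, 2, 1, 1, 0), (230484398205236310, 2, 1, 2, 0),
    (8024453830456743024, 2, 2, 0, 0), (-8158359952923356484, 2, 2, 1, 0),
    (10048652089261517799, 2, 3, 0, 0), (185146509403288440, 2, 4, 0, 0),
    (6745866321455280, 3, 0, 0, 0), (-10471671166606472034, 3, 0, 1, 0),
    (-22963160078082551520, 3, 0, 2, 0), (7032397105333429020, 3, 1, 0, 0),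
    (-12926102888704496922, 3, 1, 1, 0), (-35394695577351756, 3, 1, 2, 0),
    (-1165425489901958004, 3, 2, 0, 0), (2433310354918050552, 3, 2, 1, 0),
    (-3866373684307513872, 3, 3, 0, 0), (-33792620979391344, 3, 4, 0, 0),
    (-12036950226740520, 4, 0, 0, 0), (4117589804801583936, 4, 0, 1, 0),
    (4738046179204921230, 4, 0, 2, 0), (-5070485670975059814, 4, 1, 0, 0),
    (8300592027855529146, 4, 1, 1, 0), (1870644811640625, 4, 1, 2, 0),
    (-1471224789148959243, 4, 2, 0, 0), (-364665445928484246, 4, 2, 1, 0),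
    (818050005080509806, 4, 3, 0, 0), (2314843945312500, 4, 4, 0, 0),
    (12633628946954580, 5, 0, 0, 0), (265725151901993772, 5, 0, 1, 0),
    (-514336023461976498, 5, 0, 2, 0), (2260417894906379652, 5, 1, 0, 0),
    (-2373719794320523428, 5, 1, 1, 0), (923783676140485854, 5, 2, 0, 0),
    (21915179015625000, 5, 2, 1, 0), (-90269517420673542, 5, 3, 0, 0),
    (-8500721780661300, 6, 0, 0, 0), (-779358222159969456, 6, 0, 1, 0),
    (22934596118203125, 6, 0, 2, 0), (-597569900753295936, 6, 1, 0, 0),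
    (333333405799400970, 6, 1, 1, 0), (-237011597188636842, 6, 2, 0, 0),
    (4054899753984375, 6, 3, 0, 0), (3826399672288296, 7, 0, 0, 0),
    (271399241935963998, 7, 0, 1, 0), (82237362941876148, 7, 1, 0, 0),
    (-18720010452656250, 7, 1, 1, 0), (29412215071102836, 7, 2, 0, 0),
    (-1168833764640888, 8, 0, 0, 0), (-40895581955993046, 8, 0, 1, 0),
    (-2549661319929114, 8, 1, 0, 0), (-1450227952734375, 8, 2, 0, 0), (239751001641024, 9, 0, 0, 0),
    (2369383273125000, 9, 0, 1, 0), (-668556027698586, 9, 1, 0, 0), (-31664546891592, 10, 0, 0, 0),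
    (59301153125000, 10, 1, 0, 0), (2435500628528, 11, 0, 0, 0), (-82957812500, 12, 0, 0, 0)
  ]

/-- The nonnegative remainder in the invariants. -/
noncomputable def rem01 : Bern.Poly where
  pks := [(0, 1), (0, 2), (0, 3), (0, 4), (1, 0), (1, 1), (1, 2), (1, 3), (2, 0), (2, 1), (2, 2), (3, 0), (3, 1), (3, 2), (4, 0), (4, 1), (5, 0), (6, 0)]
  rows :=
  [((0, 0),
    [
      -6613515632640000, 348521624336596992, 0, 0, 4214856089600000, 334586694765379584,
      -218437537692123136, 0, 149707202978906112, -415915347248414720, 0, -579150139944337408, 0, 0,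
      863397318962970624, 0, 0, 0]),
   ((0, 1),
    [
      3452827619819520000, -12488108021907456, -377656977653760000, 0, 491011209953280000,
      -4044798232493555712, -446019523224010752, 88799436472320000, 1879868055443472384,
      2137318800972840960, -18932052787200000, -3505257867437408256, 225772522536960000, 0,
      2550792030289133568, -278448779427840000, -742530078474240000, 0]),
   ((0, 2),
    [
      -1983551813713920000, 6099295248267058176, -8779103625000000000, -2908412887500000000,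
      20968134357811200000, 34183080030821233152, -27218100078435787008, -2388941289843750000,
      -58287622352969662464, -69235165303885196160, 11153967355505580000, 88011941561146814976,
      36260197304140080000, 3346971915820312500, -70410533313012289728, 652283496388410000,
      29124202638488565000, -4904602599316406250]),
   ((0, 3),
    [
      -24170046569840640000, 70232829000000000000, -55985789475000000000, -2062982746875000000,
      -3788775956152320000, 262256315106823680000, -303939788373629760000, 14471096475000000000,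
      38796498095308800000, -599391020499112080000, 199494523258004760000, -174059634507567360000,
      447962189512790160000, -50956919777343750000, 306238690305711240000, -122416799572428135000,
      -175683537510839820000, 26690637447070312500]),
   ((0, 4),
    [
      0, -186138424800000000000, 16503861975000000000, -5922994762500000000, 0,
      -4926801150000000000, 208606306950000000000, -88866312412500000000, 0, 137257929225000000000,
      -250134842062500000000, 93069212400000000000, -184500825956250000000, 4891503389062500000,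
      -123647843812500000000, 53534858857031250000, 107910179878125000000, -1678835102343750000]),
   ((1, 0),
    [
      -676944559472640000, 1119616061534109696, 29599812157440000, 0, 161011508183040000,
      -147863875245047808, -627575194523271168, 0, -356418245958303744, 674429245996400640,
      59199624314880000, -578119425803157504, -474263515299840000, 0, 370651877604851712, 0,
      -185632519618560000, 0]),
   ((1, 1),
    [
      -15258809385615360000, -18973179378309306624, 16391019694176480000, 38490633984375000,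
      -6400691341885440000, 64515110383341783552, 47205561038594491392, -15345112428678135000,
      -8138996766043275264, -81482692473728948160, -21267785741153280000, 8170932304117570176,
      64331488715719200000, -6301246568554687500, 39881871081684672, -19855086511465575000,
      3565341515824890000, -1929036621093750000]),
   ((1, 2),
    [
      19179818314629120000, -106072011282759386112, 151969894186814880000, 13037894184375000000,
      -38080190097653760000, -366306599028225613824, 430355141242585188096, -52414024031250000000,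
      254766735589735661568, 738202879708773073920, -247656587234689470000, -678686935827113267712,
      -358928876887061460000, -47059906959960937500, 780619251798410840736, -36159400387936635000,
      -330513908579216490000, 64401031543066406250]),
   ((1, 3),
    [
      22732655736913920000, 76446121275000000000, 57884385900000000000, 44433156206250000000, 0,
      -982087195435400640000, 419312192250000000000, 81036219468750000000, -34098983605370880000,
      2186836785063697440000, -343667181728292840000, 438687504142640160000,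
      -1197813918853775040000, 16420641157031250000, -1012385048411214960000, 218453144081394195000,
      618441901282896420000, -32386748390039062500]),
   ((2, 0),
    [
      -4056217508904960000, -14752212602594525184, -1212390565478400000, 0, -1588444350382080000,
      3374669749912338432, 15929465166925135872, 266398309416960000, -3118708613685095424,
      -1087333597759378560, -9370888952757780000, 3336060157826063616, 2632844050243800000,
      57735950976562500, 4959429102051332352, -6322540081914450000, -4886582883814740000,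
      -482259155273437500]),
   ((2, 1),
    [
      29815337763471360000, 132029628782661719808, -149847755124778020000, -4289310288281250000,
      -36497906278072320000, -339535865659159305984, -366781361686982091264, 136677299066481090000,
      6549383549155058688, 578102230171217406720, 259524257007550605000, 393567123322258094208,
      -495070000718482695000, 13850140883203125000, -437578977265759401024, 125836917894659081250,
      2611836040756132500, 32453994221630859375]),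
   ((2, 2),
    [
      2423302756761600000, 178463477688089280000, -398989046516009520000, -62533710515625000000,
      15155103824609280000, 680569143716904960000, -990626348938757880000, 171833590864146420000,
      -599736892976497920000, -2076194056060404840000, 979581761750579880000,
      2790067831227528000000, 1545051447191656800000, -11423225329687500000,
      -3321736931721702540000, -188782043238002017500, 888780076821042165000, -92409948400781250000]),
   ((3, 0),
    [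
      31283253262417920000, 94808525112911344128, 21757454313445920000, 1454206443750000000,
      8517427742638080000, -4482520390268761344, -172584628371995677824, -13708984504457505000,
      16090928399346398208, -198920749910291004480, 174379239451720500000, -56951268314372585472,
      197843287558273440000, -37241176837792968750, 60513840651654122016, -13216622113623165000,
      -25616138560217317500, 13472057948583984375]),
   ((3, 1),
    [
      14449441442365440000, -290081578433120640000, 447962189512790160000, 23062603244531250000,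
      60705729958379520000, 1029303819451507200000, 717857753774122920000, -299453479713443760000,
      -84251009607801600000, -1980280002873930780000, -772525723595828400000,
      -1582746300466187520000, 1761265779738668760000, 21866243126367187500, 1873212402701813910000,
      -371211033094994471250, -66301823306841645000, -80668117679150390625]),
   ((3, 2),
    [
      0, 214206202612500000000, 407655358218750000000, 4891503389062500000, 0,
      806559560775000000000, -752958511359375000000, -32841282314062500000, 14780403450000000000,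
      -443204508262500000000, -45692901318750000000, -2383435317618750000000,
      -174929945010937500000, 35898983185546875000, 3161391980156250000000, -3479534678906250000,
      -568709995128515625000, -297423967382812500]),
   ((4, 0),
    [
      -100945416054374400000, -288936014476804571904, -153119345152855620000, -7727990238281250000,
      27877805685473280000, -41660518852771051008, 778422034515011881632, 126548131051401870000,
      81887120398194118656, 852965326572518336640, -830434232930425635000, 190377004589136160896,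
      -936606201350906955000, 197586998759765625000, -716281317616010263488, 163951709464158911250,
      453569984361220770000, -63219505112109375000]),
   ((4, 1),
    [
      -71282887533527040000, -20873071884429120000, -489667198289712540000, -26767429428515625000,
      0, -1270725536733796800000, 289275203103493080000, 218453144081394195000,
      809285130485049600000, 2013390686314545300000, 377564086476004035000, 422931907635941280000,
      -1484844132379977885000, 1739767339453125000, -1311613675713271290000, 177772478022967027500,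
      -242493970528776697500, 50170261644726562500]),
   ((5, 0),
    [
      95043850044702720000, 465987242215817040000, 351367075021679640000, 26977544969531250000,
      -47521925022351360000, -114090928506396480000, -1322055634316865960000,
      -309220950641448210000, -312741304564143360000, -20894688326049060000, 888780076821042165000,
      -409858216963477080000, 132603646613683290000, -142177498782128906250, 1814279937444883080000,
      121246985264388348750, -998650850765965725000, 77474216398974609375]),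
   ((6, 0),
    [
      0, -313894566356250000000, -213525099576562500000, -1678835102343750000, 0,
      246916687500000000000, 1030416504689062500000, 64773496780078125000, -123458343750000000000,
      -1038527815092187500000, -369639793603125000000, 862211708709375000000, 645344941433203125000,
      -297423967382812500, -1011512081793750000000, -100340523289453125000, 309896865595898437500,
      13427670783398437500])]

/-- The nonnegative remainder in three variables. -/
noncomputable def dom01 : Bern.Poly where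
  pks := [(0, 1), (1, 0), (1, 1), (2, 0), (2, 1), (3, 0), (3, 1), (4, 0), (5, 0)]
  rows :=
  [((0, 0),
    [
      1010969680592812500, 59510320312500, 496722060942015937500, -36950652630421875000,
      6226132052645715937500, -2936376968728086562500, -53190151584571605937500,
      8471501792595241875000, 57367238180804721562500]),
   ((0, 1),
    [
      7322277836095488, 0, 92972554637639062500, 87867334033145856, -6105173510864179687500,
      -1116968550162086250000, -159627814536351518437500, 75653504955479579062500,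
      79924178459287572187500]),
   ((0, 2),
    [
      -262438450990940160, 0, -23619460589184614400, -3149261411891281920, -744013008559315353600,
      -141716763535107686400, -517488596147508474375000, 146794926629195077500000,
      450711497235660795000000]),
   ((1, 0),
    [
      -691258650334986240, 0, -557185400061980625000, 40633189504039687500, 43860453237596666250000,
      321397351980544687500, 912866372320946115937500, -329308762460831187187500,
      -860715755261937992812500]),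
   ((1, 1),
    [
      -2144391814840320, 0, -192995263335628800, -25732701778083840, 32858052024437080312500,
      -1157971580013772800, 1170350747607626524687500, -397185156396509220000000,
      -1010229468088163731875000]),
   ((1, 2),
    [
      149814797835829248, 0, 13483331805224632320, 1797777574029950976, 424724951864575918080,
      80899990831347793920, 9174058960274839830528, 2038679768949964406784, -11929648192117264687500]),
   ((2, 0),
    [
      -145128551165853696, 0, -13061569604926832640, -1741542613990244352, -76171573856966616562500,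
      3796427854779561562500, -2200131971198564242500000, 639764068780140482812500,
      2422684070694787964062500]),
   ((2, 1),
    [
      323584998208045056, 0, 29122649838724055040, 3883019978496540672, 917363469919807733760,
      174735899032344330240, -351754217489422971562500, 4403344655615077122048,
      664706675743461137812500]),
   ((3, 0),
    [
      80882196245250048, 0, 7279397662072504320, 970586354943000576, 229301026355283886080,
      43676385972435025920, 1219126596846583857187500, -144665777386063420312500,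
      -1892454486250755729375000]),
   ((4, 0),
    [
      -469774913612414976, 0, -42279742225117347840, -5637298963348979712, -1331811880091196456960,
      -253678453350704087040, -28767136609969843470336, -6392697024437742993408,
      99646441472406445312500])]

/-- A subdivision. -/
noncomputable def cov01 : Bern.Cover :=
  (.split 0 (.split 2 (.split 2 .leaf .leaf) (.split 3 .leaf (.split 3 .leaf .leaf)))
  (.split 2 (.split 1 (.split 0 (.split 2 (.split 0 .leaf .leaf) (.split 0 .leaf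
  (.split 0 .leaf .leaf))) .leaf) (.split 0 (.split 2 .leaf (.split 0 (.split 2
  (.split 0 .leaf .leaf) (.split 0 .leaf .leaf)) .leaf)) .leaf)) (.split 1 (.split 3
  (.split 0 (.split 0 .leaf (.split 3 .leaf .leaf)) (.split 2 (.split 1 .leaf (.split
  1 .leaf (.split 2 .leaf (.split 3 (.split 1 .leaf .leaf) .leaf)))) (.split 1 .leaf
  (.split 3 .leaf .leaf)))) (.split 0 (.split 3 (.split 0 (.split 3 .leaf .leaf)
  (.split 3 .leaf .leaf)) .leaf) (.split 2 (.split 1 (.split 0 .leaf (.split 2 .leaf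
  (.split 1 .leaf .leaf))) .leaf) .leaf))) (.split 3 (.split 0 (.split 2 (.split 0
  .leaf .leaf) (.split 3 .leaf .leaf)) (.split 2 .leaf (.split 1 (.split 0 (.split 3
  .leaf .leaf) (.split 3 (.split 2 .leaf (.split 3 (.split 0 (.split 1 .leaf .leaf)
  (.split 1 .leaf .leaf)) .leaf)) .leaf)) (.split 3 .leaf .leaf)))) (.split 0 .leaf
  .leaf)))))

/-- A subdivision. -/
noncomputable def covDom01 : Bern.Cover :=
  (.split 2 (.split 2 (.split 2 .leaf (.split 1 (.split 2 (.split 2 .leaf .leaf)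
  (.split 0 .leaf (.split 1 .leaf (.split 1 .leaf .leaf)))) (.split 2 (.split 2 .leaf
  .leaf) .leaf))) (.split 0 (.split 2 .leaf (.split 2 (.split 0 (.split 2 .leaf
  .leaf) (.split 2 .leaf (.split 0 .leaf .leaf))) (.split 0 .leaf (.split 0 .leaf
  .leaf)))) (.split 1 (.split 1 .leaf (.split 2 (.split 1 .leaf (.split 2 (.split 1
  (.split 2 .leaf .leaf) .leaf) .leaf)) .leaf)) (.split 2 .leaf .leaf)))) (.split 0
  (.split 2 .leaf (.split 2 (.split 2 (.split 2 (.split 2 .leaf (.split 2 .leaf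
  .leaf)) .leaf) .leaf) .leaf)) (.split 1 (.split 0 (.split 2 .leaf (.split 1 (.split
  0 (.split 0 (.split 1 (.split 0 .leaf (.split 1 (.split 0 (.split 1 .leaf .leaf)
  (.split 1 (.split 0 (.split 1 (.split 0 (.split 0 .leaf .leaf) .leaf) .leaf)
  (.split 1 .leaf (.split 0 .leaf .leaf))) (.split 0 .leaf (.split 1 .leaf .leaf))))
  .leaf)) .leaf) (.split 1 (.split 0 (.split 1 (.split 0 (.split 1 .leaf (.split 0
  (.split 1 .leaf .leaf) .leaf)) .leaf) (.split 0 (.split 1 (.split 0 .leaf .leaf)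
  .leaf) (.split 1 (.split 0 .leaf .leaf) .leaf))) (.split 1 .leaf (.split 1 .leaf
  (.split 0 .leaf .leaf)))) (.split 0 .leaf (.split 1 (.split 0 .leaf .leaf) .leaf))))
  (.split 1 (.split 2 .leaf .leaf) (.split 0 (.split 1 (.split 0 .leaf .leaf) (.split
  0 .leaf .leaf)) .leaf))) (.split 0 .leaf (.split 1 (.split 0 .leaf (.split 0 .leaf
  .leaf)) .leaf)))) (.split 2 (.split 1 .leaf (.split 0 (.split 2 .leaf (.split 1
  .leaf .leaf)) (.split 1 (.split 0 (.split 0 (.split 2 .leaf (.split 0 .leaf .leaf))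
  (.split 2 .leaf (.split 0 .leaf .leaf))) .leaf) (.split 0 (.split 2 .leaf (.split 0
  (.split 2 .leaf (.split 1 (.split 2 .leaf (.split 1 (.split 1 .leaf .leaf) .leaf))
  .leaf)) (.split 1 (.split 2 .leaf (.split 1 (.split 2 .leaf (.split 0 (.split 1
  (.split 0 (.split 2 .leaf (.split 1 .leaf .leaf)) .leaf) (.split 0 .leaf .leaf))
  .leaf)) .leaf)) .leaf))) .leaf)))) (.split 1 (.split 2 (.split 0 (.split 1 (.split 0
  .leaf (.split 0 .leaf .leaf)) (.split 0 .leaf (.split 2 .leaf (.split 1 (.split 2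
  .leaf (.split 1 .leaf .leaf)) .leaf)))) (.split 1 .leaf (.split 0 (.split 2 .leaf
  (.split 0 (.split 1 (.split 2 .leaf (.split 0 (.split 2 .leaf (.split 0 .leaf
  .leaf)) .leaf)) (.split 2 .leaf (.split 0 (.split 2 (.split 1 .leaf .leaf) (.split
  1 (.split 1 (.split 2 (.split 0 .leaf .leaf) .leaf) (.split 2 .leaf .leaf)) .leaf))
  (.split 1 (.split 2 .leaf (.split 1 (.split 2 .leaf .leaf) (.split 2 (.split 0
  (.split 1 (.split 0 .leaf .leaf) (.split 0 .leaf .leaf)) .leaf) (.split 0 .leaf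
  .leaf)))) (.split 2 (.split 0 .leaf .leaf) (.split 0 (.split 2 .leaf .leaf) (.split
  1 .leaf .leaf))))))) (.split 2 .leaf (.split 1 .leaf (.split 1 .leaf .leaf)))))
  .leaf))) (.split 0 (.split 1 (.split 0 .leaf (.split 0 .leaf .leaf)) (.split 0
  .leaf (.split 1 .leaf .leaf))) (.split 1 (.split 2 .leaf (.split 2 .leaf .leaf))
  (.split 0 (.split 1 (.split 0 .leaf .leaf) (.split 0 (.split 0 .leaf .leaf) .leaf))
  (.split 2 .leaf (.split 2 .leaf (.split 2 .leaf (.split 1 (.split 2 .leaf (.split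
  1 .leaf (.split 2 .leaf .leaf))) (.split 2 .leaf .leaf))))))))) (.split 0 (.split 1
  (.split 2 .leaf .leaf) (.split 0 .leaf .leaf)) (.split 2 (.split 0 (.split 1
  (.split 2 (.split 0 (.split 1 .leaf .leaf) (.split 1 .leaf (.split 2 (.split 0
  (.split 2 (.split 0 .leaf .leaf) .leaf) .leaf) .leaf))) (.split 0 (.split 2 .leaf
  .leaf) (.split 1 (.split 2 .leaf .leaf) .leaf))) (.split 0 .leaf (.split 1 (.split
  2 (.split 0 (.split 1 (.split 0 (.split 2 (.split 1 .leaf .leaf) .leaf) (.split 2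
  .leaf .leaf)) .leaf) .leaf) .leaf) .leaf))) (.split 1 .leaf .leaf)) (.split 0 .leaf
  .leaf)))))) (.split 0 (.split 2 (.split 0 (.split 2 .leaf .leaf) (.split 2 .leaf
  (.split 0 (.split 2 (.split 0 (.split 2 .leaf .leaf) (.split 2 .leaf (.split 0
  (.split 2 .leaf .leaf) (.split 2 .leaf .leaf)))) .leaf) (.split 2 .leaf .leaf))))
  .leaf) (.split 2 .leaf (.split 2 .leaf (.split 2 .leaf (.split 1 (.split 0 .leaf
  (.split 1 (.split 0 (.split 1 .leaf .leaf) (.split 1 .leaf (.split 0 (.split 1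
  .leaf .leaf) (.split 1 .leaf (.split 0 .leaf .leaf))))) (.split 0 .leaf (.split 0
  .leaf .leaf)))) (.split 2 .leaf (.split 2 .leaf (.split 2 .leaf .leaf)))))))))))

/-- The row. -/
noncomputable def row01 : Row where
  W := terms 1
  D := slopeT 0 1
  G := sym01
  a := 7739670528
  e := slopeE 0
  kR := 262144
  kG := 754974720000000
  kP := 375
  I := 12
  J := 8
  P := rem01
  cfg := ⟨12, 12, 10, 12, 12, 290⟩
  cov := cov01
  lay := ⟨164, 13, 13, 13, 13⟩
  R3 := dom01
  cfg3 := ⟨8, 8, 8, 10, 10, 554⟩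
  cov3 := covDom01
  lay3 := ⟨96, 5, 3, 15, 1⟩

set_option maxHeartbeats 8000000 in
/-- All parts of the check, evaluated one after another. -/
theorem row01_parts :
    rowRest (terms 0) row01 = true ∧
    Bern.coverU row01.cfg row01.P (.split 2 .leaf .leaf) (Bern.Box.cut (Bern.Box.cut Bern.unitBox
      0 Bern.Ax.left) 2 Bern.Ax.left) = true ∧
    Bern.coverU row01.cfg row01.P (.split 3 .leaf (.split 3 .leaf .leaf)) (Bern.Box.cut
      (Bern.Box.cut Bern.unitBox 0 Bern.Ax.left) 2 Bern.Ax.right) = true ∧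
    Bern.coverU row01.cfg row01.P (.split 0 .leaf .leaf) (Bern.Box.cut (Bern.Box.cut (Bern.Box.cut
      (Bern.Box.cut (Bern.Box.cut Bern.unitBox 0 Bern.Ax.right) 2 Bern.Ax.left) 1 Bern.Ax.left) 0
      Bern.Ax.left) 2 Bern.Ax.left) = true ∧
    Bern.coverU row01.cfg row01.P (.split 0 .leaf (.split 0 .leaf .leaf)) (Bern.Box.cut
      (Bern.Box.cut (Bern.Box.cut (Bern.Box.cut (Bern.Box.cut Bern.unitBox 0 Bern.Ax.right) 2
      Bern.Ax.left) 1 Bern.Ax.left) 0 Bern.Ax.left) 2 Bern.Ax.right) = true ∧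
    Bern.coverU row01.cfg row01.P .leaf (Bern.Box.cut (Bern.Box.cut (Bern.Box.cut (Bern.Box.cut
      Bern.unitBox 0 Bern.Ax.right) 2 Bern.Ax.left) 1 Bern.Ax.left) 0 Bern.Ax.right) = true ∧
    Bern.coverU row01.cfg row01.P .leaf (Bern.Box.cut (Bern.Box.cut (Bern.Box.cut (Bern.Box.cut
      (Bern.Box.cut Bern.unitBox 0 Bern.Ax.right) 2 Bern.Ax.left) 1 Bern.Ax.right) 0 Bern.Ax.left)
      2 Bern.Ax.left) = true ∧
    Bern.coverU row01.cfg row01.P (.split 0 .leaf .leaf) (Bern.Box.cut (Bern.Box.cut (Bern.Box.cut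
      (Bern.Box.cut (Bern.Box.cut (Bern.Box.cut (Bern.Box.cut Bern.unitBox 0 Bern.Ax.right) 2
      Bern.Ax.left) 1 Bern.Ax.right) 0 Bern.Ax.left) 2 Bern.Ax.right) 0 Bern.Ax.left) 2
      Bern.Ax.left) = true ∧
    Bern.coverU row01.cfg row01.P (.split 0 .leaf .leaf) (Bern.Box.cut (Bern.Box.cut (Bern.Box.cut
      (Bern.Box.cut (Bern.Box.cut (Bern.Box.cut (Bern.Box.cut Bern.unitBox 0 Bern.Ax.right) 2
      Bern.Ax.left) 1 Bern.Ax.right) 0 Bern.Ax.left) 2 Bern.Ax.right) 0 Bern.Ax.left) 2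
      Bern.Ax.right) = true ∧
    Bern.coverU row01.cfg row01.P .leaf (Bern.Box.cut (Bern.Box.cut (Bern.Box.cut (Bern.Box.cut
      (Bern.Box.cut (Bern.Box.cut Bern.unitBox 0 Bern.Ax.right) 2 Bern.Ax.left) 1 Bern.Ax.right) 0
      Bern.Ax.left) 2 Bern.Ax.right) 0 Bern.Ax.right) = true ∧
    Bern.coverU row01.cfg row01.P .leaf (Bern.Box.cut (Bern.Box.cut (Bern.Box.cut (Bern.Box.cut
      Bern.unitBox 0 Bern.Ax.right) 2 Bern.Ax.left) 1 Bern.Ax.right) 0 Bern.Ax.right) = true ∧
    Bern.coverU row01.cfg row01.P (.split 0 .leaf (.split 3 .leaf .leaf)) (Bern.Box.cut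
      (Bern.Box.cut (Bern.Box.cut (Bern.Box.cut (Bern.Box.cut Bern.unitBox 0 Bern.Ax.right) 2
      Bern.Ax.right) 1 Bern.Ax.left) 3 Bern.Ax.left) 0 Bern.Ax.left) = true ∧
    Bern.coverU row01.cfg row01.P .leaf (Bern.Box.cut (Bern.Box.cut (Bern.Box.cut (Bern.Box.cut
      (Bern.Box.cut (Bern.Box.cut (Bern.Box.cut Bern.unitBox 0 Bern.Ax.right) 2 Bern.Ax.right) 1
      Bern.Ax.left) 3 Bern.Ax.left) 0 Bern.Ax.right) 2 Bern.Ax.left) 1 Bern.Ax.left) = true ∧
    Bern.coverU row01.cfg row01.P .leaf (Bern.Box.cut (Bern.Box.cut (Bern.Box.cut (Bern.Box.cut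
      (Bern.Box.cut (Bern.Box.cut (Bern.Box.cut (Bern.Box.cut Bern.unitBox 0 Bern.Ax.right) 2
      Bern.Ax.right) 1 Bern.Ax.left) 3 Bern.Ax.left) 0 Bern.Ax.right) 2 Bern.Ax.left) 1
      Bern.Ax.right) 1 Bern.Ax.left) = true ∧
    Bern.coverU row01.cfg row01.P .leaf (Bern.Box.cut (Bern.Box.cut (Bern.Box.cut (Bern.Box.cut
      (Bern.Box.cut (Bern.Box.cut (Bern.Box.cut (Bern.Box.cut (Bern.Box.cut Bern.unitBox 0
      Bern.Ax.right) 2 Bern.Ax.right) 1 Bern.Ax.left) 3 Bern.Ax.left) 0 Bern.Ax.right) 2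
      Bern.Ax.left) 1 Bern.Ax.right) 1 Bern.Ax.right) 2 Bern.Ax.left) = true ∧
    Bern.coverU row01.cfg row01.P (.split 3 (.split 1 .leaf .leaf) .leaf) (Bern.Box.cut
      (Bern.Box.cut (Bern.Box.cut (Bern.Box.cut (Bern.Box.cut (Bern.Box.cut (Bern.Box.cut
      (Bern.Box.cut (Bern.Box.cut Bern.unitBox 0 Bern.Ax.right) 2 Bern.Ax.right) 1 Bern.Ax.left) 3
      Bern.Ax.left) 0 Bern.Ax.right) 2 Bern.Ax.left) 1 Bern.Ax.right) 1 Bern.Ax.right) 2
      Bern.Ax.right) = true ∧
    Bern.coverU row01.cfg row01.P (.split 1 .leaf (.split 3 .leaf .leaf)) (Bern.Box.cut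
      (Bern.Box.cut (Bern.Box.cut (Bern.Box.cut (Bern.Box.cut (Bern.Box.cut Bern.unitBox 0
      Bern.Ax.right) 2 Bern.Ax.right) 1 Bern.Ax.left) 3 Bern.Ax.left) 0 Bern.Ax.right) 2
      Bern.Ax.right) = true ∧
    Bern.coverU row01.cfg row01.P (.split 3 .leaf .leaf) (Bern.Box.cut (Bern.Box.cut (Bern.Box.cut
      (Bern.Box.cut (Bern.Box.cut (Bern.Box.cut (Bern.Box.cut Bern.unitBox 0 Bern.Ax.right) 2
      Bern.Ax.right) 1 Bern.Ax.left) 3 Bern.Ax.right) 0 Bern.Ax.left) 3 Bern.Ax.left) 0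
      Bern.Ax.left) = true ∧
    Bern.coverU row01.cfg row01.P (.split 3 .leaf .leaf) (Bern.Box.cut (Bern.Box.cut (Bern.Box.cut
      (Bern.Box.cut (Bern.Box.cut (Bern.Box.cut (Bern.Box.cut Bern.unitBox 0 Bern.Ax.right) 2
      Bern.Ax.right) 1 Bern.Ax.left) 3 Bern.Ax.right) 0 Bern.Ax.left) 3 Bern.Ax.left) 0
      Bern.Ax.right) = true ∧
    Bern.coverU row01.cfg row01.P .leaf (Bern.Box.cut (Bern.Box.cut (Bern.Box.cut (Bern.Box.cut
      (Bern.Box.cut (Bern.Box.cut Bern.unitBox 0 Bern.Ax.right) 2 Bern.Ax.right) 1 Bern.Ax.left) 3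
      Bern.Ax.right) 0 Bern.Ax.left) 3 Bern.Ax.right) = true ∧
    Bern.coverU row01.cfg row01.P .leaf (Bern.Box.cut (Bern.Box.cut (Bern.Box.cut (Bern.Box.cut
      (Bern.Box.cut (Bern.Box.cut (Bern.Box.cut (Bern.Box.cut Bern.unitBox 0 Bern.Ax.right) 2
      Bern.Ax.right) 1 Bern.Ax.left) 3 Bern.Ax.right) 0 Bern.Ax.right) 2 Bern.Ax.left) 1
      Bern.Ax.left) 0 Bern.Ax.left) = true ∧
    Bern.coverU row01.cfg row01.P (.split 2 .leaf (.split 1 .leaf .leaf)) (Bern.Box.cut
      (Bern.Box.cut (Bern.Box.cut (Bern.Box.cut (Bern.Box.cut (Bern.Box.cut (Bern.Box.cut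
      (Bern.Box.cut Bern.unitBox 0 Bern.Ax.right) 2 Bern.Ax.right) 1 Bern.Ax.left) 3
      Bern.Ax.right) 0 Bern.Ax.right) 2 Bern.Ax.left) 1 Bern.Ax.left) 0 Bern.Ax.right) = true ∧
    Bern.coverU row01.cfg row01.P .leaf (Bern.Box.cut (Bern.Box.cut (Bern.Box.cut (Bern.Box.cut
      (Bern.Box.cut (Bern.Box.cut (Bern.Box.cut Bern.unitBox 0 Bern.Ax.right) 2 Bern.Ax.right) 1
      Bern.Ax.left) 3 Bern.Ax.right) 0 Bern.Ax.right) 2 Bern.Ax.left) 1 Bern.Ax.right) = true ∧
    Bern.coverU row01.cfg row01.P .leaf (Bern.Box.cut (Bern.Box.cut (Bern.Box.cut (Bern.Box.cut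
      (Bern.Box.cut (Bern.Box.cut Bern.unitBox 0 Bern.Ax.right) 2 Bern.Ax.right) 1 Bern.Ax.left) 3
      Bern.Ax.right) 0 Bern.Ax.right) 2 Bern.Ax.right) = true ∧
    Bern.coverU row01.cfg row01.P (.split 0 .leaf .leaf) (Bern.Box.cut (Bern.Box.cut (Bern.Box.cut
      (Bern.Box.cut (Bern.Box.cut (Bern.Box.cut Bern.unitBox 0 Bern.Ax.right) 2 Bern.Ax.right) 1
      Bern.Ax.right) 3 Bern.Ax.left) 0 Bern.Ax.left) 2 Bern.Ax.left) = true ∧
    Bern.coverU row01.cfg row01.P (.split 3 .leaf .leaf) (Bern.Box.cut (Bern.Box.cut (Bern.Box.cut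
      (Bern.Box.cut (Bern.Box.cut (Bern.Box.cut Bern.unitBox 0 Bern.Ax.right) 2 Bern.Ax.right) 1
      Bern.Ax.right) 3 Bern.Ax.left) 0 Bern.Ax.left) 2 Bern.Ax.right) = true ∧
    Bern.coverU row01.cfg row01.P .leaf (Bern.Box.cut (Bern.Box.cut (Bern.Box.cut (Bern.Box.cut
      (Bern.Box.cut (Bern.Box.cut Bern.unitBox 0 Bern.Ax.right) 2 Bern.Ax.right) 1 Bern.Ax.right)
      3 Bern.Ax.left) 0 Bern.Ax.right) 2 Bern.Ax.left) = true ∧
    Bern.coverU row01.cfg row01.P (.split 3 .leaf .leaf) (Bern.Box.cut (Bern.Box.cut (Bern.Box.cut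
      (Bern.Box.cut (Bern.Box.cut (Bern.Box.cut (Bern.Box.cut (Bern.Box.cut Bern.unitBox 0
      Bern.Ax.right) 2 Bern.Ax.right) 1 Bern.Ax.right) 3 Bern.Ax.left) 0 Bern.Ax.right) 2
      Bern.Ax.right) 1 Bern.Ax.left) 0 Bern.Ax.left) = true ∧
    Bern.coverU row01.cfg row01.P .leaf (Bern.Box.cut (Bern.Box.cut (Bern.Box.cut (Bern.Box.cut
      (Bern.Box.cut (Bern.Box.cut (Bern.Box.cut (Bern.Box.cut (Bern.Box.cut (Bern.Box.cut
      Bern.unitBox 0 Bern.Ax.right) 2 Bern.Ax.right) 1 Bern.Ax.right) 3 Bern.Ax.left) 0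
      Bern.Ax.right) 2 Bern.Ax.right) 1 Bern.Ax.left) 0 Bern.Ax.right) 3 Bern.Ax.left) 2
      Bern.Ax.left) = true ∧
    Bern.coverU row01.cfg row01.P (.split 1 .leaf .leaf) (Bern.Box.cut (Bern.Box.cut (Bern.Box.cut
      (Bern.Box.cut (Bern.Box.cut (Bern.Box.cut (Bern.Box.cut (Bern.Box.cut (Bern.Box.cut
      (Bern.Box.cut (Bern.Box.cut (Bern.Box.cut Bern.unitBox 0 Bern.Ax.right) 2 Bern.Ax.right) 1
      Bern.Ax.right) 3 Bern.Ax.left) 0 Bern.Ax.right) 2 Bern.Ax.right) 1 Bern.Ax.left) 0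
      Bern.Ax.right) 3 Bern.Ax.left) 2 Bern.Ax.right) 3 Bern.Ax.left) 0 Bern.Ax.left) = true ∧
    Bern.coverU row01.cfg row01.P (.split 1 .leaf .leaf) (Bern.Box.cut (Bern.Box.cut (Bern.Box.cut
      (Bern.Box.cut (Bern.Box.cut (Bern.Box.cut (Bern.Box.cut (Bern.Box.cut (Bern.Box.cut
      (Bern.Box.cut (Bern.Box.cut (Bern.Box.cut Bern.unitBox 0 Bern.Ax.right) 2 Bern.Ax.right) 1
      Bern.Ax.right) 3 Bern.Ax.left) 0 Bern.Ax.right) 2 Bern.Ax.right) 1 Bern.Ax.left) 0
      Bern.Ax.right) 3 Bern.Ax.left) 2 Bern.Ax.right) 3 Bern.Ax.left) 0 Bern.Ax.right) = true ∧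
    Bern.coverU row01.cfg row01.P .leaf (Bern.Box.cut (Bern.Box.cut (Bern.Box.cut (Bern.Box.cut
      (Bern.Box.cut (Bern.Box.cut (Bern.Box.cut (Bern.Box.cut (Bern.Box.cut (Bern.Box.cut
      (Bern.Box.cut Bern.unitBox 0 Bern.Ax.right) 2 Bern.Ax.right) 1 Bern.Ax.right) 3
      Bern.Ax.left) 0 Bern.Ax.right) 2 Bern.Ax.right) 1 Bern.Ax.left) 0 Bern.Ax.right) 3
      Bern.Ax.left) 2 Bern.Ax.right) 3 Bern.Ax.right) = true ∧
    Bern.coverU row01.cfg row01.P .leaf (Bern.Box.cut (Bern.Box.cut (Bern.Box.cut (Bern.Box.cut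
      (Bern.Box.cut (Bern.Box.cut (Bern.Box.cut (Bern.Box.cut (Bern.Box.cut Bern.unitBox 0
      Bern.Ax.right) 2 Bern.Ax.right) 1 Bern.Ax.right) 3 Bern.Ax.left) 0 Bern.Ax.right) 2
      Bern.Ax.right) 1 Bern.Ax.left) 0 Bern.Ax.right) 3 Bern.Ax.right) = true ∧
    Bern.coverU row01.cfg row01.P (.split 3 .leaf .leaf) (Bern.Box.cut (Bern.Box.cut (Bern.Box.cut
      (Bern.Box.cut (Bern.Box.cut (Bern.Box.cut (Bern.Box.cut Bern.unitBox 0 Bern.Ax.right) 2
      Bern.Ax.right) 1 Bern.Ax.right) 3 Bern.Ax.left) 0 Bern.Ax.right) 2 Bern.Ax.right) 1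
      Bern.Ax.right) = true ∧
    Bern.coverU row01.cfg row01.P (.split 0 .leaf .leaf) (Bern.Box.cut (Bern.Box.cut (Bern.Box.cut
      (Bern.Box.cut Bern.unitBox 0 Bern.Ax.right) 2 Bern.Ax.right) 1 Bern.Ax.right) 3
      Bern.Ax.right) = true ∧
    Bern.coverU row01.cfg3 row01.R3 .leaf (Bern.Box.cut (Bern.Box.cut (Bern.Box.cut box3 2
      Bern.Ax.left) 2 Bern.Ax.left) 2 Bern.Ax.left) = true ∧
    Bern.coverU row01.cfg3 row01.R3 (.split 2 (.split 2 .leaf .leaf) (.split 0 .leaf (.split 1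
      .leaf (.split 1 .leaf .leaf)))) (Bern.Box.cut (Bern.Box.cut (Bern.Box.cut (Bern.Box.cut box3
      2 Bern.Ax.left) 2 Bern.Ax.left) 2 Bern.Ax.right) 1 Bern.Ax.left) = true ∧
    Bern.coverU row01.cfg3 row01.R3 (.split 2 (.split 2 .leaf .leaf) .leaf) (Bern.Box.cut
      (Bern.Box.cut (Bern.Box.cut (Bern.Box.cut box3 2 Bern.Ax.left) 2 Bern.Ax.left) 2
      Bern.Ax.right) 1 Bern.Ax.right) = true ∧
    Bern.coverU row01.cfg3 row01.R3 .leaf (Bern.Box.cut (Bern.Box.cut (Bern.Box.cut (Bern.Box.cut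
      box3 2 Bern.Ax.left) 2 Bern.Ax.right) 0 Bern.Ax.left) 2 Bern.Ax.left) = true ∧
    Bern.coverU row01.cfg3 row01.R3 (.split 2 (.split 0 (.split 2 .leaf .leaf) (.split 2 .leaf
      (.split 0 .leaf .leaf))) (.split 0 .leaf (.split 0 .leaf .leaf))) (Bern.Box.cut
      (Bern.Box.cut (Bern.Box.cut (Bern.Box.cut box3 2 Bern.Ax.left) 2 Bern.Ax.right) 0
      Bern.Ax.left) 2 Bern.Ax.right) = true ∧
    Bern.coverU row01.cfg3 row01.R3 (.split 1 .leaf (.split 2 (.split 1 .leaf (.split 2 (.split 1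
      (.split 2 .leaf .leaf) .leaf) .leaf)) .leaf)) (Bern.Box.cut (Bern.Box.cut (Bern.Box.cut
      (Bern.Box.cut box3 2 Bern.Ax.left) 2 Bern.Ax.right) 0 Bern.Ax.right) 1 Bern.Ax.left) = true
      ∧
    Bern.coverU row01.cfg3 row01.R3 (.split 2 .leaf .leaf) (Bern.Box.cut (Bern.Box.cut
      (Bern.Box.cut (Bern.Box.cut box3 2 Bern.Ax.left) 2 Bern.Ax.right) 0 Bern.Ax.right) 1
      Bern.Ax.right) = true ∧
    Bern.coverU row01.cfg3 row01.R3 (.split 2 .leaf (.split 2 (.split 2 (.split 2 (.split 2 .leaf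
      (.split 2 .leaf .leaf)) .leaf) .leaf) .leaf)) (Bern.Box.cut (Bern.Box.cut box3 2
      Bern.Ax.right) 0 Bern.Ax.left) = true ∧
    Bern.coverU row01.cfg3 row01.R3 .leaf (Bern.Box.cut (Bern.Box.cut (Bern.Box.cut (Bern.Box.cut
      (Bern.Box.cut box3 2 Bern.Ax.right) 0 Bern.Ax.right) 1 Bern.Ax.left) 0 Bern.Ax.left) 2
      Bern.Ax.left) = true ∧
    Bern.coverU row01.cfg3 row01.R3 .leaf (Bern.Box.cut (Bern.Box.cut (Bern.Box.cut (Bern.Box.cut
      (Bern.Box.cut (Bern.Box.cut (Bern.Box.cut (Bern.Box.cut (Bern.Box.cut (Bern.Box.cut box3 2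
      Bern.Ax.right) 0 Bern.Ax.right) 1 Bern.Ax.left) 0 Bern.Ax.left) 2 Bern.Ax.right) 1
      Bern.Ax.left) 0 Bern.Ax.left) 0 Bern.Ax.left) 1 Bern.Ax.left) 0 Bern.Ax.left) = true ∧
    Bern.coverU row01.cfg3 row01.R3 (.split 1 .leaf .leaf) (Bern.Box.cut (Bern.Box.cut
      (Bern.Box.cut (Bern.Box.cut (Bern.Box.cut (Bern.Box.cut (Bern.Box.cut (Bern.Box.cut
      (Bern.Box.cut (Bern.Box.cut (Bern.Box.cut (Bern.Box.cut box3 2 Bern.Ax.right) 0
      Bern.Ax.right) 1 Bern.Ax.left) 0 Bern.Ax.left) 2 Bern.Ax.right) 1 Bern.Ax.left) 0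
      Bern.Ax.left) 0 Bern.Ax.left) 1 Bern.Ax.left) 0 Bern.Ax.right) 1 Bern.Ax.left) 0
      Bern.Ax.left) = true ∧
    Bern.coverU row01.cfg3 row01.R3 (.split 0 (.split 1 (.split 0 (.split 0 .leaf .leaf) .leaf)
      .leaf) (.split 1 .leaf (.split 0 .leaf .leaf))) (Bern.Box.cut (Bern.Box.cut (Bern.Box.cut
      (Bern.Box.cut (Bern.Box.cut (Bern.Box.cut (Bern.Box.cut (Bern.Box.cut (Bern.Box.cut
      (Bern.Box.cut (Bern.Box.cut (Bern.Box.cut (Bern.Box.cut box3 2 Bern.Ax.right) 0
      Bern.Ax.right) 1 Bern.Ax.left) 0 Bern.Ax.left) 2 Bern.Ax.right) 1 Bern.Ax.left) 0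
      Bern.Ax.left) 0 Bern.Ax.left) 1 Bern.Ax.left) 0 Bern.Ax.right) 1 Bern.Ax.left) 0
      Bern.Ax.right) 1 Bern.Ax.left) = true ∧
    Bern.coverU row01.cfg3 row01.R3 (.split 0 .leaf (.split 1 .leaf .leaf)) (Bern.Box.cut
      (Bern.Box.cut (Bern.Box.cut (Bern.Box.cut (Bern.Box.cut (Bern.Box.cut (Bern.Box.cut
      (Bern.Box.cut (Bern.Box.cut (Bern.Box.cut (Bern.Box.cut (Bern.Box.cut (Bern.Box.cut box3 2
      Bern.Ax.right) 0 Bern.Ax.right) 1 Bern.Ax.left) 0 Bern.Ax.left) 2 Bern.Ax.right) 1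
      Bern.Ax.left) 0 Bern.Ax.left) 0 Bern.Ax.left) 1 Bern.Ax.left) 0 Bern.Ax.right) 1
      Bern.Ax.left) 0 Bern.Ax.right) 1 Bern.Ax.right) = true ∧
    Bern.coverU row01.cfg3 row01.R3 .leaf (Bern.Box.cut (Bern.Box.cut (Bern.Box.cut (Bern.Box.cut
      (Bern.Box.cut (Bern.Box.cut (Bern.Box.cut (Bern.Box.cut (Bern.Box.cut (Bern.Box.cut
      (Bern.Box.cut box3 2 Bern.Ax.right) 0 Bern.Ax.right) 1 Bern.Ax.left) 0 Bern.Ax.left) 2
      Bern.Ax.right) 1 Bern.Ax.left) 0 Bern.Ax.left) 0 Bern.Ax.left) 1 Bern.Ax.left) 0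
      Bern.Ax.right) 1 Bern.Ax.right) = true ∧
    Bern.coverU row01.cfg3 row01.R3 .leaf (Bern.Box.cut (Bern.Box.cut (Bern.Box.cut (Bern.Box.cut
      (Bern.Box.cut (Bern.Box.cut (Bern.Box.cut (Bern.Box.cut (Bern.Box.cut box3 2 Bern.Ax.right)
      0 Bern.Ax.right) 1 Bern.Ax.left) 0 Bern.Ax.left) 2 Bern.Ax.right) 1 Bern.Ax.left) 0
      Bern.Ax.left) 0 Bern.Ax.left) 1 Bern.Ax.right) = true ∧
    Bern.coverU row01.cfg3 row01.R3 (.split 0 (.split 1 .leaf (.split 0 (.split 1 .leaf .leaf)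
      .leaf)) .leaf) (Bern.Box.cut (Bern.Box.cut (Bern.Box.cut (Bern.Box.cut (Bern.Box.cut
      (Bern.Box.cut (Bern.Box.cut (Bern.Box.cut (Bern.Box.cut (Bern.Box.cut (Bern.Box.cut box3 2
      Bern.Ax.right) 0 Bern.Ax.right) 1 Bern.Ax.left) 0 Bern.Ax.left) 2 Bern.Ax.right) 1
      Bern.Ax.left) 0 Bern.Ax.left) 0 Bern.Ax.right) 1 Bern.Ax.left) 0 Bern.Ax.left) 1
      Bern.Ax.left) = true ∧
    Bern.coverU row01.cfg3 row01.R3 (.split 0 (.split 1 (.split 0 .leaf .leaf) .leaf) (.split 1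
      (.split 0 .leaf .leaf) .leaf)) (Bern.Box.cut (Bern.Box.cut (Bern.Box.cut (Bern.Box.cut
      (Bern.Box.cut (Bern.Box.cut (Bern.Box.cut (Bern.Box.cut (Bern.Box.cut (Bern.Box.cut
      (Bern.Box.cut box3 2 Bern.Ax.right) 0 Bern.Ax.right) 1 Bern.Ax.left) 0 Bern.Ax.left) 2
      Bern.Ax.right) 1 Bern.Ax.left) 0 Bern.Ax.left) 0 Bern.Ax.right) 1 Bern.Ax.left) 0
      Bern.Ax.left) 1 Bern.Ax.right) = true ∧
    Bern.coverU row01.cfg3 row01.R3 (.split 1 .leaf (.split 1 .leaf (.split 0 .leaf .leaf)))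
      (Bern.Box.cut (Bern.Box.cut (Bern.Box.cut (Bern.Box.cut (Bern.Box.cut (Bern.Box.cut
      (Bern.Box.cut (Bern.Box.cut (Bern.Box.cut (Bern.Box.cut box3 2 Bern.Ax.right) 0
      Bern.Ax.right) 1 Bern.Ax.left) 0 Bern.Ax.left) 2 Bern.Ax.right) 1 Bern.Ax.left) 0
      Bern.Ax.left) 0 Bern.Ax.right) 1 Bern.Ax.left) 0 Bern.Ax.right) = true ∧
    Bern.coverU row01.cfg3 row01.R3 (.split 0 .leaf (.split 1 (.split 0 .leaf .leaf) .leaf))
      (Bern.Box.cut (Bern.Box.cut (Bern.Box.cut (Bern.Box.cut (Bern.Box.cut (Bern.Box.cut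
      (Bern.Box.cut (Bern.Box.cut (Bern.Box.cut box3 2 Bern.Ax.right) 0 Bern.Ax.right) 1
      Bern.Ax.left) 0 Bern.Ax.left) 2 Bern.Ax.right) 1 Bern.Ax.left) 0 Bern.Ax.left) 0
      Bern.Ax.right) 1 Bern.Ax.right) = true ∧
    Bern.coverU row01.cfg3 row01.R3 (.split 1 (.split 2 .leaf .leaf) (.split 0 (.split 1 (.split 0
      .leaf .leaf) (.split 0 .leaf .leaf)) .leaf)) (Bern.Box.cut (Bern.Box.cut (Bern.Box.cut
      (Bern.Box.cut (Bern.Box.cut (Bern.Box.cut (Bern.Box.cut box3 2 Bern.Ax.right) 0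
      Bern.Ax.right) 1 Bern.Ax.left) 0 Bern.Ax.left) 2 Bern.Ax.right) 1 Bern.Ax.left) 0
      Bern.Ax.right) = true ∧
    Bern.coverU row01.cfg3 row01.R3 (.split 0 .leaf (.split 1 (.split 0 .leaf (.split 0 .leaf
      .leaf)) .leaf)) (Bern.Box.cut (Bern.Box.cut (Bern.Box.cut (Bern.Box.cut (Bern.Box.cut
      (Bern.Box.cut box3 2 Bern.Ax.right) 0 Bern.Ax.right) 1 Bern.Ax.left) 0 Bern.Ax.left) 2
      Bern.Ax.right) 1 Bern.Ax.right) = true ∧
    Bern.coverU row01.cfg3 row01.R3 .leaf (Bern.Box.cut (Bern.Box.cut (Bern.Box.cut (Bern.Box.cut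
      (Bern.Box.cut (Bern.Box.cut box3 2 Bern.Ax.right) 0 Bern.Ax.right) 1 Bern.Ax.left) 0
      Bern.Ax.right) 2 Bern.Ax.left) 1 Bern.Ax.left) = true ∧
    Bern.coverU row01.cfg3 row01.R3 (.split 2 .leaf (.split 1 .leaf .leaf)) (Bern.Box.cut
      (Bern.Box.cut (Bern.Box.cut (Bern.Box.cut (Bern.Box.cut (Bern.Box.cut (Bern.Box.cut box3 2
      Bern.Ax.right) 0 Bern.Ax.right) 1 Bern.Ax.left) 0 Bern.Ax.right) 2 Bern.Ax.left) 1
      Bern.Ax.right) 0 Bern.Ax.left) = true ∧
    Bern.coverU row01.cfg3 row01.R3 (.split 0 (.split 0 (.split 2 .leaf (.split 0 .leaf .leaf))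
      (.split 2 .leaf (.split 0 .leaf .leaf))) .leaf) (Bern.Box.cut (Bern.Box.cut (Bern.Box.cut
      (Bern.Box.cut (Bern.Box.cut (Bern.Box.cut (Bern.Box.cut (Bern.Box.cut box3 2 Bern.Ax.right)
      0 Bern.Ax.right) 1 Bern.Ax.left) 0 Bern.Ax.right) 2 Bern.Ax.left) 1 Bern.Ax.right) 0
      Bern.Ax.right) 1 Bern.Ax.left) = true ∧
    Bern.coverU row01.cfg3 row01.R3 .leaf (Bern.Box.cut (Bern.Box.cut (Bern.Box.cut (Bern.Box.cut
      (Bern.Box.cut (Bern.Box.cut (Bern.Box.cut (Bern.Box.cut (Bern.Box.cut (Bern.Box.cut box3 2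
      Bern.Ax.right) 0 Bern.Ax.right) 1 Bern.Ax.left) 0 Bern.Ax.right) 2 Bern.Ax.left) 1
      Bern.Ax.right) 0 Bern.Ax.right) 1 Bern.Ax.right) 0 Bern.Ax.left) 2 Bern.Ax.left) = true ∧
    Bern.coverU row01.cfg3 row01.R3 (.split 2 .leaf (.split 1 (.split 2 .leaf (.split 1 (.split 1
      .leaf .leaf) .leaf)) .leaf)) (Bern.Box.cut (Bern.Box.cut (Bern.Box.cut (Bern.Box.cut
      (Bern.Box.cut (Bern.Box.cut (Bern.Box.cut (Bern.Box.cut (Bern.Box.cut (Bern.Box.cut
      (Bern.Box.cut box3 2 Bern.Ax.right) 0 Bern.Ax.right) 1 Bern.Ax.left) 0 Bern.Ax.right) 2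
      Bern.Ax.left) 1 Bern.Ax.right) 0 Bern.Ax.right) 1 Bern.Ax.right) 0 Bern.Ax.left) 2
      Bern.Ax.right) 0 Bern.Ax.left) = true ∧
    Bern.coverU row01.cfg3 row01.R3 .leaf (Bern.Box.cut (Bern.Box.cut (Bern.Box.cut (Bern.Box.cut
      (Bern.Box.cut (Bern.Box.cut (Bern.Box.cut (Bern.Box.cut (Bern.Box.cut (Bern.Box.cut
      (Bern.Box.cut (Bern.Box.cut (Bern.Box.cut box3 2 Bern.Ax.right) 0 Bern.Ax.right) 1
      Bern.Ax.left) 0 Bern.Ax.right) 2 Bern.Ax.left) 1 Bern.Ax.right) 0 Bern.Ax.right) 1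
      Bern.Ax.right) 0 Bern.Ax.left) 2 Bern.Ax.right) 0 Bern.Ax.right) 1 Bern.Ax.left) 2
      Bern.Ax.left) = true ∧
    Bern.coverU row01.cfg3 row01.R3 (.split 2 .leaf (.split 0 (.split 1 (.split 0 (.split 2 .leaf
      (.split 1 .leaf .leaf)) .leaf) (.split 0 .leaf .leaf)) .leaf)) (Bern.Box.cut (Bern.Box.cut
      (Bern.Box.cut (Bern.Box.cut (Bern.Box.cut (Bern.Box.cut (Bern.Box.cut (Bern.Box.cut
      (Bern.Box.cut (Bern.Box.cut (Bern.Box.cut (Bern.Box.cut (Bern.Box.cut (Bern.Box.cut box3 2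
      Bern.Ax.right) 0 Bern.Ax.right) 1 Bern.Ax.left) 0 Bern.Ax.right) 2 Bern.Ax.left) 1
      Bern.Ax.right) 0 Bern.Ax.right) 1 Bern.Ax.right) 0 Bern.Ax.left) 2 Bern.Ax.right) 0
      Bern.Ax.right) 1 Bern.Ax.left) 2 Bern.Ax.right) 1 Bern.Ax.left) = true ∧
    Bern.coverU row01.cfg3 row01.R3 .leaf (Bern.Box.cut (Bern.Box.cut (Bern.Box.cut (Bern.Box.cut
      (Bern.Box.cut (Bern.Box.cut (Bern.Box.cut (Bern.Box.cut (Bern.Box.cut (Bern.Box.cut
      (Bern.Box.cut (Bern.Box.cut (Bern.Box.cut (Bern.Box.cut box3 2 Bern.Ax.right) 0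
      Bern.Ax.right) 1 Bern.Ax.left) 0 Bern.Ax.right) 2 Bern.Ax.left) 1 Bern.Ax.right) 0
      Bern.Ax.right) 1 Bern.Ax.right) 0 Bern.Ax.left) 2 Bern.Ax.right) 0 Bern.Ax.right) 1
      Bern.Ax.left) 2 Bern.Ax.right) 1 Bern.Ax.right) = true ∧
    Bern.coverU row01.cfg3 row01.R3 .leaf (Bern.Box.cut (Bern.Box.cut (Bern.Box.cut (Bern.Box.cut
      (Bern.Box.cut (Bern.Box.cut (Bern.Box.cut (Bern.Box.cut (Bern.Box.cut (Bern.Box.cut
      (Bern.Box.cut (Bern.Box.cut box3 2 Bern.Ax.right) 0 Bern.Ax.right) 1 Bern.Ax.left) 0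
      Bern.Ax.right) 2 Bern.Ax.left) 1 Bern.Ax.right) 0 Bern.Ax.right) 1 Bern.Ax.right) 0
      Bern.Ax.left) 2 Bern.Ax.right) 0 Bern.Ax.right) 1 Bern.Ax.right) = true ∧
    Bern.coverU row01.cfg3 row01.R3 .leaf (Bern.Box.cut (Bern.Box.cut (Bern.Box.cut (Bern.Box.cut
      (Bern.Box.cut (Bern.Box.cut (Bern.Box.cut (Bern.Box.cut (Bern.Box.cut box3 2 Bern.Ax.right)
      0 Bern.Ax.right) 1 Bern.Ax.left) 0 Bern.Ax.right) 2 Bern.Ax.left) 1 Bern.Ax.right) 0
      Bern.Ax.right) 1 Bern.Ax.right) 0 Bern.Ax.right) = true ∧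
    Bern.coverU row01.cfg3 row01.R3 (.split 0 .leaf (.split 0 .leaf .leaf)) (Bern.Box.cut
      (Bern.Box.cut (Bern.Box.cut (Bern.Box.cut (Bern.Box.cut (Bern.Box.cut (Bern.Box.cut
      (Bern.Box.cut (Bern.Box.cut box3 2 Bern.Ax.right) 0 Bern.Ax.right) 1 Bern.Ax.left) 0
      Bern.Ax.right) 2 Bern.Ax.right) 1 Bern.Ax.left) 2 Bern.Ax.left) 0 Bern.Ax.left) 1
      Bern.Ax.left) = true ∧
    Bern.coverU row01.cfg3 row01.R3 (.split 0 .leaf (.split 2 .leaf (.split 1 (.split 2 .leaf
      (.split 1 .leaf .leaf)) .leaf))) (Bern.Box.cut (Bern.Box.cut (Bern.Box.cut (Bern.Box.cut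
      (Bern.Box.cut (Bern.Box.cut (Bern.Box.cut (Bern.Box.cut (Bern.Box.cut box3 2 Bern.Ax.right)
      0 Bern.Ax.right) 1 Bern.Ax.left) 0 Bern.Ax.right) 2 Bern.Ax.right) 1 Bern.Ax.left) 2
      Bern.Ax.left) 0 Bern.Ax.left) 1 Bern.Ax.right) = true ∧
    Bern.coverU row01.cfg3 row01.R3 .leaf (Bern.Box.cut (Bern.Box.cut (Bern.Box.cut (Bern.Box.cut
      (Bern.Box.cut (Bern.Box.cut (Bern.Box.cut (Bern.Box.cut (Bern.Box.cut box3 2 Bern.Ax.right)
      0 Bern.Ax.right) 1 Bern.Ax.left) 0 Bern.Ax.right) 2 Bern.Ax.right) 1 Bern.Ax.left) 2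
      Bern.Ax.left) 0 Bern.Ax.right) 1 Bern.Ax.left) = true ∧
    Bern.coverU row01.cfg3 row01.R3 .leaf (Bern.Box.cut (Bern.Box.cut (Bern.Box.cut (Bern.Box.cut
      (Bern.Box.cut (Bern.Box.cut (Bern.Box.cut (Bern.Box.cut (Bern.Box.cut (Bern.Box.cut
      (Bern.Box.cut box3 2 Bern.Ax.right) 0 Bern.Ax.right) 1 Bern.Ax.left) 0 Bern.Ax.right) 2
      Bern.Ax.right) 1 Bern.Ax.left) 2 Bern.Ax.left) 0 Bern.Ax.right) 1 Bern.Ax.right) 0
      Bern.Ax.left) 2 Bern.Ax.left) = true ∧
    Bern.coverU row01.cfg3 row01.R3 (.split 2 .leaf (.split 0 (.split 2 .leaf (.split 0 .leaf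
      .leaf)) .leaf)) (Bern.Box.cut (Bern.Box.cut (Bern.Box.cut (Bern.Box.cut (Bern.Box.cut
      (Bern.Box.cut (Bern.Box.cut (Bern.Box.cut (Bern.Box.cut (Bern.Box.cut (Bern.Box.cut
      (Bern.Box.cut (Bern.Box.cut box3 2 Bern.Ax.right) 0 Bern.Ax.right) 1 Bern.Ax.left) 0
      Bern.Ax.right) 2 Bern.Ax.right) 1 Bern.Ax.left) 2 Bern.Ax.left) 0 Bern.Ax.right) 1
      Bern.Ax.right) 0 Bern.Ax.left) 2 Bern.Ax.right) 0 Bern.Ax.left) 1 Bern.Ax.left) = true ∧
    Bern.coverU row01.cfg3 row01.R3 .leaf (Bern.Box.cut (Bern.Box.cut (Bern.Box.cut (Bern.Box.cut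
      (Bern.Box.cut (Bern.Box.cut (Bern.Box.cut (Bern.Box.cut (Bern.Box.cut (Bern.Box.cut
      (Bern.Box.cut (Bern.Box.cut (Bern.Box.cut (Bern.Box.cut box3 2 Bern.Ax.right) 0
      Bern.Ax.right) 1 Bern.Ax.left) 0 Bern.Ax.right) 2 Bern.Ax.right) 1 Bern.Ax.left) 2
      Bern.Ax.left) 0 Bern.Ax.right) 1 Bern.Ax.right) 0 Bern.Ax.left) 2 Bern.Ax.right) 0
      Bern.Ax.left) 1 Bern.Ax.right) 2 Bern.Ax.left) = true ∧
    Bern.coverU row01.cfg3 row01.R3 (.split 2 (.split 1 .leaf .leaf) (.split 1 (.split 1 (.split 2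
      (.split 0 .leaf .leaf) .leaf) (.split 2 .leaf .leaf)) .leaf)) (Bern.Box.cut (Bern.Box.cut
      (Bern.Box.cut (Bern.Box.cut (Bern.Box.cut (Bern.Box.cut (Bern.Box.cut (Bern.Box.cut
      (Bern.Box.cut (Bern.Box.cut (Bern.Box.cut (Bern.Box.cut (Bern.Box.cut (Bern.Box.cut
      (Bern.Box.cut box3 2 Bern.Ax.right) 0 Bern.Ax.right) 1 Bern.Ax.left) 0 Bern.Ax.right) 2
      Bern.Ax.right) 1 Bern.Ax.left) 2 Bern.Ax.left) 0 Bern.Ax.right) 1 Bern.Ax.right) 0
      Bern.Ax.left) 2 Bern.Ax.right) 0 Bern.Ax.left) 1 Bern.Ax.right) 2 Bern.Ax.right) 0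
      Bern.Ax.left) = true ∧
    Bern.coverU row01.cfg3 row01.R3 .leaf (Bern.Box.cut (Bern.Box.cut (Bern.Box.cut (Bern.Box.cut
      (Bern.Box.cut (Bern.Box.cut (Bern.Box.cut (Bern.Box.cut (Bern.Box.cut (Bern.Box.cut
      (Bern.Box.cut (Bern.Box.cut (Bern.Box.cut (Bern.Box.cut (Bern.Box.cut (Bern.Box.cut
      (Bern.Box.cut box3 2 Bern.Ax.right) 0 Bern.Ax.right) 1 Bern.Ax.left) 0 Bern.Ax.right) 2
      Bern.Ax.right) 1 Bern.Ax.left) 2 Bern.Ax.left) 0 Bern.Ax.right) 1 Bern.Ax.right) 0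
      Bern.Ax.left) 2 Bern.Ax.right) 0 Bern.Ax.left) 1 Bern.Ax.right) 2 Bern.Ax.right) 0
      Bern.Ax.right) 1 Bern.Ax.left) 2 Bern.Ax.left) = true ∧
    Bern.coverU row01.cfg3 row01.R3 (.split 2 .leaf .leaf) (Bern.Box.cut (Bern.Box.cut
      (Bern.Box.cut (Bern.Box.cut (Bern.Box.cut (Bern.Box.cut (Bern.Box.cut (Bern.Box.cut
      (Bern.Box.cut (Bern.Box.cut (Bern.Box.cut (Bern.Box.cut (Bern.Box.cut (Bern.Box.cut
      (Bern.Box.cut (Bern.Box.cut (Bern.Box.cut (Bern.Box.cut box3 2 Bern.Ax.right) 0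
      Bern.Ax.right) 1 Bern.Ax.left) 0 Bern.Ax.right) 2 Bern.Ax.right) 1 Bern.Ax.left) 2
      Bern.Ax.left) 0 Bern.Ax.right) 1 Bern.Ax.right) 0 Bern.Ax.left) 2 Bern.Ax.right) 0
      Bern.Ax.left) 1 Bern.Ax.right) 2 Bern.Ax.right) 0 Bern.Ax.right) 1 Bern.Ax.left) 2
      Bern.Ax.right) 1 Bern.Ax.left) = true ∧
    Bern.coverU row01.cfg3 row01.R3 (.split 2 (.split 0 (.split 1 (.split 0 .leaf .leaf) (.split 0
      .leaf .leaf)) .leaf) (.split 0 .leaf .leaf)) (Bern.Box.cut (Bern.Box.cut (Bern.Box.cut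
      (Bern.Box.cut (Bern.Box.cut (Bern.Box.cut (Bern.Box.cut (Bern.Box.cut (Bern.Box.cut
      (Bern.Box.cut (Bern.Box.cut (Bern.Box.cut (Bern.Box.cut (Bern.Box.cut (Bern.Box.cut
      (Bern.Box.cut (Bern.Box.cut (Bern.Box.cut box3 2 Bern.Ax.right) 0 Bern.Ax.right) 1
      Bern.Ax.left) 0 Bern.Ax.right) 2 Bern.Ax.right) 1 Bern.Ax.left) 2 Bern.Ax.left) 0
      Bern.Ax.right) 1 Bern.Ax.right) 0 Bern.Ax.left) 2 Bern.Ax.right) 0 Bern.Ax.left) 1
      Bern.Ax.right) 2 Bern.Ax.right) 0 Bern.Ax.right) 1 Bern.Ax.left) 2 Bern.Ax.right) 1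
      Bern.Ax.right) = true ∧
    Bern.coverU row01.cfg3 row01.R3 (.split 2 (.split 0 .leaf .leaf) (.split 0 (.split 2 .leaf
      .leaf) (.split 1 .leaf .leaf))) (Bern.Box.cut (Bern.Box.cut (Bern.Box.cut (Bern.Box.cut
      (Bern.Box.cut (Bern.Box.cut (Bern.Box.cut (Bern.Box.cut (Bern.Box.cut (Bern.Box.cut
      (Bern.Box.cut (Bern.Box.cut (Bern.Box.cut (Bern.Box.cut (Bern.Box.cut (Bern.Box.cut box3 2
      Bern.Ax.right) 0 Bern.Ax.right) 1 Bern.Ax.left) 0 Bern.Ax.right) 2 Bern.Ax.right) 1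
      Bern.Ax.left) 2 Bern.Ax.left) 0 Bern.Ax.right) 1 Bern.Ax.right) 0 Bern.Ax.left) 2
      Bern.Ax.right) 0 Bern.Ax.left) 1 Bern.Ax.right) 2 Bern.Ax.right) 0 Bern.Ax.right) 1
      Bern.Ax.right) = true ∧
    Bern.coverU row01.cfg3 row01.R3 (.split 2 .leaf (.split 1 .leaf (.split 1 .leaf .leaf)))
      (Bern.Box.cut (Bern.Box.cut (Bern.Box.cut (Bern.Box.cut (Bern.Box.cut (Bern.Box.cut
      (Bern.Box.cut (Bern.Box.cut (Bern.Box.cut (Bern.Box.cut (Bern.Box.cut (Bern.Box.cut box3 2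
      Bern.Ax.right) 0 Bern.Ax.right) 1 Bern.Ax.left) 0 Bern.Ax.right) 2 Bern.Ax.right) 1
      Bern.Ax.left) 2 Bern.Ax.left) 0 Bern.Ax.right) 1 Bern.Ax.right) 0 Bern.Ax.left) 2
      Bern.Ax.right) 0 Bern.Ax.right) = true ∧
    Bern.coverU row01.cfg3 row01.R3 .leaf (Bern.Box.cut (Bern.Box.cut (Bern.Box.cut (Bern.Box.cut
      (Bern.Box.cut (Bern.Box.cut (Bern.Box.cut (Bern.Box.cut (Bern.Box.cut (Bern.Box.cut box3 2
      Bern.Ax.right) 0 Bern.Ax.right) 1 Bern.Ax.left) 0 Bern.Ax.right) 2 Bern.Ax.right) 1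
      Bern.Ax.left) 2 Bern.Ax.left) 0 Bern.Ax.right) 1 Bern.Ax.right) 0 Bern.Ax.right) = true ∧
    Bern.coverU row01.cfg3 row01.R3 (.split 1 (.split 0 .leaf (.split 0 .leaf .leaf)) (.split 0
      .leaf (.split 1 .leaf .leaf))) (Bern.Box.cut (Bern.Box.cut (Bern.Box.cut (Bern.Box.cut
      (Bern.Box.cut (Bern.Box.cut (Bern.Box.cut (Bern.Box.cut box3 2 Bern.Ax.right) 0
      Bern.Ax.right) 1 Bern.Ax.left) 0 Bern.Ax.right) 2 Bern.Ax.right) 1 Bern.Ax.left) 2
      Bern.Ax.right) 0 Bern.Ax.left) = true ∧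
    Bern.coverU row01.cfg3 row01.R3 (.split 2 .leaf (.split 2 .leaf .leaf)) (Bern.Box.cut
      (Bern.Box.cut (Bern.Box.cut (Bern.Box.cut (Bern.Box.cut (Bern.Box.cut (Bern.Box.cut
      (Bern.Box.cut (Bern.Box.cut box3 2 Bern.Ax.right) 0 Bern.Ax.right) 1 Bern.Ax.left) 0
      Bern.Ax.right) 2 Bern.Ax.right) 1 Bern.Ax.left) 2 Bern.Ax.right) 0 Bern.Ax.right) 1
      Bern.Ax.left) = true ∧
    Bern.coverU row01.cfg3 row01.R3 (.split 1 (.split 0 .leaf .leaf) (.split 0 (.split 0 .leaf
      .leaf) .leaf)) (Bern.Box.cut (Bern.Box.cut (Bern.Box.cut (Bern.Box.cut (Bern.Box.cut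
      (Bern.Box.cut (Bern.Box.cut (Bern.Box.cut (Bern.Box.cut (Bern.Box.cut box3 2 Bern.Ax.right)
      0 Bern.Ax.right) 1 Bern.Ax.left) 0 Bern.Ax.right) 2 Bern.Ax.right) 1 Bern.Ax.left) 2
      Bern.Ax.right) 0 Bern.Ax.right) 1 Bern.Ax.right) 0 Bern.Ax.left) = true ∧
    Bern.coverU row01.cfg3 row01.R3 .leaf (Bern.Box.cut (Bern.Box.cut (Bern.Box.cut (Bern.Box.cut
      (Bern.Box.cut (Bern.Box.cut (Bern.Box.cut (Bern.Box.cut (Bern.Box.cut (Bern.Box.cut
      (Bern.Box.cut box3 2 Bern.Ax.right) 0 Bern.Ax.right) 1 Bern.Ax.left) 0 Bern.Ax.right) 2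
      Bern.Ax.right) 1 Bern.Ax.left) 2 Bern.Ax.right) 0 Bern.Ax.right) 1 Bern.Ax.right) 0
      Bern.Ax.right) 2 Bern.Ax.left) = true ∧
    Bern.coverU row01.cfg3 row01.R3 (.split 2 .leaf (.split 2 .leaf (.split 1 (.split 2 .leaf
      (.split 1 .leaf (.split 2 .leaf .leaf))) (.split 2 .leaf .leaf)))) (Bern.Box.cut
      (Bern.Box.cut (Bern.Box.cut (Bern.Box.cut (Bern.Box.cut (Bern.Box.cut (Bern.Box.cut
      (Bern.Box.cut (Bern.Box.cut (Bern.Box.cut (Bern.Box.cut box3 2 Bern.Ax.right) 0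
      Bern.Ax.right) 1 Bern.Ax.left) 0 Bern.Ax.right) 2 Bern.Ax.right) 1 Bern.Ax.left) 2
      Bern.Ax.right) 0 Bern.Ax.right) 1 Bern.Ax.right) 0 Bern.Ax.right) 2 Bern.Ax.right) = true ∧
    Bern.coverU row01.cfg3 row01.R3 (.split 1 (.split 2 .leaf .leaf) (.split 0 .leaf .leaf))
      (Bern.Box.cut (Bern.Box.cut (Bern.Box.cut (Bern.Box.cut (Bern.Box.cut (Bern.Box.cut
      (Bern.Box.cut box3 2 Bern.Ax.right) 0 Bern.Ax.right) 1 Bern.Ax.left) 0 Bern.Ax.right) 2
      Bern.Ax.right) 1 Bern.Ax.right) 0 Bern.Ax.left) = true ∧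
    Bern.coverU row01.cfg3 row01.R3 (.split 0 (.split 1 .leaf .leaf) (.split 1 .leaf (.split 2
      (.split 0 (.split 2 (.split 0 .leaf .leaf) .leaf) .leaf) .leaf))) (Bern.Box.cut
      (Bern.Box.cut (Bern.Box.cut (Bern.Box.cut (Bern.Box.cut (Bern.Box.cut (Bern.Box.cut
      (Bern.Box.cut (Bern.Box.cut (Bern.Box.cut (Bern.Box.cut box3 2 Bern.Ax.right) 0
      Bern.Ax.right) 1 Bern.Ax.left) 0 Bern.Ax.right) 2 Bern.Ax.right) 1 Bern.Ax.right) 0
      Bern.Ax.right) 2 Bern.Ax.left) 0 Bern.Ax.left) 1 Bern.Ax.left) 2 Bern.Ax.left) = true ∧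
    Bern.coverU row01.cfg3 row01.R3 (.split 0 (.split 2 .leaf .leaf) (.split 1 (.split 2 .leaf
      .leaf) .leaf)) (Bern.Box.cut (Bern.Box.cut (Bern.Box.cut (Bern.Box.cut (Bern.Box.cut
      (Bern.Box.cut (Bern.Box.cut (Bern.Box.cut (Bern.Box.cut (Bern.Box.cut (Bern.Box.cut box3 2
      Bern.Ax.right) 0 Bern.Ax.right) 1 Bern.Ax.left) 0 Bern.Ax.right) 2 Bern.Ax.right) 1
      Bern.Ax.right) 0 Bern.Ax.right) 2 Bern.Ax.left) 0 Bern.Ax.left) 1 Bern.Ax.left) 2
      Bern.Ax.right) = true ∧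
    Bern.coverU row01.cfg3 row01.R3 .leaf (Bern.Box.cut (Bern.Box.cut (Bern.Box.cut (Bern.Box.cut
      (Bern.Box.cut (Bern.Box.cut (Bern.Box.cut (Bern.Box.cut (Bern.Box.cut (Bern.Box.cut
      (Bern.Box.cut box3 2 Bern.Ax.right) 0 Bern.Ax.right) 1 Bern.Ax.left) 0 Bern.Ax.right) 2
      Bern.Ax.right) 1 Bern.Ax.right) 0 Bern.Ax.right) 2 Bern.Ax.left) 0 Bern.Ax.left) 1
      Bern.Ax.right) 0 Bern.Ax.left) = true ∧
    Bern.coverU row01.cfg3 row01.R3 (.split 2 (.split 0 (.split 1 (.split 0 (.split 2 (.split 1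
      .leaf .leaf) .leaf) (.split 2 .leaf .leaf)) .leaf) .leaf) .leaf) (Bern.Box.cut (Bern.Box.cut
      (Bern.Box.cut (Bern.Box.cut (Bern.Box.cut (Bern.Box.cut (Bern.Box.cut (Bern.Box.cut
      (Bern.Box.cut (Bern.Box.cut (Bern.Box.cut (Bern.Box.cut box3 2 Bern.Ax.right) 0
      Bern.Ax.right) 1 Bern.Ax.left) 0 Bern.Ax.right) 2 Bern.Ax.right) 1 Bern.Ax.right) 0
      Bern.Ax.right) 2 Bern.Ax.left) 0 Bern.Ax.left) 1 Bern.Ax.right) 0 Bern.Ax.right) 1
      Bern.Ax.left) = true ∧
    Bern.coverU row01.cfg3 row01.R3 .leaf (Bern.Box.cut (Bern.Box.cut (Bern.Box.cut (Bern.Box.cut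
      (Bern.Box.cut (Bern.Box.cut (Bern.Box.cut (Bern.Box.cut (Bern.Box.cut (Bern.Box.cut
      (Bern.Box.cut (Bern.Box.cut box3 2 Bern.Ax.right) 0 Bern.Ax.right) 1 Bern.Ax.left) 0
      Bern.Ax.right) 2 Bern.Ax.right) 1 Bern.Ax.right) 0 Bern.Ax.right) 2 Bern.Ax.left) 0
      Bern.Ax.left) 1 Bern.Ax.right) 0 Bern.Ax.right) 1 Bern.Ax.right) = true ∧
    Bern.coverU row01.cfg3 row01.R3 (.split 1 .leaf .leaf) (Bern.Box.cut (Bern.Box.cut
      (Bern.Box.cut (Bern.Box.cut (Bern.Box.cut (Bern.Box.cut (Bern.Box.cut (Bern.Box.cut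
      (Bern.Box.cut box3 2 Bern.Ax.right) 0 Bern.Ax.right) 1 Bern.Ax.left) 0 Bern.Ax.right) 2
      Bern.Ax.right) 1 Bern.Ax.right) 0 Bern.Ax.right) 2 Bern.Ax.left) 0 Bern.Ax.right) = true ∧
    Bern.coverU row01.cfg3 row01.R3 (.split 0 .leaf .leaf) (Bern.Box.cut (Bern.Box.cut
      (Bern.Box.cut (Bern.Box.cut (Bern.Box.cut (Bern.Box.cut (Bern.Box.cut (Bern.Box.cut box3 2
      Bern.Ax.right) 0 Bern.Ax.right) 1 Bern.Ax.left) 0 Bern.Ax.right) 2 Bern.Ax.right) 1
      Bern.Ax.right) 0 Bern.Ax.right) 2 Bern.Ax.right) = true ∧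
    Bern.coverU row01.cfg3 row01.R3 (.split 2 .leaf .leaf) (Bern.Box.cut (Bern.Box.cut
      (Bern.Box.cut (Bern.Box.cut (Bern.Box.cut (Bern.Box.cut box3 2 Bern.Ax.right) 0
      Bern.Ax.right) 1 Bern.Ax.right) 0 Bern.Ax.left) 2 Bern.Ax.left) 0 Bern.Ax.left) = true ∧
    Bern.coverU row01.cfg3 row01.R3 .leaf (Bern.Box.cut (Bern.Box.cut (Bern.Box.cut (Bern.Box.cut
      (Bern.Box.cut (Bern.Box.cut (Bern.Box.cut box3 2 Bern.Ax.right) 0 Bern.Ax.right) 1
      Bern.Ax.right) 0 Bern.Ax.left) 2 Bern.Ax.left) 0 Bern.Ax.right) 2 Bern.Ax.left) = true ∧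
    Bern.coverU row01.cfg3 row01.R3 (.split 2 (.split 0 (.split 2 .leaf .leaf) (.split 2 .leaf
      (.split 0 (.split 2 .leaf .leaf) (.split 2 .leaf .leaf)))) .leaf) (Bern.Box.cut
      (Bern.Box.cut (Bern.Box.cut (Bern.Box.cut (Bern.Box.cut (Bern.Box.cut (Bern.Box.cut
      (Bern.Box.cut box3 2 Bern.Ax.right) 0 Bern.Ax.right) 1 Bern.Ax.right) 0 Bern.Ax.left) 2
      Bern.Ax.left) 0 Bern.Ax.right) 2 Bern.Ax.right) 0 Bern.Ax.left) = true ∧
    Bern.coverU row01.cfg3 row01.R3 (.split 2 .leaf .leaf) (Bern.Box.cut (Bern.Box.cut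
      (Bern.Box.cut (Bern.Box.cut (Bern.Box.cut (Bern.Box.cut (Bern.Box.cut (Bern.Box.cut box3 2
      Bern.Ax.right) 0 Bern.Ax.right) 1 Bern.Ax.right) 0 Bern.Ax.left) 2 Bern.Ax.left) 0
      Bern.Ax.right) 2 Bern.Ax.right) 0 Bern.Ax.right) = true ∧
    Bern.coverU row01.cfg3 row01.R3 .leaf (Bern.Box.cut (Bern.Box.cut (Bern.Box.cut (Bern.Box.cut
      (Bern.Box.cut box3 2 Bern.Ax.right) 0 Bern.Ax.right) 1 Bern.Ax.right) 0 Bern.Ax.left) 2
      Bern.Ax.right) = true ∧
    Bern.coverU row01.cfg3 row01.R3 .leaf (Bern.Box.cut (Bern.Box.cut (Bern.Box.cut (Bern.Box.cut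
      (Bern.Box.cut box3 2 Bern.Ax.right) 0 Bern.Ax.right) 1 Bern.Ax.right) 0 Bern.Ax.right) 2
      Bern.Ax.left) = true ∧
    Bern.coverU row01.cfg3 row01.R3 .leaf (Bern.Box.cut (Bern.Box.cut (Bern.Box.cut (Bern.Box.cut
      (Bern.Box.cut (Bern.Box.cut box3 2 Bern.Ax.right) 0 Bern.Ax.right) 1 Bern.Ax.right) 0
      Bern.Ax.right) 2 Bern.Ax.right) 2 Bern.Ax.left) = true ∧
    Bern.coverU row01.cfg3 row01.R3 .leaf (Bern.Box.cut (Bern.Box.cut (Bern.Box.cut (Bern.Box.cut
      (Bern.Box.cut (Bern.Box.cut (Bern.Box.cut box3 2 Bern.Ax.right) 0 Bern.Ax.right) 1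
      Bern.Ax.right) 0 Bern.Ax.right) 2 Bern.Ax.right) 2 Bern.Ax.right) 2 Bern.Ax.left) = true ∧
    Bern.coverU row01.cfg3 row01.R3 .leaf (Bern.Box.cut (Bern.Box.cut (Bern.Box.cut (Bern.Box.cut
      (Bern.Box.cut (Bern.Box.cut (Bern.Box.cut (Bern.Box.cut (Bern.Box.cut box3 2 Bern.Ax.right)
      0 Bern.Ax.right) 1 Bern.Ax.right) 0 Bern.Ax.right) 2 Bern.Ax.right) 2 Bern.Ax.right) 2
      Bern.Ax.right) 1 Bern.Ax.left) 0 Bern.Ax.left) = true ∧
    Bern.coverU row01.cfg3 row01.R3 (.split 0 (.split 1 .leaf .leaf) (.split 1 .leaf (.split 0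
      (.split 1 .leaf .leaf) (.split 1 .leaf (.split 0 .leaf .leaf))))) (Bern.Box.cut
      (Bern.Box.cut (Bern.Box.cut (Bern.Box.cut (Bern.Box.cut (Bern.Box.cut (Bern.Box.cut
      (Bern.Box.cut (Bern.Box.cut (Bern.Box.cut box3 2 Bern.Ax.right) 0 Bern.Ax.right) 1
      Bern.Ax.right) 0 Bern.Ax.right) 2 Bern.Ax.right) 2 Bern.Ax.right) 2 Bern.Ax.right) 1
      Bern.Ax.left) 0 Bern.Ax.right) 1 Bern.Ax.left) = true ∧
    Bern.coverU row01.cfg3 row01.R3 (.split 0 .leaf (.split 0 .leaf .leaf)) (Bern.Box.cut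
      (Bern.Box.cut (Bern.Box.cut (Bern.Box.cut (Bern.Box.cut (Bern.Box.cut (Bern.Box.cut
      (Bern.Box.cut (Bern.Box.cut (Bern.Box.cut box3 2 Bern.Ax.right) 0 Bern.Ax.right) 1
      Bern.Ax.right) 0 Bern.Ax.right) 2 Bern.Ax.right) 2 Bern.Ax.right) 2 Bern.Ax.right) 1
      Bern.Ax.left) 0 Bern.Ax.right) 1 Bern.Ax.right) = true ∧
    Bern.coverU row01.cfg3 row01.R3 (.split 2 .leaf (.split 2 .leaf (.split 2 .leaf .leaf)))
      (Bern.Box.cut (Bern.Box.cut (Bern.Box.cut (Bern.Box.cut (Bern.Box.cut (Bern.Box.cut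
      (Bern.Box.cut (Bern.Box.cut box3 2 Bern.Ax.right) 0 Bern.Ax.right) 1 Bern.Ax.right) 0
      Bern.Ax.right) 2 Bern.Ax.right) 2 Bern.Ax.right) 2 Bern.Ax.right) 1 Bern.Ax.right) = true :=
      by
  exact ⟨by decide +kernel, by decide +kernel, by decide +kernel,
    by decide +kernel, by decide +kernel, by decide +kernel, by decide +kernel,
    by decide +kernel, by decide +kernel, by decide +kernel, by decide +kernel,
    by decide +kernel, by decide +kernel, by decide +kernel, by decide +kernel,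
    by decide +kernel, by decide +kernel, by decide +kernel, by decide +kernel,
    by decide +kernel, by decide +kernel, by decide +kernel, by decide +kernel,
    by decide +kernel, by decide +kernel, by decide +kernel, by decide +kernel,
    by decide +kernel, by decide +kernel, by decide +kernel, by decide +kernel,
    by decide +kernel, by decide +kernel, by decide +kernel, by decide +kernel,
    by decide +kernel, by decide +kernel, by decide +kernel, by decide +kernel,
    by decide +kernel, by decide +kernel, by decide +kernel, by decide +kernel,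
    by decide +kernel, by decide +kernel, by decide +kernel, by decide +kernel,
    by decide +kernel, by decide +kernel, by decide +kernel, by decide +kernel,
    by decide +kernel, by decide +kernel, by decide +kernel, by decide +kernel,
    by decide +kernel, by decide +kernel, by decide +kernel, by decide +kernel,
    by decide +kernel, by decide +kernel, by decide +kernel, by decide +kernel,
    by decide +kernel, by decide +kernel, by decide +kernel, by decide +kernel,
    by decide +kernel, by decide +kernel, by decide +kernel, by decide +kernel,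
    by decide +kernel, by decide +kernel, by decide +kernel, by decide +kernel,
    by decide +kernel, by decide +kernel, by decide +kernel, by decide +kernel,
    by decide +kernel, by decide +kernel, by decide +kernel, by decide +kernel,
    by decide +kernel, by decide +kernel, by decide +kernel, by decide +kernel,
    by decide +kernel, by decide +kernel, by decide +kernel, by decide +kernel,
    by decide +kernel, by decide +kernel, by decide +kernel, by decide +kernel,
    by decide +kernel, by decide +kernel, by decide +kernel, by decide +kernel,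
    by decide +kernel, by decide +kernel, by decide +kernel, by decide +kernel,
    by decide +kernel⟩

/-- The row passes the check. -/
theorem row01_ok : rowFor 0 1 row01 = true := by
  obtain ⟨hrest, h1, h2, h3, h4, h5, h6, h7, h8, h9, h10, h11, h12, h13, h14, h15, h16, h17, h18,
    h19, h20, h21, h22, h23, h24, h25, h26, h27, h28, h29, h30, h31, h32, h33, h34, h35, h36, h37,
    h38, h39, h40, h41, h42, h43, h44, h45, h46, h47, h48, h49, h50, h51, h52, h53, h54, h55, h56,
    h57, h58, h59, h60, h61, h62, h63, h64, h65, h66, h67, h68, h69, h70, h71, h72, h73, h74, h75,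
    h76, h77, h78, h79, h80, h81, h82, h83, h84, h85, h86, h87, h88, h89, h90, h91, h92, h93, h94,
    h95, h96, h97, h98, h99, h100, h101, h102, h103⟩ := row01_parts
  simp only [rowFor, Bool.and_eq_true, decide_eq_true_eq]
  exact ⟨⟨⟨rfl, rfl⟩, rfl⟩, rowCheck_of_quick hrest
    ((Bern.coverU_split (Bern.coverU_split h1 h2) (Bern.coverU_split (Bern.coverU_split
      (Bern.coverU_split (Bern.coverU_split h3 h4) h5) (Bern.coverU_split (Bern.coverU_split h6
      (Bern.coverU_split (Bern.coverU_split h7 h8) h9)) h10)) (Bern.coverU_split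
      (Bern.coverU_split (Bern.coverU_split h11 (Bern.coverU_split (Bern.coverU_split h12
      (Bern.coverU_split h13 (Bern.coverU_split h14 h15))) h16)) (Bern.coverU_split
      (Bern.coverU_split (Bern.coverU_split h17 h18) h19) (Bern.coverU_split (Bern.coverU_split
      (Bern.coverU_split h20 h21) h22) h23))) (Bern.coverU_split (Bern.coverU_split
      (Bern.coverU_split h24 h25) (Bern.coverU_split h26 (Bern.coverU_split (Bern.coverU_split h27
      (Bern.coverU_split (Bern.coverU_split h28 (Bern.coverU_split (Bern.coverU_split h29 h30)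
      h31)) h32)) h33))) h34)))))
    ((Bern.coverU_split (Bern.coverU_split (Bern.coverU_split h35 (Bern.coverU_split h36 h37))
      (Bern.coverU_split (Bern.coverU_split h38 h39) (Bern.coverU_split h40 h41)))
      (Bern.coverU_split h42 (Bern.coverU_split (Bern.coverU_split (Bern.coverU_split h43
      (Bern.coverU_split (Bern.coverU_split (Bern.coverU_split (Bern.coverU_split
      (Bern.coverU_split h44 (Bern.coverU_split (Bern.coverU_split h45 (Bern.coverU_split h46
      h47)) h48)) h49) (Bern.coverU_split (Bern.coverU_split (Bern.coverU_split h50 h51) h52)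
      h53)) h54) h55)) (Bern.coverU_split (Bern.coverU_split h56 (Bern.coverU_split h57
      (Bern.coverU_split h58 (Bern.coverU_split (Bern.coverU_split h59 (Bern.coverU_split h60
      (Bern.coverU_split (Bern.coverU_split h61 (Bern.coverU_split h62 h63)) h64))) h65))))
      (Bern.coverU_split (Bern.coverU_split (Bern.coverU_split (Bern.coverU_split h66 h67)
      (Bern.coverU_split h68 (Bern.coverU_split (Bern.coverU_split h69 (Bern.coverU_split
      (Bern.coverU_split h70 (Bern.coverU_split h71 (Bern.coverU_split h72 (Bern.coverU_split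
      (Bern.coverU_split h73 (Bern.coverU_split h74 h75)) h76)))) h77)) h78))) (Bern.coverU_split
      h79 (Bern.coverU_split h80 (Bern.coverU_split h81 (Bern.coverU_split h82 h83)))))
      (Bern.coverU_split h84 (Bern.coverU_split (Bern.coverU_split (Bern.coverU_split
      (Bern.coverU_split h85 h86) (Bern.coverU_split h87 (Bern.coverU_split h88 h89))) h90)
      h91))))) (Bern.coverU_split (Bern.coverU_split (Bern.coverU_split h92 (Bern.coverU_split h93
      (Bern.coverU_split h94 h95))) h96) (Bern.coverU_split h97 (Bern.coverU_split h98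
      (Bern.coverU_split h99 (Bern.coverU_split (Bern.coverU_split h100 (Bern.coverU_split h101
      h102)) h103)))))))))⟩

end Vale.Agent.P154.Anti
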