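import Vale.Agent.P154.Anti.RowData
import Vale.Agent.P154.RowQuick

/-!
P154: the certificate of the row of piece 0 and index 2.
-/

namespace Vale.Agent.P154.Anti

open Kron BudgetRow

/-- The polynomial which dominates the merged coefficient. -/
noncomputable def sym02 : List Term :=
  [
    (59288886562500, 0, 0, 0, 0), (-3897387907520851620, 0, 0, 1, 0),
    (39411528075901119249, 0, 0, 2, 0), (-1984858116068289708, 0, 1, 0, 0),
    (-25455408313129242210, 0, 1, 1, 0), (-1079743492423608975, 0, 1, 2, 0),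
    (-425614635516599640, 0, 2, 0, 0), (-6398167124708241354, 0, 2, 1, 0),
    (4951581830205875280, 0, 3, 0, 0), (404625128752178640, 0, 4, 0, 0),
    (114115751079481944, 1, 0, 0, 0), (19967996589030619830, 1, 0, 1, 0),
    (-67210154686908628020, 1, 0, 2, 0), (5399932341092814144, 1, 1, 0, 0),
    (39305493089005897602, 1, 1, 1, 0), (1532582747785530900, 1, 1, 2, 0),
    (4238953254630895050, 1, 2, 0, 0), (9007463159893078632, 1, 2, 1, 0),
    (-9150732240189544782, 1, 3, 0, 0), (-436922694849562560, 1, 4, 0, 0),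
    (39524357450736, 2, 0, 0, 0), (-31226053448930967450, 2, 0, 1, 0),
    (48021734350925617545, 2, 0, 2, 0), (-8930182771008498762, 2, 1, 0, 0),
    (-19700047114799071464, 2, 1, 1, 0), (-802428779737859850, 2, 1, 2, 0),
    (-9079534278285264603, 2, 2, 0, 0), (-5176461373697166876, 2, 2, 1, 0),
    (6740947178272581111, 2, 3, 0, 0), (178570106439222240, 2, 4, 0, 0),
    (-8787675512988, 3, 0, 0, 0), (26046531344816912916, 3, 0, 1, 0),
    (-18427377029363637120, 3, 0, 2, 0), (8839193630701220946, 3, 1, 0, 0),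
    (760510251069140592, 3, 1, 1, 0), (184741934314207860, 3, 1, 2, 0),
    (9241798559259675024, 3, 2, 0, 0), (1510556897343846168, 3, 2, 1, 0),
    (-2559300658743013128, 3, 3, 0, 0), (-32590469700172224, 3, 4, 0, 0),
    (735914897424, 4, 0, 0, 0), (-14503448768441503536, 4, 0, 1, 0),
    (4020148104703323075, 4, 0, 2, 0), (-5278753259592707592, 4, 1, 0, 0),
    (2844676129379342814, 4, 1, 1, 0), (-15833190354609375, 4, 1, 2, 0),
    (-5258751617179537677, 4, 2, 0, 0), (-223082576642336490, 4, 2, 1, 0),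
    (529646034906878274, 4, 3, 0, 0), (2232342281250000, 4, 4, 0, 0), (-1409862672, 5, 0, 0, 0),
    (5948933156896936068, 5, 0, 1, 0), (-475450452065152620, 5, 0, 2, 0),
    (1830777139102369428, 5, 1, 0, 0), (-1124794341544499262, 5, 1, 1, 0),
    (1764954571059055026, 5, 2, 0, 0), (13306792488750000, 5, 2, 1, 0),
    (-56583265120396578, 5, 3, 0, 0), (209932560, 6, 0, 0, 0), (-1780338787452042354, 6, 0, 1, 0),
    (23983782068671875, 6, 0, 2, 0), (-299855296301388264, 6, 1, 0, 0),
    (179578063147704300, 6, 1, 1, 0), (-347269421690799093, 6, 2, 0, 0),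
    (2427973067109375, 6, 3, 0, 0), (3993624, 7, 0, 0, 0), (357267889226228652, 7, 0, 1, 0),
    (-12413625624991278, 7, 1, 0, 0), (-10817792890312500, 7, 1, 1, 0),
    (37049065421743764, 7, 2, 0, 0), (-9778212, 8, 0, 0, 0), (-41835523342152240, 8, 0, 1, 0),
    (14142347167143924, 8, 1, 0, 0), (-1653999854296875, 8, 2, 0, 0), (3335256, 9, 0, 0, 0),
    (2129851011093750, 9, 0, 1, 0), (-2246729769920712, 9, 1, 0, 0), (-615408, 10, 0, 0, 0),
    (121889558281250, 10, 1, 0, 0), (45476, 11, 0, 0, 0)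
  ]

/-- The nonnegative remainder in the invariants. -/
noncomputable def rem02 : Bern.Poly where
  pks := [(0, 1), (0, 2), (0, 3), (0, 4), (1, 0), (1, 1), (1, 2), (1, 3), (2, 0), (2, 1), (2, 2), (3, 0), (3, 1), (3, 2), (4, 0), (4, 1), (5, 0), (6, 0)]
  rows :=
  [((0, 0),
    [
      -20564315996160000, 344234974535221248, 0, 0, 750172241920000, 317753077670608896,
      -220344525700726784, 0, 157312608164118528, -432090296017223680, 0, -610297383697252352, 0, 0,
      861483807755206656, 0, 0, 0]),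
   ((0, 1),
    [
      3900231112458240000, -361640338189713408, -335847545241600000, 0, 709438923079680000,
      -6164837757370761216, 301047898454360064, 36051782860800000, -7529560736268288,
      4607923121191649280, -401163044782080000, -1550470092379127808, -661671917813760000, 0,
      1729114009854541824, -268627885424640000, -716341027799040000, 0]),
   ((0, 2),
    [
      194047062835200000, -580496968763652096, -5363874468750000000, -2309389129687500000,
      21770234914406400000, 19031909278724203008, -18764746510287829632, 508257100781250000,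
      -61328257303792582656, -43917063147013856640, 13355700319455510000, 91002382491686575104,
      23837159305762560000, 3194164935351562500, -68142665509287004512, 1372083534047580000,
      24869973250720860000, -4112130835253906250]),
   ((0, 3),
    [
      -21494242895462400000, 42910995750000000000, 5855489850000000000, -9253906828125000000,
      -1538209402060800000, 214730942648353920000, -196749552381314400000, -1598094150000000000,
      34637920170147840000, -480915746906994960000, 146798144912564400000, -156803652050324160000,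
      319507708258962000000, -22919414674218750000, 231839619341147880000, -74799477129740025000,
      -127238680017685800000, 15814698203320312500]),
   ((0, 4),
    [
      0, -147800904300000000000, 74031254625000000000, -31505437500000000, 0, 41700583650000000000,
      166244879775000000000, -63377374612500000000, 0, 16304191125000000000, -151747473825000000000,
      73900452150000000000, -144792108806250000000, -4595447976562500000, -113390628300000000000,
      37794297592968750000, 73835713021875000000, 1154843962500000000]),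
   ((1, 0),
    [
      -913639829667840000, 1246916661941895168, 12017260953600000, 0, 544043025039360000,
      390287618839412736, -751024918397190144, 0, -1304570632420196352, 723395991432069120,
      24034521907200000, 590088947072237568, -695094580346880000, 0, -1103628983599104, 0,
      -179085256949760000, 0]),
   ((1, 1),
    [
      -23467012915200000000, -10586141083533873408, 13420683915522120000, -325785809765625000,
      -7471910313000960000, 86155881387731318784, 26050942237094360064, -11343256592240025000,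
      8278607016820211712, -108159475961582070720, -9135511918025580000, -5795086222701287808,
      69031159954256760000, -4809144909960937500, 2026234313890621824, -17538646608103110000,
      2795905424807850000, -1860285234375000000]),
   ((1, 2),
    [
      -3276363540725760000, -72107290468502727168, 98374776190657200000, 10390304985937500000,
      -42571528415477760000, -200758418856564596736, 370984948545128406144, -47119358057812500000,
      284382513302420324352, 520062241536571610880, -276412996638536190000, -656293744452069389568,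
      -313148805379286940000, -19469066719335937500, 655626605886872755104, -20324970367946595000,
      -241988186311110900000, 39168053942285156250]),
   ((1, 3),
    [
      9229256412364800000, -16264227225000000000, -6392376600000000000, 31688687306250000000, 0,
      -725968421903361600000, 376954864462500000000, 31369402800000000000, -13843884618547200000,
      1766722417415605920000, -370693964184954600000, 307953954187550880000, -909040769623647600000,
      -33390241853906250000, -657807390318737280000, 101841883386376425000, 434388354651852300000,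
      560638438476562500]),
   ((2, 0),
    [
      -369026484142080000, -15619695923621265408, -1082435005317120000, 0, -5912349974200320000,
      -4698011321844105216, 17838264202770776064, 108155348582400000, 8565198637913459712,
      743533133940209280, -8563885145009250000, -10020769589186999808, 7421961182944800000,
      -488678714648437500, 12510107539688437824, -8329744812160980000, -7158995994625350000,
      -465071308593750000]),
   ((2, 1),
    [
      68050285253099520000, 81006636333112867584, -120228936726748740000, -509505972656250000,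
      -41943113316433920000, -443171564512930213632, -257562844794221235072, 110420151088475370000,
      -7414847543572018176, 747519116935108474560, 176951891256520845000, 284982991011290438784,
      -546129074554156455000, 13558056674414062500, -312578390602146819552, 123778988288416968750,
      11273934554008657500, 22958774674365234375]),
   ((2, 2),
    [
      51348869732106240000, 213691205111288160000, -293596289825128800000, -37936868456250000000,
      6152837608243200000, 292336381376818560000, -1105651986554144760000, 185346982092477300000,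
      -548088649280592000000, -1415615130052166760000, 1050165391413194700000,
      2228781035707978800000, 1292183972790454260000, -80508167062500000000,
      -2487471726558249360000, -166216957071389887500, 547865053475764815000, 13659016992187500]),
   ((3, 0),
    [
      16602656711639040000, 97095393312515595264, 19600456506290520000, 1154694564843750000,
      26798457083658240000, 20303178036529705728, -166513200834348424512, -9623561068360965000,
      -38404722142996125696, -143587975060047474240, 139298814731748675000, 30891638146231870464,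
      108204410083862280000, -24689406812402343750, -28426808879145908592, 14555269409348910000,
      17056966246424790000, 9594722953271484375]),
   ((3, 1),
    [
      -42347002740080640000, -190697274446100480000, 319507708258962000000, 18099013600781250000,
      88972106284400640000, 1104498559268108160000, 626297610758573880000, -227260192405911900000,
      -237502757854233600000, -2184516298216625820000, -646091986395227130000,
      -865635280670898240000, 1786763896842555990000, 11369690068945312500, 1355782680150190470000,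
      -370427691455609178750, -164350442049567585000, -28671999973681640625]),
   ((3, 2),
    [
      0, 204426555862500000000, 183355317393750000000, -4595447976562500000, 0,
      615570548475000000000, -311505067509375000000, 66780483707812500000, -125101750950000000000,
      -433857813581250000000, -322032668250000000000, -1580122035993750000000,
      -90957520551562500000, 104219319472265625000, 2188183680496875000000, -57032988322265625000,
      -142290486856640625000, -71177014905468750000]),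
   ((4, 0),
    [
      -80360406452797440000, -277540030508985099648, -115919809670573940000, -7086914268750000000,
      337594684538880000, -40448250486044445696, 651709879946228013984, 82225923789842160000,
      208002032641334019072, 598726426931874847680, -621867931639562340000, -162477499980083226048,
      -677891340075095235000, 136761480031054687500, -222682718532001431456, 116107593472964178750,
      194218010007456337500, -25379226212109375000]),
   ((4, 1),
    [
      -68768738668707840000, -43906673089522560000, -299197908518960100000, -18897148796484375000,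
      0, -1122473382918599040000, 162599762943572760000, 101841883386376425000,
      1066207335956605440000, 1980463812614671500000, 332433914142779775000, -465768621099165120000,
      -1481710765822436715000, 28516494161132812500, -928860747783713430000, 269431983795191122500,
      -3386104229590627500, -24181976054589843750]),
   ((5, 0),
    [
      91691651558277120000, 397919572011533760000, 254477360035371600000, 18458928255468750000,
      -45845825779138560000, -89468973593851200000, -967952745244443600000, -217194177325926150000,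
      -458175743656022400000, -90191476432069260000, 547865053475764815000, 272911459942796640000,
      328700884099135170000, -35572621714160156250, 776872040029825350000, 1693052114795313750,
      -482194959055909485000, -34200157503076171875]),
   ((6, 0),
    [
      0, -263176373456250000000, -126517585626562500000, 1154843962500000000, 0,
      238116510000000000000, 626688863076562500000, -1121276876953125000, -119058255000000000000,
      -734680789579687500000, 54636067968750000, 614062269009375000000, 229375999789453125000,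
      -71177014905468750000, -406067619393750000000, 48363952109179687500, -136800630012304687500,
      100782470835937500000])]

/-- The nonnegative remainder in three variables. -/
noncomputable def dom02 : Bern.Poly where
  pks := [(0, 1), (1, 0), (1, 1), (2, 0), (2, 1), (3, 0), (3, 1), (4, 0), (5, 0)]
  rows :=
  [((0, 0),
    [
      990721944568125000, 59288886562500, 653025026248745625000, -41702505925947187500,
      17580266516461066875000, -4793125987415463750000, 20326588611295303125000,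
      -30805910082861946875000, 305146300060223437500]),
   ((0, 1),
    [
      22768168036073472, 0, -208409811882879375000, 273218016432881664, -76120144473108982500000,
      7191233788934849062500, -595855937478639827812500, 331739700480853970625000,
      358515310851262645312500]),
   ((0, 2),
    [
      -291309132527566848, 0, -26217821927481016320, -3495709590330802176, -825861390715652014080,
      -157306931564886097920, -402613715210756152500000, 110959881193892534062500,
      357881866365926266875000]),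
   ((1, 0),
    [
      -691292712624979968, 0, -415617452906487187500, 45295656582344062500, 53921804661778826250000,
      -1913848157912456250000, 771748991905868490937500, -325083003058232274375000,
      -613842336597773387812500]),
   ((1, 1),
    [
      68387256665505792, 0, 6154853099895521280, 820647079986069504, 37307863193189144062500,
      36929118599373127680, 1139848262870727622500000, -414240290286704955000000,
      -805083407702208874687500]),
   ((1, 2),
    [
      60823477889925120, 0, 5474113010093260800, 729881734679101440, 172434559817937715200,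
      32844678060559564800, 3724586492067454648320, 827685887126101032960, 100972878182927530312500]),
   ((2, 0),
    [
      -126992993882996736, 0, -11429369449469706240, -1523915926595960832, -31942507646337859687500,
      -378849285988419375000, -1512567565783165544062500, 424514427047082340312500,
      1469752012844905010625000]),
   ((2, 1),
    [
      629252883594215424, 0, 56632759523479388160, 7551034603130585088, 1783931924989600727040,
      339796557140876328960, -213337317451489253437500, 8562873239950083489792,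
      78957221229962001562500]),
   ((3, 0),
    [
      -209152909116702720, 0, -18823761820503244800, -2509834909400432640, -592948497345852211200,
      -112942570923019468800, 816478625189776907812500, -100308137951202333750000,
      -1043553706832533696875000]),
   ((4, 0),
    [
      -453205943041130496, 0, -40788534873701744640, -5438471316493565952, -1284838848521604956160,
      -244731209242210467840, -27752519128066667053056, -6167226472903703789568,
      96095015357472281250000])]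

/-- A subdivision. -/
noncomputable def cov02 : Bern.Cover :=
  (.split 0 (.split 2 (.split 2 (.split 2 .leaf .leaf) .leaf) (.split 3 .leaf .leaf))
  (.split 3 (.split 0 (.split 2 (.split 1 (.split 0 .leaf (.split 2 .leaf (.split 1
  .leaf (.split 0 .leaf .leaf)))) (.split 2 .leaf (.split 0 (.split 2 .leaf .leaf)
  .leaf))) (.split 1 (.split 0 .leaf .leaf) .leaf)) (.split 1 (.split 2 .leaf (.split
  2 (.split 1 .leaf (.split 1 .leaf .leaf)) (.split 0 .leaf .leaf))) (.split 2 .leaf
  (.split 2 .leaf (.split 0 .leaf (.split 3 (.split 1 .leaf .leaf) .leaf)))))) (.split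
  0 (.split 1 (.split 0 (.split 3 .leaf .leaf) (.split 3 (.split 0 .leaf .leaf)
  .leaf)) .leaf) (.split 2 .leaf (.split 1 (.split 2 (.split 1 (.split 3 (.split 2
  .leaf (.split 0 .leaf (.split 1 (.split 0 .leaf .leaf) .leaf))) .leaf) .leaf) .leaf)
  .leaf)))))

/-- A subdivision. -/
noncomputable def covDom02 : Bern.Cover :=
  (.split 2 (.split 2 (.split 2 .leaf (.split 2 (.split 2 .leaf .leaf) (.split 2
  .leaf .leaf))) (.split 0 (.split 2 .leaf (.split 0 (.split 2 (.split 2 .leaf .leaf)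
  .leaf) (.split 2 .leaf (.split 1 (.split 0 .leaf (.split 2 .leaf (.split 2 .leaf
  (.split 0 .leaf .leaf)))) (.split 0 (.split 2 (.split 0 .leaf .leaf) .leaf) (.split
  2 .leaf (.split 0 .leaf .leaf))))))) (.split 1 (.split 2 .leaf (.split 0 (.split 2
  .leaf (.split 0 (.split 1 .leaf (.split 2 .leaf (.split 0 .leaf .leaf))) .leaf))
  .leaf)) (.split 2 .leaf (.split 0 (.split 2 .leaf (.split 0 (.split 2 .leaf .leaf)
  .leaf)) .leaf))))) (.split 0 (.split 2 (.split 0 .leaf (.split 1 (.split 2 .leaf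
  .leaf) .leaf)) (.split 2 .leaf (.split 2 (.split 2 .leaf .leaf) .leaf))) (.split 2
  (.split 1 (.split 0 (.split 2 (.split 0 (.split 2 (.split 2 (.split 0 (.split 1
  .leaf (.split 2 (.split 0 .leaf .leaf) .leaf)) (.split 1 .leaf (.split 1 .leaf
  .leaf))) (.split 0 .leaf .leaf)) .leaf) (.split 2 .leaf .leaf)) .leaf) (.split 0
  (.split 1 .leaf (.split 2 .leaf (.split 0 .leaf .leaf))) .leaf)) (.split 0 (.split
  2 (.split 0 (.split 2 (.split 2 (.split 0 .leaf .leaf) .leaf) .leaf) (.split 0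
  (.split 2 .leaf .leaf) .leaf)) (.split 0 .leaf (.split 2 (.split 0 (.split 2
  (.split 0 .leaf .leaf) .leaf) (.split 2 (.split 0 (.split 0 (.split 2 .leaf .leaf)
  .leaf) .leaf) (.split 0 (.split 2 (.split 0 .leaf (.split 0 .leaf .leaf)) .leaf)
  (.split 2 .leaf .leaf)))) (.split 0 .leaf .leaf)))) (.split 2 .leaf (.split 0
  (.split 2 .leaf (.split 0 .leaf .leaf)) .leaf)))) (.split 0 (.split 1 (.split 2
  .leaf .leaf) .leaf) (.split 1 (.split 2 (.split 0 (.split 1 (.split 2 (.split 0
  .leaf .leaf) (.split 1 .leaf (.split 0 .leaf (.split 2 (.split 0 .leaf .leaf)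
  (.split 1 .leaf (.split 0 .leaf .leaf)))))) (.split 2 (.split 1 (.split 0 .leaf
  .leaf) .leaf) (.split 1 (.split 0 .leaf (.split 2 (.split 1 .leaf .leaf) .leaf))
  .leaf))) (.split 1 (.split 2 .leaf (.split 0 (.split 2 .leaf (.split 1 .leaf
  (.split 0 (.split 0 (.split 2 (.split 1 .leaf (.split 0 .leaf .leaf)) (.split 0
  .leaf .leaf)) .leaf) .leaf))) .leaf)) (.split 0 (.split 1 (.split 2 .leaf (.split 0
  (.split 1 (.split 2 (.split 0 (.split 1 (.split 0 .leaf .leaf) .leaf) .leaf)
  (.split 0 (.split 2 (.split 1 (.split 0 (.split 2 (.split 1 .leaf .leaf) .leaf)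
  (.split 2 (.split 1 (.split 0 (.split 1 .leaf .leaf) .leaf) (.split 0 .leaf .leaf))
  (.split 1 (.split 0 .leaf .leaf) .leaf))) .leaf) .leaf) (.split 2 (.split 1 (.split
  1 .leaf .leaf) .leaf) .leaf))) .leaf) (.split 1 .leaf .leaf))) .leaf) .leaf)))
  (.split 0 (.split 1 (.split 0 .leaf .leaf) .leaf) (.split 1 (.split 1 .leaf (.split
  0 .leaf (.split 2 .leaf (.split 2 .leaf (.split 2 .leaf (.split 2 .leaf (.split 1
  .leaf (.split 2 (.split 1 .leaf .leaf) .leaf)))))))) (.split 0 (.split 0 .leaf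
  .leaf) (.split 2 .leaf (.split 2 .leaf (.split 0 .leaf .leaf))))))) (.split 0
  (.split 2 .leaf .leaf) (.split 2 .leaf (.split 0 .leaf (.split 0 .leaf (.split 0
  .leaf (.split 2 .leaf (.split 2 .leaf (.split 1 (.split 1 (.split 0 .leaf (.split
  1 .leaf (.split 0 (.split 0 .leaf (.split 0 .leaf .leaf)) .leaf))) (.split 0 .leaf
  .leaf)) (.split 2 .leaf .leaf))))))))))))))

/-- The row. -/
noncomputable def row02 : Row where
  W := terms 2
  D := slopeT 0 2
  G := sym02
  a := 7739670528
  e := slopeE 0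
  kR := 262144
  kG := 754974720000000
  kP := 375
  I := 12
  J := 8
  P := rem02
  cfg := ⟨12, 12, 10, 12, 12, 278⟩
  cov := cov02
  lay := ⟨164, 13, 13, 13, 13⟩
  R3 := dom02
  cfg3 := ⟨8, 8, 8, 10, 10, 554⟩
  cov3 := covDom02
  lay3 := ⟨96, 5, 3, 15, 1⟩

set_option maxHeartbeats 8000000 in
/-- All parts of the check, evaluated one after another. -/
theorem row02_parts :
    rowRest (terms 0) row02 = true ∧
    Bern.coverU row02.cfg row02.P (.split 2 (.split 2 .leaf .leaf) .leaf) (Bern.Box.cut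
      (Bern.Box.cut Bern.unitBox 0 Bern.Ax.left) 2 Bern.Ax.left) = true ∧
    Bern.coverU row02.cfg row02.P (.split 3 .leaf .leaf) (Bern.Box.cut (Bern.Box.cut Bern.unitBox
      0 Bern.Ax.left) 2 Bern.Ax.right) = true ∧
    Bern.coverU row02.cfg row02.P .leaf (Bern.Box.cut (Bern.Box.cut (Bern.Box.cut (Bern.Box.cut
      (Bern.Box.cut (Bern.Box.cut Bern.unitBox 0 Bern.Ax.right) 3 Bern.Ax.left) 0 Bern.Ax.left) 2
      Bern.Ax.left) 1 Bern.Ax.left) 0 Bern.Ax.left) = true ∧
    Bern.coverU row02.cfg row02.P .leaf (Bern.Box.cut (Bern.Box.cut (Bern.Box.cut (Bern.Box.cut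
      (Bern.Box.cut (Bern.Box.cut (Bern.Box.cut Bern.unitBox 0 Bern.Ax.right) 3 Bern.Ax.left) 0
      Bern.Ax.left) 2 Bern.Ax.left) 1 Bern.Ax.left) 0 Bern.Ax.right) 2 Bern.Ax.left) = true ∧
    Bern.coverU row02.cfg row02.P (.split 1 .leaf (.split 0 .leaf .leaf)) (Bern.Box.cut
      (Bern.Box.cut (Bern.Box.cut (Bern.Box.cut (Bern.Box.cut (Bern.Box.cut (Bern.Box.cut
      Bern.unitBox 0 Bern.Ax.right) 3 Bern.Ax.left) 0 Bern.Ax.left) 2 Bern.Ax.left) 1
      Bern.Ax.left) 0 Bern.Ax.right) 2 Bern.Ax.right) = true ∧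
    Bern.coverU row02.cfg row02.P .leaf (Bern.Box.cut (Bern.Box.cut (Bern.Box.cut (Bern.Box.cut
      (Bern.Box.cut (Bern.Box.cut Bern.unitBox 0 Bern.Ax.right) 3 Bern.Ax.left) 0 Bern.Ax.left) 2
      Bern.Ax.left) 1 Bern.Ax.right) 2 Bern.Ax.left) = true ∧
    Bern.coverU row02.cfg row02.P (.split 0 (.split 2 .leaf .leaf) .leaf) (Bern.Box.cut
      (Bern.Box.cut (Bern.Box.cut (Bern.Box.cut (Bern.Box.cut (Bern.Box.cut Bern.unitBox 0
      Bern.Ax.right) 3 Bern.Ax.left) 0 Bern.Ax.left) 2 Bern.Ax.left) 1 Bern.Ax.right) 2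
      Bern.Ax.right) = true ∧
    Bern.coverU row02.cfg row02.P (.split 1 (.split 0 .leaf .leaf) .leaf) (Bern.Box.cut
      (Bern.Box.cut (Bern.Box.cut (Bern.Box.cut Bern.unitBox 0 Bern.Ax.right) 3 Bern.Ax.left) 0
      Bern.Ax.left) 2 Bern.Ax.right) = true ∧
    Bern.coverU row02.cfg row02.P .leaf (Bern.Box.cut (Bern.Box.cut (Bern.Box.cut (Bern.Box.cut
      (Bern.Box.cut Bern.unitBox 0 Bern.Ax.right) 3 Bern.Ax.left) 0 Bern.Ax.right) 1 Bern.Ax.left)
      2 Bern.Ax.left) = true ∧
    Bern.coverU row02.cfg row02.P (.split 1 .leaf (.split 1 .leaf .leaf)) (Bern.Box.cut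
      (Bern.Box.cut (Bern.Box.cut (Bern.Box.cut (Bern.Box.cut (Bern.Box.cut Bern.unitBox 0
      Bern.Ax.right) 3 Bern.Ax.left) 0 Bern.Ax.right) 1 Bern.Ax.left) 2 Bern.Ax.right) 2
      Bern.Ax.left) = true ∧
    Bern.coverU row02.cfg row02.P (.split 0 .leaf .leaf) (Bern.Box.cut (Bern.Box.cut (Bern.Box.cut
      (Bern.Box.cut (Bern.Box.cut (Bern.Box.cut Bern.unitBox 0 Bern.Ax.right) 3 Bern.Ax.left) 0
      Bern.Ax.right) 1 Bern.Ax.left) 2 Bern.Ax.right) 2 Bern.Ax.right) = true ∧
    Bern.coverU row02.cfg row02.P .leaf (Bern.Box.cut (Bern.Box.cut (Bern.Box.cut (Bern.Box.cut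
      (Bern.Box.cut Bern.unitBox 0 Bern.Ax.right) 3 Bern.Ax.left) 0 Bern.Ax.right) 1
      Bern.Ax.right) 2 Bern.Ax.left) = true ∧
    Bern.coverU row02.cfg row02.P .leaf (Bern.Box.cut (Bern.Box.cut (Bern.Box.cut (Bern.Box.cut
      (Bern.Box.cut (Bern.Box.cut Bern.unitBox 0 Bern.Ax.right) 3 Bern.Ax.left) 0 Bern.Ax.right) 1
      Bern.Ax.right) 2 Bern.Ax.right) 2 Bern.Ax.left) = true ∧
    Bern.coverU row02.cfg row02.P .leaf (Bern.Box.cut (Bern.Box.cut (Bern.Box.cut (Bern.Box.cut
      (Bern.Box.cut (Bern.Box.cut (Bern.Box.cut Bern.unitBox 0 Bern.Ax.right) 3 Bern.Ax.left) 0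
      Bern.Ax.right) 1 Bern.Ax.right) 2 Bern.Ax.right) 2 Bern.Ax.right) 0 Bern.Ax.left) = true ∧
    Bern.coverU row02.cfg row02.P (.split 3 (.split 1 .leaf .leaf) .leaf) (Bern.Box.cut
      (Bern.Box.cut (Bern.Box.cut (Bern.Box.cut (Bern.Box.cut (Bern.Box.cut (Bern.Box.cut
      Bern.unitBox 0 Bern.Ax.right) 3 Bern.Ax.left) 0 Bern.Ax.right) 1 Bern.Ax.right) 2
      Bern.Ax.right) 2 Bern.Ax.right) 0 Bern.Ax.right) = true ∧
    Bern.coverU row02.cfg row02.P (.split 3 .leaf .leaf) (Bern.Box.cut (Bern.Box.cut (Bern.Box.cut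
      (Bern.Box.cut (Bern.Box.cut Bern.unitBox 0 Bern.Ax.right) 3 Bern.Ax.right) 0 Bern.Ax.left) 1
      Bern.Ax.left) 0 Bern.Ax.left) = true ∧
    Bern.coverU row02.cfg row02.P (.split 3 (.split 0 .leaf .leaf) .leaf) (Bern.Box.cut
      (Bern.Box.cut (Bern.Box.cut (Bern.Box.cut (Bern.Box.cut Bern.unitBox 0 Bern.Ax.right) 3
      Bern.Ax.right) 0 Bern.Ax.left) 1 Bern.Ax.left) 0 Bern.Ax.right) = true ∧
    Bern.coverU row02.cfg row02.P .leaf (Bern.Box.cut (Bern.Box.cut (Bern.Box.cut (Bern.Box.cut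
      Bern.unitBox 0 Bern.Ax.right) 3 Bern.Ax.right) 0 Bern.Ax.left) 1 Bern.Ax.right) = true ∧
    Bern.coverU row02.cfg row02.P .leaf (Bern.Box.cut (Bern.Box.cut (Bern.Box.cut (Bern.Box.cut
      Bern.unitBox 0 Bern.Ax.right) 3 Bern.Ax.right) 0 Bern.Ax.right) 2 Bern.Ax.left) = true ∧
    Bern.coverU row02.cfg row02.P .leaf (Bern.Box.cut (Bern.Box.cut (Bern.Box.cut (Bern.Box.cut
      (Bern.Box.cut (Bern.Box.cut (Bern.Box.cut (Bern.Box.cut (Bern.Box.cut Bern.unitBox 0
      Bern.Ax.right) 3 Bern.Ax.right) 0 Bern.Ax.right) 2 Bern.Ax.right) 1 Bern.Ax.left) 2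
      Bern.Ax.left) 1 Bern.Ax.left) 3 Bern.Ax.left) 2 Bern.Ax.left) = true ∧
    Bern.coverU row02.cfg row02.P .leaf (Bern.Box.cut (Bern.Box.cut (Bern.Box.cut (Bern.Box.cut
      (Bern.Box.cut (Bern.Box.cut (Bern.Box.cut (Bern.Box.cut (Bern.Box.cut (Bern.Box.cut
      Bern.unitBox 0 Bern.Ax.right) 3 Bern.Ax.right) 0 Bern.Ax.right) 2 Bern.Ax.right) 1
      Bern.Ax.left) 2 Bern.Ax.left) 1 Bern.Ax.left) 3 Bern.Ax.left) 2 Bern.Ax.right) 0
      Bern.Ax.left) = true ∧
    Bern.coverU row02.cfg row02.P (.split 1 (.split 0 .leaf .leaf) .leaf) (Bern.Box.cut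
      (Bern.Box.cut (Bern.Box.cut (Bern.Box.cut (Bern.Box.cut (Bern.Box.cut (Bern.Box.cut
      (Bern.Box.cut (Bern.Box.cut (Bern.Box.cut Bern.unitBox 0 Bern.Ax.right) 3 Bern.Ax.right) 0
      Bern.Ax.right) 2 Bern.Ax.right) 1 Bern.Ax.left) 2 Bern.Ax.left) 1 Bern.Ax.left) 3
      Bern.Ax.left) 2 Bern.Ax.right) 0 Bern.Ax.right) = true ∧
    Bern.coverU row02.cfg row02.P .leaf (Bern.Box.cut (Bern.Box.cut (Bern.Box.cut (Bern.Box.cut
      (Bern.Box.cut (Bern.Box.cut (Bern.Box.cut (Bern.Box.cut Bern.unitBox 0 Bern.Ax.right) 3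
      Bern.Ax.right) 0 Bern.Ax.right) 2 Bern.Ax.right) 1 Bern.Ax.left) 2 Bern.Ax.left) 1
      Bern.Ax.left) 3 Bern.Ax.right) = true ∧
    Bern.coverU row02.cfg row02.P .leaf (Bern.Box.cut (Bern.Box.cut (Bern.Box.cut (Bern.Box.cut
      (Bern.Box.cut (Bern.Box.cut (Bern.Box.cut Bern.unitBox 0 Bern.Ax.right) 3 Bern.Ax.right) 0
      Bern.Ax.right) 2 Bern.Ax.right) 1 Bern.Ax.left) 2 Bern.Ax.left) 1 Bern.Ax.right) = true ∧
    Bern.coverU row02.cfg row02.P .leaf (Bern.Box.cut (Bern.Box.cut (Bern.Box.cut (Bern.Box.cut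
      (Bern.Box.cut (Bern.Box.cut Bern.unitBox 0 Bern.Ax.right) 3 Bern.Ax.right) 0 Bern.Ax.right)
      2 Bern.Ax.right) 1 Bern.Ax.left) 2 Bern.Ax.right) = true ∧
    Bern.coverU row02.cfg row02.P .leaf (Bern.Box.cut (Bern.Box.cut (Bern.Box.cut (Bern.Box.cut
      (Bern.Box.cut Bern.unitBox 0 Bern.Ax.right) 3 Bern.Ax.right) 0 Bern.Ax.right) 2
      Bern.Ax.right) 1 Bern.Ax.right) = true ∧
    Bern.coverU row02.cfg3 row02.R3 (.split 2 .leaf (.split 2 (.split 2 .leaf .leaf) (.split 2
      .leaf .leaf))) (Bern.Box.cut (Bern.Box.cut box3 2 Bern.Ax.left) 2 Bern.Ax.left) = true ∧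
    Bern.coverU row02.cfg3 row02.R3 .leaf (Bern.Box.cut (Bern.Box.cut (Bern.Box.cut (Bern.Box.cut
      box3 2 Bern.Ax.left) 2 Bern.Ax.right) 0 Bern.Ax.left) 2 Bern.Ax.left) = true ∧
    Bern.coverU row02.cfg3 row02.R3 (.split 2 (.split 2 .leaf .leaf) .leaf) (Bern.Box.cut
      (Bern.Box.cut (Bern.Box.cut (Bern.Box.cut (Bern.Box.cut box3 2 Bern.Ax.left) 2
      Bern.Ax.right) 0 Bern.Ax.left) 2 Bern.Ax.right) 0 Bern.Ax.left) = true ∧
    Bern.coverU row02.cfg3 row02.R3 .leaf (Bern.Box.cut (Bern.Box.cut (Bern.Box.cut (Bern.Box.cut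
      (Bern.Box.cut (Bern.Box.cut box3 2 Bern.Ax.left) 2 Bern.Ax.right) 0 Bern.Ax.left) 2
      Bern.Ax.right) 0 Bern.Ax.right) 2 Bern.Ax.left) = true ∧
    Bern.coverU row02.cfg3 row02.R3 (.split 0 .leaf (.split 2 .leaf (.split 2 .leaf (.split 0
      .leaf .leaf)))) (Bern.Box.cut (Bern.Box.cut (Bern.Box.cut (Bern.Box.cut (Bern.Box.cut
      (Bern.Box.cut (Bern.Box.cut box3 2 Bern.Ax.left) 2 Bern.Ax.right) 0 Bern.Ax.left) 2
      Bern.Ax.right) 0 Bern.Ax.right) 2 Bern.Ax.right) 1 Bern.Ax.left) = true ∧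
    Bern.coverU row02.cfg3 row02.R3 (.split 0 (.split 2 (.split 0 .leaf .leaf) .leaf) (.split 2
      .leaf (.split 0 .leaf .leaf))) (Bern.Box.cut (Bern.Box.cut (Bern.Box.cut (Bern.Box.cut
      (Bern.Box.cut (Bern.Box.cut (Bern.Box.cut box3 2 Bern.Ax.left) 2 Bern.Ax.right) 0
      Bern.Ax.left) 2 Bern.Ax.right) 0 Bern.Ax.right) 2 Bern.Ax.right) 1 Bern.Ax.right) = true ∧
    Bern.coverU row02.cfg3 row02.R3 (.split 2 .leaf (.split 0 (.split 2 .leaf (.split 0 (.split 1
      .leaf (.split 2 .leaf (.split 0 .leaf .leaf))) .leaf)) .leaf)) (Bern.Box.cut (Bern.Box.cut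
      (Bern.Box.cut (Bern.Box.cut box3 2 Bern.Ax.left) 2 Bern.Ax.right) 0 Bern.Ax.right) 1
      Bern.Ax.left) = true ∧
    Bern.coverU row02.cfg3 row02.R3 (.split 2 .leaf (.split 0 (.split 2 .leaf (.split 0 (.split 2
      .leaf .leaf) .leaf)) .leaf)) (Bern.Box.cut (Bern.Box.cut (Bern.Box.cut (Bern.Box.cut box3 2
      Bern.Ax.left) 2 Bern.Ax.right) 0 Bern.Ax.right) 1 Bern.Ax.right) = true ∧
    Bern.coverU row02.cfg3 row02.R3 (.split 2 (.split 0 .leaf (.split 1 (.split 2 .leaf .leaf)
      .leaf)) (.split 2 .leaf (.split 2 (.split 2 .leaf .leaf) .leaf))) (Bern.Box.cut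
      (Bern.Box.cut box3 2 Bern.Ax.right) 0 Bern.Ax.left) = true ∧
    Bern.coverU row02.cfg3 row02.R3 (.split 0 (.split 1 .leaf (.split 2 (.split 0 .leaf .leaf)
      .leaf)) (.split 1 .leaf (.split 1 .leaf .leaf))) (Bern.Box.cut (Bern.Box.cut (Bern.Box.cut
      (Bern.Box.cut (Bern.Box.cut (Bern.Box.cut (Bern.Box.cut (Bern.Box.cut (Bern.Box.cut box3 2
      Bern.Ax.right) 0 Bern.Ax.right) 2 Bern.Ax.left) 1 Bern.Ax.left) 0 Bern.Ax.left) 2
      Bern.Ax.left) 0 Bern.Ax.left) 2 Bern.Ax.left) 2 Bern.Ax.left) = true ∧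
    Bern.coverU row02.cfg3 row02.R3 (.split 0 .leaf .leaf) (Bern.Box.cut (Bern.Box.cut
      (Bern.Box.cut (Bern.Box.cut (Bern.Box.cut (Bern.Box.cut (Bern.Box.cut (Bern.Box.cut
      (Bern.Box.cut box3 2 Bern.Ax.right) 0 Bern.Ax.right) 2 Bern.Ax.left) 1 Bern.Ax.left) 0
      Bern.Ax.left) 2 Bern.Ax.left) 0 Bern.Ax.left) 2 Bern.Ax.left) 2 Bern.Ax.right) = true ∧
    Bern.coverU row02.cfg3 row02.R3 .leaf (Bern.Box.cut (Bern.Box.cut (Bern.Box.cut (Bern.Box.cut
      (Bern.Box.cut (Bern.Box.cut (Bern.Box.cut (Bern.Box.cut box3 2 Bern.Ax.right) 0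
      Bern.Ax.right) 2 Bern.Ax.left) 1 Bern.Ax.left) 0 Bern.Ax.left) 2 Bern.Ax.left) 0
      Bern.Ax.left) 2 Bern.Ax.right) = true ∧
    Bern.coverU row02.cfg3 row02.R3 (.split 2 .leaf .leaf) (Bern.Box.cut (Bern.Box.cut
      (Bern.Box.cut (Bern.Box.cut (Bern.Box.cut (Bern.Box.cut (Bern.Box.cut box3 2 Bern.Ax.right)
      0 Bern.Ax.right) 2 Bern.Ax.left) 1 Bern.Ax.left) 0 Bern.Ax.left) 2 Bern.Ax.left) 0
      Bern.Ax.right) = true ∧
    Bern.coverU row02.cfg3 row02.R3 .leaf (Bern.Box.cut (Bern.Box.cut (Bern.Box.cut (Bern.Box.cut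
      (Bern.Box.cut (Bern.Box.cut box3 2 Bern.Ax.right) 0 Bern.Ax.right) 2 Bern.Ax.left) 1
      Bern.Ax.left) 0 Bern.Ax.left) 2 Bern.Ax.right) = true ∧
    Bern.coverU row02.cfg3 row02.R3 (.split 0 (.split 1 .leaf (.split 2 .leaf (.split 0 .leaf
      .leaf))) .leaf) (Bern.Box.cut (Bern.Box.cut (Bern.Box.cut (Bern.Box.cut (Bern.Box.cut box3 2
      Bern.Ax.right) 0 Bern.Ax.right) 2 Bern.Ax.left) 1 Bern.Ax.left) 0 Bern.Ax.right) = true ∧
    Bern.coverU row02.cfg3 row02.R3 (.split 0 (.split 2 (.split 2 (.split 0 .leaf .leaf) .leaf)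
      .leaf) (.split 0 (.split 2 .leaf .leaf) .leaf)) (Bern.Box.cut (Bern.Box.cut (Bern.Box.cut
      (Bern.Box.cut (Bern.Box.cut (Bern.Box.cut box3 2 Bern.Ax.right) 0 Bern.Ax.right) 2
      Bern.Ax.left) 1 Bern.Ax.right) 0 Bern.Ax.left) 2 Bern.Ax.left) = true ∧
    Bern.coverU row02.cfg3 row02.R3 .leaf (Bern.Box.cut (Bern.Box.cut (Bern.Box.cut (Bern.Box.cut
      (Bern.Box.cut (Bern.Box.cut (Bern.Box.cut box3 2 Bern.Ax.right) 0 Bern.Ax.right) 2
      Bern.Ax.left) 1 Bern.Ax.right) 0 Bern.Ax.left) 2 Bern.Ax.right) 0 Bern.Ax.left) = true ∧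
    Bern.coverU row02.cfg3 row02.R3 (.split 2 (.split 0 .leaf .leaf) .leaf) (Bern.Box.cut
      (Bern.Box.cut (Bern.Box.cut (Bern.Box.cut (Bern.Box.cut (Bern.Box.cut (Bern.Box.cut
      (Bern.Box.cut (Bern.Box.cut box3 2 Bern.Ax.right) 0 Bern.Ax.right) 2 Bern.Ax.left) 1
      Bern.Ax.right) 0 Bern.Ax.left) 2 Bern.Ax.right) 0 Bern.Ax.right) 2 Bern.Ax.left) 0
      Bern.Ax.left) = true ∧
    Bern.coverU row02.cfg3 row02.R3 (.split 0 (.split 0 (.split 2 .leaf .leaf) .leaf) .leaf)
      (Bern.Box.cut (Bern.Box.cut (Bern.Box.cut (Bern.Box.cut (Bern.Box.cut (Bern.Box.cut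
      (Bern.Box.cut (Bern.Box.cut (Bern.Box.cut (Bern.Box.cut box3 2 Bern.Ax.right) 0
      Bern.Ax.right) 2 Bern.Ax.left) 1 Bern.Ax.right) 0 Bern.Ax.left) 2 Bern.Ax.right) 0
      Bern.Ax.right) 2 Bern.Ax.left) 0 Bern.Ax.right) 2 Bern.Ax.left) = true ∧
    Bern.coverU row02.cfg3 row02.R3 (.split 0 (.split 2 (.split 0 .leaf (.split 0 .leaf .leaf))
      .leaf) (.split 2 .leaf .leaf)) (Bern.Box.cut (Bern.Box.cut (Bern.Box.cut (Bern.Box.cut
      (Bern.Box.cut (Bern.Box.cut (Bern.Box.cut (Bern.Box.cut (Bern.Box.cut (Bern.Box.cut box3 2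
      Bern.Ax.right) 0 Bern.Ax.right) 2 Bern.Ax.left) 1 Bern.Ax.right) 0 Bern.Ax.left) 2
      Bern.Ax.right) 0 Bern.Ax.right) 2 Bern.Ax.left) 0 Bern.Ax.right) 2 Bern.Ax.right) = true ∧
    Bern.coverU row02.cfg3 row02.R3 (.split 0 .leaf .leaf) (Bern.Box.cut (Bern.Box.cut
      (Bern.Box.cut (Bern.Box.cut (Bern.Box.cut (Bern.Box.cut (Bern.Box.cut (Bern.Box.cut box3 2
      Bern.Ax.right) 0 Bern.Ax.right) 2 Bern.Ax.left) 1 Bern.Ax.right) 0 Bern.Ax.left) 2
      Bern.Ax.right) 0 Bern.Ax.right) 2 Bern.Ax.right) = true ∧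
    Bern.coverU row02.cfg3 row02.R3 (.split 2 .leaf (.split 0 (.split 2 .leaf (.split 0 .leaf
      .leaf)) .leaf)) (Bern.Box.cut (Bern.Box.cut (Bern.Box.cut (Bern.Box.cut (Bern.Box.cut box3 2
      Bern.Ax.right) 0 Bern.Ax.right) 2 Bern.Ax.left) 1 Bern.Ax.right) 0 Bern.Ax.right) = true ∧
    Bern.coverU row02.cfg3 row02.R3 (.split 1 (.split 2 .leaf .leaf) .leaf) (Bern.Box.cut
      (Bern.Box.cut (Bern.Box.cut (Bern.Box.cut box3 2 Bern.Ax.right) 0 Bern.Ax.right) 2
      Bern.Ax.right) 0 Bern.Ax.left) = true ∧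
    Bern.coverU row02.cfg3 row02.R3 (.split 0 .leaf .leaf) (Bern.Box.cut (Bern.Box.cut
      (Bern.Box.cut (Bern.Box.cut (Bern.Box.cut (Bern.Box.cut (Bern.Box.cut (Bern.Box.cut
      (Bern.Box.cut box3 2 Bern.Ax.right) 0 Bern.Ax.right) 2 Bern.Ax.right) 0 Bern.Ax.right) 1
      Bern.Ax.left) 2 Bern.Ax.left) 0 Bern.Ax.left) 1 Bern.Ax.left) 2 Bern.Ax.left) = true ∧
    Bern.coverU row02.cfg3 row02.R3 (.split 1 .leaf (.split 0 .leaf (.split 2 (.split 0 .leaf
      .leaf) (.split 1 .leaf (.split 0 .leaf .leaf))))) (Bern.Box.cut (Bern.Box.cut (Bern.Box.cut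
      (Bern.Box.cut (Bern.Box.cut (Bern.Box.cut (Bern.Box.cut (Bern.Box.cut (Bern.Box.cut box3 2
      Bern.Ax.right) 0 Bern.Ax.right) 2 Bern.Ax.right) 0 Bern.Ax.right) 1 Bern.Ax.left) 2
      Bern.Ax.left) 0 Bern.Ax.left) 1 Bern.Ax.left) 2 Bern.Ax.right) = true ∧
    Bern.coverU row02.cfg3 row02.R3 (.split 2 (.split 1 (.split 0 .leaf .leaf) .leaf) (.split 1
      (.split 0 .leaf (.split 2 (.split 1 .leaf .leaf) .leaf)) .leaf)) (Bern.Box.cut (Bern.Box.cut
      (Bern.Box.cut (Bern.Box.cut (Bern.Box.cut (Bern.Box.cut (Bern.Box.cut (Bern.Box.cut box3 2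
      Bern.Ax.right) 0 Bern.Ax.right) 2 Bern.Ax.right) 0 Bern.Ax.right) 1 Bern.Ax.left) 2
      Bern.Ax.left) 0 Bern.Ax.left) 1 Bern.Ax.right) = true ∧
    Bern.coverU row02.cfg3 row02.R3 .leaf (Bern.Box.cut (Bern.Box.cut (Bern.Box.cut (Bern.Box.cut
      (Bern.Box.cut (Bern.Box.cut (Bern.Box.cut (Bern.Box.cut (Bern.Box.cut box3 2 Bern.Ax.right)
      0 Bern.Ax.right) 2 Bern.Ax.right) 0 Bern.Ax.right) 1 Bern.Ax.left) 2 Bern.Ax.left) 0
      Bern.Ax.right) 1 Bern.Ax.left) 2 Bern.Ax.left) = true ∧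
    Bern.coverU row02.cfg3 row02.R3 .leaf (Bern.Box.cut (Bern.Box.cut (Bern.Box.cut (Bern.Box.cut
      (Bern.Box.cut (Bern.Box.cut (Bern.Box.cut (Bern.Box.cut (Bern.Box.cut (Bern.Box.cut
      (Bern.Box.cut box3 2 Bern.Ax.right) 0 Bern.Ax.right) 2 Bern.Ax.right) 0 Bern.Ax.right) 1
      Bern.Ax.left) 2 Bern.Ax.left) 0 Bern.Ax.right) 1 Bern.Ax.left) 2 Bern.Ax.right) 0
      Bern.Ax.left) 2 Bern.Ax.left) = true ∧
    Bern.coverU row02.cfg3 row02.R3 (.split 1 .leaf (.split 0 (.split 0 (.split 2 (.split 1 .leaf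
      (.split 0 .leaf .leaf)) (.split 0 .leaf .leaf)) .leaf) .leaf)) (Bern.Box.cut (Bern.Box.cut
      (Bern.Box.cut (Bern.Box.cut (Bern.Box.cut (Bern.Box.cut (Bern.Box.cut (Bern.Box.cut
      (Bern.Box.cut (Bern.Box.cut (Bern.Box.cut box3 2 Bern.Ax.right) 0 Bern.Ax.right) 2
      Bern.Ax.right) 0 Bern.Ax.right) 1 Bern.Ax.left) 2 Bern.Ax.left) 0 Bern.Ax.right) 1
      Bern.Ax.left) 2 Bern.Ax.right) 0 Bern.Ax.left) 2 Bern.Ax.right) = true ∧
    Bern.coverU row02.cfg3 row02.R3 .leaf (Bern.Box.cut (Bern.Box.cut (Bern.Box.cut (Bern.Box.cut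
      (Bern.Box.cut (Bern.Box.cut (Bern.Box.cut (Bern.Box.cut (Bern.Box.cut (Bern.Box.cut box3 2
      Bern.Ax.right) 0 Bern.Ax.right) 2 Bern.Ax.right) 0 Bern.Ax.right) 1 Bern.Ax.left) 2
      Bern.Ax.left) 0 Bern.Ax.right) 1 Bern.Ax.left) 2 Bern.Ax.right) 0 Bern.Ax.right) = true ∧
    Bern.coverU row02.cfg3 row02.R3 .leaf (Bern.Box.cut (Bern.Box.cut (Bern.Box.cut (Bern.Box.cut
      (Bern.Box.cut (Bern.Box.cut (Bern.Box.cut (Bern.Box.cut (Bern.Box.cut (Bern.Box.cut
      (Bern.Box.cut box3 2 Bern.Ax.right) 0 Bern.Ax.right) 2 Bern.Ax.right) 0 Bern.Ax.right) 1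
      Bern.Ax.left) 2 Bern.Ax.left) 0 Bern.Ax.right) 1 Bern.Ax.right) 0 Bern.Ax.left) 1
      Bern.Ax.left) 2 Bern.Ax.left) = true ∧
    Bern.coverU row02.cfg3 row02.R3 (.split 0 (.split 1 (.split 0 .leaf .leaf) .leaf) .leaf)
      (Bern.Box.cut (Bern.Box.cut (Bern.Box.cut (Bern.Box.cut (Bern.Box.cut (Bern.Box.cut
      (Bern.Box.cut (Bern.Box.cut (Bern.Box.cut (Bern.Box.cut (Bern.Box.cut (Bern.Box.cut
      (Bern.Box.cut (Bern.Box.cut box3 2 Bern.Ax.right) 0 Bern.Ax.right) 2 Bern.Ax.right) 0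
      Bern.Ax.right) 1 Bern.Ax.left) 2 Bern.Ax.left) 0 Bern.Ax.right) 1 Bern.Ax.right) 0
      Bern.Ax.left) 1 Bern.Ax.left) 2 Bern.Ax.right) 0 Bern.Ax.left) 1 Bern.Ax.left) 2
      Bern.Ax.left) = true ∧
    Bern.coverU row02.cfg3 row02.R3 (.split 2 (.split 1 .leaf .leaf) .leaf) (Bern.Box.cut
      (Bern.Box.cut (Bern.Box.cut (Bern.Box.cut (Bern.Box.cut (Bern.Box.cut (Bern.Box.cut
      (Bern.Box.cut (Bern.Box.cut (Bern.Box.cut (Bern.Box.cut (Bern.Box.cut (Bern.Box.cut
      (Bern.Box.cut (Bern.Box.cut (Bern.Box.cut (Bern.Box.cut (Bern.Box.cut box3 2 Bern.Ax.right)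
      0 Bern.Ax.right) 2 Bern.Ax.right) 0 Bern.Ax.right) 1 Bern.Ax.left) 2 Bern.Ax.left) 0
      Bern.Ax.right) 1 Bern.Ax.right) 0 Bern.Ax.left) 1 Bern.Ax.left) 2 Bern.Ax.right) 0
      Bern.Ax.left) 1 Bern.Ax.left) 2 Bern.Ax.right) 0 Bern.Ax.left) 2 Bern.Ax.left) 1
      Bern.Ax.left) 0 Bern.Ax.left) = true ∧
    Bern.coverU row02.cfg3 row02.R3 (.split 2 (.split 1 (.split 0 (.split 1 .leaf .leaf) .leaf)
      (.split 0 .leaf .leaf)) (.split 1 (.split 0 .leaf .leaf) .leaf)) (Bern.Box.cut (Bern.Box.cut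
      (Bern.Box.cut (Bern.Box.cut (Bern.Box.cut (Bern.Box.cut (Bern.Box.cut (Bern.Box.cut
      (Bern.Box.cut (Bern.Box.cut (Bern.Box.cut (Bern.Box.cut (Bern.Box.cut (Bern.Box.cut
      (Bern.Box.cut (Bern.Box.cut (Bern.Box.cut (Bern.Box.cut box3 2 Bern.Ax.right) 0
      Bern.Ax.right) 2 Bern.Ax.right) 0 Bern.Ax.right) 1 Bern.Ax.left) 2 Bern.Ax.left) 0
      Bern.Ax.right) 1 Bern.Ax.right) 0 Bern.Ax.left) 1 Bern.Ax.left) 2 Bern.Ax.right) 0
      Bern.Ax.left) 1 Bern.Ax.left) 2 Bern.Ax.right) 0 Bern.Ax.left) 2 Bern.Ax.left) 1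
      Bern.Ax.left) 0 Bern.Ax.right) = true ∧
    Bern.coverU row02.cfg3 row02.R3 .leaf (Bern.Box.cut (Bern.Box.cut (Bern.Box.cut (Bern.Box.cut
      (Bern.Box.cut (Bern.Box.cut (Bern.Box.cut (Bern.Box.cut (Bern.Box.cut (Bern.Box.cut
      (Bern.Box.cut (Bern.Box.cut (Bern.Box.cut (Bern.Box.cut (Bern.Box.cut (Bern.Box.cut
      (Bern.Box.cut box3 2 Bern.Ax.right) 0 Bern.Ax.right) 2 Bern.Ax.right) 0 Bern.Ax.right) 1
      Bern.Ax.left) 2 Bern.Ax.left) 0 Bern.Ax.right) 1 Bern.Ax.right) 0 Bern.Ax.left) 1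
      Bern.Ax.left) 2 Bern.Ax.right) 0 Bern.Ax.left) 1 Bern.Ax.left) 2 Bern.Ax.right) 0
      Bern.Ax.left) 2 Bern.Ax.left) 1 Bern.Ax.right) = true ∧
    Bern.coverU row02.cfg3 row02.R3 .leaf (Bern.Box.cut (Bern.Box.cut (Bern.Box.cut (Bern.Box.cut
      (Bern.Box.cut (Bern.Box.cut (Bern.Box.cut (Bern.Box.cut (Bern.Box.cut (Bern.Box.cut
      (Bern.Box.cut (Bern.Box.cut (Bern.Box.cut (Bern.Box.cut (Bern.Box.cut (Bern.Box.cut box3 2
      Bern.Ax.right) 0 Bern.Ax.right) 2 Bern.Ax.right) 0 Bern.Ax.right) 1 Bern.Ax.left) 2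
      Bern.Ax.left) 0 Bern.Ax.right) 1 Bern.Ax.right) 0 Bern.Ax.left) 1 Bern.Ax.left) 2
      Bern.Ax.right) 0 Bern.Ax.left) 1 Bern.Ax.left) 2 Bern.Ax.right) 0 Bern.Ax.left) 2
      Bern.Ax.right) = true ∧
    Bern.coverU row02.cfg3 row02.R3 (.split 2 (.split 1 (.split 1 .leaf .leaf) .leaf) .leaf)
      (Bern.Box.cut (Bern.Box.cut (Bern.Box.cut (Bern.Box.cut (Bern.Box.cut (Bern.Box.cut
      (Bern.Box.cut (Bern.Box.cut (Bern.Box.cut (Bern.Box.cut (Bern.Box.cut (Bern.Box.cut
      (Bern.Box.cut (Bern.Box.cut (Bern.Box.cut box3 2 Bern.Ax.right) 0 Bern.Ax.right) 2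
      Bern.Ax.right) 0 Bern.Ax.right) 1 Bern.Ax.left) 2 Bern.Ax.left) 0 Bern.Ax.right) 1
      Bern.Ax.right) 0 Bern.Ax.left) 1 Bern.Ax.left) 2 Bern.Ax.right) 0 Bern.Ax.left) 1
      Bern.Ax.left) 2 Bern.Ax.right) 0 Bern.Ax.right) = true ∧
    Bern.coverU row02.cfg3 row02.R3 .leaf (Bern.Box.cut (Bern.Box.cut (Bern.Box.cut (Bern.Box.cut
      (Bern.Box.cut (Bern.Box.cut (Bern.Box.cut (Bern.Box.cut (Bern.Box.cut (Bern.Box.cut
      (Bern.Box.cut (Bern.Box.cut (Bern.Box.cut box3 2 Bern.Ax.right) 0 Bern.Ax.right) 2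
      Bern.Ax.right) 0 Bern.Ax.right) 1 Bern.Ax.left) 2 Bern.Ax.left) 0 Bern.Ax.right) 1
      Bern.Ax.right) 0 Bern.Ax.left) 1 Bern.Ax.left) 2 Bern.Ax.right) 0 Bern.Ax.left) 1
      Bern.Ax.right) = true ∧
    Bern.coverU row02.cfg3 row02.R3 (.split 1 .leaf .leaf) (Bern.Box.cut (Bern.Box.cut
      (Bern.Box.cut (Bern.Box.cut (Bern.Box.cut (Bern.Box.cut (Bern.Box.cut (Bern.Box.cut
      (Bern.Box.cut (Bern.Box.cut (Bern.Box.cut (Bern.Box.cut box3 2 Bern.Ax.right) 0
      Bern.Ax.right) 2 Bern.Ax.right) 0 Bern.Ax.right) 1 Bern.Ax.left) 2 Bern.Ax.left) 0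
      Bern.Ax.right) 1 Bern.Ax.right) 0 Bern.Ax.left) 1 Bern.Ax.left) 2 Bern.Ax.right) 0
      Bern.Ax.right) = true ∧
    Bern.coverU row02.cfg3 row02.R3 .leaf (Bern.Box.cut (Bern.Box.cut (Bern.Box.cut (Bern.Box.cut
      (Bern.Box.cut (Bern.Box.cut (Bern.Box.cut (Bern.Box.cut (Bern.Box.cut (Bern.Box.cut box3 2
      Bern.Ax.right) 0 Bern.Ax.right) 2 Bern.Ax.right) 0 Bern.Ax.right) 1 Bern.Ax.left) 2
      Bern.Ax.left) 0 Bern.Ax.right) 1 Bern.Ax.right) 0 Bern.Ax.left) 1 Bern.Ax.right) = true ∧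
    Bern.coverU row02.cfg3 row02.R3 .leaf (Bern.Box.cut (Bern.Box.cut (Bern.Box.cut (Bern.Box.cut
      (Bern.Box.cut (Bern.Box.cut (Bern.Box.cut (Bern.Box.cut (Bern.Box.cut box3 2 Bern.Ax.right)
      0 Bern.Ax.right) 2 Bern.Ax.right) 0 Bern.Ax.right) 1 Bern.Ax.left) 2 Bern.Ax.left) 0
      Bern.Ax.right) 1 Bern.Ax.right) 0 Bern.Ax.right) = true ∧
    Bern.coverU row02.cfg3 row02.R3 (.split 1 (.split 0 .leaf .leaf) .leaf) (Bern.Box.cut
      (Bern.Box.cut (Bern.Box.cut (Bern.Box.cut (Bern.Box.cut (Bern.Box.cut (Bern.Box.cut box3 2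
      Bern.Ax.right) 0 Bern.Ax.right) 2 Bern.Ax.right) 0 Bern.Ax.right) 1 Bern.Ax.left) 2
      Bern.Ax.right) 0 Bern.Ax.left) = true ∧
    Bern.coverU row02.cfg3 row02.R3 .leaf (Bern.Box.cut (Bern.Box.cut (Bern.Box.cut (Bern.Box.cut
      (Bern.Box.cut (Bern.Box.cut (Bern.Box.cut (Bern.Box.cut (Bern.Box.cut box3 2 Bern.Ax.right)
      0 Bern.Ax.right) 2 Bern.Ax.right) 0 Bern.Ax.right) 1 Bern.Ax.left) 2 Bern.Ax.right) 0
      Bern.Ax.right) 1 Bern.Ax.left) 1 Bern.Ax.left) = true ∧
    Bern.coverU row02.cfg3 row02.R3 .leaf (Bern.Box.cut (Bern.Box.cut (Bern.Box.cut (Bern.Box.cut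
      (Bern.Box.cut (Bern.Box.cut (Bern.Box.cut (Bern.Box.cut (Bern.Box.cut (Bern.Box.cut box3 2
      Bern.Ax.right) 0 Bern.Ax.right) 2 Bern.Ax.right) 0 Bern.Ax.right) 1 Bern.Ax.left) 2
      Bern.Ax.right) 0 Bern.Ax.right) 1 Bern.Ax.left) 1 Bern.Ax.right) 0 Bern.Ax.left) = true ∧
    Bern.coverU row02.cfg3 row02.R3 (.split 2 .leaf (.split 2 .leaf (.split 2 .leaf (.split 2
      .leaf (.split 1 .leaf (.split 2 (.split 1 .leaf .leaf) .leaf)))))) (Bern.Box.cut
      (Bern.Box.cut (Bern.Box.cut (Bern.Box.cut (Bern.Box.cut (Bern.Box.cut (Bern.Box.cut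
      (Bern.Box.cut (Bern.Box.cut (Bern.Box.cut box3 2 Bern.Ax.right) 0 Bern.Ax.right) 2
      Bern.Ax.right) 0 Bern.Ax.right) 1 Bern.Ax.left) 2 Bern.Ax.right) 0 Bern.Ax.right) 1
      Bern.Ax.left) 1 Bern.Ax.right) 0 Bern.Ax.right) = true ∧
    Bern.coverU row02.cfg3 row02.R3 (.split 0 (.split 0 .leaf .leaf) (.split 2 .leaf (.split 2
      .leaf (.split 0 .leaf .leaf)))) (Bern.Box.cut (Bern.Box.cut (Bern.Box.cut (Bern.Box.cut
      (Bern.Box.cut (Bern.Box.cut (Bern.Box.cut (Bern.Box.cut box3 2 Bern.Ax.right) 0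
      Bern.Ax.right) 2 Bern.Ax.right) 0 Bern.Ax.right) 1 Bern.Ax.left) 2 Bern.Ax.right) 0
      Bern.Ax.right) 1 Bern.Ax.right) = true ∧
    Bern.coverU row02.cfg3 row02.R3 (.split 2 .leaf .leaf) (Bern.Box.cut (Bern.Box.cut
      (Bern.Box.cut (Bern.Box.cut (Bern.Box.cut (Bern.Box.cut box3 2 Bern.Ax.right) 0
      Bern.Ax.right) 2 Bern.Ax.right) 0 Bern.Ax.right) 1 Bern.Ax.right) 0 Bern.Ax.left) = true ∧
    Bern.coverU row02.cfg3 row02.R3 .leaf (Bern.Box.cut (Bern.Box.cut (Bern.Box.cut (Bern.Box.cut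
      (Bern.Box.cut (Bern.Box.cut (Bern.Box.cut box3 2 Bern.Ax.right) 0 Bern.Ax.right) 2
      Bern.Ax.right) 0 Bern.Ax.right) 1 Bern.Ax.right) 0 Bern.Ax.right) 2 Bern.Ax.left) = true ∧
    Bern.coverU row02.cfg3 row02.R3 .leaf (Bern.Box.cut (Bern.Box.cut (Bern.Box.cut (Bern.Box.cut
      (Bern.Box.cut (Bern.Box.cut (Bern.Box.cut (Bern.Box.cut box3 2 Bern.Ax.right) 0
      Bern.Ax.right) 2 Bern.Ax.right) 0 Bern.Ax.right) 1 Bern.Ax.right) 0 Bern.Ax.right) 2
      Bern.Ax.right) 0 Bern.Ax.left) = true ∧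
    Bern.coverU row02.cfg3 row02.R3 .leaf (Bern.Box.cut (Bern.Box.cut (Bern.Box.cut (Bern.Box.cut
      (Bern.Box.cut (Bern.Box.cut (Bern.Box.cut (Bern.Box.cut (Bern.Box.cut box3 2 Bern.Ax.right)
      0 Bern.Ax.right) 2 Bern.Ax.right) 0 Bern.Ax.right) 1 Bern.Ax.right) 0 Bern.Ax.right) 2
      Bern.Ax.right) 0 Bern.Ax.right) 0 Bern.Ax.left) = true ∧
    Bern.coverU row02.cfg3 row02.R3 .leaf (Bern.Box.cut (Bern.Box.cut (Bern.Box.cut (Bern.Box.cut
      (Bern.Box.cut (Bern.Box.cut (Bern.Box.cut (Bern.Box.cut (Bern.Box.cut (Bern.Box.cut box3 2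
      Bern.Ax.right) 0 Bern.Ax.right) 2 Bern.Ax.right) 0 Bern.Ax.right) 1 Bern.Ax.right) 0
      Bern.Ax.right) 2 Bern.Ax.right) 0 Bern.Ax.right) 0 Bern.Ax.right) 0 Bern.Ax.left) = true ∧
    Bern.coverU row02.cfg3 row02.R3 .leaf (Bern.Box.cut (Bern.Box.cut (Bern.Box.cut (Bern.Box.cut
      (Bern.Box.cut (Bern.Box.cut (Bern.Box.cut (Bern.Box.cut (Bern.Box.cut (Bern.Box.cut
      (Bern.Box.cut box3 2 Bern.Ax.right) 0 Bern.Ax.right) 2 Bern.Ax.right) 0 Bern.Ax.right) 1
      Bern.Ax.right) 0 Bern.Ax.right) 2 Bern.Ax.right) 0 Bern.Ax.right) 0 Bern.Ax.right) 0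
      Bern.Ax.right) 2 Bern.Ax.left) = true ∧
    Bern.coverU row02.cfg3 row02.R3 .leaf (Bern.Box.cut (Bern.Box.cut (Bern.Box.cut (Bern.Box.cut
      (Bern.Box.cut (Bern.Box.cut (Bern.Box.cut (Bern.Box.cut (Bern.Box.cut (Bern.Box.cut
      (Bern.Box.cut (Bern.Box.cut box3 2 Bern.Ax.right) 0 Bern.Ax.right) 2 Bern.Ax.right) 0
      Bern.Ax.right) 1 Bern.Ax.right) 0 Bern.Ax.right) 2 Bern.Ax.right) 0 Bern.Ax.right) 0
      Bern.Ax.right) 0 Bern.Ax.right) 2 Bern.Ax.right) 2 Bern.Ax.left) = true ∧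
    Bern.coverU row02.cfg3 row02.R3 (.split 1 (.split 0 .leaf (.split 1 .leaf (.split 0 (.split 0
      .leaf (.split 0 .leaf .leaf)) .leaf))) (.split 0 .leaf .leaf)) (Bern.Box.cut (Bern.Box.cut
      (Bern.Box.cut (Bern.Box.cut (Bern.Box.cut (Bern.Box.cut (Bern.Box.cut (Bern.Box.cut
      (Bern.Box.cut (Bern.Box.cut (Bern.Box.cut (Bern.Box.cut (Bern.Box.cut box3 2 Bern.Ax.right)
      0 Bern.Ax.right) 2 Bern.Ax.right) 0 Bern.Ax.right) 1 Bern.Ax.right) 0 Bern.Ax.right) 2
      Bern.Ax.right) 0 Bern.Ax.right) 0 Bern.Ax.right) 0 Bern.Ax.right) 2 Bern.Ax.right) 2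
      Bern.Ax.right) 1 Bern.Ax.left) = true ∧
    Bern.coverU row02.cfg3 row02.R3 (.split 2 .leaf .leaf) (Bern.Box.cut (Bern.Box.cut
      (Bern.Box.cut (Bern.Box.cut (Bern.Box.cut (Bern.Box.cut (Bern.Box.cut (Bern.Box.cut
      (Bern.Box.cut (Bern.Box.cut (Bern.Box.cut (Bern.Box.cut (Bern.Box.cut box3 2 Bern.Ax.right)
      0 Bern.Ax.right) 2 Bern.Ax.right) 0 Bern.Ax.right) 1 Bern.Ax.right) 0 Bern.Ax.right) 2
      Bern.Ax.right) 0 Bern.Ax.right) 0 Bern.Ax.right) 0 Bern.Ax.right) 2 Bern.Ax.right) 2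
      Bern.Ax.right) 1 Bern.Ax.right) = true := by
  exact ⟨by decide +kernel, by decide +kernel, by decide +kernel,
    by decide +kernel, by decide +kernel, by decide +kernel, by decide +kernel,
    by decide +kernel, by decide +kernel, by decide +kernel, by decide +kernel,
    by decide +kernel, by decide +kernel, by decide +kernel, by decide +kernel,
    by decide +kernel, by decide +kernel, by decide +kernel, by decide +kernel,
    by decide +kernel, by decide +kernel, by decide +kernel, by decide +kernel,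
    by decide +kernel, by decide +kernel, by decide +kernel, by decide +kernel,
    by decide +kernel, by decide +kernel, by decide +kernel, by decide +kernel,
    by decide +kernel, by decide +kernel, by decide +kernel, by decide +kernel,
    by decide +kernel, by decide +kernel, by decide +kernel, by decide +kernel,
    by decide +kernel, by decide +kernel, by decide +kernel, by decide +kernel,
    by decide +kernel, by decide +kernel, by decide +kernel, by decide +kernel,
    by decide +kernel, by decide +kernel, by decide +kernel, by decide +kernel,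
    by decide +kernel, by decide +kernel, by decide +kernel, by decide +kernel,
    by decide +kernel, by decide +kernel, by decide +kernel, by decide +kernel,
    by decide +kernel, by decide +kernel, by decide +kernel, by decide +kernel,
    by decide +kernel, by decide +kernel, by decide +kernel, by decide +kernel,
    by decide +kernel, by decide +kernel, by decide +kernel, by decide +kernel,
    by decide +kernel, by decide +kernel, by decide +kernel, by decide +kernel,
    by decide +kernel, by decide +kernel, by decide +kernel, by decide +kernel,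
    by decide +kernel, by decide +kernel, by decide +kernel⟩

/-- The row passes the check. -/
theorem row02_ok : rowFor 0 2 row02 = true := by
  obtain ⟨hrest, h1, h2, h3, h4, h5, h6, h7, h8, h9, h10, h11, h12, h13, h14, h15, h16, h17, h18,
    h19, h20, h21, h22, h23, h24, h25, h26, h27, h28, h29, h30, h31, h32, h33, h34, h35, h36, h37,
    h38, h39, h40, h41, h42, h43, h44, h45, h46, h47, h48, h49, h50, h51, h52, h53, h54, h55, h56,
    h57, h58, h59, h60, h61, h62, h63, h64, h65, h66, h67, h68, h69, h70, h71, h72, h73, h74, h75,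
    h76, h77, h78, h79, h80, h81⟩ := row02_parts
  simp only [rowFor, Bool.and_eq_true, decide_eq_true_eq]
  exact ⟨⟨⟨rfl, rfl⟩, rfl⟩, rowCheck_of_quick hrest
    ((Bern.coverU_split (Bern.coverU_split h1 h2) (Bern.coverU_split (Bern.coverU_split
      (Bern.coverU_split (Bern.coverU_split (Bern.coverU_split h3 (Bern.coverU_split h4 h5))
      (Bern.coverU_split h6 h7)) h8) (Bern.coverU_split (Bern.coverU_split h9 (Bern.coverU_split
      h10 h11)) (Bern.coverU_split h12 (Bern.coverU_split h13 (Bern.coverU_split h14 h15)))))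
      (Bern.coverU_split (Bern.coverU_split (Bern.coverU_split h16 h17) h18) (Bern.coverU_split
      h19 (Bern.coverU_split (Bern.coverU_split (Bern.coverU_split (Bern.coverU_split
      (Bern.coverU_split h20 (Bern.coverU_split h21 h22)) h23) h24) h25) h26))))))
    ((Bern.coverU_split (Bern.coverU_split h27 (Bern.coverU_split (Bern.coverU_split h28
      (Bern.coverU_split h29 (Bern.coverU_split h30 (Bern.coverU_split h31 h32))))
      (Bern.coverU_split h33 h34))) (Bern.coverU_split h35 (Bern.coverU_split (Bern.coverU_split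
      (Bern.coverU_split (Bern.coverU_split (Bern.coverU_split (Bern.coverU_split
      (Bern.coverU_split h36 h37) h38) h39) h40) h41) (Bern.coverU_split (Bern.coverU_split h42
      (Bern.coverU_split h43 (Bern.coverU_split (Bern.coverU_split h44 (Bern.coverU_split h45
      h46)) h47))) h48)) (Bern.coverU_split h49 (Bern.coverU_split (Bern.coverU_split
      (Bern.coverU_split (Bern.coverU_split (Bern.coverU_split h50 h51) h52) (Bern.coverU_split
      (Bern.coverU_split h53 (Bern.coverU_split (Bern.coverU_split h54 h55) h56))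
      (Bern.coverU_split (Bern.coverU_split (Bern.coverU_split h57 (Bern.coverU_split
      (Bern.coverU_split (Bern.coverU_split h58 (Bern.coverU_split (Bern.coverU_split
      (Bern.coverU_split (Bern.coverU_split h59 h60) h61) h62) h63)) h64) h65)) h66) h67)))
      (Bern.coverU_split h68 (Bern.coverU_split (Bern.coverU_split h69 (Bern.coverU_split h70
      h71)) h72))) (Bern.coverU_split h73 (Bern.coverU_split h74 (Bern.coverU_split h75
      (Bern.coverU_split h76 (Bern.coverU_split h77 (Bern.coverU_split h78 (Bern.coverU_split h79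
      (Bern.coverU_split h80 h81))))))))))))))⟩

end Vale.Agent.P154.Anti
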