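import Vale.Agent.P154.Anti.RowData
import Vale.Agent.P154.RowQuick

/-!
P154: the certificate of the row of piece 0 and index 3.
-/

namespace Vale.Agent.P154.Anti

open Kron BudgetRow

/-- The polynomial which dominates the merged coefficient. -/
noncomputable def sym03 : List Term :=
  [
    (451226624062500, 0, 0, 0, 0), (-38660648108155639560, 0, 0, 1, 0),
    (151079047083654406389, 0, 0, 2, 0), (-5291592477285553740, 0, 1, 0, 0),
    (-91650490658009466390, 0, 1, 1, 0), (-2570502652163393310, 0, 1, 2, 0),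
    (-7607325289291270560, 0, 2, 0, 0), (-26980480497526255152, 0, 2, 1, 0),
    (19261801375518200256, 0, 3, 0, 0), (1171383507541491660, 0, 4, 0, 0),
    (341995206740698584, 1, 0, 0, 0), (156740009587068499290, 1, 0, 1, 0),
    (-258879132036008971470, 1, 0, 2, 0), (16025854722362729640, 1, 1, 0, 0),
    (137647822723886520936, 1, 1, 1, 0), (3328452671777715240, 1, 1, 2, 0),
    (30963735986835775050, 1, 2, 0, 0), (39359766010076224956, 1, 2, 1, 0),
    (-35343510101899748496, 1, 3, 0, 0), (-1264959755691578640, 1, 4, 0, 0),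
    (300783289559580, 2, 0, 0, 0), (-240828304282447732380, 2, 0, 1, 0),
    (185094475423721186940, 2, 0, 2, 0), (-28642881891994026750, 2, 1, 0, 0),
    (-62296934301592282422, 2, 1, 1, 0), (-1625771370088061460, 2, 1, 2, 0),
    (-50891808782642444001, 2, 2, 0, 0), (-23316982333128686448, 2, 2, 1, 0),
    (26107405694383374738, 2, 3, 0, 0), (517024630778407560, 2, 4, 0, 0),
    (-66830018606100, 3, 0, 0, 0), (206070078799964502486, 3, 0, 1, 0),
    (-70557715714485099600, 3, 0, 2, 0), (29009774607126457320, 3, 1, 0, 0),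
    (-5214594373325955234, 3, 1, 1, 0), (354446088321649896, 3, 1, 2, 0),
    (45327985810138417572, 3, 2, 0, 0), (6979285993982581224, 3, 2, 1, 0),
    (-10012880722552042104, 3, 3, 0, 0), (-94368985138778256, 3, 4, 0, 0),
    (5564804791320, 4, 0, 0, 0), (-114943949161011560178, 4, 0, 1, 0),
    (15120717843658806945, 4, 0, 2, 0), (-17023325403024983790, 4, 1, 0, 0),
    (14090434555565868822, 4, 1, 1, 0), (-29071053229218750, 4, 1, 2, 0),
    (-23903081258150463606, 4, 2, 0, 0), (-1052186097580683264, 4, 2, 1, 0),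
    (2108290906604797452, 4, 3, 0, 0), (6464624554687500, 4, 4, 0, 0), (3291478740, 5, 0, 0, 0),
    (44668575825372043524, 5, 0, 1, 0), (-1729079904985497882, 5, 0, 2, 0),
    (5512875943197197754, 5, 1, 0, 0), (-5080123059629746356, 5, 1, 1, 0),
    (7664381361053233758, 5, 2, 0, 0), (63769086143437500, 5, 2, 1, 0),
    (-231088806870473448, 5, 3, 0, 0), (-2235592224, 6, 0, 0, 0),
    (-12133417881437723232, 6, 0, 1, 0), (82629335946093750, 6, 0, 2, 0),
    (-677267880764301432, 6, 1, 0, 0), (791353743174112230, 6, 1, 1, 0),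
    (-1466788886748562329, 6, 2, 0, 0), (10287016094531250, 6, 3, 0, 0), (848615292, 7, 0, 0, 0),
    (2188983387585826566, 7, 0, 1, 0), (-142079627972508804, 7, 1, 0, 0),
    (-47298658923281250, 7, 1, 1, 0), (153976306213422684, 7, 2, 0, 0), (-169485696, 8, 0, 0, 0),
    (-233407322203308714, 8, 0, 1, 0), (65528984413897542, 8, 1, 0, 0),
    (-6818741398125000, 8, 2, 0, 0), (33854868, 9, 0, 0, 0), (11032680789843750, 9, 0, 1, 0),
    (-9328693528623654, 9, 1, 0, 0), (-13641444, 10, 0, 0, 0), (484622468906250, 10, 1, 0, 0),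
    (3439992, 11, 0, 0, 0), (-312500, 12, 0, 0, 0)
  ]

/-- The nonnegative remainder in the invariants. -/
noncomputable def rem03 : Bern.Poly where
  pks := [(0, 1), (0, 2), (0, 3), (0, 4), (1, 0), (1, 1), (1, 2), (1, 3), (2, 0), (2, 1), (2, 2), (3, 0), (3, 1), (3, 2), (4, 0), (4, 1), (5, 0), (6, 0)]
  rows :=
  [((0, 0),
    [
      -6229390786560000, 57007304700592128, 0, 0, 359609139200000, 51075291139014656,
      -37069464789581824, 0, 25839082977886208, -74162327760404480, 0, -105365894014697472, 0, 0,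
      143489484262998016, 0, 0, 0]),
   ((0, 1),
    [
      687728901488640000, -109152679462174720, -47689054945280000, 0, 112651665408000000,
      -1262214684936765440, 154814064503029760, -2131325091840000, -161864106555473920,
      1057410766156595200, -119685029560320000, -67062386361630720, -219960020008960000, 0,
      198628167094108160, -43193133957120000, -115181690552320000, 0]),
   ((0, 2),
    [
      365804147179520000, 1290228945762699264, -1361904084375000000, -500267385937500000,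
      3663676005416960000, 2967626143255113728, -4916420979391856512, -101146572656250000,
      -10549332591964061696, -8644101625119874240, 2808116966437715000, 14459074869918014464,
      5901678022911890000, 469374779492187500, -10521521800526280592, -197625735740895000,
      4004481911847382500, -736938995605468750]),
   ((0, 3),
    [
      -3052099516497920000, 10895232675000000000, 4198066512500000000, -2872149234375000000,
      90936537251840000, 39512603160830400000, -35123506170710880000, -4221552256250000000,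
      4835516046376960000, -94053753579383760000, 25522369845710880000, -26845497751459680000,
      61857848932166740000, -3979401240625000000, 40833285761878720000, -13303989403767880000,
      -23335007718216910000, 3035863976757812500]),
   ((0, 4),
    [
      0, -32017112700000000000, 22977193875000000000, -1037502231250000000, 0, 4253652050000000000,
      41171993812500000000, -17955479125000000000, 0, 14613459750000000000, -35402352587500000000,
      16008556350000000000, -40588356706250000000, -398572385937500000, -24841817106250000000,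
      10959823043750000000, 15874493825000000000, 338215836718750000]),
   ((1, 0),
    [
      -161401012224000000, 212630063382265856, -710441697280000, 0, 106341177753600000,
      98404842293952512, -132907265560936448, 0, -321963231146409984, 147575118406615040,
      -1420883394560000, 247590577327046656, -145223292354560000, 0, -61588443017248768, 0,
      -28795422638080000, 0]),
   ((1, 1),
    [
      -4824703120179200000, -1625145661550958592, 2469537697551900000, -33231656640625000,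
      -1371071315968000000, 17329894655773577216, 4548445190388155936, -2382024320955380000,
      2748623471051276288, -21342581622290689280, -2144196449243325000, -3535413882731144192,
      13506224767730470000, -1069448630468750000, 2442096880509294176, -3573992565040900000,
      114887232843500000, -299288173828125000]),
   ((1, 2),
    [
      -3758923291033600000, -19259742069508275712, 17561753085355440000, 2573249613281250000,
      -7777214340792320000, -35363140343672353024, 77189621711005464896, -7317964421093750000,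
      50649628929614675968, 103708692816144969920, -58423317408030730000, -114963535696969037312,
      -66345345810377060000, -3487235891210937500, 118424819926798809536, -2738589903086980000,
      -42370863424203235000, 7661405714746093750]),
   ((1, 3),
    [
      -545619223511040000, 3236690325000000000, -16886209025000000000, 8977739562500000000, 0,
      -152449556541144320000, 58543715368750000000, 12861596031250000000, 818428835266560000,
      367747351471416320000, -67884588545772920000, 57137846097056480000, -177717498590071520000,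
      -9757413535156250000, -139478809213235880000, 20281386991314410000, 93875667979136460000,
      939853366015625000]),
   ((2, 0),
    [
      251521390346240000, -2629554644589215744, -151109876449280000, 0, -1224855099801600000,
      -1407663307155570688, 3146579954875236352, -6393975275520000, 3075768118075132416,
      375560324470231040, -1594927862677685000, -3904794991314514944, 1157259526585580000,
      -49847484960937500, 3157409667324396032, -1309428265343250000, -1232738624211310000,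
      -74822043457031250]),
   ((2, 1),
    [
      15851411923271680000, 16371413310368332160, -23513438394845940000, -456670617187500000,
      -7209796532961280000, -86774804259592647680, -51527950767469533280, 22984209466963520000,
      -3591765691426570240, 132133273325080874400, 42846951502989590000, 65630365346352980160,
      -98205725412408100000, 2839424001269531250, -76872062792338138480, 25720855549442587500,
      5893722903369935000, 4711133398681640625]),
   ((2, 2),
    [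
      15319683783720960000, 44929871463003440000, -51044739691421760000, -8850588146875000000,
      -363746149007360000, 68614286375786400000, -233693269632122920000, 33942294272886460000,
      -102075383211371840000, -342775612023916720000, 249419440918269190000, 449953050055285000000,
      307866598906434290000, -21169978939843750000, -507497333926108030000, -41305315572621352500,
      90895588308620900000, 2208218554101562500]),
   ((3, 0),
    [
      1325877637939200000, 15222876666421156864, 3355687218932460000, 250133692968750000,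
      6085161464627200000, 8185395147398268928, -29032753261134077312, -1785557690533015000,
      -15136012473350148096, -32905251214980870240, 28122065628455312500, 18208716179924632064,
      28128378969009945000, -5713573910253906250, -9498649935288328392, -446235154640157500,
      1443573399626416250, 1958147259033203125]),
   ((3, 1),
    [
      -14077441280573440000, -47213424183295120000, 61857848932166740000, 5073544588281250000,
      18588581421383680000, 216099596283687520000, 132690691620754120000, -44429374647517880000,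
      -37032304850738560000, -392822901649632400000, -153933299453217145000, -225027031752079560000,
      349768439804254225000, -1270113495117187500, 351404779846843650000, -91067530808929270000,
      -52300394926309875000, -5030811535205078125]),
   ((3, 2),
    [
      0, 30039985887500000000, 31835209925000000000, -398572385937500000, 0, 136889424700000000000,
      -55795774259375000000, 19514827070312500000, -12760956150000000000, -90861568040625000000,
      -84679915759375000000, -365668730256250000000, 10160907960937500000, 19226284500390625000,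
      482365257504687500000, -32955134475195312500, -16626032509765625000, -18108385429589843750]),
   ((4, 0),
    [
      -11061425046814720000, -42633315763048865344, -20416642880939360000, -1552613569140625000,
      -3328975505981440000, -22641438443878789888, 117805960300476873152, 17434851151654485000,
      49918543492394786816, 150068834161155427040, -126874333481527007500, -44226086685428384544,
      -175702389923421825000, 30147828594042968750, -48750819479445345168, 34856763900791865000,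
      42585211998477086250, -4558350227001953125]),
   ((4, 1),
    [
      -11057442293022720000, 6324023543708640000, -53215957615071520000, -5479911521875000000, 0,
      -228735524162617600000, 21908719224695840000, 20281386991314410000, 167606817963936000000,
      411533688791081400000, 82610631145242705000, 14279524948485040000, -364270123235717080000,
      16477567237597656250, -278854111206334920000, 80929911171994095000, 287636319623482500,
      -7168056018798828125]),
   ((5, 0),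
    [
      14743256390696960000, 64071710589558120000, 46670015436433820000, 3968623456250000000,
      -7371628195348480000, -3676391450992000000, -169483453696812940000, -46937833989568230000,
      -78895271949523840000, -47149783226959480000, 90895588308620900000, 23097174394022660000,
      104600789852619750000, -4156508127441406250, 170340847993908345000, -143818159811741250,
      -77890387605223905000, -10268965248193359375]),
   ((6, 0),
    [
      0, -47164095718750000000, -24286911814062500000, 338215836718750000, 0, 38308886250000000000,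
      122582491435937500000, -1879706732031250000, -19154443125000000000, -150756268757812500000,
      8832874216406250000, 125321424578125000000, 40246492281640625000, -18108385429589843750,
      -72933603632031250000, 14336112037597656250, -41075860992773437500, 25392779589355468750])]

/-- The nonnegative remainder in three variables. -/
noncomputable def dom03 : Bern.Poly where
  pks := [(0, 1), (1, 0), (1, 1), (2, 0), (2, 1), (3, 0), (3, 1), (4, 0), (5, 0)]
  rows :=
  [((0, 0),
    [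
      2917004250808125000, 451226624062500, 1398499598443047187500, -107868948668257500000,
      7107306233733897187500, -7177945674209191875000, -200358789304131506250000,
      60382027231504799062500, 180877329796259736562500]),
   ((0, 1),
    [
      124145762587508736, 0, -2076501879207528750000, 1489749151050104832,
      -460440478967721516562500, 51190583397027690937500, -3237196931103237429375000,
      1844955829430376108750000, 2002913029552568596875000]),
   ((0, 2),
    [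
      -920713729143472128, 0, -82864235622912491520, -11048564749721665536, -2610223422121743482880,
      -497185413737474949120, -1563846751519614118125000, 428017428869751880312500,
      1395459614092737408750000]),
   ((1, 0),
    [
      -2069172317578199040, 0, 765480253284945000000, 118042929075771562500,
      386297746440693046875000, -37942029760366096875000, 3896498594521578133125000,
      -1795466590761763830937500, -3130344226276556456250000]),
   ((1, 1),
    [
      350259184467836928, 0, 31523326602105323520, 4203110213614043136, 134619400167344119687500,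
      189139959612631941120, 4377017412656043375937500, -1519570922135875725937500,
      -3588946644587337970312500]),
   ((1, 2),
    [
      -64724202179002368, 0, -5825178196110213120, -776690426148028416, -183493113177471713280,
      -34951069176661278720, -3963451244633389006848, -880766943251864223744,
      185394595190270900625000]),
   ((2, 0),
    [
      -394484993088159744, 0, -35503649377934376960, -4733819917057916928, -64953797845562150625000,
      -5758762032160942500000, -5514175704172529022187500, 1360908036077245349062500,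
      6172018538039849379375000]),
   ((2, 1),
    [
      2596502958266253312, 0, 233685266243962798080, 31158035499195039744, 7361085886684828139520,
      1402111597463776788480, -903114140113226272500000, 35333212256087175069696,
      1273849587523533993750000]),
   ((3, 0),
    [
      -1227125133718585344, 0, -110441262034672680960, -14725501604623024128,
      -3478899754092189450240, -662647572208036085760, 3229462504539374467500000,
      -395828755293967245000000, -4769502713996327769375000]),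
   ((4, 0),
    [
      -1311691560188903424, 0, -118052240417001308160, -15740298722266841088,
      -3718645573135541207040, -708313442502007848960, -80322744379727690072064,
      -17849498751050597793792, 278280889575382054687500])]

/-- A subdivision. -/
noncomputable def cov03 : Bern.Cover :=
  (.split 0 (.split 2 (.split 2 (.split 2 .leaf .leaf) .leaf) (.split 3 .leaf (.split
  3 .leaf .leaf))) (.split 2 (.split 1 (.split 0 (.split 0 (.split 2 .leaf .leaf)
  (.split 2 .leaf (.split 1 .leaf (.split 0 (.split 2 .leaf .leaf) .leaf)))) .leaf)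
  (.split 0 (.split 2 .leaf (.split 0 (.split 0 .leaf .leaf) .leaf)) .leaf)) (.split
  1 (.split 0 (.split 3 (.split 0 .leaf .leaf) (.split 3 (.split 0 (.split 3 (.split
  0 .leaf .leaf) .leaf) (.split 1 .leaf .leaf)) .leaf)) (.split 3 (.split 2 (.split 1
  (.split 0 .leaf (.split 0 .leaf (.split 1 (.split 3 (.split 0 .leaf .leaf) .leaf)
  .leaf))) (.split 1 .leaf (.split 2 (.split 3 (.split 1 .leaf (.split 1 .leaf
  .leaf)) .leaf) (.split 3 (.split 1 .leaf .leaf) .leaf)))) (.split 0 (.split 1 .leaf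
  .leaf) (.split 3 (.split 0 (.split 0 .leaf .leaf) (.split 2 (.split 1 .leaf .leaf)
  .leaf)) (.split 1 .leaf .leaf)))) (.split 1 (.split 0 (.split 0 .leaf (.split 1
  (.split 3 .leaf .leaf) .leaf)) (.split 2 (.split 1 (.split 3 (.split 2 .leaf
  (.split 0 .leaf (.split 1 .leaf .leaf))) (.split 1 .leaf .leaf)) .leaf) (.split 1
  .leaf .leaf))) .leaf))) (.split 3 (.split 0 .leaf (.split 2 .leaf (.split 3 (.split
  2 .leaf (.split 0 .leaf (.split 0 .leaf (.split 3 (.split 2 .leaf (.split 1 .leaf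
  .leaf)) .leaf)))) .leaf))) (.split 0 .leaf .leaf)))))

/-- A subdivision. -/
noncomputable def covDom03 : Bern.Cover :=
  (.split 2 (.split 2 (.split 2 .leaf (.split 2 .leaf .leaf)) (.split 1 (.split 0
  (.split 2 .leaf (.split 0 (.split 2 .leaf .leaf) (.split 2 .leaf (.split 0 .leaf
  (.split 1 .leaf .leaf))))) (.split 1 .leaf (.split 2 (.split 1 .leaf (.split 2
  .leaf (.split 1 (.split 2 .leaf (.split 1 .leaf .leaf)) .leaf))) (.split 1 .leaf
  (.split 1 .leaf .leaf))))) (.split 0 (.split 2 .leaf (.split 0 (.split 2 .leaf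
  (.split 2 .leaf .leaf)) (.split 2 .leaf (.split 0 (.split 2 .leaf .leaf) .leaf))))
  (.split 2 .leaf .leaf)))) (.split 0 (.split 2 (.split 0 .leaf (.split 2 (.split 1
  (.split 2 (.split 2 (.split 1 (.split 0 .leaf .leaf) .leaf) .leaf) .leaf) (.split 0
  .leaf .leaf)) .leaf)) (.split 2 (.split 2 .leaf (.split 2 (.split 2 .leaf .leaf)
  .leaf)) .leaf)) (.split 2 (.split 1 (.split 0 (.split 2 (.split 1 (.split 2 (.split
  2 (.split 0 .leaf .leaf) .leaf) .leaf) (.split 2 (.split 0 (.split 1 (.split 2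
  (.split 0 (.split 1 .leaf .leaf) .leaf) .leaf) .leaf) (.split 1 (.split 2 .leaf
  .leaf) .leaf)) (.split 0 .leaf (.split 1 .leaf .leaf)))) (.split 1 .leaf .leaf))
  (.split 0 (.split 1 .leaf (.split 2 (.split 1 .leaf .leaf) (.split 1 (.split 0
  .leaf .leaf) (.split 0 .leaf (.split 2 .leaf (.split 0 .leaf (.split 1 (.split 0
  .leaf .leaf) .leaf))))))) (.split 1 .leaf (.split 1 .leaf (.split 1 .leaf .leaf)))))
  (.split 0 (.split 2 .leaf (.split 0 .leaf (.split 2 (.split 0 .leaf .leaf) (.split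
  0 .leaf (.split 2 (.split 0 .leaf .leaf) (.split 0 .leaf (.split 2 (.split 0 .leaf
  .leaf) .leaf))))))) (.split 2 .leaf (.split 0 (.split 2 .leaf (.split 2 .leaf
  (.split 0 .leaf .leaf))) .leaf)))) (.split 1 (.split 0 (.split 2 (.split 1 .leaf
  .leaf) .leaf) (.split 2 (.split 1 (.split 0 (.split 2 .leaf (.split 1 (.split 0
  .leaf .leaf) (.split 0 .leaf (.split 0 (.split 1 .leaf .leaf) (.split 2 .leaf
  (.split 1 .leaf (.split 0 .leaf .leaf))))))) (.split 2 .leaf (.split 2 .leaf
  .leaf))) (.split 0 (.split 0 .leaf (.split 1 (.split 2 (.split 1 .leaf (.split 2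
  (.split 0 .leaf .leaf) .leaf)) (.split 1 (.split 0 .leaf (.split 2 (.split 1
  (.split 0 .leaf .leaf) .leaf) (.split 1 (.split 2 (.split 0 .leaf (.split 1 .leaf
  .leaf)) .leaf) .leaf))) .leaf)) (.split 2 (.split 1 (.split 0 .leaf (.split 2
  (.split 1 (.split 2 (.split 0 .leaf .leaf) .leaf) .leaf) .leaf)) .leaf) .leaf)))
  (.split 0 (.split 1 (.split 2 (.split 0 (.split 1 .leaf (.split 2 (.split 0 .leaf
  .leaf) (.split 0 (.split 1 .leaf .leaf) .leaf))) .leaf) (.split 0 (.split 1 (.split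
  2 (.split 1 (.split 0 .leaf .leaf) (.split 0 (.split 0 (.split 1 .leaf .leaf)
  .leaf) .leaf)) (.split 0 (.split 1 (.split 2 (.split 1 .leaf (.split 0 .leaf
  .leaf)) .leaf) (.split 0 .leaf .leaf)) .leaf)) (.split 2 (.split 0 .leaf .leaf)
  .leaf)) .leaf)) (.split 2 (.split 0 (.split 1 (.split 2 (.split 1 (.split 0 (.split
  2 .leaf .leaf) .leaf) .leaf) (.split 0 .leaf .leaf)) .leaf) .leaf) .leaf)) .leaf)))
  (.split 1 (.split 0 (.split 1 .leaf (.split 0 .leaf .leaf)) (.split 2 .leaf (.split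
  2 .leaf (.split 2 .leaf (.split 1 .leaf (.split 2 (.split 1 .leaf .leaf) (.split 1
  .leaf .leaf))))))) (.split 0 .leaf (.split 0 .leaf (.split 2 .leaf .leaf))))))
  (.split 0 .leaf (.split 2 (.split 0 (.split 0 (.split 2 .leaf .leaf) .leaf) .leaf)
  (.split 0 .leaf (.split 0 .leaf (.split 2 .leaf (.split 1 (.split 1 (.split 0
  .leaf (.split 1 .leaf (.split 0 .leaf (.split 0 .leaf .leaf)))) .leaf) (.split 2
  .leaf .leaf)))))))))))

/-- The row. -/
noncomputable def row03 : Row where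
  W := terms 3
  D := slopeT 0 3
  G := sym03
  a := 23219011584
  e := slopeE 0
  kR := 131072
  kG := 125829120000000
  kP := 1125
  I := 12
  J := 8
  P := rem03
  cfg := ⟨12, 12, 10, 12, 12, 288⟩
  cov := cov03
  lay := ⟨164, 13, 13, 13, 13⟩
  R3 := dom03
  cfg3 := ⟨8, 8, 8, 10, 10, 532⟩
  cov3 := covDom03
  lay3 := ⟨98, 5, 3, 15, 1⟩

set_option maxHeartbeats 8000000 in
/-- All parts of the check, evaluated one after another. -/
theorem row03_parts :
    rowRest (terms 0) row03 = true ∧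
    Bern.coverU row03.cfg row03.P (.split 2 (.split 2 .leaf .leaf) .leaf) (Bern.Box.cut
      (Bern.Box.cut Bern.unitBox 0 Bern.Ax.left) 2 Bern.Ax.left) = true ∧
    Bern.coverU row03.cfg row03.P (.split 3 .leaf (.split 3 .leaf .leaf)) (Bern.Box.cut
      (Bern.Box.cut Bern.unitBox 0 Bern.Ax.left) 2 Bern.Ax.right) = true ∧
    Bern.coverU row03.cfg row03.P (.split 2 .leaf .leaf) (Bern.Box.cut (Bern.Box.cut (Bern.Box.cut
      (Bern.Box.cut (Bern.Box.cut Bern.unitBox 0 Bern.Ax.right) 2 Bern.Ax.left) 1 Bern.Ax.left) 0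
      Bern.Ax.left) 0 Bern.Ax.left) = true ∧
    Bern.coverU row03.cfg row03.P .leaf (Bern.Box.cut (Bern.Box.cut (Bern.Box.cut (Bern.Box.cut
      (Bern.Box.cut (Bern.Box.cut Bern.unitBox 0 Bern.Ax.right) 2 Bern.Ax.left) 1 Bern.Ax.left) 0
      Bern.Ax.left) 0 Bern.Ax.right) 2 Bern.Ax.left) = true ∧
    Bern.coverU row03.cfg row03.P .leaf (Bern.Box.cut (Bern.Box.cut (Bern.Box.cut (Bern.Box.cut
      (Bern.Box.cut (Bern.Box.cut (Bern.Box.cut Bern.unitBox 0 Bern.Ax.right) 2 Bern.Ax.left) 1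
      Bern.Ax.left) 0 Bern.Ax.left) 0 Bern.Ax.right) 2 Bern.Ax.right) 1 Bern.Ax.left) = true ∧
    Bern.coverU row03.cfg row03.P (.split 0 (.split 2 .leaf .leaf) .leaf) (Bern.Box.cut
      (Bern.Box.cut (Bern.Box.cut (Bern.Box.cut (Bern.Box.cut (Bern.Box.cut (Bern.Box.cut
      Bern.unitBox 0 Bern.Ax.right) 2 Bern.Ax.left) 1 Bern.Ax.left) 0 Bern.Ax.left) 0
      Bern.Ax.right) 2 Bern.Ax.right) 1 Bern.Ax.right) = true ∧
    Bern.coverU row03.cfg row03.P .leaf (Bern.Box.cut (Bern.Box.cut (Bern.Box.cut (Bern.Box.cut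
      Bern.unitBox 0 Bern.Ax.right) 2 Bern.Ax.left) 1 Bern.Ax.left) 0 Bern.Ax.right) = true ∧
    Bern.coverU row03.cfg row03.P .leaf (Bern.Box.cut (Bern.Box.cut (Bern.Box.cut (Bern.Box.cut
      (Bern.Box.cut Bern.unitBox 0 Bern.Ax.right) 2 Bern.Ax.left) 1 Bern.Ax.right) 0 Bern.Ax.left)
      2 Bern.Ax.left) = true ∧
    Bern.coverU row03.cfg row03.P (.split 0 (.split 0 .leaf .leaf) .leaf) (Bern.Box.cut
      (Bern.Box.cut (Bern.Box.cut (Bern.Box.cut (Bern.Box.cut Bern.unitBox 0 Bern.Ax.right) 2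
      Bern.Ax.left) 1 Bern.Ax.right) 0 Bern.Ax.left) 2 Bern.Ax.right) = true ∧
    Bern.coverU row03.cfg row03.P .leaf (Bern.Box.cut (Bern.Box.cut (Bern.Box.cut (Bern.Box.cut
      Bern.unitBox 0 Bern.Ax.right) 2 Bern.Ax.left) 1 Bern.Ax.right) 0 Bern.Ax.right) = true ∧
    Bern.coverU row03.cfg row03.P (.split 0 .leaf .leaf) (Bern.Box.cut (Bern.Box.cut (Bern.Box.cut
      (Bern.Box.cut (Bern.Box.cut Bern.unitBox 0 Bern.Ax.right) 2 Bern.Ax.right) 1 Bern.Ax.left) 0
      Bern.Ax.left) 3 Bern.Ax.left) = true ∧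
    Bern.coverU row03.cfg row03.P (.split 3 (.split 0 .leaf .leaf) .leaf) (Bern.Box.cut
      (Bern.Box.cut (Bern.Box.cut (Bern.Box.cut (Bern.Box.cut (Bern.Box.cut (Bern.Box.cut
      Bern.unitBox 0 Bern.Ax.right) 2 Bern.Ax.right) 1 Bern.Ax.left) 0 Bern.Ax.left) 3
      Bern.Ax.right) 3 Bern.Ax.left) 0 Bern.Ax.left) = true ∧
    Bern.coverU row03.cfg row03.P (.split 1 .leaf .leaf) (Bern.Box.cut (Bern.Box.cut (Bern.Box.cut
      (Bern.Box.cut (Bern.Box.cut (Bern.Box.cut (Bern.Box.cut Bern.unitBox 0 Bern.Ax.right) 2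
      Bern.Ax.right) 1 Bern.Ax.left) 0 Bern.Ax.left) 3 Bern.Ax.right) 3 Bern.Ax.left) 0
      Bern.Ax.right) = true ∧
    Bern.coverU row03.cfg row03.P .leaf (Bern.Box.cut (Bern.Box.cut (Bern.Box.cut (Bern.Box.cut
      (Bern.Box.cut (Bern.Box.cut Bern.unitBox 0 Bern.Ax.right) 2 Bern.Ax.right) 1 Bern.Ax.left) 0
      Bern.Ax.left) 3 Bern.Ax.right) 3 Bern.Ax.right) = true ∧
    Bern.coverU row03.cfg row03.P .leaf (Bern.Box.cut (Bern.Box.cut (Bern.Box.cut (Bern.Box.cut
      (Bern.Box.cut (Bern.Box.cut (Bern.Box.cut (Bern.Box.cut Bern.unitBox 0 Bern.Ax.right) 2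
      Bern.Ax.right) 1 Bern.Ax.left) 0 Bern.Ax.right) 3 Bern.Ax.left) 2 Bern.Ax.left) 1
      Bern.Ax.left) 0 Bern.Ax.left) = true ∧
    Bern.coverU row03.cfg row03.P .leaf (Bern.Box.cut (Bern.Box.cut (Bern.Box.cut (Bern.Box.cut
      (Bern.Box.cut (Bern.Box.cut (Bern.Box.cut (Bern.Box.cut (Bern.Box.cut Bern.unitBox 0
      Bern.Ax.right) 2 Bern.Ax.right) 1 Bern.Ax.left) 0 Bern.Ax.right) 3 Bern.Ax.left) 2
      Bern.Ax.left) 1 Bern.Ax.left) 0 Bern.Ax.right) 0 Bern.Ax.left) = true ∧
    Bern.coverU row03.cfg row03.P (.split 3 (.split 0 .leaf .leaf) .leaf) (Bern.Box.cut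
      (Bern.Box.cut (Bern.Box.cut (Bern.Box.cut (Bern.Box.cut (Bern.Box.cut (Bern.Box.cut
      (Bern.Box.cut (Bern.Box.cut (Bern.Box.cut Bern.unitBox 0 Bern.Ax.right) 2 Bern.Ax.right) 1
      Bern.Ax.left) 0 Bern.Ax.right) 3 Bern.Ax.left) 2 Bern.Ax.left) 1 Bern.Ax.left) 0
      Bern.Ax.right) 0 Bern.Ax.right) 1 Bern.Ax.left) = true ∧
    Bern.coverU row03.cfg row03.P .leaf (Bern.Box.cut (Bern.Box.cut (Bern.Box.cut (Bern.Box.cut
      (Bern.Box.cut (Bern.Box.cut (Bern.Box.cut (Bern.Box.cut (Bern.Box.cut (Bern.Box.cut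
      Bern.unitBox 0 Bern.Ax.right) 2 Bern.Ax.right) 1 Bern.Ax.left) 0 Bern.Ax.right) 3
      Bern.Ax.left) 2 Bern.Ax.left) 1 Bern.Ax.left) 0 Bern.Ax.right) 0 Bern.Ax.right) 1
      Bern.Ax.right) = true ∧
    Bern.coverU row03.cfg row03.P .leaf (Bern.Box.cut (Bern.Box.cut (Bern.Box.cut (Bern.Box.cut
      (Bern.Box.cut (Bern.Box.cut (Bern.Box.cut (Bern.Box.cut Bern.unitBox 0 Bern.Ax.right) 2
      Bern.Ax.right) 1 Bern.Ax.left) 0 Bern.Ax.right) 3 Bern.Ax.left) 2 Bern.Ax.left) 1
      Bern.Ax.right) 1 Bern.Ax.left) = true ∧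
    Bern.coverU row03.cfg row03.P (.split 1 .leaf (.split 1 .leaf .leaf)) (Bern.Box.cut
      (Bern.Box.cut (Bern.Box.cut (Bern.Box.cut (Bern.Box.cut (Bern.Box.cut (Bern.Box.cut
      (Bern.Box.cut (Bern.Box.cut (Bern.Box.cut Bern.unitBox 0 Bern.Ax.right) 2 Bern.Ax.right) 1
      Bern.Ax.left) 0 Bern.Ax.right) 3 Bern.Ax.left) 2 Bern.Ax.left) 1 Bern.Ax.right) 1
      Bern.Ax.right) 2 Bern.Ax.left) 3 Bern.Ax.left) = true ∧
    Bern.coverU row03.cfg row03.P .leaf (Bern.Box.cut (Bern.Box.cut (Bern.Box.cut (Bern.Box.cut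
      (Bern.Box.cut (Bern.Box.cut (Bern.Box.cut (Bern.Box.cut (Bern.Box.cut (Bern.Box.cut
      Bern.unitBox 0 Bern.Ax.right) 2 Bern.Ax.right) 1 Bern.Ax.left) 0 Bern.Ax.right) 3
      Bern.Ax.left) 2 Bern.Ax.left) 1 Bern.Ax.right) 1 Bern.Ax.right) 2 Bern.Ax.left) 3
      Bern.Ax.right) = true ∧
    Bern.coverU row03.cfg row03.P (.split 3 (.split 1 .leaf .leaf) .leaf) (Bern.Box.cut
      (Bern.Box.cut (Bern.Box.cut (Bern.Box.cut (Bern.Box.cut (Bern.Box.cut (Bern.Box.cut
      (Bern.Box.cut (Bern.Box.cut Bern.unitBox 0 Bern.Ax.right) 2 Bern.Ax.right) 1 Bern.Ax.left) 0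
      Bern.Ax.right) 3 Bern.Ax.left) 2 Bern.Ax.left) 1 Bern.Ax.right) 1 Bern.Ax.right) 2
      Bern.Ax.right) = true ∧
    Bern.coverU row03.cfg row03.P (.split 1 .leaf .leaf) (Bern.Box.cut (Bern.Box.cut (Bern.Box.cut
      (Bern.Box.cut (Bern.Box.cut (Bern.Box.cut (Bern.Box.cut Bern.unitBox 0 Bern.Ax.right) 2
      Bern.Ax.right) 1 Bern.Ax.left) 0 Bern.Ax.right) 3 Bern.Ax.left) 2 Bern.Ax.right) 0
      Bern.Ax.left) = true ∧
    Bern.coverU row03.cfg row03.P (.split 0 .leaf .leaf) (Bern.Box.cut (Bern.Box.cut (Bern.Box.cut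
      (Bern.Box.cut (Bern.Box.cut (Bern.Box.cut (Bern.Box.cut (Bern.Box.cut (Bern.Box.cut
      Bern.unitBox 0 Bern.Ax.right) 2 Bern.Ax.right) 1 Bern.Ax.left) 0 Bern.Ax.right) 3
      Bern.Ax.left) 2 Bern.Ax.right) 0 Bern.Ax.right) 3 Bern.Ax.left) 0 Bern.Ax.left) = true ∧
    Bern.coverU row03.cfg row03.P (.split 2 (.split 1 .leaf .leaf) .leaf) (Bern.Box.cut
      (Bern.Box.cut (Bern.Box.cut (Bern.Box.cut (Bern.Box.cut (Bern.Box.cut (Bern.Box.cut
      (Bern.Box.cut (Bern.Box.cut Bern.unitBox 0 Bern.Ax.right) 2 Bern.Ax.right) 1 Bern.Ax.left) 0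
      Bern.Ax.right) 3 Bern.Ax.left) 2 Bern.Ax.right) 0 Bern.Ax.right) 3 Bern.Ax.left) 0
      Bern.Ax.right) = true ∧
    Bern.coverU row03.cfg row03.P (.split 1 .leaf .leaf) (Bern.Box.cut (Bern.Box.cut (Bern.Box.cut
      (Bern.Box.cut (Bern.Box.cut (Bern.Box.cut (Bern.Box.cut (Bern.Box.cut Bern.unitBox 0
      Bern.Ax.right) 2 Bern.Ax.right) 1 Bern.Ax.left) 0 Bern.Ax.right) 3 Bern.Ax.left) 2
      Bern.Ax.right) 0 Bern.Ax.right) 3 Bern.Ax.right) = true ∧
    Bern.coverU row03.cfg row03.P .leaf (Bern.Box.cut (Bern.Box.cut (Bern.Box.cut (Bern.Box.cut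
      (Bern.Box.cut (Bern.Box.cut (Bern.Box.cut (Bern.Box.cut Bern.unitBox 0 Bern.Ax.right) 2
      Bern.Ax.right) 1 Bern.Ax.left) 0 Bern.Ax.right) 3 Bern.Ax.right) 1 Bern.Ax.left) 0
      Bern.Ax.left) 0 Bern.Ax.left) = true ∧
    Bern.coverU row03.cfg row03.P (.split 1 (.split 3 .leaf .leaf) .leaf) (Bern.Box.cut
      (Bern.Box.cut (Bern.Box.cut (Bern.Box.cut (Bern.Box.cut (Bern.Box.cut (Bern.Box.cut
      (Bern.Box.cut Bern.unitBox 0 Bern.Ax.right) 2 Bern.Ax.right) 1 Bern.Ax.left) 0
      Bern.Ax.right) 3 Bern.Ax.right) 1 Bern.Ax.left) 0 Bern.Ax.left) 0 Bern.Ax.right) = true ∧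
    Bern.coverU row03.cfg row03.P .leaf (Bern.Box.cut (Bern.Box.cut (Bern.Box.cut (Bern.Box.cut
      (Bern.Box.cut (Bern.Box.cut (Bern.Box.cut (Bern.Box.cut (Bern.Box.cut (Bern.Box.cut
      (Bern.Box.cut Bern.unitBox 0 Bern.Ax.right) 2 Bern.Ax.right) 1 Bern.Ax.left) 0
      Bern.Ax.right) 3 Bern.Ax.right) 1 Bern.Ax.left) 0 Bern.Ax.right) 2 Bern.Ax.left) 1
      Bern.Ax.left) 3 Bern.Ax.left) 2 Bern.Ax.left) = true ∧
    Bern.coverU row03.cfg row03.P (.split 0 .leaf (.split 1 .leaf .leaf)) (Bern.Box.cut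
      (Bern.Box.cut (Bern.Box.cut (Bern.Box.cut (Bern.Box.cut (Bern.Box.cut (Bern.Box.cut
      (Bern.Box.cut (Bern.Box.cut (Bern.Box.cut (Bern.Box.cut Bern.unitBox 0 Bern.Ax.right) 2
      Bern.Ax.right) 1 Bern.Ax.left) 0 Bern.Ax.right) 3 Bern.Ax.right) 1 Bern.Ax.left) 0
      Bern.Ax.right) 2 Bern.Ax.left) 1 Bern.Ax.left) 3 Bern.Ax.left) 2 Bern.Ax.right) = true ∧
    Bern.coverU row03.cfg row03.P (.split 1 .leaf .leaf) (Bern.Box.cut (Bern.Box.cut (Bern.Box.cut
      (Bern.Box.cut (Bern.Box.cut (Bern.Box.cut (Bern.Box.cut (Bern.Box.cut (Bern.Box.cut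
      (Bern.Box.cut Bern.unitBox 0 Bern.Ax.right) 2 Bern.Ax.right) 1 Bern.Ax.left) 0
      Bern.Ax.right) 3 Bern.Ax.right) 1 Bern.Ax.left) 0 Bern.Ax.right) 2 Bern.Ax.left) 1
      Bern.Ax.left) 3 Bern.Ax.right) = true ∧
    Bern.coverU row03.cfg row03.P .leaf (Bern.Box.cut (Bern.Box.cut (Bern.Box.cut (Bern.Box.cut
      (Bern.Box.cut (Bern.Box.cut (Bern.Box.cut (Bern.Box.cut (Bern.Box.cut Bern.unitBox 0
      Bern.Ax.right) 2 Bern.Ax.right) 1 Bern.Ax.left) 0 Bern.Ax.right) 3 Bern.Ax.right) 1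
      Bern.Ax.left) 0 Bern.Ax.right) 2 Bern.Ax.left) 1 Bern.Ax.right) = true ∧
    Bern.coverU row03.cfg row03.P (.split 1 .leaf .leaf) (Bern.Box.cut (Bern.Box.cut (Bern.Box.cut
      (Bern.Box.cut (Bern.Box.cut (Bern.Box.cut (Bern.Box.cut (Bern.Box.cut Bern.unitBox 0
      Bern.Ax.right) 2 Bern.Ax.right) 1 Bern.Ax.left) 0 Bern.Ax.right) 3 Bern.Ax.right) 1
      Bern.Ax.left) 0 Bern.Ax.right) 2 Bern.Ax.right) = true ∧
    Bern.coverU row03.cfg row03.P .leaf (Bern.Box.cut (Bern.Box.cut (Bern.Box.cut (Bern.Box.cut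
      (Bern.Box.cut (Bern.Box.cut Bern.unitBox 0 Bern.Ax.right) 2 Bern.Ax.right) 1 Bern.Ax.left) 0
      Bern.Ax.right) 3 Bern.Ax.right) 1 Bern.Ax.right) = true ∧
    Bern.coverU row03.cfg row03.P .leaf (Bern.Box.cut (Bern.Box.cut (Bern.Box.cut (Bern.Box.cut
      (Bern.Box.cut Bern.unitBox 0 Bern.Ax.right) 2 Bern.Ax.right) 1 Bern.Ax.right) 3
      Bern.Ax.left) 0 Bern.Ax.left) = true ∧
    Bern.coverU row03.cfg row03.P .leaf (Bern.Box.cut (Bern.Box.cut (Bern.Box.cut (Bern.Box.cut
      (Bern.Box.cut (Bern.Box.cut Bern.unitBox 0 Bern.Ax.right) 2 Bern.Ax.right) 1 Bern.Ax.right)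
      3 Bern.Ax.left) 0 Bern.Ax.right) 2 Bern.Ax.left) = true ∧
    Bern.coverU row03.cfg row03.P .leaf (Bern.Box.cut (Bern.Box.cut (Bern.Box.cut (Bern.Box.cut
      (Bern.Box.cut (Bern.Box.cut (Bern.Box.cut (Bern.Box.cut Bern.unitBox 0 Bern.Ax.right) 2
      Bern.Ax.right) 1 Bern.Ax.right) 3 Bern.Ax.left) 0 Bern.Ax.right) 2 Bern.Ax.right) 3
      Bern.Ax.left) 2 Bern.Ax.left) = true ∧
    Bern.coverU row03.cfg row03.P .leaf (Bern.Box.cut (Bern.Box.cut (Bern.Box.cut (Bern.Box.cut
      (Bern.Box.cut (Bern.Box.cut (Bern.Box.cut (Bern.Box.cut (Bern.Box.cut Bern.unitBox 0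
      Bern.Ax.right) 2 Bern.Ax.right) 1 Bern.Ax.right) 3 Bern.Ax.left) 0 Bern.Ax.right) 2
      Bern.Ax.right) 3 Bern.Ax.left) 2 Bern.Ax.right) 0 Bern.Ax.left) = true ∧
    Bern.coverU row03.cfg row03.P .leaf (Bern.Box.cut (Bern.Box.cut (Bern.Box.cut (Bern.Box.cut
      (Bern.Box.cut (Bern.Box.cut (Bern.Box.cut (Bern.Box.cut (Bern.Box.cut (Bern.Box.cut
      Bern.unitBox 0 Bern.Ax.right) 2 Bern.Ax.right) 1 Bern.Ax.right) 3 Bern.Ax.left) 0
      Bern.Ax.right) 2 Bern.Ax.right) 3 Bern.Ax.left) 2 Bern.Ax.right) 0 Bern.Ax.right) 0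
      Bern.Ax.left) = true ∧
    Bern.coverU row03.cfg row03.P (.split 2 .leaf (.split 1 .leaf .leaf)) (Bern.Box.cut
      (Bern.Box.cut (Bern.Box.cut (Bern.Box.cut (Bern.Box.cut (Bern.Box.cut (Bern.Box.cut
      (Bern.Box.cut (Bern.Box.cut (Bern.Box.cut (Bern.Box.cut Bern.unitBox 0 Bern.Ax.right) 2
      Bern.Ax.right) 1 Bern.Ax.right) 3 Bern.Ax.left) 0 Bern.Ax.right) 2 Bern.Ax.right) 3
      Bern.Ax.left) 2 Bern.Ax.right) 0 Bern.Ax.right) 0 Bern.Ax.right) 3 Bern.Ax.left) = true ∧
    Bern.coverU row03.cfg row03.P .leaf (Bern.Box.cut (Bern.Box.cut (Bern.Box.cut (Bern.Box.cut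
      (Bern.Box.cut (Bern.Box.cut (Bern.Box.cut (Bern.Box.cut (Bern.Box.cut (Bern.Box.cut
      (Bern.Box.cut Bern.unitBox 0 Bern.Ax.right) 2 Bern.Ax.right) 1 Bern.Ax.right) 3
      Bern.Ax.left) 0 Bern.Ax.right) 2 Bern.Ax.right) 3 Bern.Ax.left) 2 Bern.Ax.right) 0
      Bern.Ax.right) 0 Bern.Ax.right) 3 Bern.Ax.right) = true ∧
    Bern.coverU row03.cfg row03.P .leaf (Bern.Box.cut (Bern.Box.cut (Bern.Box.cut (Bern.Box.cut
      (Bern.Box.cut (Bern.Box.cut (Bern.Box.cut Bern.unitBox 0 Bern.Ax.right) 2 Bern.Ax.right) 1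
      Bern.Ax.right) 3 Bern.Ax.left) 0 Bern.Ax.right) 2 Bern.Ax.right) 3 Bern.Ax.right) = true ∧
    Bern.coverU row03.cfg row03.P (.split 0 .leaf .leaf) (Bern.Box.cut (Bern.Box.cut (Bern.Box.cut
      (Bern.Box.cut Bern.unitBox 0 Bern.Ax.right) 2 Bern.Ax.right) 1 Bern.Ax.right) 3
      Bern.Ax.right) = true ∧
    Bern.coverU row03.cfg3 row03.R3 (.split 2 .leaf (.split 2 .leaf .leaf)) (Bern.Box.cut
      (Bern.Box.cut box3 2 Bern.Ax.left) 2 Bern.Ax.left) = true ∧
    Bern.coverU row03.cfg3 row03.R3 (.split 2 .leaf (.split 0 (.split 2 .leaf .leaf) (.split 2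
      .leaf (.split 0 .leaf (.split 1 .leaf .leaf))))) (Bern.Box.cut (Bern.Box.cut (Bern.Box.cut
      (Bern.Box.cut box3 2 Bern.Ax.left) 2 Bern.Ax.right) 1 Bern.Ax.left) 0 Bern.Ax.left) = true ∧
    Bern.coverU row03.cfg3 row03.R3 .leaf (Bern.Box.cut (Bern.Box.cut (Bern.Box.cut (Bern.Box.cut
      (Bern.Box.cut box3 2 Bern.Ax.left) 2 Bern.Ax.right) 1 Bern.Ax.left) 0 Bern.Ax.right) 1
      Bern.Ax.left) = true ∧
    Bern.coverU row03.cfg3 row03.R3 (.split 1 .leaf (.split 2 .leaf (.split 1 (.split 2 .leaf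
      (.split 1 .leaf .leaf)) .leaf))) (Bern.Box.cut (Bern.Box.cut (Bern.Box.cut (Bern.Box.cut
      (Bern.Box.cut (Bern.Box.cut box3 2 Bern.Ax.left) 2 Bern.Ax.right) 1 Bern.Ax.left) 0
      Bern.Ax.right) 1 Bern.Ax.right) 2 Bern.Ax.left) = true ∧
    Bern.coverU row03.cfg3 row03.R3 (.split 1 .leaf (.split 1 .leaf .leaf)) (Bern.Box.cut
      (Bern.Box.cut (Bern.Box.cut (Bern.Box.cut (Bern.Box.cut (Bern.Box.cut box3 2 Bern.Ax.left) 2
      Bern.Ax.right) 1 Bern.Ax.left) 0 Bern.Ax.right) 1 Bern.Ax.right) 2 Bern.Ax.right) = true ∧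
    Bern.coverU row03.cfg3 row03.R3 (.split 2 .leaf (.split 0 (.split 2 .leaf (.split 2 .leaf
      .leaf)) (.split 2 .leaf (.split 0 (.split 2 .leaf .leaf) .leaf)))) (Bern.Box.cut
      (Bern.Box.cut (Bern.Box.cut (Bern.Box.cut box3 2 Bern.Ax.left) 2 Bern.Ax.right) 1
      Bern.Ax.right) 0 Bern.Ax.left) = true ∧
    Bern.coverU row03.cfg3 row03.R3 (.split 2 .leaf .leaf) (Bern.Box.cut (Bern.Box.cut
      (Bern.Box.cut (Bern.Box.cut box3 2 Bern.Ax.left) 2 Bern.Ax.right) 1 Bern.Ax.right) 0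
      Bern.Ax.right) = true ∧
    Bern.coverU row03.cfg3 row03.R3 .leaf (Bern.Box.cut (Bern.Box.cut (Bern.Box.cut (Bern.Box.cut
      box3 2 Bern.Ax.right) 0 Bern.Ax.left) 2 Bern.Ax.left) 0 Bern.Ax.left) = true ∧
    Bern.coverU row03.cfg3 row03.R3 (.split 2 (.split 1 (.split 2 (.split 2 (.split 1 (.split 0
      .leaf .leaf) .leaf) .leaf) .leaf) (.split 0 .leaf .leaf)) .leaf) (Bern.Box.cut (Bern.Box.cut
      (Bern.Box.cut (Bern.Box.cut box3 2 Bern.Ax.right) 0 Bern.Ax.left) 2 Bern.Ax.left) 0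
      Bern.Ax.right) = true ∧
    Bern.coverU row03.cfg3 row03.R3 (.split 2 (.split 2 .leaf (.split 2 (.split 2 .leaf .leaf)
      .leaf)) .leaf) (Bern.Box.cut (Bern.Box.cut (Bern.Box.cut box3 2 Bern.Ax.right) 0
      Bern.Ax.left) 2 Bern.Ax.right) = true ∧
    Bern.coverU row03.cfg3 row03.R3 (.split 2 (.split 2 (.split 0 .leaf .leaf) .leaf) .leaf)
      (Bern.Box.cut (Bern.Box.cut (Bern.Box.cut (Bern.Box.cut (Bern.Box.cut (Bern.Box.cut
      (Bern.Box.cut box3 2 Bern.Ax.right) 0 Bern.Ax.right) 2 Bern.Ax.left) 1 Bern.Ax.left) 0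
      Bern.Ax.left) 2 Bern.Ax.left) 1 Bern.Ax.left) = true ∧
    Bern.coverU row03.cfg3 row03.R3 (.split 0 (.split 1 (.split 2 (.split 0 (.split 1 .leaf .leaf)
      .leaf) .leaf) .leaf) (.split 1 (.split 2 .leaf .leaf) .leaf)) (Bern.Box.cut (Bern.Box.cut
      (Bern.Box.cut (Bern.Box.cut (Bern.Box.cut (Bern.Box.cut (Bern.Box.cut (Bern.Box.cut box3 2
      Bern.Ax.right) 0 Bern.Ax.right) 2 Bern.Ax.left) 1 Bern.Ax.left) 0 Bern.Ax.left) 2
      Bern.Ax.left) 1 Bern.Ax.right) 2 Bern.Ax.left) = true ∧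
    Bern.coverU row03.cfg3 row03.R3 (.split 0 .leaf (.split 1 .leaf .leaf)) (Bern.Box.cut
      (Bern.Box.cut (Bern.Box.cut (Bern.Box.cut (Bern.Box.cut (Bern.Box.cut (Bern.Box.cut
      (Bern.Box.cut box3 2 Bern.Ax.right) 0 Bern.Ax.right) 2 Bern.Ax.left) 1 Bern.Ax.left) 0
      Bern.Ax.left) 2 Bern.Ax.left) 1 Bern.Ax.right) 2 Bern.Ax.right) = true ∧
    Bern.coverU row03.cfg3 row03.R3 (.split 1 .leaf .leaf) (Bern.Box.cut (Bern.Box.cut
      (Bern.Box.cut (Bern.Box.cut (Bern.Box.cut (Bern.Box.cut box3 2 Bern.Ax.right) 0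
      Bern.Ax.right) 2 Bern.Ax.left) 1 Bern.Ax.left) 0 Bern.Ax.left) 2 Bern.Ax.right) = true ∧
    Bern.coverU row03.cfg3 row03.R3 .leaf (Bern.Box.cut (Bern.Box.cut (Bern.Box.cut (Bern.Box.cut
      (Bern.Box.cut (Bern.Box.cut (Bern.Box.cut box3 2 Bern.Ax.right) 0 Bern.Ax.right) 2
      Bern.Ax.left) 1 Bern.Ax.left) 0 Bern.Ax.right) 0 Bern.Ax.left) 1 Bern.Ax.left) = true ∧
    Bern.coverU row03.cfg3 row03.R3 (.split 1 .leaf .leaf) (Bern.Box.cut (Bern.Box.cut
      (Bern.Box.cut (Bern.Box.cut (Bern.Box.cut (Bern.Box.cut (Bern.Box.cut (Bern.Box.cut box3 2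
      Bern.Ax.right) 0 Bern.Ax.right) 2 Bern.Ax.left) 1 Bern.Ax.left) 0 Bern.Ax.right) 0
      Bern.Ax.left) 1 Bern.Ax.right) 2 Bern.Ax.left) = true ∧
    Bern.coverU row03.cfg3 row03.R3 (.split 1 (.split 0 .leaf .leaf) (.split 0 .leaf (.split 2
      .leaf (.split 0 .leaf (.split 1 (.split 0 .leaf .leaf) .leaf))))) (Bern.Box.cut
      (Bern.Box.cut (Bern.Box.cut (Bern.Box.cut (Bern.Box.cut (Bern.Box.cut (Bern.Box.cut
      (Bern.Box.cut box3 2 Bern.Ax.right) 0 Bern.Ax.right) 2 Bern.Ax.left) 1 Bern.Ax.left) 0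
      Bern.Ax.right) 0 Bern.Ax.left) 1 Bern.Ax.right) 2 Bern.Ax.right) = true ∧
    Bern.coverU row03.cfg3 row03.R3 (.split 1 .leaf (.split 1 .leaf (.split 1 .leaf .leaf)))
      (Bern.Box.cut (Bern.Box.cut (Bern.Box.cut (Bern.Box.cut (Bern.Box.cut (Bern.Box.cut box3 2
      Bern.Ax.right) 0 Bern.Ax.right) 2 Bern.Ax.left) 1 Bern.Ax.left) 0 Bern.Ax.right) 0
      Bern.Ax.right) = true ∧
    Bern.coverU row03.cfg3 row03.R3 .leaf (Bern.Box.cut (Bern.Box.cut (Bern.Box.cut (Bern.Box.cut
      (Bern.Box.cut (Bern.Box.cut box3 2 Bern.Ax.right) 0 Bern.Ax.right) 2 Bern.Ax.left) 1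
      Bern.Ax.right) 0 Bern.Ax.left) 2 Bern.Ax.left) = true ∧
    Bern.coverU row03.cfg3 row03.R3 .leaf (Bern.Box.cut (Bern.Box.cut (Bern.Box.cut (Bern.Box.cut
      (Bern.Box.cut (Bern.Box.cut (Bern.Box.cut box3 2 Bern.Ax.right) 0 Bern.Ax.right) 2
      Bern.Ax.left) 1 Bern.Ax.right) 0 Bern.Ax.left) 2 Bern.Ax.right) 0 Bern.Ax.left) = true ∧
    Bern.coverU row03.cfg3 row03.R3 (.split 0 .leaf .leaf) (Bern.Box.cut (Bern.Box.cut
      (Bern.Box.cut (Bern.Box.cut (Bern.Box.cut (Bern.Box.cut (Bern.Box.cut (Bern.Box.cut box3 2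
      Bern.Ax.right) 0 Bern.Ax.right) 2 Bern.Ax.left) 1 Bern.Ax.right) 0 Bern.Ax.left) 2
      Bern.Ax.right) 0 Bern.Ax.right) 2 Bern.Ax.left) = true ∧
    Bern.coverU row03.cfg3 row03.R3 (.split 0 .leaf (.split 2 (.split 0 .leaf .leaf) (.split 0
      .leaf (.split 2 (.split 0 .leaf .leaf) .leaf)))) (Bern.Box.cut (Bern.Box.cut (Bern.Box.cut
      (Bern.Box.cut (Bern.Box.cut (Bern.Box.cut (Bern.Box.cut (Bern.Box.cut box3 2 Bern.Ax.right)
      0 Bern.Ax.right) 2 Bern.Ax.left) 1 Bern.Ax.right) 0 Bern.Ax.left) 2 Bern.Ax.right) 0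
      Bern.Ax.right) 2 Bern.Ax.right) = true ∧
    Bern.coverU row03.cfg3 row03.R3 (.split 2 .leaf (.split 0 (.split 2 .leaf (.split 2 .leaf
      (.split 0 .leaf .leaf))) .leaf)) (Bern.Box.cut (Bern.Box.cut (Bern.Box.cut (Bern.Box.cut
      (Bern.Box.cut box3 2 Bern.Ax.right) 0 Bern.Ax.right) 2 Bern.Ax.left) 1 Bern.Ax.right) 0
      Bern.Ax.right) = true ∧
    Bern.coverU row03.cfg3 row03.R3 (.split 2 (.split 1 .leaf .leaf) .leaf) (Bern.Box.cut
      (Bern.Box.cut (Bern.Box.cut (Bern.Box.cut (Bern.Box.cut box3 2 Bern.Ax.right) 0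
      Bern.Ax.right) 2 Bern.Ax.right) 1 Bern.Ax.left) 0 Bern.Ax.left) = true ∧
    Bern.coverU row03.cfg3 row03.R3 .leaf (Bern.Box.cut (Bern.Box.cut (Bern.Box.cut (Bern.Box.cut
      (Bern.Box.cut (Bern.Box.cut (Bern.Box.cut (Bern.Box.cut (Bern.Box.cut box3 2 Bern.Ax.right)
      0 Bern.Ax.right) 2 Bern.Ax.right) 1 Bern.Ax.left) 0 Bern.Ax.right) 2 Bern.Ax.left) 1
      Bern.Ax.left) 0 Bern.Ax.left) 2 Bern.Ax.left) = true ∧
    Bern.coverU row03.cfg3 row03.R3 (.split 0 .leaf .leaf) (Bern.Box.cut (Bern.Box.cut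
      (Bern.Box.cut (Bern.Box.cut (Bern.Box.cut (Bern.Box.cut (Bern.Box.cut (Bern.Box.cut
      (Bern.Box.cut (Bern.Box.cut box3 2 Bern.Ax.right) 0 Bern.Ax.right) 2 Bern.Ax.right) 1
      Bern.Ax.left) 0 Bern.Ax.right) 2 Bern.Ax.left) 1 Bern.Ax.left) 0 Bern.Ax.left) 2
      Bern.Ax.right) 1 Bern.Ax.left) = true ∧
    Bern.coverU row03.cfg3 row03.R3 (.split 0 .leaf (.split 0 (.split 1 .leaf .leaf) (.split 2
      .leaf (.split 1 .leaf (.split 0 .leaf .leaf))))) (Bern.Box.cut (Bern.Box.cut (Bern.Box.cut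
      (Bern.Box.cut (Bern.Box.cut (Bern.Box.cut (Bern.Box.cut (Bern.Box.cut (Bern.Box.cut
      (Bern.Box.cut box3 2 Bern.Ax.right) 0 Bern.Ax.right) 2 Bern.Ax.right) 1 Bern.Ax.left) 0
      Bern.Ax.right) 2 Bern.Ax.left) 1 Bern.Ax.left) 0 Bern.Ax.left) 2 Bern.Ax.right) 1
      Bern.Ax.right) = true ∧
    Bern.coverU row03.cfg3 row03.R3 (.split 2 .leaf (.split 2 .leaf .leaf)) (Bern.Box.cut
      (Bern.Box.cut (Bern.Box.cut (Bern.Box.cut (Bern.Box.cut (Bern.Box.cut (Bern.Box.cut
      (Bern.Box.cut box3 2 Bern.Ax.right) 0 Bern.Ax.right) 2 Bern.Ax.right) 1 Bern.Ax.left) 0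
      Bern.Ax.right) 2 Bern.Ax.left) 1 Bern.Ax.left) 0 Bern.Ax.right) = true ∧
    Bern.coverU row03.cfg3 row03.R3 .leaf (Bern.Box.cut (Bern.Box.cut (Bern.Box.cut (Bern.Box.cut
      (Bern.Box.cut (Bern.Box.cut (Bern.Box.cut (Bern.Box.cut (Bern.Box.cut box3 2 Bern.Ax.right)
      0 Bern.Ax.right) 2 Bern.Ax.right) 1 Bern.Ax.left) 0 Bern.Ax.right) 2 Bern.Ax.left) 1
      Bern.Ax.right) 0 Bern.Ax.left) 0 Bern.Ax.left) = true ∧
    Bern.coverU row03.cfg3 row03.R3 (.split 1 .leaf (.split 2 (.split 0 .leaf .leaf) .leaf))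
      (Bern.Box.cut (Bern.Box.cut (Bern.Box.cut (Bern.Box.cut (Bern.Box.cut (Bern.Box.cut
      (Bern.Box.cut (Bern.Box.cut (Bern.Box.cut (Bern.Box.cut (Bern.Box.cut box3 2 Bern.Ax.right)
      0 Bern.Ax.right) 2 Bern.Ax.right) 1 Bern.Ax.left) 0 Bern.Ax.right) 2 Bern.Ax.left) 1
      Bern.Ax.right) 0 Bern.Ax.left) 0 Bern.Ax.right) 1 Bern.Ax.left) 2 Bern.Ax.left) = true ∧
    Bern.coverU row03.cfg3 row03.R3 .leaf (Bern.Box.cut (Bern.Box.cut (Bern.Box.cut (Bern.Box.cut
      (Bern.Box.cut (Bern.Box.cut (Bern.Box.cut (Bern.Box.cut (Bern.Box.cut (Bern.Box.cut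
      (Bern.Box.cut (Bern.Box.cut (Bern.Box.cut box3 2 Bern.Ax.right) 0 Bern.Ax.right) 2
      Bern.Ax.right) 1 Bern.Ax.left) 0 Bern.Ax.right) 2 Bern.Ax.left) 1 Bern.Ax.right) 0
      Bern.Ax.left) 0 Bern.Ax.right) 1 Bern.Ax.left) 2 Bern.Ax.right) 1 Bern.Ax.left) 0
      Bern.Ax.left) = true ∧
    Bern.coverU row03.cfg3 row03.R3 (.split 2 (.split 1 (.split 0 .leaf .leaf) .leaf) (.split 1
      (.split 2 (.split 0 .leaf (.split 1 .leaf .leaf)) .leaf) .leaf)) (Bern.Box.cut (Bern.Box.cut
      (Bern.Box.cut (Bern.Box.cut (Bern.Box.cut (Bern.Box.cut (Bern.Box.cut (Bern.Box.cut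
      (Bern.Box.cut (Bern.Box.cut (Bern.Box.cut (Bern.Box.cut (Bern.Box.cut box3 2 Bern.Ax.right)
      0 Bern.Ax.right) 2 Bern.Ax.right) 1 Bern.Ax.left) 0 Bern.Ax.right) 2 Bern.Ax.left) 1
      Bern.Ax.right) 0 Bern.Ax.left) 0 Bern.Ax.right) 1 Bern.Ax.left) 2 Bern.Ax.right) 1
      Bern.Ax.left) 0 Bern.Ax.right) = true ∧
    Bern.coverU row03.cfg3 row03.R3 .leaf (Bern.Box.cut (Bern.Box.cut (Bern.Box.cut (Bern.Box.cut
      (Bern.Box.cut (Bern.Box.cut (Bern.Box.cut (Bern.Box.cut (Bern.Box.cut (Bern.Box.cut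
      (Bern.Box.cut (Bern.Box.cut box3 2 Bern.Ax.right) 0 Bern.Ax.right) 2 Bern.Ax.right) 1
      Bern.Ax.left) 0 Bern.Ax.right) 2 Bern.Ax.left) 1 Bern.Ax.right) 0 Bern.Ax.left) 0
      Bern.Ax.right) 1 Bern.Ax.left) 2 Bern.Ax.right) 1 Bern.Ax.right) = true ∧
    Bern.coverU row03.cfg3 row03.R3 (.split 2 (.split 1 (.split 0 .leaf (.split 2 (.split 1
      (.split 2 (.split 0 .leaf .leaf) .leaf) .leaf) .leaf)) .leaf) .leaf) (Bern.Box.cut
      (Bern.Box.cut (Bern.Box.cut (Bern.Box.cut (Bern.Box.cut (Bern.Box.cut (Bern.Box.cut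
      (Bern.Box.cut (Bern.Box.cut (Bern.Box.cut box3 2 Bern.Ax.right) 0 Bern.Ax.right) 2
      Bern.Ax.right) 1 Bern.Ax.left) 0 Bern.Ax.right) 2 Bern.Ax.left) 1 Bern.Ax.right) 0
      Bern.Ax.left) 0 Bern.Ax.right) 1 Bern.Ax.right) = true ∧
    Bern.coverU row03.cfg3 row03.R3 (.split 0 (.split 1 .leaf (.split 2 (.split 0 .leaf .leaf)
      (.split 0 (.split 1 .leaf .leaf) .leaf))) .leaf) (Bern.Box.cut (Bern.Box.cut (Bern.Box.cut
      (Bern.Box.cut (Bern.Box.cut (Bern.Box.cut (Bern.Box.cut (Bern.Box.cut (Bern.Box.cut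
      (Bern.Box.cut (Bern.Box.cut box3 2 Bern.Ax.right) 0 Bern.Ax.right) 2 Bern.Ax.right) 1
      Bern.Ax.left) 0 Bern.Ax.right) 2 Bern.Ax.left) 1 Bern.Ax.right) 0 Bern.Ax.right) 0
      Bern.Ax.left) 1 Bern.Ax.left) 2 Bern.Ax.left) = true ∧
    Bern.coverU row03.cfg3 row03.R3 (.split 1 (.split 0 .leaf .leaf) (.split 0 (.split 0 (.split 1
      .leaf .leaf) .leaf) .leaf)) (Bern.Box.cut (Bern.Box.cut (Bern.Box.cut (Bern.Box.cut
      (Bern.Box.cut (Bern.Box.cut (Bern.Box.cut (Bern.Box.cut (Bern.Box.cut (Bern.Box.cut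
      (Bern.Box.cut (Bern.Box.cut (Bern.Box.cut (Bern.Box.cut box3 2 Bern.Ax.right) 0
      Bern.Ax.right) 2 Bern.Ax.right) 1 Bern.Ax.left) 0 Bern.Ax.right) 2 Bern.Ax.left) 1
      Bern.Ax.right) 0 Bern.Ax.right) 0 Bern.Ax.left) 1 Bern.Ax.left) 2 Bern.Ax.right) 0
      Bern.Ax.left) 1 Bern.Ax.left) 2 Bern.Ax.left) = true ∧
    Bern.coverU row03.cfg3 row03.R3 (.split 0 (.split 1 (.split 2 (.split 1 .leaf (.split 0 .leaf
      .leaf)) .leaf) (.split 0 .leaf .leaf)) .leaf) (Bern.Box.cut (Bern.Box.cut (Bern.Box.cut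
      (Bern.Box.cut (Bern.Box.cut (Bern.Box.cut (Bern.Box.cut (Bern.Box.cut (Bern.Box.cut
      (Bern.Box.cut (Bern.Box.cut (Bern.Box.cut (Bern.Box.cut (Bern.Box.cut box3 2 Bern.Ax.right)
      0 Bern.Ax.right) 2 Bern.Ax.right) 1 Bern.Ax.left) 0 Bern.Ax.right) 2 Bern.Ax.left) 1
      Bern.Ax.right) 0 Bern.Ax.right) 0 Bern.Ax.left) 1 Bern.Ax.left) 2 Bern.Ax.right) 0
      Bern.Ax.left) 1 Bern.Ax.left) 2 Bern.Ax.right) = true ∧
    Bern.coverU row03.cfg3 row03.R3 (.split 2 (.split 0 .leaf .leaf) .leaf) (Bern.Box.cut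
      (Bern.Box.cut (Bern.Box.cut (Bern.Box.cut (Bern.Box.cut (Bern.Box.cut (Bern.Box.cut
      (Bern.Box.cut (Bern.Box.cut (Bern.Box.cut (Bern.Box.cut (Bern.Box.cut (Bern.Box.cut box3 2
      Bern.Ax.right) 0 Bern.Ax.right) 2 Bern.Ax.right) 1 Bern.Ax.left) 0 Bern.Ax.right) 2
      Bern.Ax.left) 1 Bern.Ax.right) 0 Bern.Ax.right) 0 Bern.Ax.left) 1 Bern.Ax.left) 2
      Bern.Ax.right) 0 Bern.Ax.left) 1 Bern.Ax.right) = true ∧
    Bern.coverU row03.cfg3 row03.R3 .leaf (Bern.Box.cut (Bern.Box.cut (Bern.Box.cut (Bern.Box.cut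
      (Bern.Box.cut (Bern.Box.cut (Bern.Box.cut (Bern.Box.cut (Bern.Box.cut (Bern.Box.cut
      (Bern.Box.cut (Bern.Box.cut box3 2 Bern.Ax.right) 0 Bern.Ax.right) 2 Bern.Ax.right) 1
      Bern.Ax.left) 0 Bern.Ax.right) 2 Bern.Ax.left) 1 Bern.Ax.right) 0 Bern.Ax.right) 0
      Bern.Ax.left) 1 Bern.Ax.left) 2 Bern.Ax.right) 0 Bern.Ax.right) = true ∧
    Bern.coverU row03.cfg3 row03.R3 (.split 0 (.split 1 (.split 2 (.split 1 (.split 0 (.split 2
      .leaf .leaf) .leaf) .leaf) (.split 0 .leaf .leaf)) .leaf) .leaf) (Bern.Box.cut (Bern.Box.cut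
      (Bern.Box.cut (Bern.Box.cut (Bern.Box.cut (Bern.Box.cut (Bern.Box.cut (Bern.Box.cut
      (Bern.Box.cut (Bern.Box.cut (Bern.Box.cut box3 2 Bern.Ax.right) 0 Bern.Ax.right) 2
      Bern.Ax.right) 1 Bern.Ax.left) 0 Bern.Ax.right) 2 Bern.Ax.left) 1 Bern.Ax.right) 0
      Bern.Ax.right) 0 Bern.Ax.left) 1 Bern.Ax.right) 2 Bern.Ax.left) = true ∧
    Bern.coverU row03.cfg3 row03.R3 .leaf (Bern.Box.cut (Bern.Box.cut (Bern.Box.cut (Bern.Box.cut
      (Bern.Box.cut (Bern.Box.cut (Bern.Box.cut (Bern.Box.cut (Bern.Box.cut (Bern.Box.cut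
      (Bern.Box.cut box3 2 Bern.Ax.right) 0 Bern.Ax.right) 2 Bern.Ax.right) 1 Bern.Ax.left) 0
      Bern.Ax.right) 2 Bern.Ax.left) 1 Bern.Ax.right) 0 Bern.Ax.right) 0 Bern.Ax.left) 1
      Bern.Ax.right) 2 Bern.Ax.right) = true ∧
    Bern.coverU row03.cfg3 row03.R3 .leaf (Bern.Box.cut (Bern.Box.cut (Bern.Box.cut (Bern.Box.cut
      (Bern.Box.cut (Bern.Box.cut (Bern.Box.cut (Bern.Box.cut (Bern.Box.cut box3 2 Bern.Ax.right)
      0 Bern.Ax.right) 2 Bern.Ax.right) 1 Bern.Ax.left) 0 Bern.Ax.right) 2 Bern.Ax.left) 1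
      Bern.Ax.right) 0 Bern.Ax.right) 0 Bern.Ax.right) = true ∧
    Bern.coverU row03.cfg3 row03.R3 (.split 1 .leaf (.split 0 .leaf .leaf)) (Bern.Box.cut
      (Bern.Box.cut (Bern.Box.cut (Bern.Box.cut (Bern.Box.cut (Bern.Box.cut (Bern.Box.cut
      (Bern.Box.cut box3 2 Bern.Ax.right) 0 Bern.Ax.right) 2 Bern.Ax.right) 1 Bern.Ax.left) 0
      Bern.Ax.right) 2 Bern.Ax.right) 1 Bern.Ax.left) 0 Bern.Ax.left) = true ∧
    Bern.coverU row03.cfg3 row03.R3 (.split 2 .leaf (.split 2 .leaf (.split 2 .leaf (.split 1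
      .leaf (.split 2 (.split 1 .leaf .leaf) (.split 1 .leaf .leaf)))))) (Bern.Box.cut
      (Bern.Box.cut (Bern.Box.cut (Bern.Box.cut (Bern.Box.cut (Bern.Box.cut (Bern.Box.cut
      (Bern.Box.cut box3 2 Bern.Ax.right) 0 Bern.Ax.right) 2 Bern.Ax.right) 1 Bern.Ax.left) 0
      Bern.Ax.right) 2 Bern.Ax.right) 1 Bern.Ax.left) 0 Bern.Ax.right) = true ∧
    Bern.coverU row03.cfg3 row03.R3 (.split 0 .leaf (.split 0 .leaf (.split 2 .leaf .leaf)))
      (Bern.Box.cut (Bern.Box.cut (Bern.Box.cut (Bern.Box.cut (Bern.Box.cut (Bern.Box.cut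
      (Bern.Box.cut box3 2 Bern.Ax.right) 0 Bern.Ax.right) 2 Bern.Ax.right) 1 Bern.Ax.left) 0
      Bern.Ax.right) 2 Bern.Ax.right) 1 Bern.Ax.right) = true ∧
    Bern.coverU row03.cfg3 row03.R3 .leaf (Bern.Box.cut (Bern.Box.cut (Bern.Box.cut (Bern.Box.cut
      (Bern.Box.cut box3 2 Bern.Ax.right) 0 Bern.Ax.right) 2 Bern.Ax.right) 1 Bern.Ax.right) 0
      Bern.Ax.left) = true ∧
    Bern.coverU row03.cfg3 row03.R3 (.split 0 (.split 0 (.split 2 .leaf .leaf) .leaf) .leaf)
      (Bern.Box.cut (Bern.Box.cut (Bern.Box.cut (Bern.Box.cut (Bern.Box.cut (Bern.Box.cut box3 2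
      Bern.Ax.right) 0 Bern.Ax.right) 2 Bern.Ax.right) 1 Bern.Ax.right) 0 Bern.Ax.right) 2
      Bern.Ax.left) = true ∧
    Bern.coverU row03.cfg3 row03.R3 .leaf (Bern.Box.cut (Bern.Box.cut (Bern.Box.cut (Bern.Box.cut
      (Bern.Box.cut (Bern.Box.cut (Bern.Box.cut box3 2 Bern.Ax.right) 0 Bern.Ax.right) 2
      Bern.Ax.right) 1 Bern.Ax.right) 0 Bern.Ax.right) 2 Bern.Ax.right) 0 Bern.Ax.left) = true ∧
    Bern.coverU row03.cfg3 row03.R3 .leaf (Bern.Box.cut (Bern.Box.cut (Bern.Box.cut (Bern.Box.cut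
      (Bern.Box.cut (Bern.Box.cut (Bern.Box.cut (Bern.Box.cut box3 2 Bern.Ax.right) 0
      Bern.Ax.right) 2 Bern.Ax.right) 1 Bern.Ax.right) 0 Bern.Ax.right) 2 Bern.Ax.right) 0
      Bern.Ax.right) 0 Bern.Ax.left) = true ∧
    Bern.coverU row03.cfg3 row03.R3 .leaf (Bern.Box.cut (Bern.Box.cut (Bern.Box.cut (Bern.Box.cut
      (Bern.Box.cut (Bern.Box.cut (Bern.Box.cut (Bern.Box.cut (Bern.Box.cut box3 2 Bern.Ax.right)
      0 Bern.Ax.right) 2 Bern.Ax.right) 1 Bern.Ax.right) 0 Bern.Ax.right) 2 Bern.Ax.right) 0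
      Bern.Ax.right) 0 Bern.Ax.right) 2 Bern.Ax.left) = true ∧
    Bern.coverU row03.cfg3 row03.R3 (.split 1 (.split 1 (.split 0 .leaf (.split 1 .leaf (.split 0
      .leaf (.split 0 .leaf .leaf)))) .leaf) (.split 2 .leaf .leaf)) (Bern.Box.cut (Bern.Box.cut
      (Bern.Box.cut (Bern.Box.cut (Bern.Box.cut (Bern.Box.cut (Bern.Box.cut (Bern.Box.cut
      (Bern.Box.cut box3 2 Bern.Ax.right) 0 Bern.Ax.right) 2 Bern.Ax.right) 1 Bern.Ax.right) 0
      Bern.Ax.right) 2 Bern.Ax.right) 0 Bern.Ax.right) 0 Bern.Ax.right) 2 Bern.Ax.right) = true :=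
      by
  exact ⟨by decide +kernel, by decide +kernel, by decide +kernel,
    by decide +kernel, by decide +kernel, by decide +kernel, by decide +kernel,
    by decide +kernel, by decide +kernel, by decide +kernel, by decide +kernel,
    by decide +kernel, by decide +kernel, by decide +kernel, by decide +kernel,
    by decide +kernel, by decide +kernel, by decide +kernel, by decide +kernel,
    by decide +kernel, by decide +kernel, by decide +kernel, by decide +kernel,
    by decide +kernel, by decide +kernel, by decide +kernel, by decide +kernel,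
    by decide +kernel, by decide +kernel, by decide +kernel, by decide +kernel,
    by decide +kernel, by decide +kernel, by decide +kernel, by decide +kernel,
    by decide +kernel, by decide +kernel, by decide +kernel, by decide +kernel,
    by decide +kernel, by decide +kernel, by decide +kernel, by decide +kernel,
    by decide +kernel, by decide +kernel, by decide +kernel, by decide +kernel,
    by decide +kernel, by decide +kernel, by decide +kernel, by decide +kernel,
    by decide +kernel, by decide +kernel, by decide +kernel, by decide +kernel,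
    by decide +kernel, by decide +kernel, by decide +kernel, by decide +kernel,
    by decide +kernel, by decide +kernel, by decide +kernel, by decide +kernel,
    by decide +kernel, by decide +kernel, by decide +kernel, by decide +kernel,
    by decide +kernel, by decide +kernel, by decide +kernel, by decide +kernel,
    by decide +kernel, by decide +kernel, by decide +kernel, by decide +kernel,
    by decide +kernel, by decide +kernel, by decide +kernel, by decide +kernel,
    by decide +kernel, by decide +kernel, by decide +kernel, by decide +kernel,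
    by decide +kernel, by decide +kernel, by decide +kernel, by decide +kernel,
    by decide +kernel, by decide +kernel, by decide +kernel, by decide +kernel,
    by decide +kernel, by decide +kernel, by decide +kernel, by decide +kernel⟩

/-- The row passes the check. -/
theorem row03_ok : rowFor 0 3 row03 = true := by
  obtain ⟨hrest, h1, h2, h3, h4, h5, h6, h7, h8, h9, h10, h11, h12, h13, h14, h15, h16, h17, h18,
    h19, h20, h21, h22, h23, h24, h25, h26, h27, h28, h29, h30, h31, h32, h33, h34, h35, h36, h37,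
    h38, h39, h40, h41, h42, h43, h44, h45, h46, h47, h48, h49, h50, h51, h52, h53, h54, h55, h56,
    h57, h58, h59, h60, h61, h62, h63, h64, h65, h66, h67, h68, h69, h70, h71, h72, h73, h74, h75,
    h76, h77, h78, h79, h80, h81, h82, h83, h84, h85, h86, h87, h88, h89, h90, h91, h92, h93, h94⟩
    := row03_parts
  simp only [rowFor, Bool.and_eq_true, decide_eq_true_eq]
  exact ⟨⟨⟨rfl, rfl⟩, rfl⟩, rowCheck_of_quick hrest
    ((Bern.coverU_split (Bern.coverU_split h1 h2) (Bern.coverU_split (Bern.coverU_split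
      (Bern.coverU_split (Bern.coverU_split h3 (Bern.coverU_split h4 (Bern.coverU_split h5 h6)))
      h7) (Bern.coverU_split (Bern.coverU_split h8 h9) h10)) (Bern.coverU_split (Bern.coverU_split
      (Bern.coverU_split h11 (Bern.coverU_split (Bern.coverU_split h12 h13) h14))
      (Bern.coverU_split (Bern.coverU_split (Bern.coverU_split (Bern.coverU_split h15
      (Bern.coverU_split h16 (Bern.coverU_split h17 h18))) (Bern.coverU_split h19
      (Bern.coverU_split (Bern.coverU_split h20 h21) h22))) (Bern.coverU_split h23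
      (Bern.coverU_split (Bern.coverU_split h24 h25) h26))) (Bern.coverU_split (Bern.coverU_split
      (Bern.coverU_split h27 h28) (Bern.coverU_split (Bern.coverU_split (Bern.coverU_split
      (Bern.coverU_split h29 h30) h31) h32) h33)) h34))) (Bern.coverU_split (Bern.coverU_split h35
      (Bern.coverU_split h36 (Bern.coverU_split (Bern.coverU_split h37 (Bern.coverU_split h38
      (Bern.coverU_split h39 (Bern.coverU_split h40 h41)))) h42))) h43)))))
    ((Bern.coverU_split (Bern.coverU_split h44 (Bern.coverU_split (Bern.coverU_split h45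
      (Bern.coverU_split h46 (Bern.coverU_split h47 h48))) (Bern.coverU_split h49 h50)))
      (Bern.coverU_split (Bern.coverU_split (Bern.coverU_split h51 h52) h53) (Bern.coverU_split
      (Bern.coverU_split (Bern.coverU_split (Bern.coverU_split (Bern.coverU_split h54
      (Bern.coverU_split h55 h56)) h57) (Bern.coverU_split (Bern.coverU_split h58
      (Bern.coverU_split h59 h60)) h61)) (Bern.coverU_split (Bern.coverU_split h62
      (Bern.coverU_split h63 (Bern.coverU_split h64 h65))) h66)) (Bern.coverU_split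
      (Bern.coverU_split h67 (Bern.coverU_split (Bern.coverU_split (Bern.coverU_split
      (Bern.coverU_split h68 (Bern.coverU_split h69 h70)) h71) (Bern.coverU_split
      (Bern.coverU_split h72 (Bern.coverU_split (Bern.coverU_split h73 (Bern.coverU_split
      (Bern.coverU_split h74 h75) h76)) h77)) (Bern.coverU_split (Bern.coverU_split
      (Bern.coverU_split h78 (Bern.coverU_split (Bern.coverU_split (Bern.coverU_split h79 h80)
      h81) h82)) (Bern.coverU_split h83 h84)) h85))) (Bern.coverU_split (Bern.coverU_split h86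
      h87) h88))) (Bern.coverU_split h89 (Bern.coverU_split h90 (Bern.coverU_split h91
      (Bern.coverU_split h92 (Bern.coverU_split h93 h94))))))))))⟩

end Vale.Agent.P154.Anti
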