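import Vale.Agent.P154.Anti.RowData
import Vale.Agent.P154.RowQuick

/-!
P154: the certificate of the row of piece 1 and index 0.
-/

namespace Vale.Agent.P154.Anti

open Kron BudgetRow

/-- The polynomial which dominates the merged coefficient. -/
noncomputable def sym10 : List Term :=
  [
    (451558774687500, 0, 0, 0, 0), (-34098995138438295810, 0, 0, 1, 0),
    (149534915157004015764, 0, 0, 2, 0), (-5532486877045866240, 0, 1, 0, 0),
    (-91222378174506966390, 0, 1, 1, 0), (-2840821182463315185, 0, 1, 2, 0),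
    (-6429555432817833060, 0, 2, 0, 0), (-27319806415629223902, 0, 2, 1, 0),
    (19168721913988512756, 0, 3, 0, 0), (1171387421588054160, 0, 4, 0, 0),
    (341994763873198584, 1, 0, 0, 0), (139903926682212405540, 1, 0, 1, 0),
    (-255046139606701237095, 1, 0, 2, 0), (16782856895972260890, 1, 1, 0, 0),
    (137541839087556833436, 1, 1, 1, 0), (3688877378844277740, 1, 1, 2, 0),
    (27654868849286087550, 1, 2, 0, 0), (39913657971932318706, 1, 2, 1, 0),
    (-35172734936993029746, 1, 3, 0, 0), (-1264964974420328640, 1, 4, 0, 0),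
    (301004723309580, 2, 0, 0, 0), (-213905112068954763630, 2, 0, 1, 0),
    (181421446919941577565, 2, 0, 2, 0), (-29979797626987308000, 2, 1, 0, 0),
    (-62941266160866813672, 2, 1, 1, 0), (-1805983723621342710, 2, 1, 2, 0),
    (-46868660379886740876, 2, 2, 0, 0), (-23678476151044623948, 2, 2, 1, 0),
    (25977351697363140363, 2, 3, 0, 0), (517027240142782560, 2, 4, 0, 0),
    (-66879226106100, 3, 0, 0, 0), (181271354334827314986, 3, 0, 1, 0),
    (-68775423425972443350, 3, 0, 2, 0), (30646028085718488570, 3, 1, 0, 0),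
    (-4517213173344236484, 3, 1, 1, 0), (394493277995712396, 3, 1, 2, 0),
    (42562772825270214447, 3, 2, 0, 0), (7097194769958518724, 3, 2, 1, 0),
    (-9960277827140167104, 3, 3, 0, 0), (-94369564997528256, 3, 4, 0, 0),
    (5570955728820, 4, 0, 0, 0), (-100380508555252497678, 4, 0, 1, 0),
    (14653434755450135070, 4, 0, 2, 0), (-18399035817414983790, 4, 1, 0, 0),
    (13770036765366806322, 4, 1, 1, 0), (-32408319035390625, 4, 1, 2, 0),
    (-22727839214587572981, 4, 2, 0, 0), (-1071406033021777014, 4, 2, 1, 0),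
    (2096377552116828702, 4, 3, 0, 0), (6464672876250000, 4, 4, 0, 0), (-125708760, 5, 0, 0, 0),
    (39009903617267199774, 5, 0, 1, 0), (-1665980661460263507, 5, 0, 2, 0),
    (6292115958474385254, 5, 1, 0, 0), (-5003375415854746356, 5, 1, 1, 0),
    (7348078105021202508, 5, 2, 0, 0), (65021646691406250, 5, 2, 1, 0),
    (-229657028734692198, 5, 3, 0, 0), (42532776, 6, 0, 0, 0), (-10679877088438504482, 6, 0, 1, 0),
    (79196322710390625, 6, 0, 2, 0), (-972004080491957682, 6, 1, 0, 0),
    (781951809405205980, 6, 1, 1, 0), (-1414140072341765454, 6, 2, 0, 0),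
    (10215714846796875, 6, 3, 0, 0), (165177792, 7, 0, 0, 0), (1951249053608326566, 7, 0, 1, 0),
    (-68811605117977554, 7, 1, 0, 0), (-46834056250312500, 7, 1, 1, 0),
    (149020874285219559, 7, 2, 0, 0), (-93548196, 8, 0, 0, 0), (-210966296389402464, 8, 0, 1, 0),
    (54041499597022542, 8, 1, 0, 0), (-6616809355078125, 8, 2, 0, 0), (8542368, 9, 0, 0, 0),
    (10101941767968750, 9, 0, 1, 0), (-8298739261904904, 9, 1, 0, 0), (8858556, 10, 0, 0, 0),
    (444364837031250, 10, 1, 0, 0), (-3122508, 11, 0, 0, 0), (312500, 12, 0, 0, 0)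
  ]

/-- The nonnegative remainder in the invariants. -/
noncomputable def rem10 : Bern.Poly where
  pks := [(0, 1), (0, 2), (0, 3), (0, 4), (1, 0), (1, 1), (1, 2), (1, 3), (2, 0), (2, 1), (2, 2), (3, 0), (3, 1), (3, 2), (4, 0), (4, 1), (5, 0), (6, 0)]
  rows :=
  [((0, 0),
    [
      -12458781573120000, 114013185245184000, 0, 0, 714499686400000, 102149324013568000,
      -74138090995712000, 0, 51677355311104000, -148323157934080000, 0, -210729572499456000, 0, 0,
      286975666946048000, 0, 0, 0]),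
   ((0, 1),
    [
      1375457802977280000, -212994206480728064, -95378109890560000, 0, 242900533248000000,
      -2519736882275811328, 306500771787046912, -4262650183680000, -320705048927535104,
      2109236532205322240, -239370059120640000, -142387222375563264, -439920040017920000, 0,
      409569026341076992, -86386267914240000, -230363381104640000, 0]),
   ((0, 2),
    [
      731608294359040000, 2326445842309266432, -2775342856250000000, -938183123437500000,
      7365877217361920000, 6313297156608190464, -10108866907462662656, 81226155468750000,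
      -21092046630497026048, -18139210842787605120, 6087436726625430000, 29032880747564524032,
      12298490314573780000, 875204882226562500, -20943246246270745696, -623408182419290000,
      7825914656116640000, -1470584464550781250]),
   ((0, 3),
    [
      -6104199032995840000, 22202742850000000000, 5663123275000000000, -5023263675000000000,
      181873074503680000, 80292090471660800000, -72832765091421760000, -6137329981250000000,
      9671032092753920000, -189271139308767520000, 52507852575796760000, -53897134252919360000,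
      125671688279958480000, -8633953751562500000, 82672184445632440000, -28164263251285760000,
      -47193883159871320000, 6137722512695312500]),
   ((0, 4),
    [
      0, -60043719900000000000, 40186109400000000000, -1137441200000000000, 0, 9483915950000000000,
      78437119575000000000, -33106894362500000000, 0, 28586732950000000000, -70906120775000000000,
      30021859950000000000, -77312986062500000000, -1374190637500000000, -47974400875000000000,
      20076036985156250000, 31879718768750000000, 644544207031250000]),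
   ((1, 0),
    [
      -322802024448000000, 427784205915652096, -1420883394560000, 0, 221045273395200000,
      199039748634836992, -267300780526010368, 0, -642489729725497344, 292496013933936640,
      -2841766789120000, 491254497092304896, -290446584709120000, 0, -117325385839935488, 0,
      -57590845276160000, 0]),
   ((1, 1),
    [
      -9649406240358400000, -3451964248586892288, 5018255654478800000, -74093093359375000,
      -2801075748864000000, 34786805397654017024, 9554692721633639104, -4838977907535760000,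
      5487122350480556032, -42876612083180769920, -4450287654736650000, -7318985556204850688,
      27384847076867190000, -2182560977343750000, 5251567274524034464, -7333642613480237500,
      94415411390125000, -598580821875000000]),
   ((1, 2),
    [
      -7517846582067200000, -39611310274251712512, 36416382545710880000, 4902319973437500000,
      -15604501855600640000, -74318263700000986624, 163375096613923879296, -17895788604687500000,
      101290655388079751168, 212748238081259137920, -122745230573092710000, -230353167411395994112,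
      -134177289927004120000, -7035364410351562500, 232573617305593819936, -3518557728830210000,
      -81322701790593970000, 15438301595019531250]),
   ((1, 3),
    [
      -1091238447022080000, -2599236975000000000, -24549319925000000000, 16553447181250000000, 0,
      -309694586082288640000, 143166308837500000000, 16637557262500000000, 1636857670533120000,
      736375750355332640000, -147256533797795840000, 118214233356612960000, -361644080508268040000,
      -17295121654687500000, -291360086976471760000, 48509717651378820000, 193887425061397920000,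
      1422768745507812500]),
   ((2, 0),
    [
      503042780692480000, -5283186545237426176, -302219752898560000, 0, -2529484288819200000,
      -2836599252715569152, 6307337281111851008, -12787950551040000, 6109826807171134464,
      869244836875836160, -3216087917542870000, -7769545807471262976, 2275896289108660000,
      -111139640039062500, 6405371967270713728, -2691964131858375000, -2583704534360120000,
      -149645205468750000]),
   ((2, 1),
    [
      31702823846543360000, 34408011313615328512, -47317784827191880000, -893335404687500000,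
      -14460598678978560000, -174401155241968421376, -105706094170892367296, 46023484397208290000,
      -7933019965164935168, 267869555480383462080, 85062920110276055000, 136425953102715370112,
      -200688684474816200000, 5986199595117187500, -158020675659046607936, 52292531129744550000,
      12548805408107057500, 9377725888623046875]),
   ((2, 2),
    [
      30639367567441920000, 97398987626006880000, -105015705151593520000, -17726530193750000000,
      -727492298014720000, 142409204951572800000, -490980922292370840000, 73628266898897920000,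
      -205829626722743680000, -680503360882208440000, 507798338116225880000, 902586096423070000000,
      601174886108181080000, -40866575046484375000, -1002133108922528560000, -83981791989188017500,
      175102239482476175000, 3117372178125000000]),
   ((3, 0),
    [
      2651755275878400000, 30627104280102593024, 6737141781614920000, 469091561718750000,
      12331118913126400000, 16965325862651829248, -58206484767475902592, -3694194792394155000,
      -30234049768263054336, -68434520340573035840, 56411631026441875000, 35671308249949876224,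
      57807709823957390000, -11311155161230468750, -19843337934157853872, -218276137014690000,
      4340355552963770000, 3898148801904296875]),
   ((3, 1),
    [
      -28154882561146880000, -98387922516590240000, 125671688279958480000, 9664123257812500000,
      37177162842767360000, 438157553229875040000, 268354579854008240000, -90411020127067010000,
      -72828681251477120000, -802754737899264800000, -300587443054090540000, -462461678591659120000,
      702705376815539700000, -847375202734375000, 705120223410093550000, -174191953574499165000,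
      -101005687660041625000, -10721508840478515625]),
   ((3, 2),
    [
      0, 56013112462500000000, 69071630012500000000, -1374190637500000000, 0, 279367805100000000000,
      -112565830565625000000, 34590243309375000000, -28451747850000000000, -191558387043750000000,
      -163466300185937500000, -723913930318750000000, 6779001621875000000, 43941228835546875000,
      961802092446875000000, -49378796905859375000, -41363244639453125000, -35606414986328125000]),
   ((4, 0),
    [
      -22122850093629440000, -84973904661940597120, -41336092222816220000, -2998400054687500000,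
      -6653441086586880000, -48550544504046890240, 231370132553088348960, 36420010872058970000,
      102179785680949319680, 308631954184070019200, -250533277230632140000, -92288476406388413120,
      -352560111705046775000, 60112630777929687500, -82362585552457304640, 64228515329806386250,
      73780471651641672500, -9566251038964843750]),
   ((4, 1),
    [
      -22114884586045440000, 19949061837417280000, -112657053005143040000, -10038018492578125000, 0,
      -469353127262735200000, 28148461830641680000, 48509717651378820000, 344571408877872000000,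
      836680498075912800000, 167963583978376035000, 6984836384470080000, -696767814297996660000,
      24689398452929687500, -513828122638451090000, 128945004272699127500, -19385478471885847500,
      -13222248591699218750]),
   ((5, 0),
    [
      29486512781393920000, 125214634497866240000, 94387766319742640000, 7969929692187500000,
      -14743256390696960000, -3021293164484000000, -325290807162375880000, -96943712530698960000,
      -165357090199047680000, -100390443264856460000, 175102239482476175000, 69445688847420320000,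
      202011375320083250000, -10340811159863281250, 295121886606566690000, 9692739235942923750,
      -130830841674510310000, -18871462973291015625]),
   ((6, 0),
    [
      0, -94117405731250000000, -49101780101562500000, 644544207031250000, 0, 76618345200000000000,
      247012825520312500000, -2845537491015625000, -38309172600000000000, -300087228435937500000,
      12469488712500000000, 249481523321875000000, 85772070723828125000, -35606414986328125000,
      -153060016623437500000, 26444497183398437500, -75485851893164062500, 50170112946289062500])]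

/-- The nonnegative remainder in three variables. -/
noncomputable def dom10 : Bern.Poly where
  pks := [(0, 1), (1, 0), (1, 1), (2, 0), (2, 1), (3, 0), (3, 1), (4, 0), (5, 0)]
  rows :=
  [((0, 0),
    [
      2917004250808125000, 451558774687500, 1627565971290190312500, -114373097461785937500,
      27048631803877319062500, -10234333784682039375000, -82073098940305626562500,
      -7917592675479215625000, 99150305830368030000000]),
   ((0, 1),
    [
      124145762587508736, 0, -1830172618842792187500, 1489749151050104832,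
      -418072650293251074375000, 45964198229644468125000, -2917113756611348638125000,
      1680078139413485774062500, 1751503742409993367500000]),
   ((0, 2),
    [
      -920713729143472128, 0, -82864235622912491520, -11048564749721665536, -2610223422121743482880,
      -497185413737474949120, -1517285962582212405937500, 423514740171639341250000,
      1308496912033332999375000]),
   ((1, 0),
    [
      -2069172317578199040, 0, 290084620073065312500, 124547077869300000000,
      335082844740283427812500, -30517850694427062187500, 3570620757005310198750000,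
      -1614871854792486210937500, -2885915070717995984062500]),
   ((1, 1),
    [
      350259184467836928, 0, 31523326602105323520, 4203110213614043136, 133995212166397474687500,
      189139959612631941120, 4300656845170344629062500, -1512162394776979689375000,
      -3418666562418521869687500]),
   ((1, 2),
    [
      -64724202179002368, 0, -5825178196110213120, -776690426148028416, -183493113177471713280,
      -34951069176661278720, -3963451244633389006848, -880766943251864223744,
      206677313717844349687500]),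
   ((2, 0),
    [
      -394484993088159744, 0, -35503649377934376960, -4733819917057916928, -75423862429176051562500,
      -4900167806791806562500, -5595278593004228311875000, 1408752688329769741875000,
      6180858896342300769375000]),
   ((2, 1),
    [
      2596502958266253312, 0, 233685266243962798080, 31158035499195039744, 7361085886684828139520,
      1402111597463776788480, -916472044205267740312500, 35333212256087175069696,
      1245947181570158911875000]),
   ((3, 0),
    [
      -1227125133718585344, 0, -110441262034672680960, -14725501604623024128,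
      -3478899754092189450240, -662647572208036085760, 3241232049035172231562500,
      -393996672252678405937500, -4766335687338061725000000]),
   ((4, 0),
    [
      -1311691560188903424, 0, -118052240417001308160, -15740298722266841088,
      -3718645573135541207040, -708313442502007848960, -80322744379727690072064,
      -17849498751050597793792, 278282969660201276250000])]

/-- A subdivision. -/
noncomputable def cov10 : Bern.Cover :=
  (.split 0 (.split 3 (.split 2 (.split 2 (.split 2 .leaf .leaf) .leaf) .leaf)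
  (.split 3 .leaf .leaf)) (.split 2 (.split 1 (.split 0 (.split 0 (.split 1 .leaf
  .leaf) (.split 2 .leaf (.split 1 .leaf (.split 0 (.split 1 .leaf .leaf) .leaf))))
  .leaf) (.split 0 (.split 2 .leaf (.split 0 (.split 0 .leaf .leaf) .leaf)) .leaf))
  (.split 1 (.split 0 (.split 3 (.split 0 .leaf .leaf) (.split 3 (.split 0 (.split 1
  .leaf .leaf) (.split 1 .leaf .leaf)) .leaf)) (.split 3 (.split 2 (.split 1 .leaf
  (.split 1 .leaf (.split 2 (.split 3 (.split 1 .leaf (.split 2 .leaf .leaf)) .leaf)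
  (.split 3 (.split 1 .leaf .leaf) .leaf)))) (.split 0 (.split 1 .leaf .leaf) (.split
  3 (.split 0 .leaf (.split 1 .leaf (.split 2 .leaf .leaf))) (.split 1 .leaf
  .leaf)))) (.split 1 (.split 0 (.split 0 .leaf (.split 1 (.split 3 .leaf .leaf)
  .leaf)) (.split 2 (.split 1 (.split 3 (.split 2 .leaf (.split 0 .leaf (.split 1
  .leaf .leaf))) .leaf) .leaf) (.split 1 .leaf .leaf))) .leaf))) (.split 3 (.split 0
  .leaf (.split 2 .leaf (.split 0 .leaf (.split 3 (.split 2 .leaf (.split 0 .leaf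
  (.split 3 (.split 1 (.split 0 .leaf .leaf) .leaf) .leaf))) .leaf)))) (.split 0 .leaf
  .leaf)))))

/-- A subdivision. -/
noncomputable def covDom10 : Bern.Cover :=
  (.split 2 (.split 2 (.split 2 .leaf (.split 2 .leaf .leaf)) (.split 1 (.split 0
  (.split 2 .leaf (.split 0 (.split 2 .leaf .leaf) (.split 2 .leaf (.split 0 .leaf
  .leaf)))) (.split 1 .leaf (.split 2 (.split 1 .leaf (.split 2 .leaf (.split 1
  (.split 2 .leaf (.split 1 .leaf .leaf)) .leaf))) (.split 1 .leaf .leaf)))) (.split 0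
  (.split 2 .leaf (.split 0 (.split 2 .leaf .leaf) (.split 2 .leaf (.split 0 (.split
  2 .leaf .leaf) .leaf)))) (.split 2 .leaf .leaf)))) (.split 0 (.split 2 (.split 0
  .leaf (.split 2 (.split 1 (.split 2 (.split 1 (.split 0 .leaf .leaf) .leaf) .leaf)
  (.split 0 .leaf (.split 0 .leaf .leaf))) .leaf)) (.split 2 (.split 2 .leaf (.split
  2 .leaf (.split 2 (.split 2 .leaf .leaf) .leaf))) .leaf)) (.split 2 (.split 1
  (.split 0 (.split 2 (.split 1 (.split 2 (.split 0 .leaf .leaf) .leaf) (.split 2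
  (.split 0 (.split 2 (.split 1 (.split 0 .leaf (.split 0 .leaf .leaf)) .leaf)
  (.split 1 .leaf .leaf)) (.split 1 (.split 2 .leaf .leaf) (.split 2 .leaf .leaf)))
  (.split 0 .leaf (.split 1 .leaf .leaf)))) (.split 1 .leaf .leaf)) (.split 0 (.split
  1 .leaf (.split 2 (.split 1 .leaf .leaf) (.split 1 (.split 0 .leaf (.split 0 .leaf
  .leaf)) (.split 0 .leaf (.split 2 .leaf (.split 0 .leaf (.split 1 (.split 1 (.split
  0 .leaf (.split 0 .leaf .leaf)) (.split 0 .leaf .leaf)) .leaf))))))) (.split 1 .leaf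
  (.split 1 .leaf (.split 1 .leaf .leaf))))) (.split 0 (.split 2 (.split 0 .leaf
  .leaf) (.split 0 (.split 2 .leaf .leaf) (.split 2 (.split 0 (.split 2 .leaf (.split
  0 .leaf (.split 2 .leaf .leaf))) .leaf) (.split 0 .leaf (.split 0 .leaf .leaf)))))
  (.split 2 .leaf (.split 0 .leaf .leaf)))) (.split 1 (.split 0 (.split 2 .leaf
  .leaf) (.split 1 (.split 2 (.split 0 (.split 1 (.split 0 .leaf .leaf) (.split 0
  .leaf (.split 2 .leaf (.split 0 .leaf (.split 2 .leaf (.split 1 .leaf (.split 0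
  .leaf .leaf))))))) (.split 2 .leaf (.split 2 .leaf (.split 0 (.split 2 .leaf .leaf)
  .leaf)))) (.split 0 (.split 1 .leaf (.split 0 .leaf .leaf)) (.split 2 .leaf (.split
  2 .leaf (.split 1 .leaf (.split 2 .leaf (.split 2 (.split 1 .leaf .leaf) (.split 1
  .leaf .leaf)))))))) (.split 0 (.split 2 (.split 0 .leaf (.split 1 (.split 2 (.split
  2 (.split 0 .leaf (.split 2 .leaf .leaf)) (.split 1 .leaf .leaf)) (.split 1 (.split
  2 .leaf (.split 2 (.split 1 (.split 0 .leaf .leaf) .leaf) .leaf)) .leaf)) (.split 2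
  (.split 1 (.split 0 .leaf (.split 2 (.split 1 (.split 0 .leaf (.split 2 (.split 0
  .leaf .leaf) .leaf)) .leaf) .leaf)) .leaf) .leaf))) .leaf) (.split 2 (.split 0
  (.split 1 (.split 2 (.split 0 (.split 1 .leaf (.split 2 (.split 0 .leaf .leaf)
  (.split 0 (.split 0 .leaf .leaf) .leaf))) .leaf) (.split 0 (.split 1 (.split 2
  (.split 0 (.split 1 .leaf (.split 0 .leaf .leaf)) .leaf) (.split 0 (.split 1
  (.split 2 (.split 0 (.split 1 .leaf (.split 0 .leaf .leaf)) (.split 1 .leaf .leaf))
  .leaf) (.split 0 .leaf (.split 0 .leaf .leaf))) .leaf)) (.split 2 (.split 0 .leaf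
  .leaf) .leaf)) .leaf)) (.split 2 (.split 0 (.split 2 (.split 1 (.split 0 (.split 1
  (.split 2 .leaf .leaf) .leaf) .leaf) .leaf) .leaf) .leaf) .leaf)) .leaf) (.split 0
  (.split 0 .leaf .leaf) (.split 2 .leaf .leaf)))))) (.split 0 .leaf (.split 2 (.split
  0 .leaf .leaf) (.split 0 .leaf (.split 0 .leaf (.split 2 .leaf (.split 1 (.split 1
  (.split 0 .leaf (.split 1 (.split 0 .leaf .leaf) (.split 0 .leaf .leaf))) .leaf)
  (.split 2 .leaf .leaf)))))))))))

/-- The row. -/
noncomputable def row10 : Row where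
  W := terms 3
  D := slopeT 1 0
  G := sym10
  a := 23219011584
  e := slopeE 1
  kR := 524288
  kG := 754974720000000
  kP := 3375
  I := 12
  J := 8
  P := rem10
  cfg := ⟨12, 12, 10, 12, 12, 289⟩
  cov := cov10
  lay := ⟨166, 13, 13, 13, 13⟩
  R3 := dom10
  cfg3 := ⟨8, 8, 8, 10, 10, 540⟩
  cov3 := covDom10
  lay3 := ⟨98, 5, 3, 15, 1⟩

set_option maxHeartbeats 8000000 in
/-- All parts of the check, evaluated one after another. -/
theorem row10_parts :
    rowRest (terms 0) row10 = true ∧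
    Bern.coverU row10.cfg row10.P (.split 2 (.split 2 .leaf .leaf) .leaf) (Bern.Box.cut
      (Bern.Box.cut (Bern.Box.cut Bern.unitBox 0 Bern.Ax.left) 3 Bern.Ax.left) 2 Bern.Ax.left) =
      true ∧
    Bern.coverU row10.cfg row10.P .leaf (Bern.Box.cut (Bern.Box.cut (Bern.Box.cut Bern.unitBox 0
      Bern.Ax.left) 3 Bern.Ax.left) 2 Bern.Ax.right) = true ∧
    Bern.coverU row10.cfg row10.P (.split 3 .leaf .leaf) (Bern.Box.cut (Bern.Box.cut Bern.unitBox
      0 Bern.Ax.left) 3 Bern.Ax.right) = true ∧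
    Bern.coverU row10.cfg row10.P (.split 1 .leaf .leaf) (Bern.Box.cut (Bern.Box.cut (Bern.Box.cut
      (Bern.Box.cut (Bern.Box.cut Bern.unitBox 0 Bern.Ax.right) 2 Bern.Ax.left) 1 Bern.Ax.left) 0
      Bern.Ax.left) 0 Bern.Ax.left) = true ∧
    Bern.coverU row10.cfg row10.P .leaf (Bern.Box.cut (Bern.Box.cut (Bern.Box.cut (Bern.Box.cut
      (Bern.Box.cut (Bern.Box.cut Bern.unitBox 0 Bern.Ax.right) 2 Bern.Ax.left) 1 Bern.Ax.left) 0
      Bern.Ax.left) 0 Bern.Ax.right) 2 Bern.Ax.left) = true ∧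
    Bern.coverU row10.cfg row10.P .leaf (Bern.Box.cut (Bern.Box.cut (Bern.Box.cut (Bern.Box.cut
      (Bern.Box.cut (Bern.Box.cut (Bern.Box.cut Bern.unitBox 0 Bern.Ax.right) 2 Bern.Ax.left) 1
      Bern.Ax.left) 0 Bern.Ax.left) 0 Bern.Ax.right) 2 Bern.Ax.right) 1 Bern.Ax.left) = true ∧
    Bern.coverU row10.cfg row10.P (.split 0 (.split 1 .leaf .leaf) .leaf) (Bern.Box.cut
      (Bern.Box.cut (Bern.Box.cut (Bern.Box.cut (Bern.Box.cut (Bern.Box.cut (Bern.Box.cut
      Bern.unitBox 0 Bern.Ax.right) 2 Bern.Ax.left) 1 Bern.Ax.left) 0 Bern.Ax.left) 0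
      Bern.Ax.right) 2 Bern.Ax.right) 1 Bern.Ax.right) = true ∧
    Bern.coverU row10.cfg row10.P .leaf (Bern.Box.cut (Bern.Box.cut (Bern.Box.cut (Bern.Box.cut
      Bern.unitBox 0 Bern.Ax.right) 2 Bern.Ax.left) 1 Bern.Ax.left) 0 Bern.Ax.right) = true ∧
    Bern.coverU row10.cfg row10.P .leaf (Bern.Box.cut (Bern.Box.cut (Bern.Box.cut (Bern.Box.cut
      (Bern.Box.cut Bern.unitBox 0 Bern.Ax.right) 2 Bern.Ax.left) 1 Bern.Ax.right) 0 Bern.Ax.left)
      2 Bern.Ax.left) = true ∧
    Bern.coverU row10.cfg row10.P (.split 0 (.split 0 .leaf .leaf) .leaf) (Bern.Box.cut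
      (Bern.Box.cut (Bern.Box.cut (Bern.Box.cut (Bern.Box.cut Bern.unitBox 0 Bern.Ax.right) 2
      Bern.Ax.left) 1 Bern.Ax.right) 0 Bern.Ax.left) 2 Bern.Ax.right) = true ∧
    Bern.coverU row10.cfg row10.P .leaf (Bern.Box.cut (Bern.Box.cut (Bern.Box.cut (Bern.Box.cut
      Bern.unitBox 0 Bern.Ax.right) 2 Bern.Ax.left) 1 Bern.Ax.right) 0 Bern.Ax.right) = true ∧
    Bern.coverU row10.cfg row10.P (.split 0 .leaf .leaf) (Bern.Box.cut (Bern.Box.cut (Bern.Box.cut
      (Bern.Box.cut (Bern.Box.cut Bern.unitBox 0 Bern.Ax.right) 2 Bern.Ax.right) 1 Bern.Ax.left) 0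
      Bern.Ax.left) 3 Bern.Ax.left) = true ∧
    Bern.coverU row10.cfg row10.P (.split 1 .leaf .leaf) (Bern.Box.cut (Bern.Box.cut (Bern.Box.cut
      (Bern.Box.cut (Bern.Box.cut (Bern.Box.cut (Bern.Box.cut Bern.unitBox 0 Bern.Ax.right) 2
      Bern.Ax.right) 1 Bern.Ax.left) 0 Bern.Ax.left) 3 Bern.Ax.right) 3 Bern.Ax.left) 0
      Bern.Ax.left) = true ∧
    Bern.coverU row10.cfg row10.P (.split 1 .leaf .leaf) (Bern.Box.cut (Bern.Box.cut (Bern.Box.cut
      (Bern.Box.cut (Bern.Box.cut (Bern.Box.cut (Bern.Box.cut Bern.unitBox 0 Bern.Ax.right) 2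
      Bern.Ax.right) 1 Bern.Ax.left) 0 Bern.Ax.left) 3 Bern.Ax.right) 3 Bern.Ax.left) 0
      Bern.Ax.right) = true ∧
    Bern.coverU row10.cfg row10.P .leaf (Bern.Box.cut (Bern.Box.cut (Bern.Box.cut (Bern.Box.cut
      (Bern.Box.cut (Bern.Box.cut Bern.unitBox 0 Bern.Ax.right) 2 Bern.Ax.right) 1 Bern.Ax.left) 0
      Bern.Ax.left) 3 Bern.Ax.right) 3 Bern.Ax.right) = true ∧
    Bern.coverU row10.cfg row10.P .leaf (Bern.Box.cut (Bern.Box.cut (Bern.Box.cut (Bern.Box.cut
      (Bern.Box.cut (Bern.Box.cut (Bern.Box.cut Bern.unitBox 0 Bern.Ax.right) 2 Bern.Ax.right) 1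
      Bern.Ax.left) 0 Bern.Ax.right) 3 Bern.Ax.left) 2 Bern.Ax.left) 1 Bern.Ax.left) = true ∧
    Bern.coverU row10.cfg row10.P .leaf (Bern.Box.cut (Bern.Box.cut (Bern.Box.cut (Bern.Box.cut
      (Bern.Box.cut (Bern.Box.cut (Bern.Box.cut (Bern.Box.cut Bern.unitBox 0 Bern.Ax.right) 2
      Bern.Ax.right) 1 Bern.Ax.left) 0 Bern.Ax.right) 3 Bern.Ax.left) 2 Bern.Ax.left) 1
      Bern.Ax.right) 1 Bern.Ax.left) = true ∧
    Bern.coverU row10.cfg row10.P (.split 1 .leaf (.split 2 .leaf .leaf)) (Bern.Box.cut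
      (Bern.Box.cut (Bern.Box.cut (Bern.Box.cut (Bern.Box.cut (Bern.Box.cut (Bern.Box.cut
      (Bern.Box.cut (Bern.Box.cut (Bern.Box.cut Bern.unitBox 0 Bern.Ax.right) 2 Bern.Ax.right) 1
      Bern.Ax.left) 0 Bern.Ax.right) 3 Bern.Ax.left) 2 Bern.Ax.left) 1 Bern.Ax.right) 1
      Bern.Ax.right) 2 Bern.Ax.left) 3 Bern.Ax.left) = true ∧
    Bern.coverU row10.cfg row10.P .leaf (Bern.Box.cut (Bern.Box.cut (Bern.Box.cut (Bern.Box.cut
      (Bern.Box.cut (Bern.Box.cut (Bern.Box.cut (Bern.Box.cut (Bern.Box.cut (Bern.Box.cut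
      Bern.unitBox 0 Bern.Ax.right) 2 Bern.Ax.right) 1 Bern.Ax.left) 0 Bern.Ax.right) 3
      Bern.Ax.left) 2 Bern.Ax.left) 1 Bern.Ax.right) 1 Bern.Ax.right) 2 Bern.Ax.left) 3
      Bern.Ax.right) = true ∧
    Bern.coverU row10.cfg row10.P (.split 3 (.split 1 .leaf .leaf) .leaf) (Bern.Box.cut
      (Bern.Box.cut (Bern.Box.cut (Bern.Box.cut (Bern.Box.cut (Bern.Box.cut (Bern.Box.cut
      (Bern.Box.cut (Bern.Box.cut Bern.unitBox 0 Bern.Ax.right) 2 Bern.Ax.right) 1 Bern.Ax.left) 0
      Bern.Ax.right) 3 Bern.Ax.left) 2 Bern.Ax.left) 1 Bern.Ax.right) 1 Bern.Ax.right) 2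
      Bern.Ax.right) = true ∧
    Bern.coverU row10.cfg row10.P (.split 1 .leaf .leaf) (Bern.Box.cut (Bern.Box.cut (Bern.Box.cut
      (Bern.Box.cut (Bern.Box.cut (Bern.Box.cut (Bern.Box.cut Bern.unitBox 0 Bern.Ax.right) 2
      Bern.Ax.right) 1 Bern.Ax.left) 0 Bern.Ax.right) 3 Bern.Ax.left) 2 Bern.Ax.right) 0
      Bern.Ax.left) = true ∧
    Bern.coverU row10.cfg row10.P .leaf (Bern.Box.cut (Bern.Box.cut (Bern.Box.cut (Bern.Box.cut
      (Bern.Box.cut (Bern.Box.cut (Bern.Box.cut (Bern.Box.cut (Bern.Box.cut Bern.unitBox 0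
      Bern.Ax.right) 2 Bern.Ax.right) 1 Bern.Ax.left) 0 Bern.Ax.right) 3 Bern.Ax.left) 2
      Bern.Ax.right) 0 Bern.Ax.right) 3 Bern.Ax.left) 0 Bern.Ax.left) = true ∧
    Bern.coverU row10.cfg row10.P (.split 1 .leaf (.split 2 .leaf .leaf)) (Bern.Box.cut
      (Bern.Box.cut (Bern.Box.cut (Bern.Box.cut (Bern.Box.cut (Bern.Box.cut (Bern.Box.cut
      (Bern.Box.cut (Bern.Box.cut Bern.unitBox 0 Bern.Ax.right) 2 Bern.Ax.right) 1 Bern.Ax.left) 0
      Bern.Ax.right) 3 Bern.Ax.left) 2 Bern.Ax.right) 0 Bern.Ax.right) 3 Bern.Ax.left) 0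
      Bern.Ax.right) = true ∧
    Bern.coverU row10.cfg row10.P (.split 1 .leaf .leaf) (Bern.Box.cut (Bern.Box.cut (Bern.Box.cut
      (Bern.Box.cut (Bern.Box.cut (Bern.Box.cut (Bern.Box.cut (Bern.Box.cut Bern.unitBox 0
      Bern.Ax.right) 2 Bern.Ax.right) 1 Bern.Ax.left) 0 Bern.Ax.right) 3 Bern.Ax.left) 2
      Bern.Ax.right) 0 Bern.Ax.right) 3 Bern.Ax.right) = true ∧
    Bern.coverU row10.cfg row10.P .leaf (Bern.Box.cut (Bern.Box.cut (Bern.Box.cut (Bern.Box.cut
      (Bern.Box.cut (Bern.Box.cut (Bern.Box.cut (Bern.Box.cut Bern.unitBox 0 Bern.Ax.right) 2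
      Bern.Ax.right) 1 Bern.Ax.left) 0 Bern.Ax.right) 3 Bern.Ax.right) 1 Bern.Ax.left) 0
      Bern.Ax.left) 0 Bern.Ax.left) = true ∧
    Bern.coverU row10.cfg row10.P (.split 1 (.split 3 .leaf .leaf) .leaf) (Bern.Box.cut
      (Bern.Box.cut (Bern.Box.cut (Bern.Box.cut (Bern.Box.cut (Bern.Box.cut (Bern.Box.cut
      (Bern.Box.cut Bern.unitBox 0 Bern.Ax.right) 2 Bern.Ax.right) 1 Bern.Ax.left) 0
      Bern.Ax.right) 3 Bern.Ax.right) 1 Bern.Ax.left) 0 Bern.Ax.left) 0 Bern.Ax.right) = true ∧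
    Bern.coverU row10.cfg row10.P .leaf (Bern.Box.cut (Bern.Box.cut (Bern.Box.cut (Bern.Box.cut
      (Bern.Box.cut (Bern.Box.cut (Bern.Box.cut (Bern.Box.cut (Bern.Box.cut (Bern.Box.cut
      (Bern.Box.cut Bern.unitBox 0 Bern.Ax.right) 2 Bern.Ax.right) 1 Bern.Ax.left) 0
      Bern.Ax.right) 3 Bern.Ax.right) 1 Bern.Ax.left) 0 Bern.Ax.right) 2 Bern.Ax.left) 1
      Bern.Ax.left) 3 Bern.Ax.left) 2 Bern.Ax.left) = true ∧
    Bern.coverU row10.cfg row10.P (.split 0 .leaf (.split 1 .leaf .leaf)) (Bern.Box.cut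
      (Bern.Box.cut (Bern.Box.cut (Bern.Box.cut (Bern.Box.cut (Bern.Box.cut (Bern.Box.cut
      (Bern.Box.cut (Bern.Box.cut (Bern.Box.cut (Bern.Box.cut Bern.unitBox 0 Bern.Ax.right) 2
      Bern.Ax.right) 1 Bern.Ax.left) 0 Bern.Ax.right) 3 Bern.Ax.right) 1 Bern.Ax.left) 0
      Bern.Ax.right) 2 Bern.Ax.left) 1 Bern.Ax.left) 3 Bern.Ax.left) 2 Bern.Ax.right) = true ∧
    Bern.coverU row10.cfg row10.P .leaf (Bern.Box.cut (Bern.Box.cut (Bern.Box.cut (Bern.Box.cut
      (Bern.Box.cut (Bern.Box.cut (Bern.Box.cut (Bern.Box.cut (Bern.Box.cut (Bern.Box.cut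
      Bern.unitBox 0 Bern.Ax.right) 2 Bern.Ax.right) 1 Bern.Ax.left) 0 Bern.Ax.right) 3
      Bern.Ax.right) 1 Bern.Ax.left) 0 Bern.Ax.right) 2 Bern.Ax.left) 1 Bern.Ax.left) 3
      Bern.Ax.right) = true ∧
    Bern.coverU row10.cfg row10.P .leaf (Bern.Box.cut (Bern.Box.cut (Bern.Box.cut (Bern.Box.cut
      (Bern.Box.cut (Bern.Box.cut (Bern.Box.cut (Bern.Box.cut (Bern.Box.cut Bern.unitBox 0
      Bern.Ax.right) 2 Bern.Ax.right) 1 Bern.Ax.left) 0 Bern.Ax.right) 3 Bern.Ax.right) 1
      Bern.Ax.left) 0 Bern.Ax.right) 2 Bern.Ax.left) 1 Bern.Ax.right) = true ∧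
    Bern.coverU row10.cfg row10.P (.split 1 .leaf .leaf) (Bern.Box.cut (Bern.Box.cut (Bern.Box.cut
      (Bern.Box.cut (Bern.Box.cut (Bern.Box.cut (Bern.Box.cut (Bern.Box.cut Bern.unitBox 0
      Bern.Ax.right) 2 Bern.Ax.right) 1 Bern.Ax.left) 0 Bern.Ax.right) 3 Bern.Ax.right) 1
      Bern.Ax.left) 0 Bern.Ax.right) 2 Bern.Ax.right) = true ∧
    Bern.coverU row10.cfg row10.P .leaf (Bern.Box.cut (Bern.Box.cut (Bern.Box.cut (Bern.Box.cut
      (Bern.Box.cut (Bern.Box.cut Bern.unitBox 0 Bern.Ax.right) 2 Bern.Ax.right) 1 Bern.Ax.left) 0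
      Bern.Ax.right) 3 Bern.Ax.right) 1 Bern.Ax.right) = true ∧
    Bern.coverU row10.cfg row10.P .leaf (Bern.Box.cut (Bern.Box.cut (Bern.Box.cut (Bern.Box.cut
      (Bern.Box.cut Bern.unitBox 0 Bern.Ax.right) 2 Bern.Ax.right) 1 Bern.Ax.right) 3
      Bern.Ax.left) 0 Bern.Ax.left) = true ∧
    Bern.coverU row10.cfg row10.P .leaf (Bern.Box.cut (Bern.Box.cut (Bern.Box.cut (Bern.Box.cut
      (Bern.Box.cut (Bern.Box.cut Bern.unitBox 0 Bern.Ax.right) 2 Bern.Ax.right) 1 Bern.Ax.right)
      3 Bern.Ax.left) 0 Bern.Ax.right) 2 Bern.Ax.left) = true ∧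
    Bern.coverU row10.cfg row10.P .leaf (Bern.Box.cut (Bern.Box.cut (Bern.Box.cut (Bern.Box.cut
      (Bern.Box.cut (Bern.Box.cut (Bern.Box.cut Bern.unitBox 0 Bern.Ax.right) 2 Bern.Ax.right) 1
      Bern.Ax.right) 3 Bern.Ax.left) 0 Bern.Ax.right) 2 Bern.Ax.right) 0 Bern.Ax.left) = true ∧
    Bern.coverU row10.cfg row10.P .leaf (Bern.Box.cut (Bern.Box.cut (Bern.Box.cut (Bern.Box.cut
      (Bern.Box.cut (Bern.Box.cut (Bern.Box.cut (Bern.Box.cut (Bern.Box.cut Bern.unitBox 0
      Bern.Ax.right) 2 Bern.Ax.right) 1 Bern.Ax.right) 3 Bern.Ax.left) 0 Bern.Ax.right) 2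
      Bern.Ax.right) 0 Bern.Ax.right) 3 Bern.Ax.left) 2 Bern.Ax.left) = true ∧
    Bern.coverU row10.cfg row10.P .leaf (Bern.Box.cut (Bern.Box.cut (Bern.Box.cut (Bern.Box.cut
      (Bern.Box.cut (Bern.Box.cut (Bern.Box.cut (Bern.Box.cut (Bern.Box.cut (Bern.Box.cut
      Bern.unitBox 0 Bern.Ax.right) 2 Bern.Ax.right) 1 Bern.Ax.right) 3 Bern.Ax.left) 0
      Bern.Ax.right) 2 Bern.Ax.right) 0 Bern.Ax.right) 3 Bern.Ax.left) 2 Bern.Ax.right) 0
      Bern.Ax.left) = true ∧
    Bern.coverU row10.cfg row10.P (.split 1 (.split 0 .leaf .leaf) .leaf) (Bern.Box.cut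
      (Bern.Box.cut (Bern.Box.cut (Bern.Box.cut (Bern.Box.cut (Bern.Box.cut (Bern.Box.cut
      (Bern.Box.cut (Bern.Box.cut (Bern.Box.cut (Bern.Box.cut Bern.unitBox 0 Bern.Ax.right) 2
      Bern.Ax.right) 1 Bern.Ax.right) 3 Bern.Ax.left) 0 Bern.Ax.right) 2 Bern.Ax.right) 0
      Bern.Ax.right) 3 Bern.Ax.left) 2 Bern.Ax.right) 0 Bern.Ax.right) 3 Bern.Ax.left) = true ∧
    Bern.coverU row10.cfg row10.P .leaf (Bern.Box.cut (Bern.Box.cut (Bern.Box.cut (Bern.Box.cut
      (Bern.Box.cut (Bern.Box.cut (Bern.Box.cut (Bern.Box.cut (Bern.Box.cut (Bern.Box.cut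
      (Bern.Box.cut Bern.unitBox 0 Bern.Ax.right) 2 Bern.Ax.right) 1 Bern.Ax.right) 3
      Bern.Ax.left) 0 Bern.Ax.right) 2 Bern.Ax.right) 0 Bern.Ax.right) 3 Bern.Ax.left) 2
      Bern.Ax.right) 0 Bern.Ax.right) 3 Bern.Ax.right) = true ∧
    Bern.coverU row10.cfg row10.P .leaf (Bern.Box.cut (Bern.Box.cut (Bern.Box.cut (Bern.Box.cut
      (Bern.Box.cut (Bern.Box.cut (Bern.Box.cut (Bern.Box.cut Bern.unitBox 0 Bern.Ax.right) 2
      Bern.Ax.right) 1 Bern.Ax.right) 3 Bern.Ax.left) 0 Bern.Ax.right) 2 Bern.Ax.right) 0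
      Bern.Ax.right) 3 Bern.Ax.right) = true ∧
    Bern.coverU row10.cfg row10.P (.split 0 .leaf .leaf) (Bern.Box.cut (Bern.Box.cut (Bern.Box.cut
      (Bern.Box.cut Bern.unitBox 0 Bern.Ax.right) 2 Bern.Ax.right) 1 Bern.Ax.right) 3
      Bern.Ax.right) = true ∧
    Bern.coverU row10.cfg3 row10.R3 (.split 2 .leaf (.split 2 .leaf .leaf)) (Bern.Box.cut
      (Bern.Box.cut box3 2 Bern.Ax.left) 2 Bern.Ax.left) = true ∧
    Bern.coverU row10.cfg3 row10.R3 (.split 2 .leaf (.split 0 (.split 2 .leaf .leaf) (.split 2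
      .leaf (.split 0 .leaf .leaf)))) (Bern.Box.cut (Bern.Box.cut (Bern.Box.cut (Bern.Box.cut box3
      2 Bern.Ax.left) 2 Bern.Ax.right) 1 Bern.Ax.left) 0 Bern.Ax.left) = true ∧
    Bern.coverU row10.cfg3 row10.R3 .leaf (Bern.Box.cut (Bern.Box.cut (Bern.Box.cut (Bern.Box.cut
      (Bern.Box.cut box3 2 Bern.Ax.left) 2 Bern.Ax.right) 1 Bern.Ax.left) 0 Bern.Ax.right) 1
      Bern.Ax.left) = true ∧
    Bern.coverU row10.cfg3 row10.R3 (.split 2 (.split 1 .leaf (.split 2 .leaf (.split 1 (.split 2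
      .leaf (.split 1 .leaf .leaf)) .leaf))) (.split 1 .leaf .leaf)) (Bern.Box.cut (Bern.Box.cut
      (Bern.Box.cut (Bern.Box.cut (Bern.Box.cut box3 2 Bern.Ax.left) 2 Bern.Ax.right) 1
      Bern.Ax.left) 0 Bern.Ax.right) 1 Bern.Ax.right) = true ∧
    Bern.coverU row10.cfg3 row10.R3 (.split 2 .leaf (.split 0 (.split 2 .leaf .leaf) (.split 2
      .leaf (.split 0 (.split 2 .leaf .leaf) .leaf)))) (Bern.Box.cut (Bern.Box.cut (Bern.Box.cut
      (Bern.Box.cut box3 2 Bern.Ax.left) 2 Bern.Ax.right) 1 Bern.Ax.right) 0 Bern.Ax.left) = true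
      ∧
    Bern.coverU row10.cfg3 row10.R3 (.split 2 .leaf .leaf) (Bern.Box.cut (Bern.Box.cut
      (Bern.Box.cut (Bern.Box.cut box3 2 Bern.Ax.left) 2 Bern.Ax.right) 1 Bern.Ax.right) 0
      Bern.Ax.right) = true ∧
    Bern.coverU row10.cfg3 row10.R3 .leaf (Bern.Box.cut (Bern.Box.cut (Bern.Box.cut (Bern.Box.cut
      box3 2 Bern.Ax.right) 0 Bern.Ax.left) 2 Bern.Ax.left) 0 Bern.Ax.left) = true ∧
    Bern.coverU row10.cfg3 row10.R3 (.split 2 (.split 1 (.split 2 (.split 1 (.split 0 .leaf .leaf)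
      .leaf) .leaf) (.split 0 .leaf (.split 0 .leaf .leaf))) .leaf) (Bern.Box.cut (Bern.Box.cut
      (Bern.Box.cut (Bern.Box.cut box3 2 Bern.Ax.right) 0 Bern.Ax.left) 2 Bern.Ax.left) 0
      Bern.Ax.right) = true ∧
    Bern.coverU row10.cfg3 row10.R3 (.split 2 (.split 2 .leaf (.split 2 .leaf (.split 2 (.split 2
      .leaf .leaf) .leaf))) .leaf) (Bern.Box.cut (Bern.Box.cut (Bern.Box.cut box3 2 Bern.Ax.right)
      0 Bern.Ax.left) 2 Bern.Ax.right) = true ∧
    Bern.coverU row10.cfg3 row10.R3 (.split 2 (.split 0 .leaf .leaf) .leaf) (Bern.Box.cut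
      (Bern.Box.cut (Bern.Box.cut (Bern.Box.cut (Bern.Box.cut (Bern.Box.cut (Bern.Box.cut box3 2
      Bern.Ax.right) 0 Bern.Ax.right) 2 Bern.Ax.left) 1 Bern.Ax.left) 0 Bern.Ax.left) 2
      Bern.Ax.left) 1 Bern.Ax.left) = true ∧
    Bern.coverU row10.cfg3 row10.R3 (.split 2 (.split 1 (.split 0 .leaf (.split 0 .leaf .leaf))
      .leaf) (.split 1 .leaf .leaf)) (Bern.Box.cut (Bern.Box.cut (Bern.Box.cut (Bern.Box.cut
      (Bern.Box.cut (Bern.Box.cut (Bern.Box.cut (Bern.Box.cut (Bern.Box.cut box3 2 Bern.Ax.right)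
      0 Bern.Ax.right) 2 Bern.Ax.left) 1 Bern.Ax.left) 0 Bern.Ax.left) 2 Bern.Ax.left) 1
      Bern.Ax.right) 2 Bern.Ax.left) 0 Bern.Ax.left) = true ∧
    Bern.coverU row10.cfg3 row10.R3 (.split 1 (.split 2 .leaf .leaf) (.split 2 .leaf .leaf))
      (Bern.Box.cut (Bern.Box.cut (Bern.Box.cut (Bern.Box.cut (Bern.Box.cut (Bern.Box.cut
      (Bern.Box.cut (Bern.Box.cut (Bern.Box.cut box3 2 Bern.Ax.right) 0 Bern.Ax.right) 2
      Bern.Ax.left) 1 Bern.Ax.left) 0 Bern.Ax.left) 2 Bern.Ax.left) 1 Bern.Ax.right) 2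
      Bern.Ax.left) 0 Bern.Ax.right) = true ∧
    Bern.coverU row10.cfg3 row10.R3 (.split 0 .leaf (.split 1 .leaf .leaf)) (Bern.Box.cut
      (Bern.Box.cut (Bern.Box.cut (Bern.Box.cut (Bern.Box.cut (Bern.Box.cut (Bern.Box.cut
      (Bern.Box.cut box3 2 Bern.Ax.right) 0 Bern.Ax.right) 2 Bern.Ax.left) 1 Bern.Ax.left) 0
      Bern.Ax.left) 2 Bern.Ax.left) 1 Bern.Ax.right) 2 Bern.Ax.right) = true ∧
    Bern.coverU row10.cfg3 row10.R3 (.split 1 .leaf .leaf) (Bern.Box.cut (Bern.Box.cut
      (Bern.Box.cut (Bern.Box.cut (Bern.Box.cut (Bern.Box.cut box3 2 Bern.Ax.right) 0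
      Bern.Ax.right) 2 Bern.Ax.left) 1 Bern.Ax.left) 0 Bern.Ax.left) 2 Bern.Ax.right) = true ∧
    Bern.coverU row10.cfg3 row10.R3 .leaf (Bern.Box.cut (Bern.Box.cut (Bern.Box.cut (Bern.Box.cut
      (Bern.Box.cut (Bern.Box.cut (Bern.Box.cut box3 2 Bern.Ax.right) 0 Bern.Ax.right) 2
      Bern.Ax.left) 1 Bern.Ax.left) 0 Bern.Ax.right) 0 Bern.Ax.left) 1 Bern.Ax.left) = true ∧
    Bern.coverU row10.cfg3 row10.R3 (.split 1 .leaf .leaf) (Bern.Box.cut (Bern.Box.cut
      (Bern.Box.cut (Bern.Box.cut (Bern.Box.cut (Bern.Box.cut (Bern.Box.cut (Bern.Box.cut box3 2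
      Bern.Ax.right) 0 Bern.Ax.right) 2 Bern.Ax.left) 1 Bern.Ax.left) 0 Bern.Ax.right) 0
      Bern.Ax.left) 1 Bern.Ax.right) 2 Bern.Ax.left) = true ∧
    Bern.coverU row10.cfg3 row10.R3 (.split 0 .leaf (.split 0 .leaf .leaf)) (Bern.Box.cut
      (Bern.Box.cut (Bern.Box.cut (Bern.Box.cut (Bern.Box.cut (Bern.Box.cut (Bern.Box.cut
      (Bern.Box.cut (Bern.Box.cut box3 2 Bern.Ax.right) 0 Bern.Ax.right) 2 Bern.Ax.left) 1
      Bern.Ax.left) 0 Bern.Ax.right) 0 Bern.Ax.left) 1 Bern.Ax.right) 2 Bern.Ax.right) 1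
      Bern.Ax.left) = true ∧
    Bern.coverU row10.cfg3 row10.R3 .leaf (Bern.Box.cut (Bern.Box.cut (Bern.Box.cut (Bern.Box.cut
      (Bern.Box.cut (Bern.Box.cut (Bern.Box.cut (Bern.Box.cut (Bern.Box.cut (Bern.Box.cut box3 2
      Bern.Ax.right) 0 Bern.Ax.right) 2 Bern.Ax.left) 1 Bern.Ax.left) 0 Bern.Ax.right) 0
      Bern.Ax.left) 1 Bern.Ax.right) 2 Bern.Ax.right) 1 Bern.Ax.right) 0 Bern.Ax.left) = true ∧
    Bern.coverU row10.cfg3 row10.R3 (.split 2 .leaf (.split 0 .leaf (.split 1 (.split 1 (.split 0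
      .leaf (.split 0 .leaf .leaf)) (.split 0 .leaf .leaf)) .leaf))) (Bern.Box.cut (Bern.Box.cut
      (Bern.Box.cut (Bern.Box.cut (Bern.Box.cut (Bern.Box.cut (Bern.Box.cut (Bern.Box.cut
      (Bern.Box.cut (Bern.Box.cut box3 2 Bern.Ax.right) 0 Bern.Ax.right) 2 Bern.Ax.left) 1
      Bern.Ax.left) 0 Bern.Ax.right) 0 Bern.Ax.left) 1 Bern.Ax.right) 2 Bern.Ax.right) 1
      Bern.Ax.right) 0 Bern.Ax.right) = true ∧
    Bern.coverU row10.cfg3 row10.R3 (.split 1 .leaf (.split 1 .leaf (.split 1 .leaf .leaf)))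
      (Bern.Box.cut (Bern.Box.cut (Bern.Box.cut (Bern.Box.cut (Bern.Box.cut (Bern.Box.cut box3 2
      Bern.Ax.right) 0 Bern.Ax.right) 2 Bern.Ax.left) 1 Bern.Ax.left) 0 Bern.Ax.right) 0
      Bern.Ax.right) = true ∧
    Bern.coverU row10.cfg3 row10.R3 (.split 0 .leaf .leaf) (Bern.Box.cut (Bern.Box.cut
      (Bern.Box.cut (Bern.Box.cut (Bern.Box.cut (Bern.Box.cut box3 2 Bern.Ax.right) 0
      Bern.Ax.right) 2 Bern.Ax.left) 1 Bern.Ax.right) 0 Bern.Ax.left) 2 Bern.Ax.left) = true ∧
    Bern.coverU row10.cfg3 row10.R3 (.split 2 .leaf .leaf) (Bern.Box.cut (Bern.Box.cut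
      (Bern.Box.cut (Bern.Box.cut (Bern.Box.cut (Bern.Box.cut (Bern.Box.cut box3 2 Bern.Ax.right)
      0 Bern.Ax.right) 2 Bern.Ax.left) 1 Bern.Ax.right) 0 Bern.Ax.left) 2 Bern.Ax.right) 0
      Bern.Ax.left) = true ∧
    Bern.coverU row10.cfg3 row10.R3 (.split 2 (.split 0 (.split 2 .leaf (.split 0 .leaf (.split 2
      .leaf .leaf))) .leaf) (.split 0 .leaf (.split 0 .leaf .leaf))) (Bern.Box.cut (Bern.Box.cut
      (Bern.Box.cut (Bern.Box.cut (Bern.Box.cut (Bern.Box.cut (Bern.Box.cut box3 2 Bern.Ax.right)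
      0 Bern.Ax.right) 2 Bern.Ax.left) 1 Bern.Ax.right) 0 Bern.Ax.left) 2 Bern.Ax.right) 0
      Bern.Ax.right) = true ∧
    Bern.coverU row10.cfg3 row10.R3 (.split 2 .leaf (.split 0 .leaf .leaf)) (Bern.Box.cut
      (Bern.Box.cut (Bern.Box.cut (Bern.Box.cut (Bern.Box.cut box3 2 Bern.Ax.right) 0
      Bern.Ax.right) 2 Bern.Ax.left) 1 Bern.Ax.right) 0 Bern.Ax.right) = true ∧
    Bern.coverU row10.cfg3 row10.R3 (.split 2 .leaf .leaf) (Bern.Box.cut (Bern.Box.cut
      (Bern.Box.cut (Bern.Box.cut (Bern.Box.cut box3 2 Bern.Ax.right) 0 Bern.Ax.right) 2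
      Bern.Ax.right) 1 Bern.Ax.left) 0 Bern.Ax.left) = true ∧
    Bern.coverU row10.cfg3 row10.R3 (.split 0 .leaf .leaf) (Bern.Box.cut (Bern.Box.cut
      (Bern.Box.cut (Bern.Box.cut (Bern.Box.cut (Bern.Box.cut (Bern.Box.cut (Bern.Box.cut
      (Bern.Box.cut box3 2 Bern.Ax.right) 0 Bern.Ax.right) 2 Bern.Ax.right) 1 Bern.Ax.left) 0
      Bern.Ax.right) 1 Bern.Ax.left) 2 Bern.Ax.left) 0 Bern.Ax.left) 1 Bern.Ax.left) = true ∧
    Bern.coverU row10.cfg3 row10.R3 (.split 0 .leaf (.split 2 .leaf (.split 0 .leaf (.split 2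
      .leaf (.split 1 .leaf (.split 0 .leaf .leaf)))))) (Bern.Box.cut (Bern.Box.cut (Bern.Box.cut
      (Bern.Box.cut (Bern.Box.cut (Bern.Box.cut (Bern.Box.cut (Bern.Box.cut (Bern.Box.cut box3 2
      Bern.Ax.right) 0 Bern.Ax.right) 2 Bern.Ax.right) 1 Bern.Ax.left) 0 Bern.Ax.right) 1
      Bern.Ax.left) 2 Bern.Ax.left) 0 Bern.Ax.left) 1 Bern.Ax.right) = true ∧
    Bern.coverU row10.cfg3 row10.R3 (.split 2 .leaf (.split 2 .leaf (.split 0 (.split 2 .leaf
      .leaf) .leaf))) (Bern.Box.cut (Bern.Box.cut (Bern.Box.cut (Bern.Box.cut (Bern.Box.cut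
      (Bern.Box.cut (Bern.Box.cut (Bern.Box.cut box3 2 Bern.Ax.right) 0 Bern.Ax.right) 2
      Bern.Ax.right) 1 Bern.Ax.left) 0 Bern.Ax.right) 1 Bern.Ax.left) 2 Bern.Ax.left) 0
      Bern.Ax.right) = true ∧
    Bern.coverU row10.cfg3 row10.R3 (.split 1 .leaf (.split 0 .leaf .leaf)) (Bern.Box.cut
      (Bern.Box.cut (Bern.Box.cut (Bern.Box.cut (Bern.Box.cut (Bern.Box.cut (Bern.Box.cut
      (Bern.Box.cut box3 2 Bern.Ax.right) 0 Bern.Ax.right) 2 Bern.Ax.right) 1 Bern.Ax.left) 0
      Bern.Ax.right) 1 Bern.Ax.left) 2 Bern.Ax.right) 0 Bern.Ax.left) = true ∧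
    Bern.coverU row10.cfg3 row10.R3 (.split 2 .leaf (.split 2 .leaf (.split 1 .leaf (.split 2
      .leaf (.split 2 (.split 1 .leaf .leaf) (.split 1 .leaf .leaf)))))) (Bern.Box.cut
      (Bern.Box.cut (Bern.Box.cut (Bern.Box.cut (Bern.Box.cut (Bern.Box.cut (Bern.Box.cut
      (Bern.Box.cut box3 2 Bern.Ax.right) 0 Bern.Ax.right) 2 Bern.Ax.right) 1 Bern.Ax.left) 0
      Bern.Ax.right) 1 Bern.Ax.left) 2 Bern.Ax.right) 0 Bern.Ax.right) = true ∧
    Bern.coverU row10.cfg3 row10.R3 .leaf (Bern.Box.cut (Bern.Box.cut (Bern.Box.cut (Bern.Box.cut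
      (Bern.Box.cut (Bern.Box.cut (Bern.Box.cut (Bern.Box.cut (Bern.Box.cut box3 2 Bern.Ax.right)
      0 Bern.Ax.right) 2 Bern.Ax.right) 1 Bern.Ax.left) 0 Bern.Ax.right) 1 Bern.Ax.right) 0
      Bern.Ax.left) 2 Bern.Ax.left) 0 Bern.Ax.left) = true ∧
    Bern.coverU row10.cfg3 row10.R3 (.split 2 (.split 0 .leaf (.split 2 .leaf .leaf)) (.split 1
      .leaf .leaf)) (Bern.Box.cut (Bern.Box.cut (Bern.Box.cut (Bern.Box.cut (Bern.Box.cut
      (Bern.Box.cut (Bern.Box.cut (Bern.Box.cut (Bern.Box.cut (Bern.Box.cut (Bern.Box.cut box3 2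
      Bern.Ax.right) 0 Bern.Ax.right) 2 Bern.Ax.right) 1 Bern.Ax.left) 0 Bern.Ax.right) 1
      Bern.Ax.right) 0 Bern.Ax.left) 2 Bern.Ax.left) 0 Bern.Ax.right) 1 Bern.Ax.left) 2
      Bern.Ax.left) = true ∧
    Bern.coverU row10.cfg3 row10.R3 (.split 1 (.split 2 .leaf (.split 2 (.split 1 (.split 0 .leaf
      .leaf) .leaf) .leaf)) .leaf) (Bern.Box.cut (Bern.Box.cut (Bern.Box.cut (Bern.Box.cut
      (Bern.Box.cut (Bern.Box.cut (Bern.Box.cut (Bern.Box.cut (Bern.Box.cut (Bern.Box.cut
      (Bern.Box.cut box3 2 Bern.Ax.right) 0 Bern.Ax.right) 2 Bern.Ax.right) 1 Bern.Ax.left) 0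
      Bern.Ax.right) 1 Bern.Ax.right) 0 Bern.Ax.left) 2 Bern.Ax.left) 0 Bern.Ax.right) 1
      Bern.Ax.left) 2 Bern.Ax.right) = true ∧
    Bern.coverU row10.cfg3 row10.R3 (.split 1 (.split 0 .leaf (.split 2 (.split 1 (.split 0 .leaf
      (.split 2 (.split 0 .leaf .leaf) .leaf)) .leaf) .leaf)) .leaf) (Bern.Box.cut (Bern.Box.cut
      (Bern.Box.cut (Bern.Box.cut (Bern.Box.cut (Bern.Box.cut (Bern.Box.cut (Bern.Box.cut
      (Bern.Box.cut (Bern.Box.cut (Bern.Box.cut box3 2 Bern.Ax.right) 0 Bern.Ax.right) 2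
      Bern.Ax.right) 1 Bern.Ax.left) 0 Bern.Ax.right) 1 Bern.Ax.right) 0 Bern.Ax.left) 2
      Bern.Ax.left) 0 Bern.Ax.right) 1 Bern.Ax.right) 2 Bern.Ax.left) = true ∧
    Bern.coverU row10.cfg3 row10.R3 .leaf (Bern.Box.cut (Bern.Box.cut (Bern.Box.cut (Bern.Box.cut
      (Bern.Box.cut (Bern.Box.cut (Bern.Box.cut (Bern.Box.cut (Bern.Box.cut (Bern.Box.cut
      (Bern.Box.cut box3 2 Bern.Ax.right) 0 Bern.Ax.right) 2 Bern.Ax.right) 1 Bern.Ax.left) 0
      Bern.Ax.right) 1 Bern.Ax.right) 0 Bern.Ax.left) 2 Bern.Ax.left) 0 Bern.Ax.right) 1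
      Bern.Ax.right) 2 Bern.Ax.right) = true ∧
    Bern.coverU row10.cfg3 row10.R3 .leaf (Bern.Box.cut (Bern.Box.cut (Bern.Box.cut (Bern.Box.cut
      (Bern.Box.cut (Bern.Box.cut (Bern.Box.cut (Bern.Box.cut box3 2 Bern.Ax.right) 0
      Bern.Ax.right) 2 Bern.Ax.right) 1 Bern.Ax.left) 0 Bern.Ax.right) 1 Bern.Ax.right) 0
      Bern.Ax.left) 2 Bern.Ax.right) = true ∧
    Bern.coverU row10.cfg3 row10.R3 (.split 0 (.split 1 .leaf (.split 2 (.split 0 .leaf .leaf)
      (.split 0 (.split 0 .leaf .leaf) .leaf))) .leaf) (Bern.Box.cut (Bern.Box.cut (Bern.Box.cut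
      (Bern.Box.cut (Bern.Box.cut (Bern.Box.cut (Bern.Box.cut (Bern.Box.cut (Bern.Box.cut
      (Bern.Box.cut (Bern.Box.cut box3 2 Bern.Ax.right) 0 Bern.Ax.right) 2 Bern.Ax.right) 1
      Bern.Ax.left) 0 Bern.Ax.right) 1 Bern.Ax.right) 0 Bern.Ax.right) 2 Bern.Ax.left) 0
      Bern.Ax.left) 1 Bern.Ax.left) 2 Bern.Ax.left) = true ∧
    Bern.coverU row10.cfg3 row10.R3 (.split 0 (.split 1 .leaf (.split 0 .leaf .leaf)) .leaf)
      (Bern.Box.cut (Bern.Box.cut (Bern.Box.cut (Bern.Box.cut (Bern.Box.cut (Bern.Box.cut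
      (Bern.Box.cut (Bern.Box.cut (Bern.Box.cut (Bern.Box.cut (Bern.Box.cut (Bern.Box.cut
      (Bern.Box.cut (Bern.Box.cut box3 2 Bern.Ax.right) 0 Bern.Ax.right) 2 Bern.Ax.right) 1
      Bern.Ax.left) 0 Bern.Ax.right) 1 Bern.Ax.right) 0 Bern.Ax.right) 2 Bern.Ax.left) 0
      Bern.Ax.left) 1 Bern.Ax.left) 2 Bern.Ax.right) 0 Bern.Ax.left) 1 Bern.Ax.left) 2
      Bern.Ax.left) = true ∧
    Bern.coverU row10.cfg3 row10.R3 (.split 2 (.split 0 (.split 1 .leaf (.split 0 .leaf .leaf))
      (.split 1 .leaf .leaf)) .leaf) (Bern.Box.cut (Bern.Box.cut (Bern.Box.cut (Bern.Box.cut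
      (Bern.Box.cut (Bern.Box.cut (Bern.Box.cut (Bern.Box.cut (Bern.Box.cut (Bern.Box.cut
      (Bern.Box.cut (Bern.Box.cut (Bern.Box.cut (Bern.Box.cut (Bern.Box.cut (Bern.Box.cut box3 2
      Bern.Ax.right) 0 Bern.Ax.right) 2 Bern.Ax.right) 1 Bern.Ax.left) 0 Bern.Ax.right) 1
      Bern.Ax.right) 0 Bern.Ax.right) 2 Bern.Ax.left) 0 Bern.Ax.left) 1 Bern.Ax.left) 2
      Bern.Ax.right) 0 Bern.Ax.left) 1 Bern.Ax.left) 2 Bern.Ax.right) 0 Bern.Ax.left) 1
      Bern.Ax.left) = true ∧
    Bern.coverU row10.cfg3 row10.R3 (.split 0 .leaf (.split 0 .leaf .leaf)) (Bern.Box.cut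
      (Bern.Box.cut (Bern.Box.cut (Bern.Box.cut (Bern.Box.cut (Bern.Box.cut (Bern.Box.cut
      (Bern.Box.cut (Bern.Box.cut (Bern.Box.cut (Bern.Box.cut (Bern.Box.cut (Bern.Box.cut
      (Bern.Box.cut (Bern.Box.cut (Bern.Box.cut box3 2 Bern.Ax.right) 0 Bern.Ax.right) 2
      Bern.Ax.right) 1 Bern.Ax.left) 0 Bern.Ax.right) 1 Bern.Ax.right) 0 Bern.Ax.right) 2
      Bern.Ax.left) 0 Bern.Ax.left) 1 Bern.Ax.left) 2 Bern.Ax.right) 0 Bern.Ax.left) 1
      Bern.Ax.left) 2 Bern.Ax.right) 0 Bern.Ax.left) 1 Bern.Ax.right) = true ∧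
    Bern.coverU row10.cfg3 row10.R3 .leaf (Bern.Box.cut (Bern.Box.cut (Bern.Box.cut (Bern.Box.cut
      (Bern.Box.cut (Bern.Box.cut (Bern.Box.cut (Bern.Box.cut (Bern.Box.cut (Bern.Box.cut
      (Bern.Box.cut (Bern.Box.cut (Bern.Box.cut (Bern.Box.cut (Bern.Box.cut box3 2 Bern.Ax.right)
      0 Bern.Ax.right) 2 Bern.Ax.right) 1 Bern.Ax.left) 0 Bern.Ax.right) 1 Bern.Ax.right) 0
      Bern.Ax.right) 2 Bern.Ax.left) 0 Bern.Ax.left) 1 Bern.Ax.left) 2 Bern.Ax.right) 0
      Bern.Ax.left) 1 Bern.Ax.left) 2 Bern.Ax.right) 0 Bern.Ax.right) = true ∧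
    Bern.coverU row10.cfg3 row10.R3 (.split 2 (.split 0 .leaf .leaf) .leaf) (Bern.Box.cut
      (Bern.Box.cut (Bern.Box.cut (Bern.Box.cut (Bern.Box.cut (Bern.Box.cut (Bern.Box.cut
      (Bern.Box.cut (Bern.Box.cut (Bern.Box.cut (Bern.Box.cut (Bern.Box.cut (Bern.Box.cut box3 2
      Bern.Ax.right) 0 Bern.Ax.right) 2 Bern.Ax.right) 1 Bern.Ax.left) 0 Bern.Ax.right) 1
      Bern.Ax.right) 0 Bern.Ax.right) 2 Bern.Ax.left) 0 Bern.Ax.left) 1 Bern.Ax.left) 2
      Bern.Ax.right) 0 Bern.Ax.left) 1 Bern.Ax.right) = true ∧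
    Bern.coverU row10.cfg3 row10.R3 .leaf (Bern.Box.cut (Bern.Box.cut (Bern.Box.cut (Bern.Box.cut
      (Bern.Box.cut (Bern.Box.cut (Bern.Box.cut (Bern.Box.cut (Bern.Box.cut (Bern.Box.cut
      (Bern.Box.cut (Bern.Box.cut box3 2 Bern.Ax.right) 0 Bern.Ax.right) 2 Bern.Ax.right) 1
      Bern.Ax.left) 0 Bern.Ax.right) 1 Bern.Ax.right) 0 Bern.Ax.right) 2 Bern.Ax.left) 0
      Bern.Ax.left) 1 Bern.Ax.left) 2 Bern.Ax.right) 0 Bern.Ax.right) = true ∧
    Bern.coverU row10.cfg3 row10.R3 (.split 2 (.split 0 (.split 2 (.split 1 (.split 0 (.split 1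
      (.split 2 .leaf .leaf) .leaf) .leaf) .leaf) .leaf) .leaf) .leaf) (Bern.Box.cut (Bern.Box.cut
      (Bern.Box.cut (Bern.Box.cut (Bern.Box.cut (Bern.Box.cut (Bern.Box.cut (Bern.Box.cut
      (Bern.Box.cut (Bern.Box.cut box3 2 Bern.Ax.right) 0 Bern.Ax.right) 2 Bern.Ax.right) 1
      Bern.Ax.left) 0 Bern.Ax.right) 1 Bern.Ax.right) 0 Bern.Ax.right) 2 Bern.Ax.left) 0
      Bern.Ax.left) 1 Bern.Ax.right) = true ∧
    Bern.coverU row10.cfg3 row10.R3 .leaf (Bern.Box.cut (Bern.Box.cut (Bern.Box.cut (Bern.Box.cut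
      (Bern.Box.cut (Bern.Box.cut (Bern.Box.cut (Bern.Box.cut (Bern.Box.cut box3 2 Bern.Ax.right)
      0 Bern.Ax.right) 2 Bern.Ax.right) 1 Bern.Ax.left) 0 Bern.Ax.right) 1 Bern.Ax.right) 0
      Bern.Ax.right) 2 Bern.Ax.left) 0 Bern.Ax.right) = true ∧
    Bern.coverU row10.cfg3 row10.R3 (.split 0 (.split 0 .leaf .leaf) (.split 2 .leaf .leaf))
      (Bern.Box.cut (Bern.Box.cut (Bern.Box.cut (Bern.Box.cut (Bern.Box.cut (Bern.Box.cut
      (Bern.Box.cut (Bern.Box.cut box3 2 Bern.Ax.right) 0 Bern.Ax.right) 2 Bern.Ax.right) 1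
      Bern.Ax.left) 0 Bern.Ax.right) 1 Bern.Ax.right) 0 Bern.Ax.right) 2 Bern.Ax.right) = true ∧
    Bern.coverU row10.cfg3 row10.R3 .leaf (Bern.Box.cut (Bern.Box.cut (Bern.Box.cut (Bern.Box.cut
      (Bern.Box.cut box3 2 Bern.Ax.right) 0 Bern.Ax.right) 2 Bern.Ax.right) 1 Bern.Ax.right) 0
      Bern.Ax.left) = true ∧
    Bern.coverU row10.cfg3 row10.R3 (.split 0 .leaf .leaf) (Bern.Box.cut (Bern.Box.cut
      (Bern.Box.cut (Bern.Box.cut (Bern.Box.cut (Bern.Box.cut box3 2 Bern.Ax.right) 0
      Bern.Ax.right) 2 Bern.Ax.right) 1 Bern.Ax.right) 0 Bern.Ax.right) 2 Bern.Ax.left) = true ∧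
    Bern.coverU row10.cfg3 row10.R3 .leaf (Bern.Box.cut (Bern.Box.cut (Bern.Box.cut (Bern.Box.cut
      (Bern.Box.cut (Bern.Box.cut (Bern.Box.cut box3 2 Bern.Ax.right) 0 Bern.Ax.right) 2
      Bern.Ax.right) 1 Bern.Ax.right) 0 Bern.Ax.right) 2 Bern.Ax.right) 0 Bern.Ax.left) = true ∧
    Bern.coverU row10.cfg3 row10.R3 .leaf (Bern.Box.cut (Bern.Box.cut (Bern.Box.cut (Bern.Box.cut
      (Bern.Box.cut (Bern.Box.cut (Bern.Box.cut (Bern.Box.cut box3 2 Bern.Ax.right) 0
      Bern.Ax.right) 2 Bern.Ax.right) 1 Bern.Ax.right) 0 Bern.Ax.right) 2 Bern.Ax.right) 0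
      Bern.Ax.right) 0 Bern.Ax.left) = true ∧
    Bern.coverU row10.cfg3 row10.R3 .leaf (Bern.Box.cut (Bern.Box.cut (Bern.Box.cut (Bern.Box.cut
      (Bern.Box.cut (Bern.Box.cut (Bern.Box.cut (Bern.Box.cut (Bern.Box.cut box3 2 Bern.Ax.right)
      0 Bern.Ax.right) 2 Bern.Ax.right) 1 Bern.Ax.right) 0 Bern.Ax.right) 2 Bern.Ax.right) 0
      Bern.Ax.right) 0 Bern.Ax.right) 2 Bern.Ax.left) = true ∧
    Bern.coverU row10.cfg3 row10.R3 (.split 1 (.split 1 (.split 0 .leaf (.split 1 (.split 0 .leaf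
      .leaf) (.split 0 .leaf .leaf))) .leaf) (.split 2 .leaf .leaf)) (Bern.Box.cut (Bern.Box.cut
      (Bern.Box.cut (Bern.Box.cut (Bern.Box.cut (Bern.Box.cut (Bern.Box.cut (Bern.Box.cut
      (Bern.Box.cut box3 2 Bern.Ax.right) 0 Bern.Ax.right) 2 Bern.Ax.right) 1 Bern.Ax.right) 0
      Bern.Ax.right) 2 Bern.Ax.right) 0 Bern.Ax.right) 0 Bern.Ax.right) 2 Bern.Ax.right) = true :=
      by
  exact ⟨by decide +kernel, by decide +kernel, by decide +kernel,
    by decide +kernel, by decide +kernel, by decide +kernel, by decide +kernel,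
    by decide +kernel, by decide +kernel, by decide +kernel, by decide +kernel,
    by decide +kernel, by decide +kernel, by decide +kernel, by decide +kernel,
    by decide +kernel, by decide +kernel, by decide +kernel, by decide +kernel,
    by decide +kernel, by decide +kernel, by decide +kernel, by decide +kernel,
    by decide +kernel, by decide +kernel, by decide +kernel, by decide +kernel,
    by decide +kernel, by decide +kernel, by decide +kernel, by decide +kernel,
    by decide +kernel, by decide +kernel, by decide +kernel, by decide +kernel,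
    by decide +kernel, by decide +kernel, by decide +kernel, by decide +kernel,
    by decide +kernel, by decide +kernel, by decide +kernel, by decide +kernel,
    by decide +kernel, by decide +kernel, by decide +kernel, by decide +kernel,
    by decide +kernel, by decide +kernel, by decide +kernel, by decide +kernel,
    by decide +kernel, by decide +kernel, by decide +kernel, by decide +kernel,
    by decide +kernel, by decide +kernel, by decide +kernel, by decide +kernel,
    by decide +kernel, by decide +kernel, by decide +kernel, by decide +kernel,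
    by decide +kernel, by decide +kernel, by decide +kernel, by decide +kernel,
    by decide +kernel, by decide +kernel, by decide +kernel, by decide +kernel,
    by decide +kernel, by decide +kernel, by decide +kernel, by decide +kernel,
    by decide +kernel, by decide +kernel, by decide +kernel, by decide +kernel,
    by decide +kernel, by decide +kernel, by decide +kernel, by decide +kernel,
    by decide +kernel, by decide +kernel, by decide +kernel, by decide +kernel,
    by decide +kernel, by decide +kernel, by decide +kernel, by decide +kernel,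
    by decide +kernel, by decide +kernel, by decide +kernel⟩

/-- The row passes the check. -/
theorem row10_ok : rowFor 1 0 row10 = true := by
  obtain ⟨hrest, h1, h2, h3, h4, h5, h6, h7, h8, h9, h10, h11, h12, h13, h14, h15, h16, h17, h18,
    h19, h20, h21, h22, h23, h24, h25, h26, h27, h28, h29, h30, h31, h32, h33, h34, h35, h36, h37,
    h38, h39, h40, h41, h42, h43, h44, h45, h46, h47, h48, h49, h50, h51, h52, h53, h54, h55, h56,
    h57, h58, h59, h60, h61, h62, h63, h64, h65, h66, h67, h68, h69, h70, h71, h72, h73, h74, h75,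
    h76, h77, h78, h79, h80, h81, h82, h83, h84, h85, h86, h87, h88, h89, h90, h91, h92, h93⟩ :=
    row10_parts
  simp only [rowFor, Bool.and_eq_true, decide_eq_true_eq]
  exact ⟨⟨⟨rfl, rfl⟩, rfl⟩, rowCheck_of_quick hrest
    ((Bern.coverU_split (Bern.coverU_split (Bern.coverU_split h1 h2) h3) (Bern.coverU_split
      (Bern.coverU_split (Bern.coverU_split (Bern.coverU_split h4 (Bern.coverU_split h5
      (Bern.coverU_split h6 h7))) h8) (Bern.coverU_split (Bern.coverU_split h9 h10) h11))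
      (Bern.coverU_split (Bern.coverU_split (Bern.coverU_split h12 (Bern.coverU_split
      (Bern.coverU_split h13 h14) h15)) (Bern.coverU_split (Bern.coverU_split (Bern.coverU_split
      h16 (Bern.coverU_split h17 (Bern.coverU_split (Bern.coverU_split h18 h19) h20)))
      (Bern.coverU_split h21 (Bern.coverU_split (Bern.coverU_split h22 h23) h24)))
      (Bern.coverU_split (Bern.coverU_split (Bern.coverU_split h25 h26) (Bern.coverU_split
      (Bern.coverU_split (Bern.coverU_split (Bern.coverU_split h27 h28) h29) h30) h31)) h32)))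
      (Bern.coverU_split (Bern.coverU_split h33 (Bern.coverU_split h34 (Bern.coverU_split h35
      (Bern.coverU_split (Bern.coverU_split h36 (Bern.coverU_split h37 (Bern.coverU_split h38
      h39))) h40)))) h41)))))
    ((Bern.coverU_split (Bern.coverU_split h42 (Bern.coverU_split (Bern.coverU_split h43
      (Bern.coverU_split h44 h45)) (Bern.coverU_split h46 h47))) (Bern.coverU_split
      (Bern.coverU_split (Bern.coverU_split h48 h49) h50) (Bern.coverU_split (Bern.coverU_split
      (Bern.coverU_split (Bern.coverU_split (Bern.coverU_split h51 (Bern.coverU_split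
      (Bern.coverU_split h52 h53) h54)) h55) (Bern.coverU_split (Bern.coverU_split h56
      (Bern.coverU_split h57 (Bern.coverU_split h58 (Bern.coverU_split h59 h60)))) h61))
      (Bern.coverU_split (Bern.coverU_split h62 (Bern.coverU_split h63 h64)) h65))
      (Bern.coverU_split (Bern.coverU_split h66 (Bern.coverU_split (Bern.coverU_split
      (Bern.coverU_split (Bern.coverU_split h67 h68) h69) (Bern.coverU_split h70 h71))
      (Bern.coverU_split (Bern.coverU_split (Bern.coverU_split h72 (Bern.coverU_split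
      (Bern.coverU_split h73 h74) (Bern.coverU_split h75 h76))) h77) (Bern.coverU_split
      (Bern.coverU_split (Bern.coverU_split (Bern.coverU_split h78 (Bern.coverU_split
      (Bern.coverU_split (Bern.coverU_split h79 (Bern.coverU_split (Bern.coverU_split h80 h81)
      h82)) h83) h84)) h85) h86) h87)))) (Bern.coverU_split h88 (Bern.coverU_split h89
      (Bern.coverU_split h90 (Bern.coverU_split h91 (Bern.coverU_split h92 h93))))))))))⟩

end Vale.Agent.P154.Anti
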