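import Vale.Agent.P154.Anti.RowData
import Vale.Agent.P154.RowQuick

/-!
P154: the certificate of the row of piece 1 and index 1.
-/

namespace Vale.Agent.P154.Anti

open Kron BudgetRow

/-- The polynomial which dominates the merged coefficient. -/
noncomputable def sym11 : List Term :=
  [
    (445746138750000, 0, 0, 0, 0), (-48668067521115788790, 0, 0, 1, 0),
    (150470454355016980086, 0, 0, 2, 0), (-3365812535001633432, 0, 1, 0, 0),
    (-100100913734117197620, 0, 1, 1, 0), (-4940129589221751255, 0, 1, 2, 0),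
    (-7670152660020954480, 0, 2, 0, 0), (-28211185082309028318, 0, 2, 1, 0),
    (18038934024678943848, 0, 3, 0, 0), (1108107440179023060, 0, 4, 0, 0),
    (342021115109463084, 1, 0, 0, 0), (194805423878884432110, 1, 0, 1, 0),
    (-258370704585567952155, 1, 0, 2, 0), (7855053093101392146, 1, 1, 0, 0),
    (163208445187386865122, 1, 1, 1, 0), (5936713397076796020, 1, 1, 2, 0),
    (30934312149928635900, 1, 2, 0, 0), (41353507985562224514, 1, 2, 1, 0),
    (-33086436222022360434, 1, 3, 0, 0), (-1196659501379184240, 1, 4, 0, 0),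
    (297198822523644, 2, 0, 0, 0), (-303203883406459477050, 2, 0, 1, 0),
    (186181671639090653415, 2, 0, 2, 0), (-13041922992031265598, 2, 1, 0, 0),
    (-91571323534137970128, 2, 1, 1, 0), (-2715529899286614330, 2, 1, 2, 0),
    (-50350722673973400072, 2, 2, 0, 0), (-24604069910459170572, 2, 2, 1, 0),
    (24421724743997627217, 2, 3, 0, 0), (489123106318299960, 2, 4, 0, 0),
    (-66065376650112, 3, 0, 0, 0), (262357333665257867148, 3, 0, 1, 0),
    (-71898023843154155070, 3, 0, 2, 0), (11929925910662632494, 3, 1, 0, 0),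
    (12211896368378477304, 3, 1, 1, 0), (558504102196708308, 3, 1, 2, 0),
    (44453511035368305363, 3, 2, 0, 0), (7393449380316387876, 3, 2, 1, 0),
    (-9356208434987427576, 3, 3, 0, 0), (-89279509071392496, 3, 4, 0, 0),
    (5518358002656, 4, 0, 0, 0), (-145941029758146734892, 4, 0, 1, 0),
    (15685446254545381860, 4, 0, 2, 0), (-5181026659438654440, 4, 1, 0, 0),
    (8137671604809717348, 4, 1, 1, 0), (-43477441252734375, 4, 1, 2, 0),
    (-23276225988360026559, 4, 2, 0, 0), (-1118637551225357622, 4, 2, 1, 0),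
    (1967146201308441798, 4, 3, 0, 0), (6116242187812500, 4, 4, 0, 0), (-6260602428, 5, 0, 0, 0),
    (55551786671799651456, 5, 0, 1, 0), (-1834564880561116311, 5, 0, 2, 0),
    (77350428411076656, 5, 1, 0, 0), (-3901615357363045254, 5, 1, 1, 0),
    (7421904862782823602, 5, 2, 0, 0), (68022706107656250, 5, 2, 1, 0),
    (-215201436988318110, 5, 3, 0, 0), (2803249944, 6, 0, 0, 0),
    (-14583172441349493378, 6, 0, 1, 0), (90054942988359375, 6, 0, 2, 0),
    (997026312491894952, 6, 1, 0, 0), (665591384193341040, 6, 1, 1, 0),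
    (-1414103377237232526, 6, 2, 0, 0), (9555238319765625, 6, 3, 0, 0), (-1516996512, 7, 0, 0, 0),
    (2531155012611607404, 7, 0, 1, 0), (-484231747376031426, 7, 1, 0, 0),
    (-41711750001562500, 7, 1, 1, 0), (147908025812943135, 7, 2, 0, 0), (673488756, 8, 0, 0, 0),
    (-260386287906976722, 8, 0, 1, 0), (109972462578715728, 8, 1, 0, 0),
    (-6529862958046875, 8, 2, 0, 0), (-201923928, 9, 0, 0, 0), (11949491836406250, 9, 0, 1, 0),
    (-12645156858573726, 9, 1, 0, 0), (40060404, 10, 0, 0, 0), (592651018593750, 10, 1, 0, 0),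
    (-5053752, 11, 0, 0, 0), (312500, 12, 0, 0, 0)
  ]

/-- The nonnegative remainder in the invariants. -/
noncomputable def rem11 : Bern.Poly where
  pks := [(0, 1), (0, 2), (0, 3), (0, 4), (1, 0), (1, 1), (1, 2), (1, 3), (2, 0), (2, 1), (2, 2), (3, 0), (3, 1), (3, 2), (4, 0), (4, 1), (5, 0), (6, 0)]
  rows :=
  [((0, 0),
    [
      -61538555658240000, 339631705109299200, 0, 0, 7120418242560000, 289643755890278400,
      -226116418771353600, 0, 154672851792691200, -465676771786752000, 0, -668058392513740800, 0, 0,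
      862805487019622400, 0, 0, 0]),
   ((0, 1),
    [
      4500725358919680000, -990289932821987328, -216721564631040000, 0, 1014257953013760000,
      -9683723943785005056, 1802040498060263424, -84075919441920000, -2540135865183633408,
      8919764521954836480, -1190425987645440000, 1305256892691382272, -2324968357232640000, 0,
      571699463228227584, -245132759531520000, -653687358750720000, 0]),
   ((0, 2),
    [
      5101867751178240000, 12444904048178601984, -8992298118750000000, -3109566360937500000,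
      23080234689495040000, 12765537860614215168, -34379878973360550272, -1132950382031250000,
      -66228964971591499776, -50217826036026509440, 17612726771731110000, 83910861030195933184,
      38501795561888760000, 2275358455664062500, -56592425912874142752, -2529286348940940000,
      21744001313875050000, -4158710038769531250]),
   ((0, 3),
    [
      -13870180136386560000, 71938384950000000000, 50990274900000000000, -24890829056250000000,
      3587239229521920000, 232822422995074560000, -183854140124077440000, -56183156840625000000,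
      21268055111761920000, -550160159598209280000, 124825659899077440000, -155068503556390080000,
      341124788850943800000, -16515543365625000000, 222799178084170680000, -56030458303280940000,
      -121090000817353080000, 16757624673632812500]),
   ((0, 4),
    [
      0, -199012247100000000000, 199126632450000000000, -25513419412500000000, 0,
      38169495750000000000, 300984560475000000000, -165571052887500000000, 0, 77111595600000000000,
      -242090426550000000000, 99506123550000000000, -282484605525000000000, 13068004884375000000,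
      -178156853250000000000, 105963153007031250000, 111406263825000000000, 1478746657031250000]),
   ((1, 0),
    [
      -1091183711354880000, 1378765998234009600, -28025306480640000, 0, 973656461148160000,
      1000449349858099200, -905537292782796800, 0, -2887614155351654400, 1047506260066304000,
      -56050612961280000, 2782439462246809600, -1135587250667520000, 0, -814305500253388800, 0,
      -163421839687680000, 0]),
   ((1, 1),
    [
      -37488938817945600000, -6868553775082826496, 14551401437192160000, -298199185546875000,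
      -10063707572797440000, 131201634674980574208, 19476546776608925568, -13808850855624690000,
      30324243865685458944, -160120151842775192640, -7874362614200400000, -42811390728999559296,
      95680875298890810000, -6828601815234375000, 28150374982942238688, -23590894402708777500,
      -2261008141205985000, -1698956163281250000]),
   ((1, 2),
    [
      -51022248038891520000, -135201521600184632832, 91927070062038720000, 18811535029687500000,
      -52676650147512320000, -151476038239324683264, 450326771404861353856, -19435140342187500000,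
      334303488632734875648, 575196679942653989120, -319705150722240510000, -696576681539974130432,
      -396145709550694080000, -17212599643945312500, 677946388378297324896, -13973486547298920000,
      -242695388943150150000, 42416106398144531250]),
   ((1, 3),
    [
      -21523435377131520000, 36254412225000000000, -224732627362500000000, 82785526443750000000, 0,
      -883766454759980160000, 155481122737500000000, 237568822125000000000, 32285153065697280000,
      2156238431341023840000, -266114705738571960000, 285053511994769760000, -985410343425623760000,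
      -67927139784375000000, -712863351191932560000, 30792588887589330000, 481237193681785980000,
      4399652017382812500]),
   ((2, 0),
    [
      4678913989017600000, -16621852793921077248, -664626722242560000, 0, -11619385496043520000,
      -15357464202650320896, 20849548973293174784, -252227758325760000, 32216158411397225472,
      5043792682088663680, -9970602307788390000, -41920270504888123648, 9313570401622380000,
      -447298778320312500, 29263450244719921344, -8659242562402395000, -9195016156554150000,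
      -424739040820312500]),
   ((2, 1),
    [
      136784479015403520000, 95347601284652994816, -137540039899552320000, -2409737362500000000,
      -48233070649671680000, -647019310454278541568, -285821107389145344128, 134764901958813990000,
      -42702969983383655424, 928098933566693301440, 236790794871100275000, 451210016925929823616,
      -655877216373738840000, 22517421298242187500, -512804623434455187648, 174227012141417887500,
      59216572388356447500, 26410852665966796875]),
   ((2, 2),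
    [
      152374526418616320000, 281803628347697760000, -249651319798154880000, -60522606637500000000,
      -14348956918087680000, 251979603654412800000, -1278820602888962040000, 133057352869285980000,
      -638118547698456960000, -1894326358968802200000, 1326970679279073720000,
      2697518006254777200000, 1765979639054021580000, -107752494162890625000,
      -3000347815077132960000, -206685913759034332500, 580036889753233125000, 10721254144921875000]),
   ((3, 0),
    [
      -6054336937328640000, 87788027798332846080, 19383562944548760000, 1554783180468750000,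
      55778313880207360000, 90559770726474236160, -175525642254600616640, -8907922249836555000,
      -165876217056785925120, -225724397822501252800, 168594875390923575000, 227063105374285070080,
      167107991385988680000, -34465588270605468750, -129443703018888684240, -5502388921458495000,
      18896842182941265000, 10980212070263671875]),
   ((3, 1),
    [
      -148797974862888960000, -308014364495110080000, 341124788850943800000, 35310575690625000000,
      145355168085442560000, 1530894004782252960000, 792291419101388160000, -246352585856405940000,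
      -298034252851916160000, -2623508865494955360000, -882989819527010790000,
      -1336863931087909440000, 2366246749165208220000, -61500470976562500000,
      2243634503283095490000, -728089470221888775000, -436883234810217585000, -25978491476806640625]),
   ((3, 2),
    [
      0, 145622941162500000000, 132124346925000000000, 13068004884375000000, 0,
      874061032350000000000, -275401594303125000000, 135854279568750000000, -114508487250000000000,
      -720557481543750000000, -431009976651562500000, -2205797649318750000000,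
      492003767812500000000, -14929936719140625000, 3029538524784375000000, -480459725916796875000,
      -238670548180078125000, -80189495087109375000]),
   ((4, 0),
    [
      -44448671575572480000, -228892449522615464064, -111399589042085340000, -11134803328125000000,
      -51015702953328640000, -236441334352335683328, 674058113121202754912, 89107918898991570000,
      469175823910711888896, 1004671103739920122240, -750086953769283240000, -549803526074173459264,
      -1121817251641547745000, 189346157799023437500, -158231200355698555008, 274134141503559641250,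
      273496312071890962500, -24026438149511718750]),
   ((4, 1),
    [
      -62753986440069120000, 80937163166110080000, -224121833213123760000, -52981576503515625000, 0,
      -1509817241773361760000, 111787892378391360000, 30792588887589330000, 1108383047987506560000,
      2787632194262686200000, 413371827518068665000, 176076445486671840000, -2912357880887555100000,
      240229862958398437500, -2193073132028477130000, 1044436777674949462500, 351826038552243937500,
      -36062674052636718750]),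
   ((5, 0),
    [
      83671981920092160000, 347904021022000800000, 242180001634706160000, 27851565956250000000,
      -41835990960046080000, 72352260518591520000, -970781555772600600000, -240618596840892990000,
      -588481034019465600000, -473732579106851580000, 580036889753233125000, 302349474927060240000,
      873766469620435170000, -59667637045019531250, 1093985248287563850000, -175913019276121968750,
      -639529100618978670000, -51679677719970703125]),
   ((6, 0),
    [
      0, -266157442481250000000, -134060997389062500000, 1478746657031250000, 0,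
      217466388900000000000, 678657702370312500000, -8799304034765625000, -108733194450000000000,
      -845147285310937500000, 42885016579687500000, 702733572496875000000, 207827931814453125000,
      -80189495087109375000, -384423010392187500000, 72125348105273437500, -206718710879882812500,
      111054732959179687500])]

/-- The nonnegative remainder in three variables. -/
noncomputable def dom11 : Bern.Poly where
  pks := [(0, 1), (1, 0), (1, 1), (2, 0), (2, 1), (3, 0), (3, 1), (4, 0), (5, 0)]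
  rows :=
  [((0, 0),
    [
      2834262374689687500, 445746138750000, -240699556383955312500, -56865787135635937500,
      -127133617248380292187500, 13711949395534243125000, -1004777403423585345000000,
      521142058044112888125000, 741331606863963203437500]),
   ((0, 1),
    [
      204400697234817024, 0, -2609679583389119062500, 2452808366817804288,
      -572003018358504645937500, 63248904627961604062500, -4319266305300364853437500,
      2346830717018941684687500, 2892965149376335051875000]),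
   ((0, 2),
    [
      -998570929340547072, 0, -89871383640649236480, -11982851152086564864, -2830948584680450949120,
      -539228301843895418880, -1576567121781988909687500, 425183291692763349375000,
      1445651664158828098125000]),
   ((1, 0),
    [
      -2063780236175081472, 0, 2938118607671512500000, 66111575610943125000,
      639012468471218476875000, -70842875902263509062500, 6005654088965679979687500,
      -2828769745298325823125000, -4810921370544008399062500]),
   ((1, 1),
    [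
      579650109147316224, 0, 52168509823258460160, 6955801309767794688, 147590440283775515625000,
      313011058939550760960, 5053051828981572319687500, -1698683287069187817187500,
      -4372784460025296460312500]),
   ((1, 2),
    [
      -425537054325080064, 0, -38298334889257205760, -5106444651900960768, -1206397549011601981440,
      -229790009335543234560, -26058187058650602799104, -5790708235255689510912,
      277268338281532907812500]),
   ((2, 0),
    [
      -398845802091773952, 0, -35896122188259655680, -4786149625101287424, -84189899639626020000000,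
      -5806918022284833750000, -6304193521344082794375000, 1591495344145583670937500,
      7034309357716468721250000]),
   ((2, 1),
    [
      3667791443494699008, 0, 330101229914522910720, 44013497321936388096, 10398188742307471687680,
      1980607379487137464320, -885960635116335820312500, 49911305963075864100864,
      1120297952809584315000000]),
   ((3, 0),
    [
      -2158669835195645952, 0, -194280285167608135680, -25904038022347751424,
      -6119828982779656273920, -1165681711005648814080, 3134092818426752500312500,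
      -384435517525098001875000, -4591402408574981600625000]),
   ((4, 0),
    [
      -1240700941506576384, 0, -111663084735591874560, -14888411298078916608,
      -3517387169171144048640, -669978508413551247360, -75975562854096711450624,
      -16883458412021491433472, 263284171027194287812500])]

/-- A subdivision. -/
noncomputable def cov11 : Bern.Cover :=
  (.split 0 (.split 3 (.split 2 .leaf .leaf) .leaf) (.split 2 (.split 1 (.split 0
  (.split 0 (.split 2 .leaf (.split 1 (.split 0 (.split 2 .leaf .leaf) (.split 1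
  .leaf (.split 0 .leaf .leaf))) .leaf)) (.split 2 .leaf (.split 1 .leaf (.split 0
  .leaf .leaf)))) .leaf) (.split 0 (.split 0 .leaf .leaf) .leaf)) (.split 1 (.split 0
  (.split 3 (.split 0 (.split 3 .leaf (.split 2 .leaf .leaf)) (.split 3 .leaf (.split
  2 .leaf (.split 0 .leaf .leaf)))) (.split 0 (.split 3 (.split 0 .leaf .leaf) .leaf)
  .leaf)) (.split 3 (.split 2 (.split 1 (.split 0 .leaf .leaf) (.split 1 .leaf
  (.split 2 (.split 3 (.split 1 .leaf .leaf) .leaf) (.split 3 (.split 1 .leaf .leaf)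
  .leaf)))) (.split 3 (.split 0 .leaf (.split 1 .leaf (.split 0 .leaf .leaf))) (.split
  1 .leaf .leaf))) (.split 1 (.split 0 (.split 1 (.split 0 .leaf (.split 3 .leaf
  .leaf)) .leaf) (.split 2 (.split 1 (.split 2 .leaf (.split 3 (.split 3 .leaf
  (.split 2 (.split 0 .leaf .leaf) .leaf)) .leaf)) .leaf) (.split 1 .leaf .leaf)))
  .leaf))) (.split 3 (.split 0 (.split 0 .leaf (.split 2 .leaf .leaf)) (.split 2
  .leaf (.split 0 .leaf (.split 3 (.split 2 .leaf (.split 0 .leaf (.split 1 (.split
  3 (.split 0 .leaf .leaf) .leaf) .leaf))) .leaf)))) (.split 0 .leaf .leaf)))))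

/-- A subdivision. -/
noncomputable def covDom11 : Bern.Cover :=
  (.split 2 (.split 2 (.split 2 .leaf (.split 2 .leaf .leaf)) (.split 1 (.split 0
  (.split 2 .leaf (.split 2 .leaf (.split 0 (.split 2 .leaf .leaf) (.split 2 .leaf
  (.split 0 (.split 0 .leaf .leaf) .leaf))))) (.split 1 .leaf (.split 2 (.split 1
  .leaf (.split 1 (.split 2 .leaf (.split 1 .leaf .leaf)) .leaf)) (.split 1 .leaf
  (.split 1 .leaf .leaf))))) (.split 0 (.split 2 .leaf (.split 2 .leaf (.split 0
  (.split 2 .leaf .leaf) (.split 2 .leaf (.split 0 .leaf .leaf))))) .leaf))) (.split 0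
  (.split 2 (.split 2 (.split 0 .leaf (.split 1 (.split 2 (.split 2 (.split 0 .leaf
  (.split 1 (.split 0 .leaf .leaf) (.split 0 .leaf .leaf))) .leaf) .leaf) .leaf))
  .leaf) (.split 2 (.split 2 (.split 2 .leaf (.split 2 (.split 2 .leaf .leaf) .leaf))
  .leaf) .leaf)) (.split 2 (.split 1 (.split 0 (.split 2 (.split 1 (.split 2 (.split
  2 (.split 0 .leaf .leaf) (.split 0 .leaf .leaf)) .leaf) (.split 2 (.split 0 (.split
  2 (.split 1 (.split 0 (.split 0 .leaf .leaf) .leaf) .leaf) (.split 1 (.split 0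
  .leaf (.split 1 .leaf .leaf)) .leaf)) (.split 1 (.split 2 .leaf (.split 0 (.split 2
  .leaf (.split 0 .leaf .leaf)) .leaf)) (.split 2 .leaf (.split 0 .leaf .leaf))))
  (.split 0 .leaf (.split 1 (.split 0 .leaf (.split 0 .leaf .leaf)) (.split 0 .leaf
  (.split 0 .leaf .leaf)))))) (.split 1 .leaf .leaf)) (.split 1 .leaf (.split 0
  (.split 2 (.split 1 (.split 2 .leaf .leaf) (.split 2 .leaf (.split 0 .leaf .leaf)))
  (.split 1 .leaf (.split 0 .leaf (.split 1 (.split 2 .leaf (.split 0 .leaf .leaf))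
  .leaf)))) (.split 1 .leaf (.split 1 (.split 0 (.split 2 .leaf (.split 0 (.split 1
  .leaf .leaf) .leaf)) .leaf) .leaf))))) (.split 0 (.split 2 .leaf (.split 2 .leaf
  (.split 0 .leaf .leaf))) (.split 0 (.split 2 .leaf (.split 0 (.split 2 .leaf .leaf)
  .leaf)) .leaf))) (.split 1 (.split 0 (.split 2 .leaf .leaf) (.split 1 (.split 2
  (.split 0 (.split 0 .leaf (.split 2 .leaf (.split 0 .leaf .leaf))) (.split 2 .leaf
  .leaf)) (.split 0 .leaf (.split 2 .leaf (.split 2 .leaf (.split 2 .leaf (.split 1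
  .leaf (.split 2 (.split 1 .leaf .leaf) (.split 1 .leaf .leaf)))))))) (.split 0
  (.split 2 (.split 1 (.split 2 .leaf (.split 2 .leaf (.split 1 .leaf .leaf)))
  (.split 1 .leaf .leaf)) .leaf) (.split 2 (.split 0 (.split 1 (.split 2 (.split 0
  (.split 0 (.split 1 .leaf .leaf) (.split 1 .leaf .leaf)) .leaf) (.split 0 (.split 1
  (.split 2 (.split 0 .leaf .leaf) (.split 0 (.split 1 .leaf (.split 2 (.split 2
  .leaf .leaf) .leaf)) (.split 2 (.split 1 .leaf .leaf) .leaf))) (.split 2 (.split 0
  (.split 1 .leaf .leaf) (.split 1 (.split 0 .leaf .leaf) .leaf)) (.split 0 (.split 1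
  .leaf .leaf) (.split 1 (.split 2 (.split 0 .leaf .leaf) .leaf) .leaf)))) (.split 1
  .leaf .leaf))) (.split 0 (.split 2 (.split 1 (.split 0 (.split 2 (.split 1 (.split
  0 .leaf (.split 0 .leaf .leaf)) .leaf) (.split 1 .leaf .leaf)) (.split 2 (.split 1
  .leaf .leaf) (.split 1 .leaf .leaf))) .leaf) .leaf) (.split 2 .leaf .leaf))) .leaf)
  (.split 1 (.split 0 (.split 0 .leaf .leaf) (.split 2 .leaf (.split 2 .leaf .leaf)))
  .leaf))))) (.split 0 .leaf (.split 2 (.split 0 (.split 2 (.split 0 (.split 2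
  (.split 0 (.split 2 .leaf .leaf) (.split 2 .leaf (.split 0 .leaf .leaf))) .leaf)
  (.split 2 .leaf .leaf)) .leaf) (.split 2 .leaf .leaf)) (.split 0 .leaf (.split 0
  .leaf (.split 2 .leaf (.split 1 (.split 1 (.split 0 .leaf (.split 0 .leaf (.split
  1 (.split 0 .leaf .leaf) .leaf))) .leaf) (.split 2 (.split 2 .leaf .leaf)
  .leaf)))))))))))

/-- The row. -/
noncomputable def row11 : Row where
  W := terms 4
  D := slopeT 1 1
  G := sym11
  a := 23219011584
  e := slopeE 1
  kR := 524288
  kG := 754974720000000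
  kP := 1125
  I := 12
  J := 8
  P := rem11
  cfg := ⟨12, 12, 10, 12, 12, 300⟩
  cov := cov11
  lay := ⟨166, 13, 13, 13, 13⟩
  R3 := dom11
  cfg3 := ⟨8, 8, 8, 10, 10, 524⟩
  cov3 := covDom11
  lay3 := ⟨98, 5, 3, 15, 1⟩

set_option maxHeartbeats 8000000 in
/-- All parts of the check, evaluated one after another. -/
theorem row11_parts :
    rowRest (terms 0) row11 = true ∧
    Bern.coverU row11.cfg row11.P (.split 3 (.split 2 .leaf .leaf) .leaf) (Bern.Box.cut
      Bern.unitBox 0 Bern.Ax.left) = true ∧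
    Bern.coverU row11.cfg row11.P .leaf (Bern.Box.cut (Bern.Box.cut (Bern.Box.cut (Bern.Box.cut
      (Bern.Box.cut (Bern.Box.cut Bern.unitBox 0 Bern.Ax.right) 2 Bern.Ax.left) 1 Bern.Ax.left) 0
      Bern.Ax.left) 0 Bern.Ax.left) 2 Bern.Ax.left) = true ∧
    Bern.coverU row11.cfg row11.P (.split 2 .leaf .leaf) (Bern.Box.cut (Bern.Box.cut (Bern.Box.cut
      (Bern.Box.cut (Bern.Box.cut (Bern.Box.cut (Bern.Box.cut (Bern.Box.cut Bern.unitBox 0
      Bern.Ax.right) 2 Bern.Ax.left) 1 Bern.Ax.left) 0 Bern.Ax.left) 0 Bern.Ax.left) 2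
      Bern.Ax.right) 1 Bern.Ax.left) 0 Bern.Ax.left) = true ∧
    Bern.coverU row11.cfg row11.P (.split 1 .leaf (.split 0 .leaf .leaf)) (Bern.Box.cut
      (Bern.Box.cut (Bern.Box.cut (Bern.Box.cut (Bern.Box.cut (Bern.Box.cut (Bern.Box.cut
      (Bern.Box.cut Bern.unitBox 0 Bern.Ax.right) 2 Bern.Ax.left) 1 Bern.Ax.left) 0 Bern.Ax.left)
      0 Bern.Ax.left) 2 Bern.Ax.right) 1 Bern.Ax.left) 0 Bern.Ax.right) = true ∧
    Bern.coverU row11.cfg row11.P .leaf (Bern.Box.cut (Bern.Box.cut (Bern.Box.cut (Bern.Box.cut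
      (Bern.Box.cut (Bern.Box.cut (Bern.Box.cut Bern.unitBox 0 Bern.Ax.right) 2 Bern.Ax.left) 1
      Bern.Ax.left) 0 Bern.Ax.left) 0 Bern.Ax.left) 2 Bern.Ax.right) 1 Bern.Ax.right) = true ∧
    Bern.coverU row11.cfg row11.P .leaf (Bern.Box.cut (Bern.Box.cut (Bern.Box.cut (Bern.Box.cut
      (Bern.Box.cut (Bern.Box.cut Bern.unitBox 0 Bern.Ax.right) 2 Bern.Ax.left) 1 Bern.Ax.left) 0
      Bern.Ax.left) 0 Bern.Ax.right) 2 Bern.Ax.left) = true ∧
    Bern.coverU row11.cfg row11.P (.split 1 .leaf (.split 0 .leaf .leaf)) (Bern.Box.cut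
      (Bern.Box.cut (Bern.Box.cut (Bern.Box.cut (Bern.Box.cut (Bern.Box.cut Bern.unitBox 0
      Bern.Ax.right) 2 Bern.Ax.left) 1 Bern.Ax.left) 0 Bern.Ax.left) 0 Bern.Ax.right) 2
      Bern.Ax.right) = true ∧
    Bern.coverU row11.cfg row11.P .leaf (Bern.Box.cut (Bern.Box.cut (Bern.Box.cut (Bern.Box.cut
      Bern.unitBox 0 Bern.Ax.right) 2 Bern.Ax.left) 1 Bern.Ax.left) 0 Bern.Ax.right) = true ∧
    Bern.coverU row11.cfg row11.P (.split 0 (.split 0 .leaf .leaf) .leaf) (Bern.Box.cut
      (Bern.Box.cut (Bern.Box.cut Bern.unitBox 0 Bern.Ax.right) 2 Bern.Ax.left) 1 Bern.Ax.right) =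
      true ∧
    Bern.coverU row11.cfg row11.P (.split 3 .leaf (.split 2 .leaf .leaf)) (Bern.Box.cut
      (Bern.Box.cut (Bern.Box.cut (Bern.Box.cut (Bern.Box.cut (Bern.Box.cut Bern.unitBox 0
      Bern.Ax.right) 2 Bern.Ax.right) 1 Bern.Ax.left) 0 Bern.Ax.left) 3 Bern.Ax.left) 0
      Bern.Ax.left) = true ∧
    Bern.coverU row11.cfg row11.P .leaf (Bern.Box.cut (Bern.Box.cut (Bern.Box.cut (Bern.Box.cut
      (Bern.Box.cut (Bern.Box.cut (Bern.Box.cut Bern.unitBox 0 Bern.Ax.right) 2 Bern.Ax.right) 1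
      Bern.Ax.left) 0 Bern.Ax.left) 3 Bern.Ax.left) 0 Bern.Ax.right) 3 Bern.Ax.left) = true ∧
    Bern.coverU row11.cfg row11.P (.split 2 .leaf (.split 0 .leaf .leaf)) (Bern.Box.cut
      (Bern.Box.cut (Bern.Box.cut (Bern.Box.cut (Bern.Box.cut (Bern.Box.cut (Bern.Box.cut
      Bern.unitBox 0 Bern.Ax.right) 2 Bern.Ax.right) 1 Bern.Ax.left) 0 Bern.Ax.left) 3
      Bern.Ax.left) 0 Bern.Ax.right) 3 Bern.Ax.right) = true ∧
    Bern.coverU row11.cfg row11.P (.split 3 (.split 0 .leaf .leaf) .leaf) (Bern.Box.cut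
      (Bern.Box.cut (Bern.Box.cut (Bern.Box.cut (Bern.Box.cut (Bern.Box.cut Bern.unitBox 0
      Bern.Ax.right) 2 Bern.Ax.right) 1 Bern.Ax.left) 0 Bern.Ax.left) 3 Bern.Ax.right) 0
      Bern.Ax.left) = true ∧
    Bern.coverU row11.cfg row11.P .leaf (Bern.Box.cut (Bern.Box.cut (Bern.Box.cut (Bern.Box.cut
      (Bern.Box.cut (Bern.Box.cut Bern.unitBox 0 Bern.Ax.right) 2 Bern.Ax.right) 1 Bern.Ax.left) 0
      Bern.Ax.left) 3 Bern.Ax.right) 0 Bern.Ax.right) = true ∧
    Bern.coverU row11.cfg row11.P (.split 0 .leaf .leaf) (Bern.Box.cut (Bern.Box.cut (Bern.Box.cut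
      (Bern.Box.cut (Bern.Box.cut (Bern.Box.cut (Bern.Box.cut Bern.unitBox 0 Bern.Ax.right) 2
      Bern.Ax.right) 1 Bern.Ax.left) 0 Bern.Ax.right) 3 Bern.Ax.left) 2 Bern.Ax.left) 1
      Bern.Ax.left) = true ∧
    Bern.coverU row11.cfg row11.P .leaf (Bern.Box.cut (Bern.Box.cut (Bern.Box.cut (Bern.Box.cut
      (Bern.Box.cut (Bern.Box.cut (Bern.Box.cut (Bern.Box.cut Bern.unitBox 0 Bern.Ax.right) 2
      Bern.Ax.right) 1 Bern.Ax.left) 0 Bern.Ax.right) 3 Bern.Ax.left) 2 Bern.Ax.left) 1
      Bern.Ax.right) 1 Bern.Ax.left) = true ∧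
    Bern.coverU row11.cfg row11.P (.split 3 (.split 1 .leaf .leaf) .leaf) (Bern.Box.cut
      (Bern.Box.cut (Bern.Box.cut (Bern.Box.cut (Bern.Box.cut (Bern.Box.cut (Bern.Box.cut
      (Bern.Box.cut (Bern.Box.cut Bern.unitBox 0 Bern.Ax.right) 2 Bern.Ax.right) 1 Bern.Ax.left) 0
      Bern.Ax.right) 3 Bern.Ax.left) 2 Bern.Ax.left) 1 Bern.Ax.right) 1 Bern.Ax.right) 2
      Bern.Ax.left) = true ∧
    Bern.coverU row11.cfg row11.P (.split 3 (.split 1 .leaf .leaf) .leaf) (Bern.Box.cut
      (Bern.Box.cut (Bern.Box.cut (Bern.Box.cut (Bern.Box.cut (Bern.Box.cut (Bern.Box.cut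
      (Bern.Box.cut (Bern.Box.cut Bern.unitBox 0 Bern.Ax.right) 2 Bern.Ax.right) 1 Bern.Ax.left) 0
      Bern.Ax.right) 3 Bern.Ax.left) 2 Bern.Ax.left) 1 Bern.Ax.right) 1 Bern.Ax.right) 2
      Bern.Ax.right) = true ∧
    Bern.coverU row11.cfg row11.P .leaf (Bern.Box.cut (Bern.Box.cut (Bern.Box.cut (Bern.Box.cut
      (Bern.Box.cut (Bern.Box.cut (Bern.Box.cut (Bern.Box.cut Bern.unitBox 0 Bern.Ax.right) 2
      Bern.Ax.right) 1 Bern.Ax.left) 0 Bern.Ax.right) 3 Bern.Ax.left) 2 Bern.Ax.right) 3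
      Bern.Ax.left) 0 Bern.Ax.left) = true ∧
    Bern.coverU row11.cfg row11.P (.split 1 .leaf (.split 0 .leaf .leaf)) (Bern.Box.cut
      (Bern.Box.cut (Bern.Box.cut (Bern.Box.cut (Bern.Box.cut (Bern.Box.cut (Bern.Box.cut
      (Bern.Box.cut Bern.unitBox 0 Bern.Ax.right) 2 Bern.Ax.right) 1 Bern.Ax.left) 0
      Bern.Ax.right) 3 Bern.Ax.left) 2 Bern.Ax.right) 3 Bern.Ax.left) 0 Bern.Ax.right) = true ∧
    Bern.coverU row11.cfg row11.P (.split 1 .leaf .leaf) (Bern.Box.cut (Bern.Box.cut (Bern.Box.cut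
      (Bern.Box.cut (Bern.Box.cut (Bern.Box.cut (Bern.Box.cut Bern.unitBox 0 Bern.Ax.right) 2
      Bern.Ax.right) 1 Bern.Ax.left) 0 Bern.Ax.right) 3 Bern.Ax.left) 2 Bern.Ax.right) 3
      Bern.Ax.right) = true ∧
    Bern.coverU row11.cfg row11.P (.split 0 .leaf (.split 3 .leaf .leaf)) (Bern.Box.cut
      (Bern.Box.cut (Bern.Box.cut (Bern.Box.cut (Bern.Box.cut (Bern.Box.cut (Bern.Box.cut
      (Bern.Box.cut Bern.unitBox 0 Bern.Ax.right) 2 Bern.Ax.right) 1 Bern.Ax.left) 0
      Bern.Ax.right) 3 Bern.Ax.right) 1 Bern.Ax.left) 0 Bern.Ax.left) 1 Bern.Ax.left) = true ∧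
    Bern.coverU row11.cfg row11.P .leaf (Bern.Box.cut (Bern.Box.cut (Bern.Box.cut (Bern.Box.cut
      (Bern.Box.cut (Bern.Box.cut (Bern.Box.cut (Bern.Box.cut Bern.unitBox 0 Bern.Ax.right) 2
      Bern.Ax.right) 1 Bern.Ax.left) 0 Bern.Ax.right) 3 Bern.Ax.right) 1 Bern.Ax.left) 0
      Bern.Ax.left) 1 Bern.Ax.right) = true ∧
    Bern.coverU row11.cfg row11.P .leaf (Bern.Box.cut (Bern.Box.cut (Bern.Box.cut (Bern.Box.cut
      (Bern.Box.cut (Bern.Box.cut (Bern.Box.cut (Bern.Box.cut (Bern.Box.cut (Bern.Box.cut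
      Bern.unitBox 0 Bern.Ax.right) 2 Bern.Ax.right) 1 Bern.Ax.left) 0 Bern.Ax.right) 3
      Bern.Ax.right) 1 Bern.Ax.left) 0 Bern.Ax.right) 2 Bern.Ax.left) 1 Bern.Ax.left) 2
      Bern.Ax.left) = true ∧
    Bern.coverU row11.cfg row11.P .leaf (Bern.Box.cut (Bern.Box.cut (Bern.Box.cut (Bern.Box.cut
      (Bern.Box.cut (Bern.Box.cut (Bern.Box.cut (Bern.Box.cut (Bern.Box.cut (Bern.Box.cut
      (Bern.Box.cut (Bern.Box.cut Bern.unitBox 0 Bern.Ax.right) 2 Bern.Ax.right) 1 Bern.Ax.left) 0
      Bern.Ax.right) 3 Bern.Ax.right) 1 Bern.Ax.left) 0 Bern.Ax.right) 2 Bern.Ax.left) 1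
      Bern.Ax.left) 2 Bern.Ax.right) 3 Bern.Ax.left) 3 Bern.Ax.left) = true ∧
    Bern.coverU row11.cfg row11.P (.split 2 (.split 0 .leaf .leaf) .leaf) (Bern.Box.cut
      (Bern.Box.cut (Bern.Box.cut (Bern.Box.cut (Bern.Box.cut (Bern.Box.cut (Bern.Box.cut
      (Bern.Box.cut (Bern.Box.cut (Bern.Box.cut (Bern.Box.cut (Bern.Box.cut Bern.unitBox 0
      Bern.Ax.right) 2 Bern.Ax.right) 1 Bern.Ax.left) 0 Bern.Ax.right) 3 Bern.Ax.right) 1
      Bern.Ax.left) 0 Bern.Ax.right) 2 Bern.Ax.left) 1 Bern.Ax.left) 2 Bern.Ax.right) 3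
      Bern.Ax.left) 3 Bern.Ax.right) = true ∧
    Bern.coverU row11.cfg row11.P .leaf (Bern.Box.cut (Bern.Box.cut (Bern.Box.cut (Bern.Box.cut
      (Bern.Box.cut (Bern.Box.cut (Bern.Box.cut (Bern.Box.cut (Bern.Box.cut (Bern.Box.cut
      (Bern.Box.cut Bern.unitBox 0 Bern.Ax.right) 2 Bern.Ax.right) 1 Bern.Ax.left) 0
      Bern.Ax.right) 3 Bern.Ax.right) 1 Bern.Ax.left) 0 Bern.Ax.right) 2 Bern.Ax.left) 1
      Bern.Ax.left) 2 Bern.Ax.right) 3 Bern.Ax.right) = true ∧
    Bern.coverU row11.cfg row11.P .leaf (Bern.Box.cut (Bern.Box.cut (Bern.Box.cut (Bern.Box.cut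
      (Bern.Box.cut (Bern.Box.cut (Bern.Box.cut (Bern.Box.cut (Bern.Box.cut Bern.unitBox 0
      Bern.Ax.right) 2 Bern.Ax.right) 1 Bern.Ax.left) 0 Bern.Ax.right) 3 Bern.Ax.right) 1
      Bern.Ax.left) 0 Bern.Ax.right) 2 Bern.Ax.left) 1 Bern.Ax.right) = true ∧
    Bern.coverU row11.cfg row11.P (.split 1 .leaf .leaf) (Bern.Box.cut (Bern.Box.cut (Bern.Box.cut
      (Bern.Box.cut (Bern.Box.cut (Bern.Box.cut (Bern.Box.cut (Bern.Box.cut Bern.unitBox 0
      Bern.Ax.right) 2 Bern.Ax.right) 1 Bern.Ax.left) 0 Bern.Ax.right) 3 Bern.Ax.right) 1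
      Bern.Ax.left) 0 Bern.Ax.right) 2 Bern.Ax.right) = true ∧
    Bern.coverU row11.cfg row11.P .leaf (Bern.Box.cut (Bern.Box.cut (Bern.Box.cut (Bern.Box.cut
      (Bern.Box.cut (Bern.Box.cut Bern.unitBox 0 Bern.Ax.right) 2 Bern.Ax.right) 1 Bern.Ax.left) 0
      Bern.Ax.right) 3 Bern.Ax.right) 1 Bern.Ax.right) = true ∧
    Bern.coverU row11.cfg row11.P (.split 0 .leaf (.split 2 .leaf .leaf)) (Bern.Box.cut
      (Bern.Box.cut (Bern.Box.cut (Bern.Box.cut (Bern.Box.cut Bern.unitBox 0 Bern.Ax.right) 2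
      Bern.Ax.right) 1 Bern.Ax.right) 3 Bern.Ax.left) 0 Bern.Ax.left) = true ∧
    Bern.coverU row11.cfg row11.P .leaf (Bern.Box.cut (Bern.Box.cut (Bern.Box.cut (Bern.Box.cut
      (Bern.Box.cut (Bern.Box.cut Bern.unitBox 0 Bern.Ax.right) 2 Bern.Ax.right) 1 Bern.Ax.right)
      3 Bern.Ax.left) 0 Bern.Ax.right) 2 Bern.Ax.left) = true ∧
    Bern.coverU row11.cfg row11.P .leaf (Bern.Box.cut (Bern.Box.cut (Bern.Box.cut (Bern.Box.cut
      (Bern.Box.cut (Bern.Box.cut (Bern.Box.cut Bern.unitBox 0 Bern.Ax.right) 2 Bern.Ax.right) 1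
      Bern.Ax.right) 3 Bern.Ax.left) 0 Bern.Ax.right) 2 Bern.Ax.right) 0 Bern.Ax.left) = true ∧
    Bern.coverU row11.cfg row11.P .leaf (Bern.Box.cut (Bern.Box.cut (Bern.Box.cut (Bern.Box.cut
      (Bern.Box.cut (Bern.Box.cut (Bern.Box.cut (Bern.Box.cut (Bern.Box.cut Bern.unitBox 0
      Bern.Ax.right) 2 Bern.Ax.right) 1 Bern.Ax.right) 3 Bern.Ax.left) 0 Bern.Ax.right) 2
      Bern.Ax.right) 0 Bern.Ax.right) 3 Bern.Ax.left) 2 Bern.Ax.left) = true ∧
    Bern.coverU row11.cfg row11.P .leaf (Bern.Box.cut (Bern.Box.cut (Bern.Box.cut (Bern.Box.cut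
      (Bern.Box.cut (Bern.Box.cut (Bern.Box.cut (Bern.Box.cut (Bern.Box.cut (Bern.Box.cut
      Bern.unitBox 0 Bern.Ax.right) 2 Bern.Ax.right) 1 Bern.Ax.right) 3 Bern.Ax.left) 0
      Bern.Ax.right) 2 Bern.Ax.right) 0 Bern.Ax.right) 3 Bern.Ax.left) 2 Bern.Ax.right) 0
      Bern.Ax.left) = true ∧
    Bern.coverU row11.cfg row11.P (.split 3 (.split 0 .leaf .leaf) .leaf) (Bern.Box.cut
      (Bern.Box.cut (Bern.Box.cut (Bern.Box.cut (Bern.Box.cut (Bern.Box.cut (Bern.Box.cut
      (Bern.Box.cut (Bern.Box.cut (Bern.Box.cut (Bern.Box.cut Bern.unitBox 0 Bern.Ax.right) 2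
      Bern.Ax.right) 1 Bern.Ax.right) 3 Bern.Ax.left) 0 Bern.Ax.right) 2 Bern.Ax.right) 0
      Bern.Ax.right) 3 Bern.Ax.left) 2 Bern.Ax.right) 0 Bern.Ax.right) 1 Bern.Ax.left) = true ∧
    Bern.coverU row11.cfg row11.P .leaf (Bern.Box.cut (Bern.Box.cut (Bern.Box.cut (Bern.Box.cut
      (Bern.Box.cut (Bern.Box.cut (Bern.Box.cut (Bern.Box.cut (Bern.Box.cut (Bern.Box.cut
      (Bern.Box.cut Bern.unitBox 0 Bern.Ax.right) 2 Bern.Ax.right) 1 Bern.Ax.right) 3
      Bern.Ax.left) 0 Bern.Ax.right) 2 Bern.Ax.right) 0 Bern.Ax.right) 3 Bern.Ax.left) 2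
      Bern.Ax.right) 0 Bern.Ax.right) 1 Bern.Ax.right) = true ∧
    Bern.coverU row11.cfg row11.P .leaf (Bern.Box.cut (Bern.Box.cut (Bern.Box.cut (Bern.Box.cut
      (Bern.Box.cut (Bern.Box.cut (Bern.Box.cut (Bern.Box.cut Bern.unitBox 0 Bern.Ax.right) 2
      Bern.Ax.right) 1 Bern.Ax.right) 3 Bern.Ax.left) 0 Bern.Ax.right) 2 Bern.Ax.right) 0
      Bern.Ax.right) 3 Bern.Ax.right) = true ∧
    Bern.coverU row11.cfg row11.P (.split 0 .leaf .leaf) (Bern.Box.cut (Bern.Box.cut (Bern.Box.cut
      (Bern.Box.cut Bern.unitBox 0 Bern.Ax.right) 2 Bern.Ax.right) 1 Bern.Ax.right) 3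
      Bern.Ax.right) = true ∧
    Bern.coverU row11.cfg3 row11.R3 (.split 2 .leaf (.split 2 .leaf .leaf)) (Bern.Box.cut
      (Bern.Box.cut box3 2 Bern.Ax.left) 2 Bern.Ax.left) = true ∧
    Bern.coverU row11.cfg3 row11.R3 (.split 2 .leaf (.split 2 .leaf (.split 0 (.split 2 .leaf
      .leaf) (.split 2 .leaf (.split 0 (.split 0 .leaf .leaf) .leaf))))) (Bern.Box.cut
      (Bern.Box.cut (Bern.Box.cut (Bern.Box.cut box3 2 Bern.Ax.left) 2 Bern.Ax.right) 1
      Bern.Ax.left) 0 Bern.Ax.left) = true ∧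
    Bern.coverU row11.cfg3 row11.R3 .leaf (Bern.Box.cut (Bern.Box.cut (Bern.Box.cut (Bern.Box.cut
      (Bern.Box.cut box3 2 Bern.Ax.left) 2 Bern.Ax.right) 1 Bern.Ax.left) 0 Bern.Ax.right) 1
      Bern.Ax.left) = true ∧
    Bern.coverU row11.cfg3 row11.R3 (.split 2 (.split 1 .leaf (.split 1 (.split 2 .leaf (.split 1
      .leaf .leaf)) .leaf)) (.split 1 .leaf (.split 1 .leaf .leaf))) (Bern.Box.cut (Bern.Box.cut
      (Bern.Box.cut (Bern.Box.cut (Bern.Box.cut box3 2 Bern.Ax.left) 2 Bern.Ax.right) 1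
      Bern.Ax.left) 0 Bern.Ax.right) 1 Bern.Ax.right) = true ∧
    Bern.coverU row11.cfg3 row11.R3 (.split 0 (.split 2 .leaf (.split 2 .leaf (.split 0 (.split 2
      .leaf .leaf) (.split 2 .leaf (.split 0 .leaf .leaf))))) .leaf) (Bern.Box.cut (Bern.Box.cut
      (Bern.Box.cut box3 2 Bern.Ax.left) 2 Bern.Ax.right) 1 Bern.Ax.right) = true ∧
    Bern.coverU row11.cfg3 row11.R3 .leaf (Bern.Box.cut (Bern.Box.cut (Bern.Box.cut (Bern.Box.cut
      (Bern.Box.cut box3 2 Bern.Ax.right) 0 Bern.Ax.left) 2 Bern.Ax.left) 2 Bern.Ax.left) 0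
      Bern.Ax.left) = true ∧
    Bern.coverU row11.cfg3 row11.R3 (.split 1 (.split 2 (.split 2 (.split 0 .leaf (.split 1
      (.split 0 .leaf .leaf) (.split 0 .leaf .leaf))) .leaf) .leaf) .leaf) (Bern.Box.cut
      (Bern.Box.cut (Bern.Box.cut (Bern.Box.cut (Bern.Box.cut box3 2 Bern.Ax.right) 0
      Bern.Ax.left) 2 Bern.Ax.left) 2 Bern.Ax.left) 0 Bern.Ax.right) = true ∧
    Bern.coverU row11.cfg3 row11.R3 .leaf (Bern.Box.cut (Bern.Box.cut (Bern.Box.cut (Bern.Box.cut
      box3 2 Bern.Ax.right) 0 Bern.Ax.left) 2 Bern.Ax.left) 2 Bern.Ax.right) = true ∧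
    Bern.coverU row11.cfg3 row11.R3 (.split 2 (.split 2 (.split 2 .leaf (.split 2 (.split 2 .leaf
      .leaf) .leaf)) .leaf) .leaf) (Bern.Box.cut (Bern.Box.cut (Bern.Box.cut box3 2 Bern.Ax.right)
      0 Bern.Ax.left) 2 Bern.Ax.right) = true ∧
    Bern.coverU row11.cfg3 row11.R3 (.split 2 (.split 2 (.split 0 .leaf .leaf) (.split 0 .leaf
      .leaf)) .leaf) (Bern.Box.cut (Bern.Box.cut (Bern.Box.cut (Bern.Box.cut (Bern.Box.cut
      (Bern.Box.cut (Bern.Box.cut box3 2 Bern.Ax.right) 0 Bern.Ax.right) 2 Bern.Ax.left) 1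
      Bern.Ax.left) 0 Bern.Ax.left) 2 Bern.Ax.left) 1 Bern.Ax.left) = true ∧
    Bern.coverU row11.cfg3 row11.R3 (.split 2 (.split 1 (.split 0 (.split 0 .leaf .leaf) .leaf)
      .leaf) (.split 1 (.split 0 .leaf (.split 1 .leaf .leaf)) .leaf)) (Bern.Box.cut (Bern.Box.cut
      (Bern.Box.cut (Bern.Box.cut (Bern.Box.cut (Bern.Box.cut (Bern.Box.cut (Bern.Box.cut
      (Bern.Box.cut box3 2 Bern.Ax.right) 0 Bern.Ax.right) 2 Bern.Ax.left) 1 Bern.Ax.left) 0
      Bern.Ax.left) 2 Bern.Ax.left) 1 Bern.Ax.right) 2 Bern.Ax.left) 0 Bern.Ax.left) = true ∧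
    Bern.coverU row11.cfg3 row11.R3 (.split 1 (.split 2 .leaf (.split 0 (.split 2 .leaf (.split 0
      .leaf .leaf)) .leaf)) (.split 2 .leaf (.split 0 .leaf .leaf))) (Bern.Box.cut (Bern.Box.cut
      (Bern.Box.cut (Bern.Box.cut (Bern.Box.cut (Bern.Box.cut (Bern.Box.cut (Bern.Box.cut
      (Bern.Box.cut box3 2 Bern.Ax.right) 0 Bern.Ax.right) 2 Bern.Ax.left) 1 Bern.Ax.left) 0
      Bern.Ax.left) 2 Bern.Ax.left) 1 Bern.Ax.right) 2 Bern.Ax.left) 0 Bern.Ax.right) = true ∧
    Bern.coverU row11.cfg3 row11.R3 (.split 0 .leaf (.split 1 (.split 0 .leaf (.split 0 .leaf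
      .leaf)) (.split 0 .leaf (.split 0 .leaf .leaf)))) (Bern.Box.cut (Bern.Box.cut (Bern.Box.cut
      (Bern.Box.cut (Bern.Box.cut (Bern.Box.cut (Bern.Box.cut (Bern.Box.cut box3 2 Bern.Ax.right)
      0 Bern.Ax.right) 2 Bern.Ax.left) 1 Bern.Ax.left) 0 Bern.Ax.left) 2 Bern.Ax.left) 1
      Bern.Ax.right) 2 Bern.Ax.right) = true ∧
    Bern.coverU row11.cfg3 row11.R3 (.split 1 .leaf .leaf) (Bern.Box.cut (Bern.Box.cut
      (Bern.Box.cut (Bern.Box.cut (Bern.Box.cut (Bern.Box.cut box3 2 Bern.Ax.right) 0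
      Bern.Ax.right) 2 Bern.Ax.left) 1 Bern.Ax.left) 0 Bern.Ax.left) 2 Bern.Ax.right) = true ∧
    Bern.coverU row11.cfg3 row11.R3 .leaf (Bern.Box.cut (Bern.Box.cut (Bern.Box.cut (Bern.Box.cut
      (Bern.Box.cut (Bern.Box.cut box3 2 Bern.Ax.right) 0 Bern.Ax.right) 2 Bern.Ax.left) 1
      Bern.Ax.left) 0 Bern.Ax.right) 1 Bern.Ax.left) = true ∧
    Bern.coverU row11.cfg3 row11.R3 (.split 1 (.split 2 .leaf .leaf) (.split 2 .leaf (.split 0
      .leaf .leaf))) (Bern.Box.cut (Bern.Box.cut (Bern.Box.cut (Bern.Box.cut (Bern.Box.cut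
      (Bern.Box.cut (Bern.Box.cut (Bern.Box.cut box3 2 Bern.Ax.right) 0 Bern.Ax.right) 2
      Bern.Ax.left) 1 Bern.Ax.left) 0 Bern.Ax.right) 1 Bern.Ax.right) 0 Bern.Ax.left) 2
      Bern.Ax.left) = true ∧
    Bern.coverU row11.cfg3 row11.R3 (.split 1 .leaf (.split 0 .leaf (.split 1 (.split 2 .leaf
      (.split 0 .leaf .leaf)) .leaf))) (Bern.Box.cut (Bern.Box.cut (Bern.Box.cut (Bern.Box.cut
      (Bern.Box.cut (Bern.Box.cut (Bern.Box.cut (Bern.Box.cut box3 2 Bern.Ax.right) 0
      Bern.Ax.right) 2 Bern.Ax.left) 1 Bern.Ax.left) 0 Bern.Ax.right) 1 Bern.Ax.right) 0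
      Bern.Ax.left) 2 Bern.Ax.right) = true ∧
    Bern.coverU row11.cfg3 row11.R3 (.split 1 .leaf (.split 1 (.split 0 (.split 2 .leaf (.split 0
      (.split 1 .leaf .leaf) .leaf)) .leaf) .leaf)) (Bern.Box.cut (Bern.Box.cut (Bern.Box.cut
      (Bern.Box.cut (Bern.Box.cut (Bern.Box.cut (Bern.Box.cut box3 2 Bern.Ax.right) 0
      Bern.Ax.right) 2 Bern.Ax.left) 1 Bern.Ax.left) 0 Bern.Ax.right) 1 Bern.Ax.right) 0
      Bern.Ax.right) = true ∧
    Bern.coverU row11.cfg3 row11.R3 (.split 2 .leaf (.split 2 .leaf (.split 0 .leaf .leaf)))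
      (Bern.Box.cut (Bern.Box.cut (Bern.Box.cut (Bern.Box.cut (Bern.Box.cut box3 2 Bern.Ax.right)
      0 Bern.Ax.right) 2 Bern.Ax.left) 1 Bern.Ax.right) 0 Bern.Ax.left) = true ∧
    Bern.coverU row11.cfg3 row11.R3 (.split 0 (.split 2 .leaf (.split 0 (.split 2 .leaf .leaf)
      .leaf)) .leaf) (Bern.Box.cut (Bern.Box.cut (Bern.Box.cut (Bern.Box.cut (Bern.Box.cut box3 2
      Bern.Ax.right) 0 Bern.Ax.right) 2 Bern.Ax.left) 1 Bern.Ax.right) 0 Bern.Ax.right) = true ∧
    Bern.coverU row11.cfg3 row11.R3 (.split 2 .leaf .leaf) (Bern.Box.cut (Bern.Box.cut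
      (Bern.Box.cut (Bern.Box.cut (Bern.Box.cut box3 2 Bern.Ax.right) 0 Bern.Ax.right) 2
      Bern.Ax.right) 1 Bern.Ax.left) 0 Bern.Ax.left) = true ∧
    Bern.coverU row11.cfg3 row11.R3 (.split 0 (.split 0 .leaf (.split 2 .leaf (.split 0 .leaf
      .leaf))) (.split 2 .leaf .leaf)) (Bern.Box.cut (Bern.Box.cut (Bern.Box.cut (Bern.Box.cut
      (Bern.Box.cut (Bern.Box.cut (Bern.Box.cut box3 2 Bern.Ax.right) 0 Bern.Ax.right) 2
      Bern.Ax.right) 1 Bern.Ax.left) 0 Bern.Ax.right) 1 Bern.Ax.left) 2 Bern.Ax.left) = true ∧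
    Bern.coverU row11.cfg3 row11.R3 .leaf (Bern.Box.cut (Bern.Box.cut (Bern.Box.cut (Bern.Box.cut
      (Bern.Box.cut (Bern.Box.cut (Bern.Box.cut (Bern.Box.cut box3 2 Bern.Ax.right) 0
      Bern.Ax.right) 2 Bern.Ax.right) 1 Bern.Ax.left) 0 Bern.Ax.right) 1 Bern.Ax.left) 2
      Bern.Ax.right) 0 Bern.Ax.left) = true ∧
    Bern.coverU row11.cfg3 row11.R3 (.split 2 .leaf (.split 2 .leaf (.split 2 .leaf (.split 1
      .leaf (.split 2 (.split 1 .leaf .leaf) (.split 1 .leaf .leaf)))))) (Bern.Box.cut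
      (Bern.Box.cut (Bern.Box.cut (Bern.Box.cut (Bern.Box.cut (Bern.Box.cut (Bern.Box.cut
      (Bern.Box.cut box3 2 Bern.Ax.right) 0 Bern.Ax.right) 2 Bern.Ax.right) 1 Bern.Ax.left) 0
      Bern.Ax.right) 1 Bern.Ax.left) 2 Bern.Ax.right) 0 Bern.Ax.right) = true ∧
    Bern.coverU row11.cfg3 row11.R3 (.split 2 (.split 1 (.split 2 .leaf (.split 2 .leaf (.split 1
      .leaf .leaf))) (.split 1 .leaf .leaf)) .leaf) (Bern.Box.cut (Bern.Box.cut (Bern.Box.cut
      (Bern.Box.cut (Bern.Box.cut (Bern.Box.cut (Bern.Box.cut box3 2 Bern.Ax.right) 0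
      Bern.Ax.right) 2 Bern.Ax.right) 1 Bern.Ax.left) 0 Bern.Ax.right) 1 Bern.Ax.right) 0
      Bern.Ax.left) = true ∧
    Bern.coverU row11.cfg3 row11.R3 (.split 0 (.split 0 (.split 1 .leaf .leaf) (.split 1 .leaf
      .leaf)) .leaf) (Bern.Box.cut (Bern.Box.cut (Bern.Box.cut (Bern.Box.cut (Bern.Box.cut
      (Bern.Box.cut (Bern.Box.cut (Bern.Box.cut (Bern.Box.cut (Bern.Box.cut (Bern.Box.cut box3 2
      Bern.Ax.right) 0 Bern.Ax.right) 2 Bern.Ax.right) 1 Bern.Ax.left) 0 Bern.Ax.right) 1
      Bern.Ax.right) 0 Bern.Ax.right) 2 Bern.Ax.left) 0 Bern.Ax.left) 1 Bern.Ax.left) 2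
      Bern.Ax.left) = true ∧
    Bern.coverU row11.cfg3 row11.R3 (.split 0 .leaf .leaf) (Bern.Box.cut (Bern.Box.cut
      (Bern.Box.cut (Bern.Box.cut (Bern.Box.cut (Bern.Box.cut (Bern.Box.cut (Bern.Box.cut
      (Bern.Box.cut (Bern.Box.cut (Bern.Box.cut (Bern.Box.cut (Bern.Box.cut (Bern.Box.cut box3 2
      Bern.Ax.right) 0 Bern.Ax.right) 2 Bern.Ax.right) 1 Bern.Ax.left) 0 Bern.Ax.right) 1
      Bern.Ax.right) 0 Bern.Ax.right) 2 Bern.Ax.left) 0 Bern.Ax.left) 1 Bern.Ax.left) 2
      Bern.Ax.right) 0 Bern.Ax.left) 1 Bern.Ax.left) 2 Bern.Ax.left) = true ∧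
    Bern.coverU row11.cfg3 row11.R3 (.split 0 (.split 1 .leaf (.split 2 (.split 2 .leaf .leaf)
      .leaf)) (.split 2 (.split 1 .leaf .leaf) .leaf)) (Bern.Box.cut (Bern.Box.cut (Bern.Box.cut
      (Bern.Box.cut (Bern.Box.cut (Bern.Box.cut (Bern.Box.cut (Bern.Box.cut (Bern.Box.cut
      (Bern.Box.cut (Bern.Box.cut (Bern.Box.cut (Bern.Box.cut (Bern.Box.cut box3 2 Bern.Ax.right)
      0 Bern.Ax.right) 2 Bern.Ax.right) 1 Bern.Ax.left) 0 Bern.Ax.right) 1 Bern.Ax.right) 0
      Bern.Ax.right) 2 Bern.Ax.left) 0 Bern.Ax.left) 1 Bern.Ax.left) 2 Bern.Ax.right) 0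
      Bern.Ax.left) 1 Bern.Ax.left) 2 Bern.Ax.right) = true ∧
    Bern.coverU row11.cfg3 row11.R3 (.split 0 (.split 1 .leaf .leaf) (.split 1 (.split 0 .leaf
      .leaf) .leaf)) (Bern.Box.cut (Bern.Box.cut (Bern.Box.cut (Bern.Box.cut (Bern.Box.cut
      (Bern.Box.cut (Bern.Box.cut (Bern.Box.cut (Bern.Box.cut (Bern.Box.cut (Bern.Box.cut
      (Bern.Box.cut (Bern.Box.cut (Bern.Box.cut box3 2 Bern.Ax.right) 0 Bern.Ax.right) 2
      Bern.Ax.right) 1 Bern.Ax.left) 0 Bern.Ax.right) 1 Bern.Ax.right) 0 Bern.Ax.right) 2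
      Bern.Ax.left) 0 Bern.Ax.left) 1 Bern.Ax.left) 2 Bern.Ax.right) 0 Bern.Ax.left) 1
      Bern.Ax.right) 2 Bern.Ax.left) = true ∧
    Bern.coverU row11.cfg3 row11.R3 (.split 0 (.split 1 .leaf .leaf) (.split 1 (.split 2 (.split 0
      .leaf .leaf) .leaf) .leaf)) (Bern.Box.cut (Bern.Box.cut (Bern.Box.cut (Bern.Box.cut
      (Bern.Box.cut (Bern.Box.cut (Bern.Box.cut (Bern.Box.cut (Bern.Box.cut (Bern.Box.cut
      (Bern.Box.cut (Bern.Box.cut (Bern.Box.cut (Bern.Box.cut box3 2 Bern.Ax.right) 0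
      Bern.Ax.right) 2 Bern.Ax.right) 1 Bern.Ax.left) 0 Bern.Ax.right) 1 Bern.Ax.right) 0
      Bern.Ax.right) 2 Bern.Ax.left) 0 Bern.Ax.left) 1 Bern.Ax.left) 2 Bern.Ax.right) 0
      Bern.Ax.left) 1 Bern.Ax.right) 2 Bern.Ax.right) = true ∧
    Bern.coverU row11.cfg3 row11.R3 (.split 1 .leaf .leaf) (Bern.Box.cut (Bern.Box.cut
      (Bern.Box.cut (Bern.Box.cut (Bern.Box.cut (Bern.Box.cut (Bern.Box.cut (Bern.Box.cut
      (Bern.Box.cut (Bern.Box.cut (Bern.Box.cut (Bern.Box.cut box3 2 Bern.Ax.right) 0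
      Bern.Ax.right) 2 Bern.Ax.right) 1 Bern.Ax.left) 0 Bern.Ax.right) 1 Bern.Ax.right) 0
      Bern.Ax.right) 2 Bern.Ax.left) 0 Bern.Ax.left) 1 Bern.Ax.left) 2 Bern.Ax.right) 0
      Bern.Ax.right) = true ∧
    Bern.coverU row11.cfg3 row11.R3 (.split 2 (.split 1 (.split 0 .leaf (.split 0 .leaf .leaf))
      .leaf) (.split 1 .leaf .leaf)) (Bern.Box.cut (Bern.Box.cut (Bern.Box.cut (Bern.Box.cut
      (Bern.Box.cut (Bern.Box.cut (Bern.Box.cut (Bern.Box.cut (Bern.Box.cut (Bern.Box.cut
      (Bern.Box.cut (Bern.Box.cut (Bern.Box.cut (Bern.Box.cut box3 2 Bern.Ax.right) 0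
      Bern.Ax.right) 2 Bern.Ax.right) 1 Bern.Ax.left) 0 Bern.Ax.right) 1 Bern.Ax.right) 0
      Bern.Ax.right) 2 Bern.Ax.left) 0 Bern.Ax.left) 1 Bern.Ax.right) 0 Bern.Ax.left) 2
      Bern.Ax.left) 1 Bern.Ax.left) 0 Bern.Ax.left) = true ∧
    Bern.coverU row11.cfg3 row11.R3 (.split 2 (.split 1 .leaf .leaf) (.split 1 .leaf .leaf))
      (Bern.Box.cut (Bern.Box.cut (Bern.Box.cut (Bern.Box.cut (Bern.Box.cut (Bern.Box.cut
      (Bern.Box.cut (Bern.Box.cut (Bern.Box.cut (Bern.Box.cut (Bern.Box.cut (Bern.Box.cut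
      (Bern.Box.cut (Bern.Box.cut box3 2 Bern.Ax.right) 0 Bern.Ax.right) 2 Bern.Ax.right) 1
      Bern.Ax.left) 0 Bern.Ax.right) 1 Bern.Ax.right) 0 Bern.Ax.right) 2 Bern.Ax.left) 0
      Bern.Ax.left) 1 Bern.Ax.right) 0 Bern.Ax.left) 2 Bern.Ax.left) 1 Bern.Ax.left) 0
      Bern.Ax.right) = true ∧
    Bern.coverU row11.cfg3 row11.R3 .leaf (Bern.Box.cut (Bern.Box.cut (Bern.Box.cut (Bern.Box.cut
      (Bern.Box.cut (Bern.Box.cut (Bern.Box.cut (Bern.Box.cut (Bern.Box.cut (Bern.Box.cut
      (Bern.Box.cut (Bern.Box.cut (Bern.Box.cut box3 2 Bern.Ax.right) 0 Bern.Ax.right) 2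
      Bern.Ax.right) 1 Bern.Ax.left) 0 Bern.Ax.right) 1 Bern.Ax.right) 0 Bern.Ax.right) 2
      Bern.Ax.left) 0 Bern.Ax.left) 1 Bern.Ax.right) 0 Bern.Ax.left) 2 Bern.Ax.left) 1
      Bern.Ax.right) = true ∧
    Bern.coverU row11.cfg3 row11.R3 .leaf (Bern.Box.cut (Bern.Box.cut (Bern.Box.cut (Bern.Box.cut
      (Bern.Box.cut (Bern.Box.cut (Bern.Box.cut (Bern.Box.cut (Bern.Box.cut (Bern.Box.cut
      (Bern.Box.cut (Bern.Box.cut box3 2 Bern.Ax.right) 0 Bern.Ax.right) 2 Bern.Ax.right) 1
      Bern.Ax.left) 0 Bern.Ax.right) 1 Bern.Ax.right) 0 Bern.Ax.right) 2 Bern.Ax.left) 0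
      Bern.Ax.left) 1 Bern.Ax.right) 0 Bern.Ax.left) 2 Bern.Ax.right) = true ∧
    Bern.coverU row11.cfg3 row11.R3 (.split 2 .leaf .leaf) (Bern.Box.cut (Bern.Box.cut
      (Bern.Box.cut (Bern.Box.cut (Bern.Box.cut (Bern.Box.cut (Bern.Box.cut (Bern.Box.cut
      (Bern.Box.cut (Bern.Box.cut (Bern.Box.cut box3 2 Bern.Ax.right) 0 Bern.Ax.right) 2
      Bern.Ax.right) 1 Bern.Ax.left) 0 Bern.Ax.right) 1 Bern.Ax.right) 0 Bern.Ax.right) 2
      Bern.Ax.left) 0 Bern.Ax.left) 1 Bern.Ax.right) 0 Bern.Ax.right) = true ∧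
    Bern.coverU row11.cfg3 row11.R3 .leaf (Bern.Box.cut (Bern.Box.cut (Bern.Box.cut (Bern.Box.cut
      (Bern.Box.cut (Bern.Box.cut (Bern.Box.cut (Bern.Box.cut (Bern.Box.cut box3 2 Bern.Ax.right)
      0 Bern.Ax.right) 2 Bern.Ax.right) 1 Bern.Ax.left) 0 Bern.Ax.right) 1 Bern.Ax.right) 0
      Bern.Ax.right) 2 Bern.Ax.left) 0 Bern.Ax.right) = true ∧
    Bern.coverU row11.cfg3 row11.R3 (.split 1 (.split 0 (.split 0 .leaf .leaf) (.split 2 .leaf
      (.split 2 .leaf .leaf))) .leaf) (Bern.Box.cut (Bern.Box.cut (Bern.Box.cut (Bern.Box.cut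
      (Bern.Box.cut (Bern.Box.cut (Bern.Box.cut (Bern.Box.cut box3 2 Bern.Ax.right) 0
      Bern.Ax.right) 2 Bern.Ax.right) 1 Bern.Ax.left) 0 Bern.Ax.right) 1 Bern.Ax.right) 0
      Bern.Ax.right) 2 Bern.Ax.right) = true ∧
    Bern.coverU row11.cfg3 row11.R3 .leaf (Bern.Box.cut (Bern.Box.cut (Bern.Box.cut (Bern.Box.cut
      (Bern.Box.cut box3 2 Bern.Ax.right) 0 Bern.Ax.right) 2 Bern.Ax.right) 1 Bern.Ax.right) 0
      Bern.Ax.left) = true ∧
    Bern.coverU row11.cfg3 row11.R3 (.split 0 (.split 2 (.split 0 (.split 2 .leaf .leaf) (.split 2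
      .leaf (.split 0 .leaf .leaf))) .leaf) (.split 2 .leaf .leaf)) (Bern.Box.cut (Bern.Box.cut
      (Bern.Box.cut (Bern.Box.cut (Bern.Box.cut (Bern.Box.cut (Bern.Box.cut (Bern.Box.cut box3 2
      Bern.Ax.right) 0 Bern.Ax.right) 2 Bern.Ax.right) 1 Bern.Ax.right) 0 Bern.Ax.right) 2
      Bern.Ax.left) 0 Bern.Ax.left) 2 Bern.Ax.left) = true ∧
    Bern.coverU row11.cfg3 row11.R3 .leaf (Bern.Box.cut (Bern.Box.cut (Bern.Box.cut (Bern.Box.cut
      (Bern.Box.cut (Bern.Box.cut (Bern.Box.cut (Bern.Box.cut box3 2 Bern.Ax.right) 0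
      Bern.Ax.right) 2 Bern.Ax.right) 1 Bern.Ax.right) 0 Bern.Ax.right) 2 Bern.Ax.left) 0
      Bern.Ax.left) 2 Bern.Ax.right) = true ∧
    Bern.coverU row11.cfg3 row11.R3 (.split 2 .leaf .leaf) (Bern.Box.cut (Bern.Box.cut
      (Bern.Box.cut (Bern.Box.cut (Bern.Box.cut (Bern.Box.cut (Bern.Box.cut box3 2 Bern.Ax.right)
      0 Bern.Ax.right) 2 Bern.Ax.right) 1 Bern.Ax.right) 0 Bern.Ax.right) 2 Bern.Ax.left) 0
      Bern.Ax.right) = true ∧
    Bern.coverU row11.cfg3 row11.R3 .leaf (Bern.Box.cut (Bern.Box.cut (Bern.Box.cut (Bern.Box.cut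
      (Bern.Box.cut (Bern.Box.cut (Bern.Box.cut box3 2 Bern.Ax.right) 0 Bern.Ax.right) 2
      Bern.Ax.right) 1 Bern.Ax.right) 0 Bern.Ax.right) 2 Bern.Ax.right) 0 Bern.Ax.left) = true ∧
    Bern.coverU row11.cfg3 row11.R3 .leaf (Bern.Box.cut (Bern.Box.cut (Bern.Box.cut (Bern.Box.cut
      (Bern.Box.cut (Bern.Box.cut (Bern.Box.cut (Bern.Box.cut box3 2 Bern.Ax.right) 0
      Bern.Ax.right) 2 Bern.Ax.right) 1 Bern.Ax.right) 0 Bern.Ax.right) 2 Bern.Ax.right) 0
      Bern.Ax.right) 0 Bern.Ax.left) = true ∧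
    Bern.coverU row11.cfg3 row11.R3 .leaf (Bern.Box.cut (Bern.Box.cut (Bern.Box.cut (Bern.Box.cut
      (Bern.Box.cut (Bern.Box.cut (Bern.Box.cut (Bern.Box.cut (Bern.Box.cut box3 2 Bern.Ax.right)
      0 Bern.Ax.right) 2 Bern.Ax.right) 1 Bern.Ax.right) 0 Bern.Ax.right) 2 Bern.Ax.right) 0
      Bern.Ax.right) 0 Bern.Ax.right) 2 Bern.Ax.left) = true ∧
    Bern.coverU row11.cfg3 row11.R3 (.split 1 (.split 0 .leaf (.split 0 .leaf (.split 1 (.split 0
      .leaf .leaf) .leaf))) .leaf) (Bern.Box.cut (Bern.Box.cut (Bern.Box.cut (Bern.Box.cut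
      (Bern.Box.cut (Bern.Box.cut (Bern.Box.cut (Bern.Box.cut (Bern.Box.cut (Bern.Box.cut box3 2
      Bern.Ax.right) 0 Bern.Ax.right) 2 Bern.Ax.right) 1 Bern.Ax.right) 0 Bern.Ax.right) 2
      Bern.Ax.right) 0 Bern.Ax.right) 0 Bern.Ax.right) 2 Bern.Ax.right) 1 Bern.Ax.left) = true ∧
    Bern.coverU row11.cfg3 row11.R3 (.split 2 (.split 2 .leaf .leaf) .leaf) (Bern.Box.cut
      (Bern.Box.cut (Bern.Box.cut (Bern.Box.cut (Bern.Box.cut (Bern.Box.cut (Bern.Box.cut
      (Bern.Box.cut (Bern.Box.cut (Bern.Box.cut box3 2 Bern.Ax.right) 0 Bern.Ax.right) 2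
      Bern.Ax.right) 1 Bern.Ax.right) 0 Bern.Ax.right) 2 Bern.Ax.right) 0 Bern.Ax.right) 0
      Bern.Ax.right) 2 Bern.Ax.right) 1 Bern.Ax.right) = true := by
  exact ⟨by decide +kernel, by decide +kernel, by decide +kernel,
    by decide +kernel, by decide +kernel, by decide +kernel, by decide +kernel,
    by decide +kernel, by decide +kernel, by decide +kernel, by decide +kernel,
    by decide +kernel, by decide +kernel, by decide +kernel, by decide +kernel,
    by decide +kernel, by decide +kernel, by decide +kernel, by decide +kernel,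
    by decide +kernel, by decide +kernel, by decide +kernel, by decide +kernel,
    by decide +kernel, by decide +kernel, by decide +kernel, by decide +kernel,
    by decide +kernel, by decide +kernel, by decide +kernel, by decide +kernel,
    by decide +kernel, by decide +kernel, by decide +kernel, by decide +kernel,
    by decide +kernel, by decide +kernel, by decide +kernel, by decide +kernel,
    by decide +kernel, by decide +kernel, by decide +kernel, by decide +kernel,
    by decide +kernel, by decide +kernel, by decide +kernel, by decide +kernel,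
    by decide +kernel, by decide +kernel, by decide +kernel, by decide +kernel,
    by decide +kernel, by decide +kernel, by decide +kernel, by decide +kernel,
    by decide +kernel, by decide +kernel, by decide +kernel, by decide +kernel,
    by decide +kernel, by decide +kernel, by decide +kernel, by decide +kernel,
    by decide +kernel, by decide +kernel, by decide +kernel, by decide +kernel,
    by decide +kernel, by decide +kernel, by decide +kernel, by decide +kernel,
    by decide +kernel, by decide +kernel, by decide +kernel, by decide +kernel,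
    by decide +kernel, by decide +kernel, by decide +kernel, by decide +kernel,
    by decide +kernel, by decide +kernel, by decide +kernel, by decide +kernel,
    by decide +kernel, by decide +kernel, by decide +kernel, by decide +kernel⟩

/-- The row passes the check. -/
theorem row11_ok : rowFor 1 1 row11 = true := by
  obtain ⟨hrest, h1, h2, h3, h4, h5, h6, h7, h8, h9, h10, h11, h12, h13, h14, h15, h16, h17, h18,
    h19, h20, h21, h22, h23, h24, h25, h26, h27, h28, h29, h30, h31, h32, h33, h34, h35, h36, h37,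
    h38, h39, h40, h41, h42, h43, h44, h45, h46, h47, h48, h49, h50, h51, h52, h53, h54, h55, h56,
    h57, h58, h59, h60, h61, h62, h63, h64, h65, h66, h67, h68, h69, h70, h71, h72, h73, h74, h75,
    h76, h77, h78, h79, h80, h81, h82, h83, h84, h85, h86⟩ := row11_parts
  simp only [rowFor, Bool.and_eq_true, decide_eq_true_eq]
  exact ⟨⟨⟨rfl, rfl⟩, rfl⟩, rowCheck_of_quick hrest
    ((Bern.coverU_split h1 (Bern.coverU_split (Bern.coverU_split (Bern.coverU_split
      (Bern.coverU_split (Bern.coverU_split h2 (Bern.coverU_split (Bern.coverU_split h3 h4) h5))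
      (Bern.coverU_split h6 h7)) h8) h9) (Bern.coverU_split (Bern.coverU_split (Bern.coverU_split
      (Bern.coverU_split h10 (Bern.coverU_split h11 h12)) (Bern.coverU_split h13 h14))
      (Bern.coverU_split (Bern.coverU_split (Bern.coverU_split h15 (Bern.coverU_split h16
      (Bern.coverU_split h17 h18))) (Bern.coverU_split (Bern.coverU_split h19 h20) h21))
      (Bern.coverU_split (Bern.coverU_split (Bern.coverU_split h22 h23) (Bern.coverU_split
      (Bern.coverU_split (Bern.coverU_split h24 (Bern.coverU_split (Bern.coverU_split h25 h26)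
      h27)) h28) h29)) h30))) (Bern.coverU_split (Bern.coverU_split h31 (Bern.coverU_split h32
      (Bern.coverU_split h33 (Bern.coverU_split (Bern.coverU_split h34 (Bern.coverU_split h35
      (Bern.coverU_split h36 h37))) h38)))) h39)))))
    ((Bern.coverU_split (Bern.coverU_split h40 (Bern.coverU_split (Bern.coverU_split h41
      (Bern.coverU_split h42 h43)) h44)) (Bern.coverU_split (Bern.coverU_split (Bern.coverU_split
      (Bern.coverU_split h45 h46) h47) h48) (Bern.coverU_split (Bern.coverU_split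
      (Bern.coverU_split (Bern.coverU_split (Bern.coverU_split h49 (Bern.coverU_split
      (Bern.coverU_split h50 h51) h52)) h53) (Bern.coverU_split h54 (Bern.coverU_split
      (Bern.coverU_split h55 h56) h57))) (Bern.coverU_split h58 h59)) (Bern.coverU_split
      (Bern.coverU_split h60 (Bern.coverU_split (Bern.coverU_split h61 (Bern.coverU_split h62
      h63)) (Bern.coverU_split h64 (Bern.coverU_split (Bern.coverU_split (Bern.coverU_split
      (Bern.coverU_split h65 (Bern.coverU_split (Bern.coverU_split (Bern.coverU_split h66 h67)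
      (Bern.coverU_split h68 h69)) h70)) (Bern.coverU_split (Bern.coverU_split (Bern.coverU_split
      (Bern.coverU_split h71 h72) h73) h74) h75)) h76) h77)))) (Bern.coverU_split h78
      (Bern.coverU_split (Bern.coverU_split (Bern.coverU_split h79 h80) h81) (Bern.coverU_split
      h82 (Bern.coverU_split h83 (Bern.coverU_split h84 (Bern.coverU_split h85 h86)))))))))))⟩

end Vale.Agent.P154.Anti
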