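import Vale.Agent.P154.Anti.RowData
import Vale.Agent.P154.RowQuick

/-!
P154: the certificate of the row of piece 1 and index 2.
-/

namespace Vale.Agent.P154.Anti

open Kron BudgetRow

/-- The polynomial which dominates the merged coefficient. -/
noncomputable def sym12 : List Term :=
  [
    (48936858750000, 0, 0, 0, 0), (-5222531345574279420, 0, 0, 1, 0),
    (15697950685501540473, 0, 0, 2, 0), (-371052849854996604, 0, 1, 0, 0),
    (-11217601580252356440, 0, 1, 1, 0), (-929017174546709595, 0, 1, 2, 0),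
    (-1141887796273499400, 0, 2, 0, 0), (-3119809799654786556, 0, 2, 1, 0),
    (1915296808511879208, 0, 3, 0, 0), (116768370415107600, 0, 4, 0, 0),
    (38005206563121876, 1, 0, 0, 0), (21855880013854155030, 1, 0, 1, 0),
    (-26728166605131244665, 1, 0, 2, 0), (792329742336997692, 1, 1, 0, 0),
    (18935590806609733170, 1, 1, 1, 0), (1098791912501017380, 1, 1, 2, 0),
    (4128065966516066280, 1, 2, 0, 0), (4615970291056425528, 1, 2, 1, 0),
    (-3513273118913095488, 1, 3, 0, 0), (-126097283342750400, 1, 4, 0, 0),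
    (32624369686368, 2, 0, 0, 0), (-35124266061310761090, 2, 0, 1, 0),
    (19224099414640557180, 2, 0, 2, 0), (-1099616199502593366, 2, 1, 0, 0),
    (-11452307543970357006, 2, 1, 1, 0), (-494991313198906770, 2, 1, 2, 0),
    (-6288655192034577975, 2, 2, 0, 0), (-2770152982927682184, 2, 2, 1, 0),
    (2594120341005271719, 2, 3, 0, 0), (51539911644981600, 2, 4, 0, 0),
    (-7249315148604, 3, 0, 0, 0), (31103016878295438696, 3, 0, 1, 0),
    (-7456872475852862850, 3, 0, 2, 0), (748026548589327678, 3, 1, 0, 0),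
    (2271593924626967748, 3, 1, 1, 0), (100326133057250052, 3, 1, 2, 0),
    (5316420601563443271, 3, 2, 0, 0), (839215537524925632, 3, 2, 1, 0),
    (-994406254770349332, 3, 3, 0, 0), (-9407317249748160, 3, 4, 0, 0), (604083668832, 4, 0, 0, 0),
    (-17535977945099094924, 4, 0, 1, 0), (1644811348600182465, 4, 0, 2, 0),
    (-62088983743135824, 4, 1, 0, 0), (550877813467237836, 4, 1, 1, 0),
    (-7701060869296875, 4, 1, 2, 0), (-2705392589639450328, 4, 2, 0, 0),
    (-127966564671395868, 4, 2, 1, 0), (209245082245761186, 4, 3, 0, 0),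
    (644443346250000, 4, 4, 0, 0), (-119860236, 5, 0, 0, 0), (6694533831003307002, 5, 0, 1, 0),
    (-195867555760932309, 5, 0, 2, 0), (-269561641456498788, 5, 1, 0, 0),
    (-357054094608729318, 5, 1, 1, 0), (846366188403807414, 5, 2, 0, 0),
    (7840643180625000, 5, 2, 1, 0), (-22916348275571892, 5, 3, 0, 0), (64387224, 6, 0, 0, 0),
    (-1746517396956289146, 6, 0, 1, 0), (9860846052656250, 6, 0, 2, 0),
    (207124401530108034, 6, 1, 0, 0), (65231254039022010, 6, 1, 1, 0),
    (-159179269837236327, 6, 2, 0, 0), (1019037660234375, 6, 3, 0, 0), (-30084264, 7, 0, 0, 0),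
    (299557250840921508, 7, 0, 1, 0), (-75297558532454442, 7, 1, 0, 0),
    (-4227354213750000, 7, 1, 1, 0), (16500097935146091, 7, 2, 0, 0), (14599152, 8, 0, 0, 0),
    (-30395222675786268, 8, 0, 1, 0), (15211475611779576, 8, 1, 0, 0),
    (-723864244531250, 8, 2, 0, 0), (-4351776, 9, 0, 0, 0), (1376944236562500, 9, 0, 1, 0),
    (-1641698577940172, 9, 1, 0, 0), (664168, 10, 0, 0, 0), (73975738125000, 10, 1, 0, 0),
    (-41444, 11, 0, 0, 0)
  ]

/-- The nonnegative remainder in the invariants. -/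
noncomputable def rem12 : Bern.Poly where
  pks := [(0, 1), (0, 2), (0, 3), (0, 4), (1, 0), (1, 1), (1, 2), (1, 3), (2, 0), (2, 1), (2, 2), (3, 0), (3, 1), (3, 2), (4, 0), (4, 1), (5, 0), (6, 0)]
  rows :=
  [((0, 0),
    [
      -84500734279680000, 338497054376460288, 0, 0, 9556595834880000, 283908226837118976,
      -230088425528623104, 0, 156732434801491968, -484472736008110080, 0, -694658139068301312, 0, 0,
      864280884371521536, 0, 0, 0]),
   ((0, 1),
    [
      4887543514398720000, -1428706153344270336, -124946139709440000, 0, 1024794547978240000,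
      -11553792262743785472, 2735697671684620288, -162827214520320000, -3212135900481847296,
      11096475208657141760, -1658023882260480000, 2229611332699684864, -3172442173931520000, 0,
      160559151430238208, -232499596492800000, -619998923980800000, 0]),
   ((0, 2),
    [
      8765523005276160000, 15930049920978091008, -11259622012500000000, -2701416949218750000,
      23720693795389440000, 4597847126691196416, -39514541637837300864, 498170364843750000,
      -69545897124389978112, -44317841379290705280, 19440497760522630000, 83562398796253905408,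
      39657443172347280000, 1690534234570312500, -52000617462090174624, -4227171156394905000,
      19575876703738470000, -3958977684667968750]),
   ((0, 3),
    [
      -7996552941404160000, 90076976100000000000, 58538847262500000000, -27585842615625000000,
      6947294486200320000, 228258693471239040000, -189581965722306240000, -66244875534375000000,
      10112201486499840000, -542505816448788480000, 117187011916056240000, -149500725772214400000,
      325461163928027640000, -12467930139843750000, 212317891510875240000, -44284778224298490000,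
      -111200070176299680000, 15567773336132812500]),
   ((0, 4),
    [
      0, -172890684750000000000, 220686740925000000000, -33487658175000000000, 0,
      60847888350000000000, 282231615750000000000, -184600623937500000000, 0, 48117379575000000000,
      -236246282250000000000, 86445342375000000000, -289350510187500000000, 19694736867187500000,
      -173512935862500000000, 121761740224218750000, 112108468678125000000, 1359794907421875000]),
   ((1, 0),
    [
      -1064080370565120000, 1439061528413208576, -54275738173440000, 0, 1267686524846080000,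
      1023369656980733952, -952165933103710208, 0, -3790403880106328064, 1414830832316579840,
      -108551476346880000, 3929052138623205376, -1390690159165440000, 0, -1222832141975420928, 0,
      -154999730995200000, 0]),
   ((1, 1),
    [
      -45038270121246720000, -2608234737729623808, 14266168341952440000, -475374127734375000,
      -9519119183380480000, 158273284730734377984, 8049349905439643264, -13107209669610990000,
      35413999358482317312, -194159140623175046720, -411305875027500000, -55065017446661358208,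
      111647547379477260000, -7232024533007812500, 37754704452804033024, -25463758786919872500,
      -4730909009140665000, -1611108365625000000]),
   ((1, 2),
    [
      -81267473126522880000, -156148491911819334144, 94790982861153120000, 17639475984375000000,
      -56249994235084800000, -61250521798651327488, 437826992985086823552, -11545942795312500000,
      360705777281601110016, 465449978083760855040, -286653166406528670000, -719079961148720473344,
      -357425136530067780000, -13176616790039062500, 671825296150140011232, -11050312926284985000,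
      -237969575976568860000, 39652676536230468750]),
   ((1, 3),
    [
      -41683766917201920000, -15941451675000000000, -264979502137500000000, 92300311968750000000, 0,
      -838861418855103360000, 92367542362500000000, 307965706500000000000, 62525650375802880000,
      2063317458666931680000, -177035971766381160000, 228292388009015520000, -896794531415943960000,
      -73438084807031250000, -620703888369621120000, -19492030881707820000, 424876082734753080000,
      5495278286132812500]),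
   ((2, 0),
    [
      6045159590461440000, -17410313348959961088, -316006296453120000, 0, -15141599151390720000,
      -17816093471671320576, 22490210260960149504, -488481643560960000, 45167520859265759232,
      4109815215321598080, -10175115870170670000, -59466169270696159488, 12896225747164800000,
      -713061191601562500, 39657470134286340864, -9945283685862105000, -11315587047582060000,
      -402777091406250000]),
   ((2, 1),
    [
      171940621540392960000, 84531662906526653184, -135626454112197120000, -1503668111718750000,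
      -57409089516339200000, -781563567376016562432, -231312495302142159872, 128957341166683230000,
      -35014027410364056576, 1110123249831754218560, 190855464628638465000, 464897097229545184384,
      -747881567322719310000, 26478900416601562500, -532450041111357416352, 187399100464219012500,
      70234367468144962500, 25251802344580078125]),
   ((2, 2),
    [
      212227056929341440000, 311047964168362080000, -234374023832112480000, -59061570562500000000,
      -27789177944801280000, 13161788000880000000, -1146612665626114680000, 88517985883190580000,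
      -651207415690922880000, -1526843717029107720000, 1149902383423263120000,
      2716219103699122800000, 1584465476348093160000, -103441216086328125000,
      -2993137251568874820000, -185622870699426607500, 591248138306569125000, 14231850499511718750]),
   ((3, 0),
    [
      -13692364778373120000, 86515977373752377856, 18687590721526800000, 1350708474609375000,
      71568492645580800000, 113701946461605856512, -180766430834140592448, -7134137125281735000,
      -236331812669095977984, -232362147022882704960, 169763693981195175000, 346059791157738118656,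
      147014104830371340000, -32257501385449218750, -212886175479627234768, 2817506709772012500,
      36734469190951845000, 10496618706298828125]),
   ((3, 1),
    [
      -203036299131617280000, -317259545378778240000, 325461163928027640000, 36168813773437500000,
      178008340373176320000, 1786360758071636160000, 714850273060135560000, -224198632853985990000,
      -412679223909273600000, -2991526269290877240000, -792232738174046580000,
      -1176112838642970720000, 2589485251771743630000, -86338205003320312500,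
      2208819286238619210000, -807327267776683882500, -478438138562752965000, -21440557460595703125]),
   ((3, 2),
    [
      0, 108194191012500000000, 99743441118750000000, 19694736867187500000, 0,
      925699140225000000000, -210825868640625000000, 146876169614062500000, -182543665050000000000,
      -847324813331250000000, -413764864345312500000, -2064480088668750000000,
      690705640026562500000, -72484492989843750000, 2972497436953125000000, -605556237345703125000,
      -258720165223828125000, -70194205768359375000]),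
   ((4, 0),
    [
      -29842562026045440000, -209495121504089686656, -106158945755437620000, -10844558491406250000,
      -76755420735078400000, -309092954771531354112, 668277067923274842848, 77587986046202640000,
      634554135848501981184, 1047441233624184112960, -748284312892218705000, -876611400220888987456,
      -1104409643119309605000, 185781089809570312500, 53042783070560391168, 283690509633861311250,
      247049317151076105000, -20606086764697265625]),
   ((4, 1),
    [
      -59519896702156800000, 135269477004636960000, -177139112897193960000, -60880870112109375000,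
      0, -1629680562362871840000, 88402503410279880000, -19492030881707820000,
      1272996311790349440000, 2998385607427504200000, 371245741398853215000, -90160214712704400000,
      -3229309071106735530000, 302778118672851562500, -2269524077070890490000,
      1297996414173105645000, 507720853046503807500, -36698683129687500000]),
   ((5, 0),
    [
      79359862269542400000, 313214027259815520000, 222400140352599360000, 28027117169531250000,
      -39679931134771200000, 151389088292501280000, -951878303906275440000, -212438041367376540000,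
      -724197571045251840000, -561874939745159700000, 591248138306569125000, 587751507055229520000,
      956876277125505930000, -64680041305957031250, 988197268604304420000, -253860426523251903750,
      -695002931440019385000, -52848799190332031250]),
   ((6, 0),
    [
      0, -253374571818750000000, -124542186689062500000, 1359794907421875000, 0,
      206221870800000000000, 634442824579687500000, -10990556572265625000, -103110935400000000000,
      -808057675026562500000, 56927401998046875000, 671783597203125000000, 171524459684765625000,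
      -70194205768359375000, -329697388235156250000, 73397366259375000000, -211395196761328125000,
      95705400839062500000])]

/-- The nonnegative remainder in three variables. -/
noncomputable def dom12 : Bern.Poly where
  pks := [(0, 1), (1, 0), (1, 1), (2, 0), (2, 1), (3, 0), (3, 1), (4, 0), (5, 0)]
  rows :=
  [((0, 0),
    [
      305705401180312500, 48936858750000, -41179855956539062500, -6349962148349062500,
      -18208345353577731562500, 1955437878938253750000, -145878949819879211250000,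
      75215140811060028750000, 108115040880194563125000]),
   ((0, 1),
    [
      31185524115505152, 0, -279209995490615625000, 374226289386061824, -67818401994007313437500,
      7254597557823359062500, -526604666195874206250000, 282895325301257741250000,
      356244021187415884687500]),
   ((0, 2),
    [
      -115415182041808896, 0, -10387366383762800640, -1384982184501706752, -327202041088528220160,
      -62324198302576803840, -159218878085506690312500, 44204654401697556562500,
      139544570061228839062500]),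
   ((1, 0),
    [
      -229089820537257984, 0, 330091951108291875000, 7269349099637812500, 77414988683908355625000,
      -8319386633519708437500, 743930696393482142812500, -348342552387700635937500,
      -595983866629761295312500]),
   ((1, 1),
    [
      73364112484466688, 0, 6602770123602001920, 880369349813600256, 16563250362901398750000,
      39616620741612011520, 549369756849033309375000, -188536999070316543750000,
      -455592960771354590625000]),
   ((1, 2),
    [
      -91569373240098816, 0, -8241243591608893440, -1098832478881185792, -259599173135680143360,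
      -49447461549653360640, -5607342139730691096576, -1246076031051264688128,
      49111913873280006562500]),
   ((2, 0),
    [
      -42954358764994560, 0, -3865892288849510400, -515452305179934720, -7559663898599325000000,
      -855631557216478125000, -691589607239204943750000, 172573421681464891875000,
      762722084947725168750000]),
   ((2, 1),
    [
      516180197974081536, 0, 46456217817667338240, 6194162375688978432, 1463370861256521154560,
      278737306906004029440, -91205621970069470625000, 7024180134031301541888,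
      77673578018104634062500]),
   ((3, 0),
    [
      -316655377076846592, 0, -28498983936916193280, -3799864524922159104, -897717994012860088320,
      -170993903621497159680, 334811288401964018437500, -42007833453201046875000,
      -469575554493163356562500]),
   ((4, 0),
    [
      -130751130221936640, 0, -11767601719974297600, -1569013562663239680, -370679454179190374400,
      -70605610319845785600, -8006676210270512087040, -1779261380060113797120,
      27741172926330146250000])]

/-- A subdivision. -/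
noncomputable def cov12 : Bern.Cover :=
  (.split 0 (.split 3 (.split 2 (.split 2 .leaf .leaf) .leaf) .leaf) (.split 2
  (.split 1 (.split 0 (.split 0 (.split 1 (.split 2 .leaf (.split 0 .leaf .leaf))
  .leaf) (.split 1 .leaf .leaf)) .leaf) (.split 0 .leaf .leaf)) (.split 1 (.split 0
  (.split 3 (.split 0 (.split 3 .leaf (.split 2 .leaf (.split 3 .leaf .leaf)))
  (.split 3 .leaf (.split 2 .leaf (.split 2 .leaf .leaf)))) (.split 0 .leaf .leaf))
  (.split 3 (.split 2 (.split 1 (.split 0 .leaf (.split 2 .leaf (.split 0 .leaf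
  .leaf))) (.split 1 .leaf (.split 2 (.split 3 (.split 1 .leaf .leaf) .leaf) (.split
  3 (.split 1 .leaf .leaf) .leaf)))) (.split 0 .leaf (.split 1 .leaf (.split 3
  (.split 2 .leaf .leaf) .leaf)))) (.split 1 (.split 0 (.split 1 (.split 0 .leaf
  .leaf) .leaf) (.split 2 (.split 1 (.split 2 .leaf (.split 3 (.split 3 .leaf (.split
  2 .leaf .leaf)) .leaf)) .leaf) (.split 1 .leaf .leaf))) .leaf))) (.split 3 (.split 0
  (.split 3 .leaf (.split 2 .leaf (.split 0 .leaf .leaf))) (.split 2 .leaf (.split 0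
  .leaf (.split 3 (.split 2 .leaf (.split 0 .leaf (.split 1 (.split 3 (.split 2
  .leaf .leaf) .leaf) .leaf))) .leaf)))) (.split 0 .leaf .leaf)))))

/-- A subdivision. -/
noncomputable def covDom12 : Bern.Cover :=
  (.split 2 (.split 2 (.split 2 .leaf (.split 2 (.split 2 .leaf .leaf) (.split 2
  .leaf .leaf))) (.split 1 (.split 0 (.split 2 .leaf (.split 2 .leaf (.split 0
  (.split 2 .leaf (.split 0 .leaf (.split 0 .leaf .leaf))) (.split 2 .leaf (.split 2
  .leaf (.split 0 .leaf .leaf)))))) (.split 1 .leaf (.split 2 (.split 1 .leaf (.split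
  1 (.split 2 .leaf (.split 1 .leaf .leaf)) .leaf)) (.split 1 .leaf (.split 1 .leaf
  .leaf))))) (.split 0 (.split 2 .leaf (.split 2 .leaf (.split 0 (.split 2 .leaf
  .leaf) (.split 2 .leaf (.split 0 (.split 0 .leaf .leaf) .leaf))))) (.split 2 .leaf
  .leaf)))) (.split 0 (.split 2 (.split 2 (.split 0 .leaf (.split 1 (.split 2 (.split
  2 .leaf .leaf) .leaf) .leaf)) .leaf) (.split 2 (.split 2 (.split 2 .leaf (.split 2
  .leaf .leaf)) .leaf) .leaf)) (.split 2 (.split 1 (.split 0 (.split 2 (.split 1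
  (.split 2 (.split 0 .leaf .leaf) .leaf) (.split 2 (.split 1 (.split 0 .leaf .leaf)
  (.split 0 .leaf .leaf)) (.split 1 (.split 0 .leaf (.split 2 (.split 0 .leaf (.split
  1 .leaf .leaf)) .leaf)) (.split 0 .leaf (.split 2 .leaf .leaf))))) .leaf) (.split 1
  .leaf (.split 0 (.split 2 (.split 1 (.split 2 .leaf (.split 0 (.split 2 .leaf
  (.split 0 .leaf .leaf)) .leaf)) (.split 2 .leaf (.split 0 (.split 2 (.split 0 .leaf
  .leaf) (.split 1 (.split 0 (.split 0 .leaf .leaf) (.split 1 .leaf .leaf)) .leaf))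
  .leaf))) (.split 1 (.split 0 .leaf .leaf) (.split 0 (.split 1 .leaf .leaf) (.split
  1 (.split 2 (.split 0 .leaf .leaf) .leaf) .leaf)))) (.split 1 .leaf (.split 0
  (.split 1 (.split 2 .leaf (.split 0 (.split 1 .leaf (.split 0 .leaf .leaf)) .leaf))
  (.split 2 .leaf .leaf)) .leaf))))) (.split 0 (.split 2 .leaf .leaf) (.split 0
  (.split 2 .leaf .leaf) .leaf))) (.split 0 .leaf (.split 1 (.split 2 (.split 0
  (.split 1 .leaf (.split 1 .leaf .leaf)) (.split 1 .leaf (.split 0 (.split 1 (.split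
  2 (.split 0 .leaf .leaf) (.split 0 (.split 1 (.split 2 .leaf .leaf) (.split 0
  .leaf (.split 2 (.split 1 .leaf (.split 0 .leaf .leaf)) (.split 1 (.split 2 (.split
  0 .leaf (.split 0 .leaf .leaf)) .leaf) (.split 0 .leaf (.split 0 .leaf .leaf))))))
  (.split 1 .leaf (.split 2 .leaf (.split 1 .leaf .leaf))))) (.split 0 (.split 1
  (.split 2 (.split 0 (.split 1 .leaf (.split 1 .leaf .leaf)) (.split 1 (.split 2
  .leaf (.split 0 .leaf .leaf)) (.split 2 (.split 0 .leaf .leaf) .leaf))) (.split 0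
  .leaf .leaf)) .leaf) (.split 2 (.split 1 .leaf .leaf) (.split 1 .leaf .leaf))))
  .leaf))) (.split 0 (.split 1 .leaf .leaf) (.split 1 (.split 2 .leaf (.split 2 .leaf
  (.split 2 .leaf (.split 1 .leaf (.split 2 .leaf (.split 1 .leaf .leaf)))))) (.split
  0 (.split 1 (.split 0 .leaf .leaf) .leaf) (.split 2 .leaf (.split 0 .leaf (.split
  0 .leaf .leaf))))))) (.split 2 (.split 0 (.split 2 (.split 0 (.split 2 (.split 2
  .leaf .leaf) .leaf) (.split 2 (.split 0 (.split 2 .leaf (.split 0 .leaf .leaf))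
  .leaf) (.split 0 (.split 2 (.split 0 .leaf .leaf) .leaf) .leaf))) .leaf) (.split 2
  .leaf .leaf)) (.split 0 .leaf (.split 0 .leaf (.split 2 .leaf (.split 0 .leaf
  (.split 0 .leaf (.split 2 .leaf (.split 1 (.split 1 (.split 0 .leaf (.split 1
  .leaf .leaf)) .leaf) .leaf)))))))))))))

/-- The row. -/
noncomputable def row12 : Row where
  W := terms 5
  D := slopeT 1 2
  G := sym12
  a := 2579890176
  e := slopeE 1
  kR := 524288
  kG := 6794772480000000
  kP := 1125
  I := 12
  J := 8
  P := rem12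
  cfg := ⟨12, 12, 10, 12, 12, 288⟩
  cov := cov12
  lay := ⟨166, 13, 13, 13, 13⟩
  R3 := dom12
  cfg3 := ⟨8, 8, 8, 10, 10, 529⟩
  cov3 := covDom12
  lay3 := ⟨95, 5, 3, 15, 1⟩

set_option maxHeartbeats 8000000 in
/-- All parts of the check, evaluated one after another. -/
theorem row12_parts :
    rowRest (terms 0) row12 = true ∧
    Bern.coverU row12.cfg row12.P (.split 2 (.split 2 .leaf .leaf) .leaf) (Bern.Box.cut
      (Bern.Box.cut Bern.unitBox 0 Bern.Ax.left) 3 Bern.Ax.left) = true ∧
    Bern.coverU row12.cfg row12.P .leaf (Bern.Box.cut (Bern.Box.cut Bern.unitBox 0 Bern.Ax.left) 3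
      Bern.Ax.right) = true ∧
    Bern.coverU row12.cfg row12.P (.split 2 .leaf (.split 0 .leaf .leaf)) (Bern.Box.cut
      (Bern.Box.cut (Bern.Box.cut (Bern.Box.cut (Bern.Box.cut (Bern.Box.cut Bern.unitBox 0
      Bern.Ax.right) 2 Bern.Ax.left) 1 Bern.Ax.left) 0 Bern.Ax.left) 0 Bern.Ax.left) 1
      Bern.Ax.left) = true ∧
    Bern.coverU row12.cfg row12.P .leaf (Bern.Box.cut (Bern.Box.cut (Bern.Box.cut (Bern.Box.cut
      (Bern.Box.cut (Bern.Box.cut Bern.unitBox 0 Bern.Ax.right) 2 Bern.Ax.left) 1 Bern.Ax.left) 0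
      Bern.Ax.left) 0 Bern.Ax.left) 1 Bern.Ax.right) = true ∧
    Bern.coverU row12.cfg row12.P (.split 1 .leaf .leaf) (Bern.Box.cut (Bern.Box.cut (Bern.Box.cut
      (Bern.Box.cut (Bern.Box.cut Bern.unitBox 0 Bern.Ax.right) 2 Bern.Ax.left) 1 Bern.Ax.left) 0
      Bern.Ax.left) 0 Bern.Ax.right) = true ∧
    Bern.coverU row12.cfg row12.P .leaf (Bern.Box.cut (Bern.Box.cut (Bern.Box.cut (Bern.Box.cut
      Bern.unitBox 0 Bern.Ax.right) 2 Bern.Ax.left) 1 Bern.Ax.left) 0 Bern.Ax.right) = true ∧
    Bern.coverU row12.cfg row12.P (.split 0 .leaf .leaf) (Bern.Box.cut (Bern.Box.cut (Bern.Box.cut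
      Bern.unitBox 0 Bern.Ax.right) 2 Bern.Ax.left) 1 Bern.Ax.right) = true ∧
    Bern.coverU row12.cfg row12.P .leaf (Bern.Box.cut (Bern.Box.cut (Bern.Box.cut (Bern.Box.cut
      (Bern.Box.cut (Bern.Box.cut (Bern.Box.cut Bern.unitBox 0 Bern.Ax.right) 2 Bern.Ax.right) 1
      Bern.Ax.left) 0 Bern.Ax.left) 3 Bern.Ax.left) 0 Bern.Ax.left) 3 Bern.Ax.left) = true ∧
    Bern.coverU row12.cfg row12.P (.split 2 .leaf (.split 3 .leaf .leaf)) (Bern.Box.cut
      (Bern.Box.cut (Bern.Box.cut (Bern.Box.cut (Bern.Box.cut (Bern.Box.cut (Bern.Box.cut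
      Bern.unitBox 0 Bern.Ax.right) 2 Bern.Ax.right) 1 Bern.Ax.left) 0 Bern.Ax.left) 3
      Bern.Ax.left) 0 Bern.Ax.left) 3 Bern.Ax.right) = true ∧
    Bern.coverU row12.cfg row12.P .leaf (Bern.Box.cut (Bern.Box.cut (Bern.Box.cut (Bern.Box.cut
      (Bern.Box.cut (Bern.Box.cut (Bern.Box.cut Bern.unitBox 0 Bern.Ax.right) 2 Bern.Ax.right) 1
      Bern.Ax.left) 0 Bern.Ax.left) 3 Bern.Ax.left) 0 Bern.Ax.right) 3 Bern.Ax.left) = true ∧
    Bern.coverU row12.cfg row12.P (.split 2 .leaf (.split 2 .leaf .leaf)) (Bern.Box.cut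
      (Bern.Box.cut (Bern.Box.cut (Bern.Box.cut (Bern.Box.cut (Bern.Box.cut (Bern.Box.cut
      Bern.unitBox 0 Bern.Ax.right) 2 Bern.Ax.right) 1 Bern.Ax.left) 0 Bern.Ax.left) 3
      Bern.Ax.left) 0 Bern.Ax.right) 3 Bern.Ax.right) = true ∧
    Bern.coverU row12.cfg row12.P (.split 0 .leaf .leaf) (Bern.Box.cut (Bern.Box.cut (Bern.Box.cut
      (Bern.Box.cut (Bern.Box.cut Bern.unitBox 0 Bern.Ax.right) 2 Bern.Ax.right) 1 Bern.Ax.left) 0
      Bern.Ax.left) 3 Bern.Ax.right) = true ∧
    Bern.coverU row12.cfg row12.P .leaf (Bern.Box.cut (Bern.Box.cut (Bern.Box.cut (Bern.Box.cut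
      (Bern.Box.cut (Bern.Box.cut (Bern.Box.cut (Bern.Box.cut Bern.unitBox 0 Bern.Ax.right) 2
      Bern.Ax.right) 1 Bern.Ax.left) 0 Bern.Ax.right) 3 Bern.Ax.left) 2 Bern.Ax.left) 1
      Bern.Ax.left) 0 Bern.Ax.left) = true ∧
    Bern.coverU row12.cfg row12.P (.split 2 .leaf (.split 0 .leaf .leaf)) (Bern.Box.cut
      (Bern.Box.cut (Bern.Box.cut (Bern.Box.cut (Bern.Box.cut (Bern.Box.cut (Bern.Box.cut
      (Bern.Box.cut Bern.unitBox 0 Bern.Ax.right) 2 Bern.Ax.right) 1 Bern.Ax.left) 0
      Bern.Ax.right) 3 Bern.Ax.left) 2 Bern.Ax.left) 1 Bern.Ax.left) 0 Bern.Ax.right) = true ∧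
    Bern.coverU row12.cfg row12.P .leaf (Bern.Box.cut (Bern.Box.cut (Bern.Box.cut (Bern.Box.cut
      (Bern.Box.cut (Bern.Box.cut (Bern.Box.cut (Bern.Box.cut Bern.unitBox 0 Bern.Ax.right) 2
      Bern.Ax.right) 1 Bern.Ax.left) 0 Bern.Ax.right) 3 Bern.Ax.left) 2 Bern.Ax.left) 1
      Bern.Ax.right) 1 Bern.Ax.left) = true ∧
    Bern.coverU row12.cfg row12.P (.split 3 (.split 1 .leaf .leaf) .leaf) (Bern.Box.cut
      (Bern.Box.cut (Bern.Box.cut (Bern.Box.cut (Bern.Box.cut (Bern.Box.cut (Bern.Box.cut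
      (Bern.Box.cut (Bern.Box.cut Bern.unitBox 0 Bern.Ax.right) 2 Bern.Ax.right) 1 Bern.Ax.left) 0
      Bern.Ax.right) 3 Bern.Ax.left) 2 Bern.Ax.left) 1 Bern.Ax.right) 1 Bern.Ax.right) 2
      Bern.Ax.left) = true ∧
    Bern.coverU row12.cfg row12.P (.split 3 (.split 1 .leaf .leaf) .leaf) (Bern.Box.cut
      (Bern.Box.cut (Bern.Box.cut (Bern.Box.cut (Bern.Box.cut (Bern.Box.cut (Bern.Box.cut
      (Bern.Box.cut (Bern.Box.cut Bern.unitBox 0 Bern.Ax.right) 2 Bern.Ax.right) 1 Bern.Ax.left) 0
      Bern.Ax.right) 3 Bern.Ax.left) 2 Bern.Ax.left) 1 Bern.Ax.right) 1 Bern.Ax.right) 2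
      Bern.Ax.right) = true ∧
    Bern.coverU row12.cfg row12.P .leaf (Bern.Box.cut (Bern.Box.cut (Bern.Box.cut (Bern.Box.cut
      (Bern.Box.cut (Bern.Box.cut (Bern.Box.cut Bern.unitBox 0 Bern.Ax.right) 2 Bern.Ax.right) 1
      Bern.Ax.left) 0 Bern.Ax.right) 3 Bern.Ax.left) 2 Bern.Ax.right) 0 Bern.Ax.left) = true ∧
    Bern.coverU row12.cfg row12.P .leaf (Bern.Box.cut (Bern.Box.cut (Bern.Box.cut (Bern.Box.cut
      (Bern.Box.cut (Bern.Box.cut (Bern.Box.cut (Bern.Box.cut Bern.unitBox 0 Bern.Ax.right) 2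
      Bern.Ax.right) 1 Bern.Ax.left) 0 Bern.Ax.right) 3 Bern.Ax.left) 2 Bern.Ax.right) 0
      Bern.Ax.right) 1 Bern.Ax.left) = true ∧
    Bern.coverU row12.cfg row12.P (.split 3 (.split 2 .leaf .leaf) .leaf) (Bern.Box.cut
      (Bern.Box.cut (Bern.Box.cut (Bern.Box.cut (Bern.Box.cut (Bern.Box.cut (Bern.Box.cut
      (Bern.Box.cut Bern.unitBox 0 Bern.Ax.right) 2 Bern.Ax.right) 1 Bern.Ax.left) 0
      Bern.Ax.right) 3 Bern.Ax.left) 2 Bern.Ax.right) 0 Bern.Ax.right) 1 Bern.Ax.right) = true ∧
    Bern.coverU row12.cfg row12.P (.split 1 (.split 0 .leaf .leaf) .leaf) (Bern.Box.cut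
      (Bern.Box.cut (Bern.Box.cut (Bern.Box.cut (Bern.Box.cut (Bern.Box.cut (Bern.Box.cut
      Bern.unitBox 0 Bern.Ax.right) 2 Bern.Ax.right) 1 Bern.Ax.left) 0 Bern.Ax.right) 3
      Bern.Ax.right) 1 Bern.Ax.left) 0 Bern.Ax.left) = true ∧
    Bern.coverU row12.cfg row12.P .leaf (Bern.Box.cut (Bern.Box.cut (Bern.Box.cut (Bern.Box.cut
      (Bern.Box.cut (Bern.Box.cut (Bern.Box.cut (Bern.Box.cut (Bern.Box.cut (Bern.Box.cut
      Bern.unitBox 0 Bern.Ax.right) 2 Bern.Ax.right) 1 Bern.Ax.left) 0 Bern.Ax.right) 3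
      Bern.Ax.right) 1 Bern.Ax.left) 0 Bern.Ax.right) 2 Bern.Ax.left) 1 Bern.Ax.left) 2
      Bern.Ax.left) = true ∧
    Bern.coverU row12.cfg row12.P (.split 3 .leaf (.split 2 .leaf .leaf)) (Bern.Box.cut
      (Bern.Box.cut (Bern.Box.cut (Bern.Box.cut (Bern.Box.cut (Bern.Box.cut (Bern.Box.cut
      (Bern.Box.cut (Bern.Box.cut (Bern.Box.cut (Bern.Box.cut Bern.unitBox 0 Bern.Ax.right) 2
      Bern.Ax.right) 1 Bern.Ax.left) 0 Bern.Ax.right) 3 Bern.Ax.right) 1 Bern.Ax.left) 0
      Bern.Ax.right) 2 Bern.Ax.left) 1 Bern.Ax.left) 2 Bern.Ax.right) 3 Bern.Ax.left) = true ∧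
    Bern.coverU row12.cfg row12.P .leaf (Bern.Box.cut (Bern.Box.cut (Bern.Box.cut (Bern.Box.cut
      (Bern.Box.cut (Bern.Box.cut (Bern.Box.cut (Bern.Box.cut (Bern.Box.cut (Bern.Box.cut
      (Bern.Box.cut Bern.unitBox 0 Bern.Ax.right) 2 Bern.Ax.right) 1 Bern.Ax.left) 0
      Bern.Ax.right) 3 Bern.Ax.right) 1 Bern.Ax.left) 0 Bern.Ax.right) 2 Bern.Ax.left) 1
      Bern.Ax.left) 2 Bern.Ax.right) 3 Bern.Ax.right) = true ∧
    Bern.coverU row12.cfg row12.P .leaf (Bern.Box.cut (Bern.Box.cut (Bern.Box.cut (Bern.Box.cut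
      (Bern.Box.cut (Bern.Box.cut (Bern.Box.cut (Bern.Box.cut (Bern.Box.cut Bern.unitBox 0
      Bern.Ax.right) 2 Bern.Ax.right) 1 Bern.Ax.left) 0 Bern.Ax.right) 3 Bern.Ax.right) 1
      Bern.Ax.left) 0 Bern.Ax.right) 2 Bern.Ax.left) 1 Bern.Ax.right) = true ∧
    Bern.coverU row12.cfg row12.P (.split 1 .leaf .leaf) (Bern.Box.cut (Bern.Box.cut (Bern.Box.cut
      (Bern.Box.cut (Bern.Box.cut (Bern.Box.cut (Bern.Box.cut (Bern.Box.cut Bern.unitBox 0
      Bern.Ax.right) 2 Bern.Ax.right) 1 Bern.Ax.left) 0 Bern.Ax.right) 3 Bern.Ax.right) 1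
      Bern.Ax.left) 0 Bern.Ax.right) 2 Bern.Ax.right) = true ∧
    Bern.coverU row12.cfg row12.P .leaf (Bern.Box.cut (Bern.Box.cut (Bern.Box.cut (Bern.Box.cut
      (Bern.Box.cut (Bern.Box.cut Bern.unitBox 0 Bern.Ax.right) 2 Bern.Ax.right) 1 Bern.Ax.left) 0
      Bern.Ax.right) 3 Bern.Ax.right) 1 Bern.Ax.right) = true ∧
    Bern.coverU row12.cfg row12.P .leaf (Bern.Box.cut (Bern.Box.cut (Bern.Box.cut (Bern.Box.cut
      (Bern.Box.cut (Bern.Box.cut Bern.unitBox 0 Bern.Ax.right) 2 Bern.Ax.right) 1 Bern.Ax.right)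
      3 Bern.Ax.left) 0 Bern.Ax.left) 3 Bern.Ax.left) = true ∧
    Bern.coverU row12.cfg row12.P (.split 2 .leaf (.split 0 .leaf .leaf)) (Bern.Box.cut
      (Bern.Box.cut (Bern.Box.cut (Bern.Box.cut (Bern.Box.cut (Bern.Box.cut Bern.unitBox 0
      Bern.Ax.right) 2 Bern.Ax.right) 1 Bern.Ax.right) 3 Bern.Ax.left) 0 Bern.Ax.left) 3
      Bern.Ax.right) = true ∧
    Bern.coverU row12.cfg row12.P .leaf (Bern.Box.cut (Bern.Box.cut (Bern.Box.cut (Bern.Box.cut
      (Bern.Box.cut (Bern.Box.cut Bern.unitBox 0 Bern.Ax.right) 2 Bern.Ax.right) 1 Bern.Ax.right)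
      3 Bern.Ax.left) 0 Bern.Ax.right) 2 Bern.Ax.left) = true ∧
    Bern.coverU row12.cfg row12.P .leaf (Bern.Box.cut (Bern.Box.cut (Bern.Box.cut (Bern.Box.cut
      (Bern.Box.cut (Bern.Box.cut (Bern.Box.cut Bern.unitBox 0 Bern.Ax.right) 2 Bern.Ax.right) 1
      Bern.Ax.right) 3 Bern.Ax.left) 0 Bern.Ax.right) 2 Bern.Ax.right) 0 Bern.Ax.left) = true ∧
    Bern.coverU row12.cfg row12.P .leaf (Bern.Box.cut (Bern.Box.cut (Bern.Box.cut (Bern.Box.cut
      (Bern.Box.cut (Bern.Box.cut (Bern.Box.cut (Bern.Box.cut (Bern.Box.cut Bern.unitBox 0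
      Bern.Ax.right) 2 Bern.Ax.right) 1 Bern.Ax.right) 3 Bern.Ax.left) 0 Bern.Ax.right) 2
      Bern.Ax.right) 0 Bern.Ax.right) 3 Bern.Ax.left) 2 Bern.Ax.left) = true ∧
    Bern.coverU row12.cfg row12.P .leaf (Bern.Box.cut (Bern.Box.cut (Bern.Box.cut (Bern.Box.cut
      (Bern.Box.cut (Bern.Box.cut (Bern.Box.cut (Bern.Box.cut (Bern.Box.cut (Bern.Box.cut
      Bern.unitBox 0 Bern.Ax.right) 2 Bern.Ax.right) 1 Bern.Ax.right) 3 Bern.Ax.left) 0
      Bern.Ax.right) 2 Bern.Ax.right) 0 Bern.Ax.right) 3 Bern.Ax.left) 2 Bern.Ax.right) 0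
      Bern.Ax.left) = true ∧
    Bern.coverU row12.cfg row12.P (.split 3 (.split 2 .leaf .leaf) .leaf) (Bern.Box.cut
      (Bern.Box.cut (Bern.Box.cut (Bern.Box.cut (Bern.Box.cut (Bern.Box.cut (Bern.Box.cut
      (Bern.Box.cut (Bern.Box.cut (Bern.Box.cut (Bern.Box.cut Bern.unitBox 0 Bern.Ax.right) 2
      Bern.Ax.right) 1 Bern.Ax.right) 3 Bern.Ax.left) 0 Bern.Ax.right) 2 Bern.Ax.right) 0
      Bern.Ax.right) 3 Bern.Ax.left) 2 Bern.Ax.right) 0 Bern.Ax.right) 1 Bern.Ax.left) = true ∧
    Bern.coverU row12.cfg row12.P .leaf (Bern.Box.cut (Bern.Box.cut (Bern.Box.cut (Bern.Box.cut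
      (Bern.Box.cut (Bern.Box.cut (Bern.Box.cut (Bern.Box.cut (Bern.Box.cut (Bern.Box.cut
      (Bern.Box.cut Bern.unitBox 0 Bern.Ax.right) 2 Bern.Ax.right) 1 Bern.Ax.right) 3
      Bern.Ax.left) 0 Bern.Ax.right) 2 Bern.Ax.right) 0 Bern.Ax.right) 3 Bern.Ax.left) 2
      Bern.Ax.right) 0 Bern.Ax.right) 1 Bern.Ax.right) = true ∧
    Bern.coverU row12.cfg row12.P .leaf (Bern.Box.cut (Bern.Box.cut (Bern.Box.cut (Bern.Box.cut
      (Bern.Box.cut (Bern.Box.cut (Bern.Box.cut (Bern.Box.cut Bern.unitBox 0 Bern.Ax.right) 2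
      Bern.Ax.right) 1 Bern.Ax.right) 3 Bern.Ax.left) 0 Bern.Ax.right) 2 Bern.Ax.right) 0
      Bern.Ax.right) 3 Bern.Ax.right) = true ∧
    Bern.coverU row12.cfg row12.P (.split 0 .leaf .leaf) (Bern.Box.cut (Bern.Box.cut (Bern.Box.cut
      (Bern.Box.cut Bern.unitBox 0 Bern.Ax.right) 2 Bern.Ax.right) 1 Bern.Ax.right) 3
      Bern.Ax.right) = true ∧
    Bern.coverU row12.cfg3 row12.R3 (.split 2 .leaf (.split 2 (.split 2 .leaf .leaf) (.split 2
      .leaf .leaf))) (Bern.Box.cut (Bern.Box.cut box3 2 Bern.Ax.left) 2 Bern.Ax.left) = true ∧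
    Bern.coverU row12.cfg3 row12.R3 .leaf (Bern.Box.cut (Bern.Box.cut (Bern.Box.cut (Bern.Box.cut
      (Bern.Box.cut box3 2 Bern.Ax.left) 2 Bern.Ax.right) 1 Bern.Ax.left) 0 Bern.Ax.left) 2
      Bern.Ax.left) = true ∧
    Bern.coverU row12.cfg3 row12.R3 .leaf (Bern.Box.cut (Bern.Box.cut (Bern.Box.cut (Bern.Box.cut
      (Bern.Box.cut (Bern.Box.cut box3 2 Bern.Ax.left) 2 Bern.Ax.right) 1 Bern.Ax.left) 0
      Bern.Ax.left) 2 Bern.Ax.right) 2 Bern.Ax.left) = true ∧
    Bern.coverU row12.cfg3 row12.R3 (.split 0 (.split 2 .leaf (.split 0 .leaf (.split 0 .leaf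
      .leaf))) (.split 2 .leaf (.split 2 .leaf (.split 0 .leaf .leaf)))) (Bern.Box.cut
      (Bern.Box.cut (Bern.Box.cut (Bern.Box.cut (Bern.Box.cut (Bern.Box.cut box3 2 Bern.Ax.left) 2
      Bern.Ax.right) 1 Bern.Ax.left) 0 Bern.Ax.left) 2 Bern.Ax.right) 2 Bern.Ax.right) = true ∧
    Bern.coverU row12.cfg3 row12.R3 .leaf (Bern.Box.cut (Bern.Box.cut (Bern.Box.cut (Bern.Box.cut
      (Bern.Box.cut box3 2 Bern.Ax.left) 2 Bern.Ax.right) 1 Bern.Ax.left) 0 Bern.Ax.right) 1
      Bern.Ax.left) = true ∧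
    Bern.coverU row12.cfg3 row12.R3 (.split 2 (.split 1 .leaf (.split 1 (.split 2 .leaf (.split 1
      .leaf .leaf)) .leaf)) (.split 1 .leaf (.split 1 .leaf .leaf))) (Bern.Box.cut (Bern.Box.cut
      (Bern.Box.cut (Bern.Box.cut (Bern.Box.cut box3 2 Bern.Ax.left) 2 Bern.Ax.right) 1
      Bern.Ax.left) 0 Bern.Ax.right) 1 Bern.Ax.right) = true ∧
    Bern.coverU row12.cfg3 row12.R3 (.split 2 .leaf (.split 2 .leaf (.split 0 (.split 2 .leaf
      .leaf) (.split 2 .leaf (.split 0 (.split 0 .leaf .leaf) .leaf))))) (Bern.Box.cut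
      (Bern.Box.cut (Bern.Box.cut (Bern.Box.cut box3 2 Bern.Ax.left) 2 Bern.Ax.right) 1
      Bern.Ax.right) 0 Bern.Ax.left) = true ∧
    Bern.coverU row12.cfg3 row12.R3 (.split 2 .leaf .leaf) (Bern.Box.cut (Bern.Box.cut
      (Bern.Box.cut (Bern.Box.cut box3 2 Bern.Ax.left) 2 Bern.Ax.right) 1 Bern.Ax.right) 0
      Bern.Ax.right) = true ∧
    Bern.coverU row12.cfg3 row12.R3 (.split 2 (.split 0 .leaf (.split 1 (.split 2 (.split 2 .leaf
      .leaf) .leaf) .leaf)) .leaf) (Bern.Box.cut (Bern.Box.cut (Bern.Box.cut box3 2 Bern.Ax.right)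
      0 Bern.Ax.left) 2 Bern.Ax.left) = true ∧
    Bern.coverU row12.cfg3 row12.R3 (.split 2 (.split 2 (.split 2 .leaf (.split 2 .leaf .leaf))
      .leaf) .leaf) (Bern.Box.cut (Bern.Box.cut (Bern.Box.cut box3 2 Bern.Ax.right) 0
      Bern.Ax.left) 2 Bern.Ax.right) = true ∧
    Bern.coverU row12.cfg3 row12.R3 (.split 2 (.split 0 .leaf .leaf) .leaf) (Bern.Box.cut
      (Bern.Box.cut (Bern.Box.cut (Bern.Box.cut (Bern.Box.cut (Bern.Box.cut (Bern.Box.cut box3 2
      Bern.Ax.right) 0 Bern.Ax.right) 2 Bern.Ax.left) 1 Bern.Ax.left) 0 Bern.Ax.left) 2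
      Bern.Ax.left) 1 Bern.Ax.left) = true ∧
    Bern.coverU row12.cfg3 row12.R3 (.split 1 (.split 0 .leaf .leaf) (.split 0 .leaf .leaf))
      (Bern.Box.cut (Bern.Box.cut (Bern.Box.cut (Bern.Box.cut (Bern.Box.cut (Bern.Box.cut
      (Bern.Box.cut (Bern.Box.cut box3 2 Bern.Ax.right) 0 Bern.Ax.right) 2 Bern.Ax.left) 1
      Bern.Ax.left) 0 Bern.Ax.left) 2 Bern.Ax.left) 1 Bern.Ax.right) 2 Bern.Ax.left) = true ∧
    Bern.coverU row12.cfg3 row12.R3 (.split 1 (.split 0 .leaf (.split 2 (.split 0 .leaf (.split 1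
      .leaf .leaf)) .leaf)) (.split 0 .leaf (.split 2 .leaf .leaf))) (Bern.Box.cut (Bern.Box.cut
      (Bern.Box.cut (Bern.Box.cut (Bern.Box.cut (Bern.Box.cut (Bern.Box.cut (Bern.Box.cut box3 2
      Bern.Ax.right) 0 Bern.Ax.right) 2 Bern.Ax.left) 1 Bern.Ax.left) 0 Bern.Ax.left) 2
      Bern.Ax.left) 1 Bern.Ax.right) 2 Bern.Ax.right) = true ∧
    Bern.coverU row12.cfg3 row12.R3 .leaf (Bern.Box.cut (Bern.Box.cut (Bern.Box.cut (Bern.Box.cut
      (Bern.Box.cut (Bern.Box.cut box3 2 Bern.Ax.right) 0 Bern.Ax.right) 2 Bern.Ax.left) 1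
      Bern.Ax.left) 0 Bern.Ax.left) 2 Bern.Ax.right) = true ∧
    Bern.coverU row12.cfg3 row12.R3 .leaf (Bern.Box.cut (Bern.Box.cut (Bern.Box.cut (Bern.Box.cut
      (Bern.Box.cut (Bern.Box.cut box3 2 Bern.Ax.right) 0 Bern.Ax.right) 2 Bern.Ax.left) 1
      Bern.Ax.left) 0 Bern.Ax.right) 1 Bern.Ax.left) = true ∧
    Bern.coverU row12.cfg3 row12.R3 (.split 2 .leaf (.split 0 (.split 2 .leaf (.split 0 .leaf
      .leaf)) .leaf)) (Bern.Box.cut (Bern.Box.cut (Bern.Box.cut (Bern.Box.cut (Bern.Box.cut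
      (Bern.Box.cut (Bern.Box.cut (Bern.Box.cut (Bern.Box.cut box3 2 Bern.Ax.right) 0
      Bern.Ax.right) 2 Bern.Ax.left) 1 Bern.Ax.left) 0 Bern.Ax.right) 1 Bern.Ax.right) 0
      Bern.Ax.left) 2 Bern.Ax.left) 1 Bern.Ax.left) = true ∧
    Bern.coverU row12.cfg3 row12.R3 .leaf (Bern.Box.cut (Bern.Box.cut (Bern.Box.cut (Bern.Box.cut
      (Bern.Box.cut (Bern.Box.cut (Bern.Box.cut (Bern.Box.cut (Bern.Box.cut (Bern.Box.cut box3 2
      Bern.Ax.right) 0 Bern.Ax.right) 2 Bern.Ax.left) 1 Bern.Ax.left) 0 Bern.Ax.right) 1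
      Bern.Ax.right) 0 Bern.Ax.left) 2 Bern.Ax.left) 1 Bern.Ax.right) 2 Bern.Ax.left) = true ∧
    Bern.coverU row12.cfg3 row12.R3 (.split 0 (.split 2 (.split 0 .leaf .leaf) (.split 1 (.split 0
      (.split 0 .leaf .leaf) (.split 1 .leaf .leaf)) .leaf)) .leaf) (Bern.Box.cut (Bern.Box.cut
      (Bern.Box.cut (Bern.Box.cut (Bern.Box.cut (Bern.Box.cut (Bern.Box.cut (Bern.Box.cut
      (Bern.Box.cut (Bern.Box.cut box3 2 Bern.Ax.right) 0 Bern.Ax.right) 2 Bern.Ax.left) 1
      Bern.Ax.left) 0 Bern.Ax.right) 1 Bern.Ax.right) 0 Bern.Ax.left) 2 Bern.Ax.left) 1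
      Bern.Ax.right) 2 Bern.Ax.right) = true ∧
    Bern.coverU row12.cfg3 row12.R3 (.split 1 (.split 0 .leaf .leaf) (.split 0 (.split 1 .leaf
      .leaf) (.split 1 (.split 2 (.split 0 .leaf .leaf) .leaf) .leaf))) (Bern.Box.cut
      (Bern.Box.cut (Bern.Box.cut (Bern.Box.cut (Bern.Box.cut (Bern.Box.cut (Bern.Box.cut
      (Bern.Box.cut box3 2 Bern.Ax.right) 0 Bern.Ax.right) 2 Bern.Ax.left) 1 Bern.Ax.left) 0
      Bern.Ax.right) 1 Bern.Ax.right) 0 Bern.Ax.left) 2 Bern.Ax.right) = true ∧
    Bern.coverU row12.cfg3 row12.R3 .leaf (Bern.Box.cut (Bern.Box.cut (Bern.Box.cut (Bern.Box.cut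
      (Bern.Box.cut (Bern.Box.cut (Bern.Box.cut (Bern.Box.cut box3 2 Bern.Ax.right) 0
      Bern.Ax.right) 2 Bern.Ax.left) 1 Bern.Ax.left) 0 Bern.Ax.right) 1 Bern.Ax.right) 0
      Bern.Ax.right) 1 Bern.Ax.left) = true ∧
    Bern.coverU row12.cfg3 row12.R3 (.split 0 (.split 1 (.split 2 .leaf (.split 0 (.split 1 .leaf
      (.split 0 .leaf .leaf)) .leaf)) (.split 2 .leaf .leaf)) .leaf) (Bern.Box.cut (Bern.Box.cut
      (Bern.Box.cut (Bern.Box.cut (Bern.Box.cut (Bern.Box.cut (Bern.Box.cut (Bern.Box.cut box3 2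
      Bern.Ax.right) 0 Bern.Ax.right) 2 Bern.Ax.left) 1 Bern.Ax.left) 0 Bern.Ax.right) 1
      Bern.Ax.right) 0 Bern.Ax.right) 1 Bern.Ax.right) = true ∧
    Bern.coverU row12.cfg3 row12.R3 (.split 0 (.split 2 .leaf .leaf) (.split 0 (.split 2 .leaf
      .leaf) .leaf)) (Bern.Box.cut (Bern.Box.cut (Bern.Box.cut (Bern.Box.cut box3 2 Bern.Ax.right)
      0 Bern.Ax.right) 2 Bern.Ax.left) 1 Bern.Ax.right) = true ∧
    Bern.coverU row12.cfg3 row12.R3 .leaf (Bern.Box.cut (Bern.Box.cut (Bern.Box.cut (Bern.Box.cut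
      box3 2 Bern.Ax.right) 0 Bern.Ax.right) 2 Bern.Ax.right) 0 Bern.Ax.left) = true ∧
    Bern.coverU row12.cfg3 row12.R3 (.split 1 .leaf (.split 1 .leaf .leaf)) (Bern.Box.cut
      (Bern.Box.cut (Bern.Box.cut (Bern.Box.cut (Bern.Box.cut (Bern.Box.cut (Bern.Box.cut box3 2
      Bern.Ax.right) 0 Bern.Ax.right) 2 Bern.Ax.right) 0 Bern.Ax.right) 1 Bern.Ax.left) 2
      Bern.Ax.left) 0 Bern.Ax.left) = true ∧
    Bern.coverU row12.cfg3 row12.R3 .leaf (Bern.Box.cut (Bern.Box.cut (Bern.Box.cut (Bern.Box.cut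
      (Bern.Box.cut (Bern.Box.cut (Bern.Box.cut (Bern.Box.cut box3 2 Bern.Ax.right) 0
      Bern.Ax.right) 2 Bern.Ax.right) 0 Bern.Ax.right) 1 Bern.Ax.left) 2 Bern.Ax.left) 0
      Bern.Ax.right) 1 Bern.Ax.left) = true ∧
    Bern.coverU row12.cfg3 row12.R3 (.split 0 .leaf .leaf) (Bern.Box.cut (Bern.Box.cut
      (Bern.Box.cut (Bern.Box.cut (Bern.Box.cut (Bern.Box.cut (Bern.Box.cut (Bern.Box.cut
      (Bern.Box.cut (Bern.Box.cut (Bern.Box.cut box3 2 Bern.Ax.right) 0 Bern.Ax.right) 2
      Bern.Ax.right) 0 Bern.Ax.right) 1 Bern.Ax.left) 2 Bern.Ax.left) 0 Bern.Ax.right) 1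
      Bern.Ax.right) 0 Bern.Ax.left) 1 Bern.Ax.left) 2 Bern.Ax.left) = true ∧
    Bern.coverU row12.cfg3 row12.R3 (.split 2 .leaf .leaf) (Bern.Box.cut (Bern.Box.cut
      (Bern.Box.cut (Bern.Box.cut (Bern.Box.cut (Bern.Box.cut (Bern.Box.cut (Bern.Box.cut
      (Bern.Box.cut (Bern.Box.cut (Bern.Box.cut (Bern.Box.cut (Bern.Box.cut box3 2 Bern.Ax.right)
      0 Bern.Ax.right) 2 Bern.Ax.right) 0 Bern.Ax.right) 1 Bern.Ax.left) 2 Bern.Ax.left) 0
      Bern.Ax.right) 1 Bern.Ax.right) 0 Bern.Ax.left) 1 Bern.Ax.left) 2 Bern.Ax.right) 0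
      Bern.Ax.left) 1 Bern.Ax.left) = true ∧
    Bern.coverU row12.cfg3 row12.R3 .leaf (Bern.Box.cut (Bern.Box.cut (Bern.Box.cut (Bern.Box.cut
      (Bern.Box.cut (Bern.Box.cut (Bern.Box.cut (Bern.Box.cut (Bern.Box.cut (Bern.Box.cut
      (Bern.Box.cut (Bern.Box.cut (Bern.Box.cut (Bern.Box.cut box3 2 Bern.Ax.right) 0
      Bern.Ax.right) 2 Bern.Ax.right) 0 Bern.Ax.right) 1 Bern.Ax.left) 2 Bern.Ax.left) 0
      Bern.Ax.right) 1 Bern.Ax.right) 0 Bern.Ax.left) 1 Bern.Ax.left) 2 Bern.Ax.right) 0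
      Bern.Ax.left) 1 Bern.Ax.right) 0 Bern.Ax.left) = true ∧
    Bern.coverU row12.cfg3 row12.R3 (.split 1 .leaf (.split 0 .leaf .leaf)) (Bern.Box.cut
      (Bern.Box.cut (Bern.Box.cut (Bern.Box.cut (Bern.Box.cut (Bern.Box.cut (Bern.Box.cut
      (Bern.Box.cut (Bern.Box.cut (Bern.Box.cut (Bern.Box.cut (Bern.Box.cut (Bern.Box.cut
      (Bern.Box.cut (Bern.Box.cut box3 2 Bern.Ax.right) 0 Bern.Ax.right) 2 Bern.Ax.right) 0
      Bern.Ax.right) 1 Bern.Ax.left) 2 Bern.Ax.left) 0 Bern.Ax.right) 1 Bern.Ax.right) 0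
      Bern.Ax.left) 1 Bern.Ax.left) 2 Bern.Ax.right) 0 Bern.Ax.left) 1 Bern.Ax.right) 0
      Bern.Ax.right) 2 Bern.Ax.left) = true ∧
    Bern.coverU row12.cfg3 row12.R3 (.split 1 (.split 2 (.split 0 .leaf (.split 0 .leaf .leaf))
      .leaf) (.split 0 .leaf (.split 0 .leaf .leaf))) (Bern.Box.cut (Bern.Box.cut (Bern.Box.cut
      (Bern.Box.cut (Bern.Box.cut (Bern.Box.cut (Bern.Box.cut (Bern.Box.cut (Bern.Box.cut
      (Bern.Box.cut (Bern.Box.cut (Bern.Box.cut (Bern.Box.cut (Bern.Box.cut (Bern.Box.cut box3 2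
      Bern.Ax.right) 0 Bern.Ax.right) 2 Bern.Ax.right) 0 Bern.Ax.right) 1 Bern.Ax.left) 2
      Bern.Ax.left) 0 Bern.Ax.right) 1 Bern.Ax.right) 0 Bern.Ax.left) 1 Bern.Ax.left) 2
      Bern.Ax.right) 0 Bern.Ax.left) 1 Bern.Ax.right) 0 Bern.Ax.right) 2 Bern.Ax.right) = true ∧
    Bern.coverU row12.cfg3 row12.R3 (.split 1 .leaf (.split 2 .leaf (.split 1 .leaf .leaf)))
      (Bern.Box.cut (Bern.Box.cut (Bern.Box.cut (Bern.Box.cut (Bern.Box.cut (Bern.Box.cut
      (Bern.Box.cut (Bern.Box.cut (Bern.Box.cut (Bern.Box.cut (Bern.Box.cut (Bern.Box.cut box3 2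
      Bern.Ax.right) 0 Bern.Ax.right) 2 Bern.Ax.right) 0 Bern.Ax.right) 1 Bern.Ax.left) 2
      Bern.Ax.left) 0 Bern.Ax.right) 1 Bern.Ax.right) 0 Bern.Ax.left) 1 Bern.Ax.left) 2
      Bern.Ax.right) 0 Bern.Ax.right) = true ∧
    Bern.coverU row12.cfg3 row12.R3 (.split 1 .leaf (.split 1 .leaf .leaf)) (Bern.Box.cut
      (Bern.Box.cut (Bern.Box.cut (Bern.Box.cut (Bern.Box.cut (Bern.Box.cut (Bern.Box.cut
      (Bern.Box.cut (Bern.Box.cut (Bern.Box.cut (Bern.Box.cut (Bern.Box.cut (Bern.Box.cut
      (Bern.Box.cut box3 2 Bern.Ax.right) 0 Bern.Ax.right) 2 Bern.Ax.right) 0 Bern.Ax.right) 1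
      Bern.Ax.left) 2 Bern.Ax.left) 0 Bern.Ax.right) 1 Bern.Ax.right) 0 Bern.Ax.left) 1
      Bern.Ax.right) 0 Bern.Ax.left) 1 Bern.Ax.left) 2 Bern.Ax.left) 0 Bern.Ax.left) = true ∧
    Bern.coverU row12.cfg3 row12.R3 (.split 1 (.split 2 .leaf (.split 0 .leaf .leaf)) (.split 2
      (.split 0 .leaf .leaf) .leaf)) (Bern.Box.cut (Bern.Box.cut (Bern.Box.cut (Bern.Box.cut
      (Bern.Box.cut (Bern.Box.cut (Bern.Box.cut (Bern.Box.cut (Bern.Box.cut (Bern.Box.cut
      (Bern.Box.cut (Bern.Box.cut (Bern.Box.cut (Bern.Box.cut box3 2 Bern.Ax.right) 0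
      Bern.Ax.right) 2 Bern.Ax.right) 0 Bern.Ax.right) 1 Bern.Ax.left) 2 Bern.Ax.left) 0
      Bern.Ax.right) 1 Bern.Ax.right) 0 Bern.Ax.left) 1 Bern.Ax.right) 0 Bern.Ax.left) 1
      Bern.Ax.left) 2 Bern.Ax.left) 0 Bern.Ax.right) = true ∧
    Bern.coverU row12.cfg3 row12.R3 (.split 0 .leaf .leaf) (Bern.Box.cut (Bern.Box.cut
      (Bern.Box.cut (Bern.Box.cut (Bern.Box.cut (Bern.Box.cut (Bern.Box.cut (Bern.Box.cut
      (Bern.Box.cut (Bern.Box.cut (Bern.Box.cut (Bern.Box.cut (Bern.Box.cut box3 2 Bern.Ax.right)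
      0 Bern.Ax.right) 2 Bern.Ax.right) 0 Bern.Ax.right) 1 Bern.Ax.left) 2 Bern.Ax.left) 0
      Bern.Ax.right) 1 Bern.Ax.right) 0 Bern.Ax.left) 1 Bern.Ax.right) 0 Bern.Ax.left) 1
      Bern.Ax.left) 2 Bern.Ax.right) = true ∧
    Bern.coverU row12.cfg3 row12.R3 .leaf (Bern.Box.cut (Bern.Box.cut (Bern.Box.cut (Bern.Box.cut
      (Bern.Box.cut (Bern.Box.cut (Bern.Box.cut (Bern.Box.cut (Bern.Box.cut (Bern.Box.cut
      (Bern.Box.cut (Bern.Box.cut box3 2 Bern.Ax.right) 0 Bern.Ax.right) 2 Bern.Ax.right) 0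
      Bern.Ax.right) 1 Bern.Ax.left) 2 Bern.Ax.left) 0 Bern.Ax.right) 1 Bern.Ax.right) 0
      Bern.Ax.left) 1 Bern.Ax.right) 0 Bern.Ax.left) 1 Bern.Ax.right) = true ∧
    Bern.coverU row12.cfg3 row12.R3 (.split 2 (.split 1 .leaf .leaf) (.split 1 .leaf .leaf))
      (Bern.Box.cut (Bern.Box.cut (Bern.Box.cut (Bern.Box.cut (Bern.Box.cut (Bern.Box.cut
      (Bern.Box.cut (Bern.Box.cut (Bern.Box.cut (Bern.Box.cut (Bern.Box.cut box3 2 Bern.Ax.right)
      0 Bern.Ax.right) 2 Bern.Ax.right) 0 Bern.Ax.right) 1 Bern.Ax.left) 2 Bern.Ax.left) 0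
      Bern.Ax.right) 1 Bern.Ax.right) 0 Bern.Ax.left) 1 Bern.Ax.right) 0 Bern.Ax.right) = true ∧
    Bern.coverU row12.cfg3 row12.R3 .leaf (Bern.Box.cut (Bern.Box.cut (Bern.Box.cut (Bern.Box.cut
      (Bern.Box.cut (Bern.Box.cut (Bern.Box.cut (Bern.Box.cut (Bern.Box.cut box3 2 Bern.Ax.right)
      0 Bern.Ax.right) 2 Bern.Ax.right) 0 Bern.Ax.right) 1 Bern.Ax.left) 2 Bern.Ax.left) 0
      Bern.Ax.right) 1 Bern.Ax.right) 0 Bern.Ax.right) = true ∧
    Bern.coverU row12.cfg3 row12.R3 (.split 1 .leaf .leaf) (Bern.Box.cut (Bern.Box.cut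
      (Bern.Box.cut (Bern.Box.cut (Bern.Box.cut (Bern.Box.cut (Bern.Box.cut box3 2 Bern.Ax.right)
      0 Bern.Ax.right) 2 Bern.Ax.right) 0 Bern.Ax.right) 1 Bern.Ax.left) 2 Bern.Ax.right) 0
      Bern.Ax.left) = true ∧
    Bern.coverU row12.cfg3 row12.R3 (.split 2 .leaf (.split 2 .leaf (.split 2 .leaf (.split 1
      .leaf (.split 2 .leaf (.split 1 .leaf .leaf)))))) (Bern.Box.cut (Bern.Box.cut (Bern.Box.cut
      (Bern.Box.cut (Bern.Box.cut (Bern.Box.cut (Bern.Box.cut (Bern.Box.cut box3 2 Bern.Ax.right)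
      0 Bern.Ax.right) 2 Bern.Ax.right) 0 Bern.Ax.right) 1 Bern.Ax.left) 2 Bern.Ax.right) 0
      Bern.Ax.right) 1 Bern.Ax.left) = true ∧
    Bern.coverU row12.cfg3 row12.R3 (.split 0 (.split 1 (.split 0 .leaf .leaf) .leaf) (.split 2
      .leaf (.split 0 .leaf (.split 0 .leaf .leaf)))) (Bern.Box.cut (Bern.Box.cut (Bern.Box.cut
      (Bern.Box.cut (Bern.Box.cut (Bern.Box.cut (Bern.Box.cut (Bern.Box.cut box3 2 Bern.Ax.right)
      0 Bern.Ax.right) 2 Bern.Ax.right) 0 Bern.Ax.right) 1 Bern.Ax.left) 2 Bern.Ax.right) 0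
      Bern.Ax.right) 1 Bern.Ax.right) = true ∧
    Bern.coverU row12.cfg3 row12.R3 (.split 2 (.split 2 .leaf .leaf) .leaf) (Bern.Box.cut
      (Bern.Box.cut (Bern.Box.cut (Bern.Box.cut (Bern.Box.cut (Bern.Box.cut (Bern.Box.cut
      (Bern.Box.cut (Bern.Box.cut box3 2 Bern.Ax.right) 0 Bern.Ax.right) 2 Bern.Ax.right) 0
      Bern.Ax.right) 1 Bern.Ax.right) 2 Bern.Ax.left) 0 Bern.Ax.left) 2 Bern.Ax.left) 0
      Bern.Ax.left) = true ∧
    Bern.coverU row12.cfg3 row12.R3 (.split 2 (.split 0 (.split 2 .leaf (.split 0 .leaf .leaf))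
      .leaf) (.split 0 (.split 2 (.split 0 .leaf .leaf) .leaf) .leaf)) (Bern.Box.cut (Bern.Box.cut
      (Bern.Box.cut (Bern.Box.cut (Bern.Box.cut (Bern.Box.cut (Bern.Box.cut (Bern.Box.cut
      (Bern.Box.cut box3 2 Bern.Ax.right) 0 Bern.Ax.right) 2 Bern.Ax.right) 0 Bern.Ax.right) 1
      Bern.Ax.right) 2 Bern.Ax.left) 0 Bern.Ax.left) 2 Bern.Ax.left) 0 Bern.Ax.right) = true ∧
    Bern.coverU row12.cfg3 row12.R3 .leaf (Bern.Box.cut (Bern.Box.cut (Bern.Box.cut (Bern.Box.cut
      (Bern.Box.cut (Bern.Box.cut (Bern.Box.cut (Bern.Box.cut box3 2 Bern.Ax.right) 0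
      Bern.Ax.right) 2 Bern.Ax.right) 0 Bern.Ax.right) 1 Bern.Ax.right) 2 Bern.Ax.left) 0
      Bern.Ax.left) 2 Bern.Ax.right) = true ∧
    Bern.coverU row12.cfg3 row12.R3 (.split 2 .leaf .leaf) (Bern.Box.cut (Bern.Box.cut
      (Bern.Box.cut (Bern.Box.cut (Bern.Box.cut (Bern.Box.cut (Bern.Box.cut box3 2 Bern.Ax.right)
      0 Bern.Ax.right) 2 Bern.Ax.right) 0 Bern.Ax.right) 1 Bern.Ax.right) 2 Bern.Ax.left) 0
      Bern.Ax.right) = true ∧
    Bern.coverU row12.cfg3 row12.R3 .leaf (Bern.Box.cut (Bern.Box.cut (Bern.Box.cut (Bern.Box.cut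
      (Bern.Box.cut (Bern.Box.cut (Bern.Box.cut box3 2 Bern.Ax.right) 0 Bern.Ax.right) 2
      Bern.Ax.right) 0 Bern.Ax.right) 1 Bern.Ax.right) 2 Bern.Ax.right) 0 Bern.Ax.left) = true ∧
    Bern.coverU row12.cfg3 row12.R3 .leaf (Bern.Box.cut (Bern.Box.cut (Bern.Box.cut (Bern.Box.cut
      (Bern.Box.cut (Bern.Box.cut (Bern.Box.cut (Bern.Box.cut box3 2 Bern.Ax.right) 0
      Bern.Ax.right) 2 Bern.Ax.right) 0 Bern.Ax.right) 1 Bern.Ax.right) 2 Bern.Ax.right) 0
      Bern.Ax.right) 0 Bern.Ax.left) = true ∧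
    Bern.coverU row12.cfg3 row12.R3 .leaf (Bern.Box.cut (Bern.Box.cut (Bern.Box.cut (Bern.Box.cut
      (Bern.Box.cut (Bern.Box.cut (Bern.Box.cut (Bern.Box.cut (Bern.Box.cut box3 2 Bern.Ax.right)
      0 Bern.Ax.right) 2 Bern.Ax.right) 0 Bern.Ax.right) 1 Bern.Ax.right) 2 Bern.Ax.right) 0
      Bern.Ax.right) 0 Bern.Ax.right) 2 Bern.Ax.left) = true ∧
    Bern.coverU row12.cfg3 row12.R3 (.split 0 .leaf (.split 0 .leaf (.split 2 .leaf (.split 1
      (.split 1 (.split 0 .leaf (.split 1 .leaf .leaf)) .leaf) .leaf)))) (Bern.Box.cut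
      (Bern.Box.cut (Bern.Box.cut (Bern.Box.cut (Bern.Box.cut (Bern.Box.cut (Bern.Box.cut
      (Bern.Box.cut (Bern.Box.cut box3 2 Bern.Ax.right) 0 Bern.Ax.right) 2 Bern.Ax.right) 0
      Bern.Ax.right) 1 Bern.Ax.right) 2 Bern.Ax.right) 0 Bern.Ax.right) 0 Bern.Ax.right) 2
      Bern.Ax.right) = true := by
  exact ⟨by decide +kernel, by decide +kernel, by decide +kernel,
    by decide +kernel, by decide +kernel, by decide +kernel, by decide +kernel,
    by decide +kernel, by decide +kernel, by decide +kernel, by decide +kernel,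
    by decide +kernel, by decide +kernel, by decide +kernel, by decide +kernel,
    by decide +kernel, by decide +kernel, by decide +kernel, by decide +kernel,
    by decide +kernel, by decide +kernel, by decide +kernel, by decide +kernel,
    by decide +kernel, by decide +kernel, by decide +kernel, by decide +kernel,
    by decide +kernel, by decide +kernel, by decide +kernel, by decide +kernel,
    by decide +kernel, by decide +kernel, by decide +kernel, by decide +kernel,
    by decide +kernel, by decide +kernel, by decide +kernel, by decide +kernel,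
    by decide +kernel, by decide +kernel, by decide +kernel, by decide +kernel,
    by decide +kernel, by decide +kernel, by decide +kernel, by decide +kernel,
    by decide +kernel, by decide +kernel, by decide +kernel, by decide +kernel,
    by decide +kernel, by decide +kernel, by decide +kernel, by decide +kernel,
    by decide +kernel, by decide +kernel, by decide +kernel, by decide +kernel,
    by decide +kernel, by decide +kernel, by decide +kernel, by decide +kernel,
    by decide +kernel, by decide +kernel, by decide +kernel, by decide +kernel,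
    by decide +kernel, by decide +kernel, by decide +kernel, by decide +kernel,
    by decide +kernel, by decide +kernel, by decide +kernel, by decide +kernel,
    by decide +kernel, by decide +kernel, by decide +kernel, by decide +kernel,
    by decide +kernel, by decide +kernel, by decide +kernel, by decide +kernel,
    by decide +kernel, by decide +kernel, by decide +kernel⟩

/-- The row passes the check. -/
theorem row12_ok : rowFor 1 2 row12 = true := by
  obtain ⟨hrest, h1, h2, h3, h4, h5, h6, h7, h8, h9, h10, h11, h12, h13, h14, h15, h16, h17, h18,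
    h19, h20, h21, h22, h23, h24, h25, h26, h27, h28, h29, h30, h31, h32, h33, h34, h35, h36, h37,
    h38, h39, h40, h41, h42, h43, h44, h45, h46, h47, h48, h49, h50, h51, h52, h53, h54, h55, h56,
    h57, h58, h59, h60, h61, h62, h63, h64, h65, h66, h67, h68, h69, h70, h71, h72, h73, h74, h75,
    h76, h77, h78, h79, h80, h81, h82, h83, h84, h85⟩ := row12_parts
  simp only [rowFor, Bool.and_eq_true, decide_eq_true_eq]
  exact ⟨⟨⟨rfl, rfl⟩, rfl⟩, rowCheck_of_quick hrest
    ((Bern.coverU_split (Bern.coverU_split h1 h2) (Bern.coverU_split (Bern.coverU_split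
      (Bern.coverU_split (Bern.coverU_split (Bern.coverU_split h3 h4) h5) h6) h7)
      (Bern.coverU_split (Bern.coverU_split (Bern.coverU_split (Bern.coverU_split
      (Bern.coverU_split h8 h9) (Bern.coverU_split h10 h11)) h12) (Bern.coverU_split
      (Bern.coverU_split (Bern.coverU_split (Bern.coverU_split h13 h14) (Bern.coverU_split h15
      (Bern.coverU_split h16 h17))) (Bern.coverU_split h18 (Bern.coverU_split h19 h20)))
      (Bern.coverU_split (Bern.coverU_split h21 (Bern.coverU_split (Bern.coverU_split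
      (Bern.coverU_split h22 (Bern.coverU_split h23 h24)) h25) h26)) h27))) (Bern.coverU_split
      (Bern.coverU_split (Bern.coverU_split h28 h29) (Bern.coverU_split h30 (Bern.coverU_split h31
      (Bern.coverU_split (Bern.coverU_split h32 (Bern.coverU_split h33 (Bern.coverU_split h34
      h35))) h36)))) h37)))))
    ((Bern.coverU_split (Bern.coverU_split h38 (Bern.coverU_split (Bern.coverU_split
      (Bern.coverU_split h39 (Bern.coverU_split h40 h41)) (Bern.coverU_split h42 h43))
      (Bern.coverU_split h44 h45))) (Bern.coverU_split (Bern.coverU_split h46 h47)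
      (Bern.coverU_split (Bern.coverU_split (Bern.coverU_split (Bern.coverU_split
      (Bern.coverU_split h48 (Bern.coverU_split h49 h50)) h51) (Bern.coverU_split h52
      (Bern.coverU_split (Bern.coverU_split (Bern.coverU_split h53 (Bern.coverU_split h54 h55))
      h56) (Bern.coverU_split h57 h58)))) h59) (Bern.coverU_split h60 (Bern.coverU_split
      (Bern.coverU_split (Bern.coverU_split h61 (Bern.coverU_split h62 (Bern.coverU_split
      (Bern.coverU_split (Bern.coverU_split h63 (Bern.coverU_split (Bern.coverU_split h64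
      (Bern.coverU_split h65 (Bern.coverU_split h66 h67))) h68)) (Bern.coverU_split
      (Bern.coverU_split (Bern.coverU_split (Bern.coverU_split h69 h70) h71) h72) h73)) h74)))
      (Bern.coverU_split h75 (Bern.coverU_split h76 h77))) (Bern.coverU_split (Bern.coverU_split
      (Bern.coverU_split (Bern.coverU_split h78 h79) h80) h81) (Bern.coverU_split h82
      (Bern.coverU_split h83 (Bern.coverU_split h84 h85))))))))))⟩

end Vale.Agent.P154.Anti
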