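import Vale.Agent.P154.Anti.RowData
import Vale.Agent.P154.RowQuick

/-!
P154: the certificate of the row of piece 1 and index 3.
-/

namespace Vale.Agent.P154.Anti

open Kron BudgetRow

/-- The polynomial which dominates the merged coefficient. -/
noncomputable def sym13 : List Term :=
  [
    (48364821562500, 0, 0, 0, 0), (-5577631271758093230, 0, 0, 1, 0),
    (13396379363083531287, 0, 0, 2, 0), (-452529477579583620, 0, 1, 0, 0),
    (-10275579238809767940, 0, 1, 1, 0), (-1193675946169701555, 0, 1, 2, 0),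
    (-993101742534093480, 0, 2, 0, 0), (-3363553484119288566, 0, 2, 1, 0),
    (1942369482680336808, 0, 3, 0, 0), (109019234725149060, 0, 4, 0, 0),
    (38008045545586992, 1, 0, 0, 0), (22329612342848416320, 1, 0, 1, 0),
    (-22176662356042487010, 1, 0, 2, 0), (1280995204485562470, 1, 1, 0, 0),
    (17534039942409137244, 1, 1, 1, 0), (1406561049731057220, 1, 1, 2, 0),
    (3629433678714294840, 1, 2, 0, 0), (5042633017008127248, 1, 2, 1, 0),
    (-3565421136156142818, 1, 3, 0, 0), (-117726176796888240, 1, 4, 0, 0),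
    (32240777882040, 2, 0, 0, 0), (-35048471656771504350, 2, 0, 1, 0),
    (15570029727122601420, 2, 0, 2, 0), (-2190621957878953800, 2, 1, 0, 0),
    (-10621340736775518186, 2, 1, 1, 0), (-631333405450724130, 2, 1, 2, 0),
    (-5635244341697558895, 2, 2, 0, 0), (-3059917931741607684, 2, 2, 1, 0),
    (2640536142167709639, 2, 3, 0, 0), (48116998406415960, 2, 4, 0, 0),
    (-7163422272000, 3, 0, 0, 0), (30373546230593829936, 3, 0, 1, 0),
    (-5921889997316198400, 3, 0, 2, 0), (2097400174103974410, 3, 1, 0, 0),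
    (2008595803652745948, 3, 1, 1, 0), (127505713315306788, 3, 1, 2, 0),
    (4856851751001413796, 3, 2, 0, 0), (935735482141236792, 3, 2, 1, 0),
    (-1017205943763029472, 3, 3, 0, 0), (-8782250313954096, 3, 4, 0, 0), (596452884660, 4, 0, 0, 0),
    (-16740454101685254504, 4, 0, 1, 0), (1288044243161777835, 4, 0, 2, 0),
    (-1105760539696949460, 4, 1, 0, 0), (608063779182136176, 4, 1, 1, 0),
    (-9753389813671875, 4, 1, 2, 0), (-2512885272780853368, 4, 2, 0, 0),
    (-143826839468589942, 4, 2, 1, 0), (215534819103058026, 4, 3, 0, 0),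
    (601598556562500, 4, 4, 0, 0), (166071060, 5, 0, 0, 0), (6254066663242098102, 5, 0, 1, 0),
    (-152355163931091846, 5, 0, 2, 0), (261655357076241732, 5, 1, 0, 0),
    (-368683109828780148, 5, 1, 1, 0), (797030351358432084, 5, 2, 0, 0),
    (8872479028125000, 5, 2, 1, 0), (-23826586315405590, 5, 3, 0, 0), (-62929224, 6, 0, 0, 0),
    (-1604580402031730406, 6, 0, 1, 0), (7688388488906250, 6, 0, 2, 0),
    (26141998327974234, 6, 1, 0, 0), (67141307393522190, 6, 1, 1, 0),
    (-151646388928743987, 6, 2, 0, 0), (1072722478359375, 6, 3, 0, 0), (30205656, 7, 0, 0, 0),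
    (272726813992997628, 7, 0, 1, 0), (-34412664023377542, 7, 1, 0, 0),
    (-4371118090312500, 7, 1, 1, 0), (15879047637109800, 7, 2, 0, 0), (-8933328, 8, 0, 0, 0),
    (-27640351628917542, 8, 0, 1, 0), (9335837093792676, 8, 1, 0, 0),
    (-703076784843750, 8, 2, 0, 0), (1103124, 9, 0, 0, 0), (1258643981718750, 9, 0, 1, 0),
    (-1155719790294606, 9, 1, 0, 0), (34728, 10, 0, 0, 0), (56383795781250, 10, 1, 0, 0),
    (-14512, 11, 0, 0, 0)
  ]

/-- The nonnegative remainder in the invariants. -/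
noncomputable def rem13 : Bern.Poly where
  pks := [(0, 1), (0, 2), (0, 3), (0, 4), (1, 0), (1, 1), (1, 2), (1, 3), (2, 0), (2, 1), (2, 2), (3, 0), (3, 1), (3, 2), (4, 0), (4, 1), (5, 0), (6, 0)]
  rows :=
  [((0, 0),
    [
      -34926116208640000, 112862472949465088, 0, 0, 4917611724800000, 92693919171608576,
      -77574988448661504, 0, 51247514038304768, -165193587967918080, 0, -237154537163456512, 0, 0,
      288517200607707136, 0, 0, 0]),
   ((0, 1),
    [
      1660386059223040000, -560398502379651072, -18726284165120000, 0, 335046623887360000,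
      -4162609424046751744, 1104776294119243776, -71776649871360000, -1208769883764948992,
      4107923669406187520, -650044354068480000, 954474322175459328, -1233777294704640000, 0,
      -48135131191312384, -72364242370560000, -192971312988160000, 0]),
   ((0, 2),
    [
      3667168151470080000, 6522714550998035456, -5103905256250000000, -547809697656250000,
      7769234415288320000, 524496258603251712, -16882394198778533248, 2037403285156250000,
      -23209947446990864384, -15320000474143640960, 9263106698967980000, 26610736992397216256,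
      15318266334012780000, 193231416210937500, -14374133890599277568, -2968070915104970000,
      4740568015003775000, -1282521250097656250]),
   ((0, 3),
    [
      -1198482186567680000, 40831242050000000000, 10673423712500000000, -7440809600000000000,
      3062470394511360000, 76218912319772160000, -83296339175171520000, -14120463828125000000,
      577425050173440000, -181983749030682800000, 48795911947046520000, -50663318319295040000,
      114626018529323880000, -5960419820312500000, 76959409000044840000, -20106039126052645000,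
      -40855758442988640000, 5415935228710937500]),
   ((0, 4),
    [
      0, -35059820650000000000, 59526476800000000000, -8310102250000000000, 0, 25687940250000000000,
      67192301800000000000, -54024893862500000000, 0, 14045743125000000000, -74645946525000000000,
      17529910325000000000, -90244205581250000000, 4589697450000000000, -45365678687500000000,
      36720525600781250000, 35567255371875000000, 547534769921875000]),
   ((1, 0),
    [
      -336503431495680000, 473260866846851072, -23925549957120000, 0, 467539486310400000,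
      340784976435871744, -317163828229963776, 0, -1427716002187051008, 543493161201172480,
      -47851099914240000, 1548882409708060672, -512242272174080000, 0, -507448816216047616, 0,
      -48242828247040000, 0]),
   ((1, 1),
    [
      -16289954434908160000, -381090129192729600, 4763682019985760000, -200687033203125000,
      -3207086724874240000, 58762916906985420800, 243341203981156800, -4252317202615145000,
      12775100364252774400, -73933937860966384000, 2037232731709170000, -21455311238983129600,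
      42656073521372540000, -2689066559960937500, 15810609945388788800, -9503448869258195000,
      -2707091796452290000, -501332130468750000]),
   ((1, 2),
    [
      -33430858828349440000, -67113739093242893824, 41648169587585760000, 4199518862500000000,
      -19384848015687680000, -1019510087462030848, 171581169723991828992, -16351269439062500000,
      122906690489507905536, 126166672411411123840, -108817799602150690000, -233378569670948897024,
      -108426666538766380000, -3974934963867187500, 203244584177287106272, 4185765018244065000,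
      -65822513861590070000, 13735151794628906250]),
   ((1, 3),
    [
      -18374822367068160000, -65196905125000000000, -56481855312500000000, 27012446931250000000, 0,
      -272148300967369280000, 130810155512500000000, 67238602850000000000, 27562233550602240000,
      662363343439701920000, -96397226495293680000, 92067885473294880000, -304996862221398080000,
      -20771991442187500000, -261631676147301280000, 24137979293488015000, 172056265222646840000,
      1533864763476562500]),
   ((2, 0),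
    [
      2301417981214720000, -5771889266200150016, -18044532817920000, 0, -5581444134993920000,
      -6394339782224248832, 7648857722063945728, -215329949614080000, 17765859411077428224,
      1232699363592130560, -3416630493968580000, -23849471608715618816, 4921696161225080000,
      -301030549804687500, 15938593765773693248, -3668966619007710000, -4507006780162420000,
      -125333032617187500]),
   ((2, 1),
    [
      64010589579509760000, 29753621511672666880, -45495937257670700000, -438929472656250000,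
      -19914139946188800000, -297018760153249482240, -62780050178411743040, 41397708964981370000,
      -10623533340012216320, 429364935625005139200, 46173033708775025000, 165198774902644330880,
      -283758575399918365000, 10226601318164062500, -191299584842769156640, 66754944957906693750,
      28197780586030242500, 8540724593115234375]),
   ((2, 2),
    [
      83205677320765440000, 148209707183487680000, -97591823894093040000, -18661486631250000000,
      -12249881578045440000, -65191447414693440000, -435271198408602760000, 48198613247646840000,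
      -218664351613989120000, -369384269670200200000, 408906802201865760000, 898825660787241600000,
      449564266527170160000, -36808917264843750000, -964316325058540760000, -72304005815829722500,
      166630451045342865000, 3620307123339843750]),
   ((3, 0),
    [
      -6366329401507840000, 27281372334296844800, 6332914789911880000, 273904848828125000,
      26697541458329600000, 43872899528016409600, -58577804009717518400, -2877121421040465000,
      -94825753522318387200, -82615140289111288000, 56176603799202600000, 144750083056157804800,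
      46570734688517390000, -10181574084472656250, -97365505289551414400, 5483841941079765000,
      21895689237701707500, 3544541962255859375]),
   ((3, 1),
    [
      -78961746861096960000, -122546130672102240000, 114626018529323880000, 11280525697656250000,
      65567010838282240000, 682497176341960640000, 216853333077532760000, -76249215555349520000,
      -157494277159202560000, -1135034301599673460000, -224782133263585080000,
      -372565877508139120000, 918236445976955170000, -26912328121875000000, 712583764584040030000,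
      -254138693865764143750, -142112165190422500000, -8825316161083984375]),
   ((3, 2),
    [
      0, 12366810637500000000, 47683358562500000000, 4589697450000000000, 0, 344200519675000000000,
      -63598959421875000000, 41543982884375000000, -77063820750000000000, -327251242181250000000,
      -147235669059375000000, -651620741406250000000, 215298624975000000000, -1002308200781250000,
      971540239140625000000, -166183346417968750000, -82738578041015625000, -29535252821289062500]),
   ((4, 0),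
    [
      -6026697480601600000, -57667361023864819712, -38479704500022420000, -2835354917968750000,
      -31215353342197760000, -128839870531266241024, 202381146455011036896, 32703959518412660000,
      253785328161724371968, 378669067081974649920, -241079081264635190000, -395415130131723981312,
      -356291882292020015000, 60721264946289062500, 135308075022866081536, 68271206284195573750,
      29471746113851597500, -8030128023779296875]),
   ((4, 1),
    [
      -18525246046863360000, 94978269283359040000, -80424156504210580000, -18360262800390625000, 0,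
      -608220727632524480000, -33486120145952520000, 24137979293488015000, 469627727232986880000,
      1068079119326507100000, 144608011631659445000, -175482942114552480000,
      -1016554775463056575000, 83091673208984375000, -546169650273564590000, 332737914176641425000,
      67819866631551287500, -12281345949316406250]),
   ((5, 0),
    [
      24700328062484480000, 75849088240060400000, 81711516885977280000, 8891813842968750000,
      -12350164031242240000, 86626937486473280000, -263290055446360280000, -86028132611323420000,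
      -288448433930394880000, -225582244688241940000, 166630451045342865000, 350331027803227320000,
      284224330380845000000, -20684644510253906250, 117886984455406390000, -33909933315775643750,
      -117077340963005050000, -17579488229296875000]),
   ((6, 0),
    [
      0, -82081360006250000000, -43327481829687500000, 547534769921875000, 0, 64170512700000000000,
      219762428714062500000, -3067729526953125000, -32085256350000000000, -273303186979687500000,
      14481228493359375000, 226850685584375000000, 70602529288671875000, -29535252821289062500,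
      -128482048380468750000, 24562691898632812500, -70317952917187500000, 41222657362500000000])]

/-- The nonnegative remainder in three variables. -/
noncomputable def dom13 : Bern.Poly where
  pks := [(0, 1), (1, 0), (1, 1), (2, 0), (2, 1), (3, 0), (3, 1), (4, 0), (5, 0)]
  rows :=
  [((0, 0),
    [
      296484290887500000, 48364821562500, 40749824694234375000, -8660484601354687500,
      -11406875620266891562500, 899918771120184375000, -105443822332228525312500,
      51867619346166224062500, 80487596933375006250000]),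
   ((0, 1),
    [
      38669104425074688, 0, -297711869276680312500, 464029253100896256, -65055171443110484062500,
      7258767850914626250000, -458720121013820215312500, 260004545742502712812500,
      288272209378789440000000]),
   ((0, 2),
    [
      -115832358022938624, 0, -10424912222064476160, -1389988296275263488, -328384734995030999040,
      -62549473332386856960, -120331330474852771875000, 37487595494775428437500,
      84893080377970611562500]),
   ((1, 0),
    [
      -228272604205547520, 0, 266581314679699687500, 9479024644182187500, 69130891015388285625000,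
      -7376999831324156250000, 657682383066456493125000, -309636701878952545312500,
      -523258769959571219062500]),
   ((1, 1),
    [
      82267442476351488, 0, 7404069822871633920, 987209309716217856, 15215022729605098125000,
      44424418937229803520, 451312223172862502812500, -166372169073113539687500,
      -325395930254894752500000]),
   ((1, 2),
    [
      -121095411378683904, 0, -10898587024081551360, -1453144936544206848, -343305491258568867840,
      -65391522144489308160, -7415398611185087545344, -1647866358041130565632,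
      62200214831611139062500]),
   ((2, 0),
    [
      -45258567036567552, 0, -4073271033291079680, -543102804438810624, -7475939510469392812500,
      -748410796507100625000, -661809794728658931562500, 165262572578836977187500,
      722984227614583768125000]),
   ((2, 1),
    [
      580333514315268096, 0, 52230016288374128640, 6964002171783217152, 1645245513083785052160,
      313380097730244771840, -96872343373230156562500, 7897178462802168250368,
      68020108373198601562500]),
   ((3, 0),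
    [
      -365208652200148992, 0, -32868778698013409280, -4382503826401787904, -1035366528987422392320,
      -197212672188080455680, 349074308333118945937500, -43201417866736696875000,
      -484099582513411251562500]),
   ((4, 0),
    [
      -122086747078262784, 0, -10987807237043650560, -1465040964939153408, -346115927966874992640,
      -65926843422261903360, -7476104044084499841024, -1661356454240999964672,
      25896845218348656562500])]

/-- A subdivision. -/
noncomputable def cov13 : Bern.Cover :=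
  (.split 0 (.split 2 (.split 2 .leaf .leaf) (.split 3 (.split 3 .leaf (.split 0
  .leaf (.split 2 .leaf .leaf))) .leaf)) (.split 2 (.split 1 (.split 0 (.split 0
  (.split 1 (.split 2 .leaf (.split 0 (.split 1 .leaf .leaf) .leaf)) .leaf) .leaf)
  .leaf) .leaf) (.split 1 (.split 0 (.split 3 (.split 0 (.split 3 (.split 0 .leaf
  .leaf) (.split 2 .leaf (.split 3 .leaf .leaf))) (.split 3 .leaf (.split 2 .leaf
  .leaf))) .leaf) (.split 3 (.split 0 .leaf (.split 2 (.split 1 (.split 1 (.split 0
  .leaf .leaf) .leaf) (.split 1 .leaf (.split 2 (.split 3 (.split 1 .leaf .leaf)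
  .leaf) (.split 3 (.split 1 .leaf .leaf) .leaf)))) (.split 3 (.split 0 .leaf (.split
  1 .leaf (.split 2 .leaf .leaf))) (.split 1 .leaf .leaf)))) (.split 0 .leaf (.split
  1 (.split 1 (.split 2 (.split 3 (.split 2 (.split 0 .leaf .leaf) (.split 0 .leaf
  (.split 1 .leaf .leaf))) .leaf) (.split 1 (.split 0 .leaf .leaf) .leaf)) .leaf)
  .leaf)))) (.split 3 (.split 2 .leaf (.split 0 (.split 3 .leaf (.split 0 .leaf
  .leaf)) (.split 0 .leaf (.split 3 (.split 2 .leaf (.split 0 (.split 1 .leaf .leaf)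
  (.split 1 (.split 3 (.split 2 .leaf .leaf) .leaf) .leaf))) .leaf)))) .leaf))))

/-- A subdivision. -/
noncomputable def covDom13 : Bern.Cover :=
  (.split 2 (.split 2 (.split 2 .leaf (.split 2 (.split 2 .leaf .leaf) .leaf))
  (.split 0 (.split 2 .leaf (.split 0 (.split 2 .leaf (.split 2 .leaf .leaf)) (.split
  2 .leaf (.split 2 .leaf (.split 0 .leaf .leaf))))) (.split 1 (.split 1 .leaf
  (.split 2 (.split 1 .leaf (.split 2 .leaf (.split 1 (.split 2 .leaf .leaf) (.split
  2 .leaf .leaf)))) (.split 1 .leaf .leaf))) (.split 2 .leaf .leaf)))) (.split 0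
  (.split 2 (.split 2 (.split 2 (.split 0 .leaf (.split 1 (.split 2 (.split 0 .leaf
  (.split 1 (.split 2 .leaf (.split 0 .leaf (.split 0 .leaf .leaf))) .leaf)) (.split
  0 .leaf (.split 1 .leaf .leaf))) (.split 0 (.split 2 .leaf .leaf) .leaf))) .leaf)
  .leaf) (.split 2 (.split 2 (.split 2 (.split 2 .leaf .leaf) .leaf) .leaf) .leaf))
  (.split 0 (.split 2 (.split 1 (.split 2 (.split 1 (.split 2 (.split 0 (.split 2
  (.split 1 .leaf .leaf) (.split 0 (.split 0 .leaf .leaf) .leaf)) .leaf) (.split 0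
  .leaf .leaf)) (.split 2 (.split 0 (.split 2 .leaf (.split 2 .leaf .leaf)) (.split 1
  (.split 2 .leaf (.split 0 .leaf .leaf)) .leaf)) (.split 1 (.split 0 .leaf (.split 0
  .leaf (.split 1 .leaf .leaf))) .leaf))) (.split 1 .leaf .leaf)) (.split 2 .leaf
  (.split 2 (.split 0 .leaf .leaf) (.split 0 .leaf (.split 2 .leaf (.split 0 .leaf
  .leaf)))))) .leaf) (.split 2 (.split 1 (.split 0 (.split 1 .leaf (.split 2 (.split
  1 (.split 2 .leaf .leaf) (.split 2 .leaf .leaf)) (.split 1 (.split 0 .leaf .leaf)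
  (.split 0 .leaf (.split 2 .leaf (.split 0 .leaf .leaf)))))) (.split 1 .leaf (.split
  1 .leaf (.split 0 (.split 2 .leaf (.split 1 (.split 0 .leaf .leaf) .leaf))
  .leaf)))) (.split 2 .leaf (.split 0 (.split 2 .leaf (.split 0 (.split 2 .leaf
  (.split 0 (.split 2 .leaf (.split 0 .leaf (.split 0 .leaf .leaf))) .leaf)) .leaf))
  .leaf))) (.split 1 (.split 0 (.split 1 (.split 2 (.split 0 .leaf .leaf) .leaf)
  (.split 2 (.split 1 (.split 1 .leaf .leaf) .leaf) .leaf)) (.split 1 (.split 2
  (.split 0 (.split 0 .leaf .leaf) .leaf) (.split 2 .leaf (.split 2 .leaf (.split 2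
  .leaf (.split 1 .leaf (.split 2 .leaf (.split 1 (.split 1 .leaf .leaf) .leaf)))))))
  (.split 2 (.split 0 (.split 1 (.split 2 (.split 0 (.split 1 .leaf (.split 0
  (.split 2 .leaf .leaf) (.split 2 .leaf (.split 1 .leaf (.split 0 .leaf .leaf)))))
  .leaf) (.split 0 (.split 1 (.split 2 (.split 0 .leaf (.split 0 .leaf .leaf))
  (.split 0 .leaf (.split 1 .leaf (.split 0 .leaf .leaf)))) (.split 0 (.split 2 .leaf
  .leaf) (.split 2 (.split 1 (.split 0 (.split 2 .leaf (.split 0 .leaf .leaf))
  (.split 1 .leaf .leaf)) (.split 0 .leaf .leaf)) (.split 0 .leaf .leaf)))) (.split 1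
  .leaf (.split 1 .leaf .leaf)))) (.split 0 (.split 2 (.split 1 (.split 0 (.split 2
  (.split 1 (.split 2 .leaf .leaf) .leaf) .leaf) (.split 2 (.split 1 .leaf .leaf)
  (.split 1 (.split 0 .leaf .leaf) .leaf))) .leaf) .leaf) (.split 2 .leaf .leaf)))
  .leaf) (.split 0 (.split 1 (.split 0 .leaf .leaf) .leaf) (.split 0 .leaf (.split 0
  .leaf (.split 1 .leaf (.split 1 .leaf (.split 0 .leaf (.split 1 .leaf
  .leaf)))))))))) (.split 2 (.split 0 (.split 2 (.split 0 (.split 0 .leaf (.split 2
  .leaf .leaf)) .leaf) .leaf) .leaf) (.split 0 .leaf (.split 0 .leaf (.split 2 .leaf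
  (.split 0 .leaf (.split 2 .leaf (.split 0 .leaf (.split 0 .leaf .leaf)))))))))))))

/-- The row. -/
noncomputable def row13 : Row where
  W := terms 6
  D := slopeT 1 3
  G := sym13
  a := 2579890176
  e := slopeE 1
  kR := 524288
  kG := 6794772480000000
  kP := 3375
  I := 12
  J := 8
  P := rem13
  cfg := ⟨12, 12, 10, 12, 12, 290⟩
  cov := cov13
  lay := ⟨166, 13, 13, 13, 13⟩
  R3 := dom13
  cfg3 := ⟨8, 8, 8, 10, 10, 529⟩
  cov3 := covDom13
  lay3 := ⟨95, 5, 3, 15, 1⟩

set_option maxHeartbeats 8000000 in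
/-- All parts of the check, evaluated one after another. -/
theorem row13_parts :
    rowRest (terms 0) row13 = true ∧
    Bern.coverU row13.cfg row13.P (.split 2 .leaf .leaf) (Bern.Box.cut (Bern.Box.cut Bern.unitBox
      0 Bern.Ax.left) 2 Bern.Ax.left) = true ∧
    Bern.coverU row13.cfg row13.P .leaf (Bern.Box.cut (Bern.Box.cut (Bern.Box.cut (Bern.Box.cut
      Bern.unitBox 0 Bern.Ax.left) 2 Bern.Ax.right) 3 Bern.Ax.left) 3 Bern.Ax.left) = true ∧
    Bern.coverU row13.cfg row13.P (.split 0 .leaf (.split 2 .leaf .leaf)) (Bern.Box.cut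
      (Bern.Box.cut (Bern.Box.cut (Bern.Box.cut Bern.unitBox 0 Bern.Ax.left) 2 Bern.Ax.right) 3
      Bern.Ax.left) 3 Bern.Ax.right) = true ∧
    Bern.coverU row13.cfg row13.P .leaf (Bern.Box.cut (Bern.Box.cut (Bern.Box.cut Bern.unitBox 0
      Bern.Ax.left) 2 Bern.Ax.right) 3 Bern.Ax.right) = true ∧
    Bern.coverU row13.cfg row13.P .leaf (Bern.Box.cut (Bern.Box.cut (Bern.Box.cut (Bern.Box.cut
      (Bern.Box.cut (Bern.Box.cut (Bern.Box.cut Bern.unitBox 0 Bern.Ax.right) 2 Bern.Ax.left) 1
      Bern.Ax.left) 0 Bern.Ax.left) 0 Bern.Ax.left) 1 Bern.Ax.left) 2 Bern.Ax.left) = true ∧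
    Bern.coverU row13.cfg row13.P (.split 0 (.split 1 .leaf .leaf) .leaf) (Bern.Box.cut
      (Bern.Box.cut (Bern.Box.cut (Bern.Box.cut (Bern.Box.cut (Bern.Box.cut (Bern.Box.cut
      Bern.unitBox 0 Bern.Ax.right) 2 Bern.Ax.left) 1 Bern.Ax.left) 0 Bern.Ax.left) 0
      Bern.Ax.left) 1 Bern.Ax.left) 2 Bern.Ax.right) = true ∧
    Bern.coverU row13.cfg row13.P .leaf (Bern.Box.cut (Bern.Box.cut (Bern.Box.cut (Bern.Box.cut
      (Bern.Box.cut (Bern.Box.cut Bern.unitBox 0 Bern.Ax.right) 2 Bern.Ax.left) 1 Bern.Ax.left) 0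
      Bern.Ax.left) 0 Bern.Ax.left) 1 Bern.Ax.right) = true ∧
    Bern.coverU row13.cfg row13.P .leaf (Bern.Box.cut (Bern.Box.cut (Bern.Box.cut (Bern.Box.cut
      (Bern.Box.cut Bern.unitBox 0 Bern.Ax.right) 2 Bern.Ax.left) 1 Bern.Ax.left) 0 Bern.Ax.left)
      0 Bern.Ax.right) = true ∧
    Bern.coverU row13.cfg row13.P .leaf (Bern.Box.cut (Bern.Box.cut (Bern.Box.cut (Bern.Box.cut
      Bern.unitBox 0 Bern.Ax.right) 2 Bern.Ax.left) 1 Bern.Ax.left) 0 Bern.Ax.right) = true ∧
    Bern.coverU row13.cfg row13.P .leaf (Bern.Box.cut (Bern.Box.cut (Bern.Box.cut Bern.unitBox 0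
      Bern.Ax.right) 2 Bern.Ax.left) 1 Bern.Ax.right) = true ∧
    Bern.coverU row13.cfg row13.P (.split 0 .leaf .leaf) (Bern.Box.cut (Bern.Box.cut (Bern.Box.cut
      (Bern.Box.cut (Bern.Box.cut (Bern.Box.cut (Bern.Box.cut Bern.unitBox 0 Bern.Ax.right) 2
      Bern.Ax.right) 1 Bern.Ax.left) 0 Bern.Ax.left) 3 Bern.Ax.left) 0 Bern.Ax.left) 3
      Bern.Ax.left) = true ∧
    Bern.coverU row13.cfg row13.P (.split 2 .leaf (.split 3 .leaf .leaf)) (Bern.Box.cut
      (Bern.Box.cut (Bern.Box.cut (Bern.Box.cut (Bern.Box.cut (Bern.Box.cut (Bern.Box.cut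
      Bern.unitBox 0 Bern.Ax.right) 2 Bern.Ax.right) 1 Bern.Ax.left) 0 Bern.Ax.left) 3
      Bern.Ax.left) 0 Bern.Ax.left) 3 Bern.Ax.right) = true ∧
    Bern.coverU row13.cfg row13.P (.split 3 .leaf (.split 2 .leaf .leaf)) (Bern.Box.cut
      (Bern.Box.cut (Bern.Box.cut (Bern.Box.cut (Bern.Box.cut (Bern.Box.cut Bern.unitBox 0
      Bern.Ax.right) 2 Bern.Ax.right) 1 Bern.Ax.left) 0 Bern.Ax.left) 3 Bern.Ax.left) 0
      Bern.Ax.right) = true ∧
    Bern.coverU row13.cfg row13.P .leaf (Bern.Box.cut (Bern.Box.cut (Bern.Box.cut (Bern.Box.cut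
      (Bern.Box.cut Bern.unitBox 0 Bern.Ax.right) 2 Bern.Ax.right) 1 Bern.Ax.left) 0 Bern.Ax.left)
      3 Bern.Ax.right) = true ∧
    Bern.coverU row13.cfg row13.P .leaf (Bern.Box.cut (Bern.Box.cut (Bern.Box.cut (Bern.Box.cut
      (Bern.Box.cut (Bern.Box.cut Bern.unitBox 0 Bern.Ax.right) 2 Bern.Ax.right) 1 Bern.Ax.left) 0
      Bern.Ax.right) 3 Bern.Ax.left) 0 Bern.Ax.left) = true ∧
    Bern.coverU row13.cfg row13.P (.split 1 (.split 0 .leaf .leaf) .leaf) (Bern.Box.cut
      (Bern.Box.cut (Bern.Box.cut (Bern.Box.cut (Bern.Box.cut (Bern.Box.cut (Bern.Box.cut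
      (Bern.Box.cut Bern.unitBox 0 Bern.Ax.right) 2 Bern.Ax.right) 1 Bern.Ax.left) 0
      Bern.Ax.right) 3 Bern.Ax.left) 0 Bern.Ax.right) 2 Bern.Ax.left) 1 Bern.Ax.left) = true ∧
    Bern.coverU row13.cfg row13.P .leaf (Bern.Box.cut (Bern.Box.cut (Bern.Box.cut (Bern.Box.cut
      (Bern.Box.cut (Bern.Box.cut (Bern.Box.cut (Bern.Box.cut (Bern.Box.cut Bern.unitBox 0
      Bern.Ax.right) 2 Bern.Ax.right) 1 Bern.Ax.left) 0 Bern.Ax.right) 3 Bern.Ax.left) 0
      Bern.Ax.right) 2 Bern.Ax.left) 1 Bern.Ax.right) 1 Bern.Ax.left) = true ∧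
    Bern.coverU row13.cfg row13.P (.split 3 (.split 1 .leaf .leaf) .leaf) (Bern.Box.cut
      (Bern.Box.cut (Bern.Box.cut (Bern.Box.cut (Bern.Box.cut (Bern.Box.cut (Bern.Box.cut
      (Bern.Box.cut (Bern.Box.cut (Bern.Box.cut Bern.unitBox 0 Bern.Ax.right) 2 Bern.Ax.right) 1
      Bern.Ax.left) 0 Bern.Ax.right) 3 Bern.Ax.left) 0 Bern.Ax.right) 2 Bern.Ax.left) 1
      Bern.Ax.right) 1 Bern.Ax.right) 2 Bern.Ax.left) = true ∧
    Bern.coverU row13.cfg row13.P (.split 3 (.split 1 .leaf .leaf) .leaf) (Bern.Box.cut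
      (Bern.Box.cut (Bern.Box.cut (Bern.Box.cut (Bern.Box.cut (Bern.Box.cut (Bern.Box.cut
      (Bern.Box.cut (Bern.Box.cut (Bern.Box.cut Bern.unitBox 0 Bern.Ax.right) 2 Bern.Ax.right) 1
      Bern.Ax.left) 0 Bern.Ax.right) 3 Bern.Ax.left) 0 Bern.Ax.right) 2 Bern.Ax.left) 1
      Bern.Ax.right) 1 Bern.Ax.right) 2 Bern.Ax.right) = true ∧
    Bern.coverU row13.cfg row13.P .leaf (Bern.Box.cut (Bern.Box.cut (Bern.Box.cut (Bern.Box.cut
      (Bern.Box.cut (Bern.Box.cut (Bern.Box.cut (Bern.Box.cut (Bern.Box.cut Bern.unitBox 0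
      Bern.Ax.right) 2 Bern.Ax.right) 1 Bern.Ax.left) 0 Bern.Ax.right) 3 Bern.Ax.left) 0
      Bern.Ax.right) 2 Bern.Ax.right) 3 Bern.Ax.left) 0 Bern.Ax.left) = true ∧
    Bern.coverU row13.cfg row13.P (.split 1 .leaf (.split 2 .leaf .leaf)) (Bern.Box.cut
      (Bern.Box.cut (Bern.Box.cut (Bern.Box.cut (Bern.Box.cut (Bern.Box.cut (Bern.Box.cut
      (Bern.Box.cut (Bern.Box.cut Bern.unitBox 0 Bern.Ax.right) 2 Bern.Ax.right) 1 Bern.Ax.left) 0
      Bern.Ax.right) 3 Bern.Ax.left) 0 Bern.Ax.right) 2 Bern.Ax.right) 3 Bern.Ax.left) 0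
      Bern.Ax.right) = true ∧
    Bern.coverU row13.cfg row13.P (.split 1 .leaf .leaf) (Bern.Box.cut (Bern.Box.cut (Bern.Box.cut
      (Bern.Box.cut (Bern.Box.cut (Bern.Box.cut (Bern.Box.cut (Bern.Box.cut Bern.unitBox 0
      Bern.Ax.right) 2 Bern.Ax.right) 1 Bern.Ax.left) 0 Bern.Ax.right) 3 Bern.Ax.left) 0
      Bern.Ax.right) 2 Bern.Ax.right) 3 Bern.Ax.right) = true ∧
    Bern.coverU row13.cfg row13.P .leaf (Bern.Box.cut (Bern.Box.cut (Bern.Box.cut (Bern.Box.cut
      (Bern.Box.cut (Bern.Box.cut Bern.unitBox 0 Bern.Ax.right) 2 Bern.Ax.right) 1 Bern.Ax.left) 0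
      Bern.Ax.right) 3 Bern.Ax.right) 0 Bern.Ax.left) = true ∧
    Bern.coverU row13.cfg row13.P (.split 0 .leaf .leaf) (Bern.Box.cut (Bern.Box.cut (Bern.Box.cut
      (Bern.Box.cut (Bern.Box.cut (Bern.Box.cut (Bern.Box.cut (Bern.Box.cut (Bern.Box.cut
      (Bern.Box.cut (Bern.Box.cut Bern.unitBox 0 Bern.Ax.right) 2 Bern.Ax.right) 1 Bern.Ax.left) 0
      Bern.Ax.right) 3 Bern.Ax.right) 0 Bern.Ax.right) 1 Bern.Ax.left) 1 Bern.Ax.left) 2
      Bern.Ax.left) 3 Bern.Ax.left) 2 Bern.Ax.left) = true ∧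
    Bern.coverU row13.cfg row13.P (.split 0 .leaf (.split 1 .leaf .leaf)) (Bern.Box.cut
      (Bern.Box.cut (Bern.Box.cut (Bern.Box.cut (Bern.Box.cut (Bern.Box.cut (Bern.Box.cut
      (Bern.Box.cut (Bern.Box.cut (Bern.Box.cut (Bern.Box.cut Bern.unitBox 0 Bern.Ax.right) 2
      Bern.Ax.right) 1 Bern.Ax.left) 0 Bern.Ax.right) 3 Bern.Ax.right) 0 Bern.Ax.right) 1
      Bern.Ax.left) 1 Bern.Ax.left) 2 Bern.Ax.left) 3 Bern.Ax.left) 2 Bern.Ax.right) = true ∧
    Bern.coverU row13.cfg row13.P .leaf (Bern.Box.cut (Bern.Box.cut (Bern.Box.cut (Bern.Box.cut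
      (Bern.Box.cut (Bern.Box.cut (Bern.Box.cut (Bern.Box.cut (Bern.Box.cut (Bern.Box.cut
      Bern.unitBox 0 Bern.Ax.right) 2 Bern.Ax.right) 1 Bern.Ax.left) 0 Bern.Ax.right) 3
      Bern.Ax.right) 0 Bern.Ax.right) 1 Bern.Ax.left) 1 Bern.Ax.left) 2 Bern.Ax.left) 3
      Bern.Ax.right) = true ∧
    Bern.coverU row13.cfg row13.P (.split 1 (.split 0 .leaf .leaf) .leaf) (Bern.Box.cut
      (Bern.Box.cut (Bern.Box.cut (Bern.Box.cut (Bern.Box.cut (Bern.Box.cut (Bern.Box.cut
      (Bern.Box.cut (Bern.Box.cut Bern.unitBox 0 Bern.Ax.right) 2 Bern.Ax.right) 1 Bern.Ax.left) 0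
      Bern.Ax.right) 3 Bern.Ax.right) 0 Bern.Ax.right) 1 Bern.Ax.left) 1 Bern.Ax.left) 2
      Bern.Ax.right) = true ∧
    Bern.coverU row13.cfg row13.P .leaf (Bern.Box.cut (Bern.Box.cut (Bern.Box.cut (Bern.Box.cut
      (Bern.Box.cut (Bern.Box.cut (Bern.Box.cut (Bern.Box.cut Bern.unitBox 0 Bern.Ax.right) 2
      Bern.Ax.right) 1 Bern.Ax.left) 0 Bern.Ax.right) 3 Bern.Ax.right) 0 Bern.Ax.right) 1
      Bern.Ax.left) 1 Bern.Ax.right) = true ∧
    Bern.coverU row13.cfg row13.P .leaf (Bern.Box.cut (Bern.Box.cut (Bern.Box.cut (Bern.Box.cut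
      (Bern.Box.cut (Bern.Box.cut (Bern.Box.cut Bern.unitBox 0 Bern.Ax.right) 2 Bern.Ax.right) 1
      Bern.Ax.left) 0 Bern.Ax.right) 3 Bern.Ax.right) 0 Bern.Ax.right) 1 Bern.Ax.right) = true ∧
    Bern.coverU row13.cfg row13.P .leaf (Bern.Box.cut (Bern.Box.cut (Bern.Box.cut (Bern.Box.cut
      (Bern.Box.cut Bern.unitBox 0 Bern.Ax.right) 2 Bern.Ax.right) 1 Bern.Ax.right) 3
      Bern.Ax.left) 2 Bern.Ax.left) = true ∧
    Bern.coverU row13.cfg row13.P (.split 3 .leaf (.split 0 .leaf .leaf)) (Bern.Box.cut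
      (Bern.Box.cut (Bern.Box.cut (Bern.Box.cut (Bern.Box.cut (Bern.Box.cut Bern.unitBox 0
      Bern.Ax.right) 2 Bern.Ax.right) 1 Bern.Ax.right) 3 Bern.Ax.left) 2 Bern.Ax.right) 0
      Bern.Ax.left) = true ∧
    Bern.coverU row13.cfg row13.P .leaf (Bern.Box.cut (Bern.Box.cut (Bern.Box.cut (Bern.Box.cut
      (Bern.Box.cut (Bern.Box.cut (Bern.Box.cut Bern.unitBox 0 Bern.Ax.right) 2 Bern.Ax.right) 1
      Bern.Ax.right) 3 Bern.Ax.left) 2 Bern.Ax.right) 0 Bern.Ax.right) 0 Bern.Ax.left) = true ∧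
    Bern.coverU row13.cfg row13.P .leaf (Bern.Box.cut (Bern.Box.cut (Bern.Box.cut (Bern.Box.cut
      (Bern.Box.cut (Bern.Box.cut (Bern.Box.cut (Bern.Box.cut (Bern.Box.cut Bern.unitBox 0
      Bern.Ax.right) 2 Bern.Ax.right) 1 Bern.Ax.right) 3 Bern.Ax.left) 2 Bern.Ax.right) 0
      Bern.Ax.right) 0 Bern.Ax.right) 3 Bern.Ax.left) 2 Bern.Ax.left) = true ∧
    Bern.coverU row13.cfg row13.P (.split 1 .leaf .leaf) (Bern.Box.cut (Bern.Box.cut (Bern.Box.cut
      (Bern.Box.cut (Bern.Box.cut (Bern.Box.cut (Bern.Box.cut (Bern.Box.cut (Bern.Box.cut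
      (Bern.Box.cut Bern.unitBox 0 Bern.Ax.right) 2 Bern.Ax.right) 1 Bern.Ax.right) 3
      Bern.Ax.left) 2 Bern.Ax.right) 0 Bern.Ax.right) 0 Bern.Ax.right) 3 Bern.Ax.left) 2
      Bern.Ax.right) 0 Bern.Ax.left) = true ∧
    Bern.coverU row13.cfg row13.P (.split 3 (.split 2 .leaf .leaf) .leaf) (Bern.Box.cut
      (Bern.Box.cut (Bern.Box.cut (Bern.Box.cut (Bern.Box.cut (Bern.Box.cut (Bern.Box.cut
      (Bern.Box.cut (Bern.Box.cut (Bern.Box.cut (Bern.Box.cut Bern.unitBox 0 Bern.Ax.right) 2
      Bern.Ax.right) 1 Bern.Ax.right) 3 Bern.Ax.left) 2 Bern.Ax.right) 0 Bern.Ax.right) 0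
      Bern.Ax.right) 3 Bern.Ax.left) 2 Bern.Ax.right) 0 Bern.Ax.right) 1 Bern.Ax.left) = true ∧
    Bern.coverU row13.cfg row13.P .leaf (Bern.Box.cut (Bern.Box.cut (Bern.Box.cut (Bern.Box.cut
      (Bern.Box.cut (Bern.Box.cut (Bern.Box.cut (Bern.Box.cut (Bern.Box.cut (Bern.Box.cut
      (Bern.Box.cut Bern.unitBox 0 Bern.Ax.right) 2 Bern.Ax.right) 1 Bern.Ax.right) 3
      Bern.Ax.left) 2 Bern.Ax.right) 0 Bern.Ax.right) 0 Bern.Ax.right) 3 Bern.Ax.left) 2
      Bern.Ax.right) 0 Bern.Ax.right) 1 Bern.Ax.right) = true ∧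
    Bern.coverU row13.cfg row13.P .leaf (Bern.Box.cut (Bern.Box.cut (Bern.Box.cut (Bern.Box.cut
      (Bern.Box.cut (Bern.Box.cut (Bern.Box.cut (Bern.Box.cut Bern.unitBox 0 Bern.Ax.right) 2
      Bern.Ax.right) 1 Bern.Ax.right) 3 Bern.Ax.left) 2 Bern.Ax.right) 0 Bern.Ax.right) 0
      Bern.Ax.right) 3 Bern.Ax.right) = true ∧
    Bern.coverU row13.cfg row13.P .leaf (Bern.Box.cut (Bern.Box.cut (Bern.Box.cut (Bern.Box.cut
      Bern.unitBox 0 Bern.Ax.right) 2 Bern.Ax.right) 1 Bern.Ax.right) 3 Bern.Ax.right) = true ∧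
    Bern.coverU row13.cfg3 row13.R3 (.split 2 .leaf (.split 2 (.split 2 .leaf .leaf) .leaf))
      (Bern.Box.cut (Bern.Box.cut box3 2 Bern.Ax.left) 2 Bern.Ax.left) = true ∧
    Bern.coverU row13.cfg3 row13.R3 (.split 2 .leaf (.split 0 (.split 2 .leaf (.split 2 .leaf
      .leaf)) (.split 2 .leaf (.split 2 .leaf (.split 0 .leaf .leaf))))) (Bern.Box.cut
      (Bern.Box.cut (Bern.Box.cut box3 2 Bern.Ax.left) 2 Bern.Ax.right) 0 Bern.Ax.left) = true ∧
    Bern.coverU row13.cfg3 row13.R3 .leaf (Bern.Box.cut (Bern.Box.cut (Bern.Box.cut (Bern.Box.cut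
      (Bern.Box.cut box3 2 Bern.Ax.left) 2 Bern.Ax.right) 0 Bern.Ax.right) 1 Bern.Ax.left) 1
      Bern.Ax.left) = true ∧
    Bern.coverU row13.cfg3 row13.R3 (.split 2 (.split 1 .leaf (.split 2 .leaf (.split 1 (.split 2
      .leaf .leaf) (.split 2 .leaf .leaf)))) (.split 1 .leaf .leaf)) (Bern.Box.cut (Bern.Box.cut
      (Bern.Box.cut (Bern.Box.cut (Bern.Box.cut box3 2 Bern.Ax.left) 2 Bern.Ax.right) 0
      Bern.Ax.right) 1 Bern.Ax.left) 1 Bern.Ax.right) = true ∧
    Bern.coverU row13.cfg3 row13.R3 (.split 2 .leaf .leaf) (Bern.Box.cut (Bern.Box.cut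
      (Bern.Box.cut (Bern.Box.cut box3 2 Bern.Ax.left) 2 Bern.Ax.right) 0 Bern.Ax.right) 1
      Bern.Ax.right) = true ∧
    Bern.coverU row13.cfg3 row13.R3 .leaf (Bern.Box.cut (Bern.Box.cut (Bern.Box.cut (Bern.Box.cut
      (Bern.Box.cut (Bern.Box.cut box3 2 Bern.Ax.right) 0 Bern.Ax.left) 2 Bern.Ax.left) 2
      Bern.Ax.left) 2 Bern.Ax.left) 0 Bern.Ax.left) = true ∧
    Bern.coverU row13.cfg3 row13.R3 (.split 0 .leaf (.split 1 (.split 2 .leaf (.split 0 .leaf
      (.split 0 .leaf .leaf))) .leaf)) (Bern.Box.cut (Bern.Box.cut (Bern.Box.cut (Bern.Box.cut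
      (Bern.Box.cut (Bern.Box.cut (Bern.Box.cut (Bern.Box.cut box3 2 Bern.Ax.right) 0
      Bern.Ax.left) 2 Bern.Ax.left) 2 Bern.Ax.left) 2 Bern.Ax.left) 0 Bern.Ax.right) 1
      Bern.Ax.left) 2 Bern.Ax.left) = true ∧
    Bern.coverU row13.cfg3 row13.R3 (.split 0 .leaf (.split 1 .leaf .leaf)) (Bern.Box.cut
      (Bern.Box.cut (Bern.Box.cut (Bern.Box.cut (Bern.Box.cut (Bern.Box.cut (Bern.Box.cut
      (Bern.Box.cut box3 2 Bern.Ax.right) 0 Bern.Ax.left) 2 Bern.Ax.left) 2 Bern.Ax.left) 2
      Bern.Ax.left) 0 Bern.Ax.right) 1 Bern.Ax.left) 2 Bern.Ax.right) = true ∧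
    Bern.coverU row13.cfg3 row13.R3 (.split 0 (.split 2 .leaf .leaf) .leaf) (Bern.Box.cut
      (Bern.Box.cut (Bern.Box.cut (Bern.Box.cut (Bern.Box.cut (Bern.Box.cut (Bern.Box.cut box3 2
      Bern.Ax.right) 0 Bern.Ax.left) 2 Bern.Ax.left) 2 Bern.Ax.left) 2 Bern.Ax.left) 0
      Bern.Ax.right) 1 Bern.Ax.right) = true ∧
    Bern.coverU row13.cfg3 row13.R3 .leaf (Bern.Box.cut (Bern.Box.cut (Bern.Box.cut (Bern.Box.cut
      (Bern.Box.cut box3 2 Bern.Ax.right) 0 Bern.Ax.left) 2 Bern.Ax.left) 2 Bern.Ax.left) 2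
      Bern.Ax.right) = true ∧
    Bern.coverU row13.cfg3 row13.R3 .leaf (Bern.Box.cut (Bern.Box.cut (Bern.Box.cut (Bern.Box.cut
      box3 2 Bern.Ax.right) 0 Bern.Ax.left) 2 Bern.Ax.left) 2 Bern.Ax.right) = true ∧
    Bern.coverU row13.cfg3 row13.R3 (.split 2 (.split 2 (.split 2 (.split 2 .leaf .leaf) .leaf)
      .leaf) .leaf) (Bern.Box.cut (Bern.Box.cut (Bern.Box.cut box3 2 Bern.Ax.right) 0
      Bern.Ax.left) 2 Bern.Ax.right) = true ∧
    Bern.coverU row13.cfg3 row13.R3 (.split 2 (.split 0 (.split 2 (.split 1 .leaf .leaf) (.split 0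
      (.split 0 .leaf .leaf) .leaf)) .leaf) (.split 0 .leaf .leaf)) (Bern.Box.cut (Bern.Box.cut
      (Bern.Box.cut (Bern.Box.cut (Bern.Box.cut (Bern.Box.cut (Bern.Box.cut box3 2 Bern.Ax.right)
      0 Bern.Ax.right) 0 Bern.Ax.left) 2 Bern.Ax.left) 1 Bern.Ax.left) 2 Bern.Ax.left) 1
      Bern.Ax.left) = true ∧
    Bern.coverU row13.cfg3 row13.R3 (.split 0 (.split 2 .leaf (.split 2 .leaf .leaf)) (.split 1
      (.split 2 .leaf (.split 0 .leaf .leaf)) .leaf)) (Bern.Box.cut (Bern.Box.cut (Bern.Box.cut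
      (Bern.Box.cut (Bern.Box.cut (Bern.Box.cut (Bern.Box.cut (Bern.Box.cut box3 2 Bern.Ax.right)
      0 Bern.Ax.right) 0 Bern.Ax.left) 2 Bern.Ax.left) 1 Bern.Ax.left) 2 Bern.Ax.left) 1
      Bern.Ax.right) 2 Bern.Ax.left) = true ∧
    Bern.coverU row13.cfg3 row13.R3 (.split 1 (.split 0 .leaf (.split 0 .leaf (.split 1 .leaf
      .leaf))) .leaf) (Bern.Box.cut (Bern.Box.cut (Bern.Box.cut (Bern.Box.cut (Bern.Box.cut
      (Bern.Box.cut (Bern.Box.cut (Bern.Box.cut box3 2 Bern.Ax.right) 0 Bern.Ax.right) 0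
      Bern.Ax.left) 2 Bern.Ax.left) 1 Bern.Ax.left) 2 Bern.Ax.left) 1 Bern.Ax.right) 2
      Bern.Ax.right) = true ∧
    Bern.coverU row13.cfg3 row13.R3 (.split 1 .leaf .leaf) (Bern.Box.cut (Bern.Box.cut
      (Bern.Box.cut (Bern.Box.cut (Bern.Box.cut (Bern.Box.cut box3 2 Bern.Ax.right) 0
      Bern.Ax.right) 0 Bern.Ax.left) 2 Bern.Ax.left) 1 Bern.Ax.left) 2 Bern.Ax.right) = true ∧
    Bern.coverU row13.cfg3 row13.R3 (.split 2 .leaf (.split 2 (.split 0 .leaf .leaf) (.split 0
      .leaf (.split 2 .leaf (.split 0 .leaf .leaf))))) (Bern.Box.cut (Bern.Box.cut (Bern.Box.cut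
      (Bern.Box.cut (Bern.Box.cut box3 2 Bern.Ax.right) 0 Bern.Ax.right) 0 Bern.Ax.left) 2
      Bern.Ax.left) 1 Bern.Ax.right) = true ∧
    Bern.coverU row13.cfg3 row13.R3 .leaf (Bern.Box.cut (Bern.Box.cut (Bern.Box.cut (Bern.Box.cut
      box3 2 Bern.Ax.right) 0 Bern.Ax.right) 0 Bern.Ax.left) 2 Bern.Ax.right) = true ∧
    Bern.coverU row13.cfg3 row13.R3 .leaf (Bern.Box.cut (Bern.Box.cut (Bern.Box.cut (Bern.Box.cut
      (Bern.Box.cut (Bern.Box.cut (Bern.Box.cut box3 2 Bern.Ax.right) 0 Bern.Ax.right) 0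
      Bern.Ax.right) 2 Bern.Ax.left) 1 Bern.Ax.left) 0 Bern.Ax.left) 1 Bern.Ax.left) = true ∧
    Bern.coverU row13.cfg3 row13.R3 (.split 1 (.split 2 .leaf .leaf) (.split 2 .leaf .leaf))
      (Bern.Box.cut (Bern.Box.cut (Bern.Box.cut (Bern.Box.cut (Bern.Box.cut (Bern.Box.cut
      (Bern.Box.cut (Bern.Box.cut box3 2 Bern.Ax.right) 0 Bern.Ax.right) 0 Bern.Ax.right) 2
      Bern.Ax.left) 1 Bern.Ax.left) 0 Bern.Ax.left) 1 Bern.Ax.right) 2 Bern.Ax.left) = true ∧
    Bern.coverU row13.cfg3 row13.R3 (.split 1 (.split 0 .leaf .leaf) (.split 0 .leaf (.split 2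
      .leaf (.split 0 .leaf .leaf)))) (Bern.Box.cut (Bern.Box.cut (Bern.Box.cut (Bern.Box.cut
      (Bern.Box.cut (Bern.Box.cut (Bern.Box.cut (Bern.Box.cut box3 2 Bern.Ax.right) 0
      Bern.Ax.right) 0 Bern.Ax.right) 2 Bern.Ax.left) 1 Bern.Ax.left) 0 Bern.Ax.left) 1
      Bern.Ax.right) 2 Bern.Ax.right) = true ∧
    Bern.coverU row13.cfg3 row13.R3 (.split 1 .leaf (.split 1 .leaf (.split 0 (.split 2 .leaf
      (.split 1 (.split 0 .leaf .leaf) .leaf)) .leaf))) (Bern.Box.cut (Bern.Box.cut (Bern.Box.cut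
      (Bern.Box.cut (Bern.Box.cut (Bern.Box.cut box3 2 Bern.Ax.right) 0 Bern.Ax.right) 0
      Bern.Ax.right) 2 Bern.Ax.left) 1 Bern.Ax.left) 0 Bern.Ax.right) = true ∧
    Bern.coverU row13.cfg3 row13.R3 .leaf (Bern.Box.cut (Bern.Box.cut (Bern.Box.cut (Bern.Box.cut
      (Bern.Box.cut (Bern.Box.cut box3 2 Bern.Ax.right) 0 Bern.Ax.right) 0 Bern.Ax.right) 2
      Bern.Ax.left) 1 Bern.Ax.right) 2 Bern.Ax.left) = true ∧
    Bern.coverU row13.cfg3 row13.R3 (.split 2 .leaf (.split 0 (.split 2 .leaf (.split 0 (.split 2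
      .leaf (.split 0 .leaf (.split 0 .leaf .leaf))) .leaf)) .leaf)) (Bern.Box.cut (Bern.Box.cut
      (Bern.Box.cut (Bern.Box.cut (Bern.Box.cut (Bern.Box.cut (Bern.Box.cut box3 2 Bern.Ax.right)
      0 Bern.Ax.right) 0 Bern.Ax.right) 2 Bern.Ax.left) 1 Bern.Ax.right) 2 Bern.Ax.right) 0
      Bern.Ax.left) = true ∧
    Bern.coverU row13.cfg3 row13.R3 .leaf (Bern.Box.cut (Bern.Box.cut (Bern.Box.cut (Bern.Box.cut
      (Bern.Box.cut (Bern.Box.cut (Bern.Box.cut box3 2 Bern.Ax.right) 0 Bern.Ax.right) 0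
      Bern.Ax.right) 2 Bern.Ax.left) 1 Bern.Ax.right) 2 Bern.Ax.right) 0 Bern.Ax.right) = true ∧
    Bern.coverU row13.cfg3 row13.R3 (.split 1 (.split 2 (.split 0 .leaf .leaf) .leaf) (.split 2
      (.split 1 (.split 1 .leaf .leaf) .leaf) .leaf)) (Bern.Box.cut (Bern.Box.cut (Bern.Box.cut
      (Bern.Box.cut (Bern.Box.cut (Bern.Box.cut box3 2 Bern.Ax.right) 0 Bern.Ax.right) 0
      Bern.Ax.right) 2 Bern.Ax.right) 1 Bern.Ax.left) 0 Bern.Ax.left) = true ∧
    Bern.coverU row13.cfg3 row13.R3 (.split 0 (.split 0 .leaf .leaf) .leaf) (Bern.Box.cut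
      (Bern.Box.cut (Bern.Box.cut (Bern.Box.cut (Bern.Box.cut (Bern.Box.cut (Bern.Box.cut
      (Bern.Box.cut box3 2 Bern.Ax.right) 0 Bern.Ax.right) 0 Bern.Ax.right) 2 Bern.Ax.right) 1
      Bern.Ax.left) 0 Bern.Ax.right) 1 Bern.Ax.left) 2 Bern.Ax.left) = true ∧
    Bern.coverU row13.cfg3 row13.R3 (.split 2 .leaf (.split 2 .leaf (.split 2 .leaf (.split 1
      .leaf (.split 2 .leaf (.split 1 (.split 1 .leaf .leaf) .leaf)))))) (Bern.Box.cut
      (Bern.Box.cut (Bern.Box.cut (Bern.Box.cut (Bern.Box.cut (Bern.Box.cut (Bern.Box.cut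
      (Bern.Box.cut box3 2 Bern.Ax.right) 0 Bern.Ax.right) 0 Bern.Ax.right) 2 Bern.Ax.right) 1
      Bern.Ax.left) 0 Bern.Ax.right) 1 Bern.Ax.left) 2 Bern.Ax.right) = true ∧
    Bern.coverU row13.cfg3 row13.R3 (.split 0 (.split 1 .leaf (.split 0 (.split 2 .leaf .leaf)
      (.split 2 .leaf (.split 1 .leaf (.split 0 .leaf .leaf))))) .leaf) (Bern.Box.cut
      (Bern.Box.cut (Bern.Box.cut (Bern.Box.cut (Bern.Box.cut (Bern.Box.cut (Bern.Box.cut
      (Bern.Box.cut (Bern.Box.cut (Bern.Box.cut (Bern.Box.cut box3 2 Bern.Ax.right) 0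
      Bern.Ax.right) 0 Bern.Ax.right) 2 Bern.Ax.right) 1 Bern.Ax.left) 0 Bern.Ax.right) 1
      Bern.Ax.right) 2 Bern.Ax.left) 0 Bern.Ax.left) 1 Bern.Ax.left) 2 Bern.Ax.left) = true ∧
    Bern.coverU row13.cfg3 row13.R3 (.split 2 (.split 0 .leaf (.split 0 .leaf .leaf)) (.split 0
      .leaf (.split 1 .leaf (.split 0 .leaf .leaf)))) (Bern.Box.cut (Bern.Box.cut (Bern.Box.cut
      (Bern.Box.cut (Bern.Box.cut (Bern.Box.cut (Bern.Box.cut (Bern.Box.cut (Bern.Box.cut
      (Bern.Box.cut (Bern.Box.cut (Bern.Box.cut (Bern.Box.cut box3 2 Bern.Ax.right) 0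
      Bern.Ax.right) 0 Bern.Ax.right) 2 Bern.Ax.right) 1 Bern.Ax.left) 0 Bern.Ax.right) 1
      Bern.Ax.right) 2 Bern.Ax.left) 0 Bern.Ax.left) 1 Bern.Ax.left) 2 Bern.Ax.right) 0
      Bern.Ax.left) 1 Bern.Ax.left) = true ∧
    Bern.coverU row13.cfg3 row13.R3 (.split 2 .leaf .leaf) (Bern.Box.cut (Bern.Box.cut
      (Bern.Box.cut (Bern.Box.cut (Bern.Box.cut (Bern.Box.cut (Bern.Box.cut (Bern.Box.cut
      (Bern.Box.cut (Bern.Box.cut (Bern.Box.cut (Bern.Box.cut (Bern.Box.cut (Bern.Box.cut box3 2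
      Bern.Ax.right) 0 Bern.Ax.right) 0 Bern.Ax.right) 2 Bern.Ax.right) 1 Bern.Ax.left) 0
      Bern.Ax.right) 1 Bern.Ax.right) 2 Bern.Ax.left) 0 Bern.Ax.left) 1 Bern.Ax.left) 2
      Bern.Ax.right) 0 Bern.Ax.left) 1 Bern.Ax.right) 0 Bern.Ax.left) = true ∧
    Bern.coverU row13.cfg3 row13.R3 (.split 1 (.split 0 (.split 2 .leaf (.split 0 .leaf .leaf))
      (.split 1 .leaf .leaf)) (.split 0 .leaf .leaf)) (Bern.Box.cut (Bern.Box.cut (Bern.Box.cut
      (Bern.Box.cut (Bern.Box.cut (Bern.Box.cut (Bern.Box.cut (Bern.Box.cut (Bern.Box.cut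
      (Bern.Box.cut (Bern.Box.cut (Bern.Box.cut (Bern.Box.cut (Bern.Box.cut (Bern.Box.cut box3 2
      Bern.Ax.right) 0 Bern.Ax.right) 0 Bern.Ax.right) 2 Bern.Ax.right) 1 Bern.Ax.left) 0
      Bern.Ax.right) 1 Bern.Ax.right) 2 Bern.Ax.left) 0 Bern.Ax.left) 1 Bern.Ax.left) 2
      Bern.Ax.right) 0 Bern.Ax.left) 1 Bern.Ax.right) 0 Bern.Ax.right) 2 Bern.Ax.left) = true ∧
    Bern.coverU row13.cfg3 row13.R3 (.split 0 .leaf .leaf) (Bern.Box.cut (Bern.Box.cut
      (Bern.Box.cut (Bern.Box.cut (Bern.Box.cut (Bern.Box.cut (Bern.Box.cut (Bern.Box.cut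
      (Bern.Box.cut (Bern.Box.cut (Bern.Box.cut (Bern.Box.cut (Bern.Box.cut (Bern.Box.cut
      (Bern.Box.cut box3 2 Bern.Ax.right) 0 Bern.Ax.right) 0 Bern.Ax.right) 2 Bern.Ax.right) 1
      Bern.Ax.left) 0 Bern.Ax.right) 1 Bern.Ax.right) 2 Bern.Ax.left) 0 Bern.Ax.left) 1
      Bern.Ax.left) 2 Bern.Ax.right) 0 Bern.Ax.left) 1 Bern.Ax.right) 0 Bern.Ax.right) 2
      Bern.Ax.right) = true ∧
    Bern.coverU row13.cfg3 row13.R3 (.split 1 .leaf (.split 1 .leaf .leaf)) (Bern.Box.cut
      (Bern.Box.cut (Bern.Box.cut (Bern.Box.cut (Bern.Box.cut (Bern.Box.cut (Bern.Box.cut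
      (Bern.Box.cut (Bern.Box.cut (Bern.Box.cut (Bern.Box.cut (Bern.Box.cut box3 2 Bern.Ax.right)
      0 Bern.Ax.right) 0 Bern.Ax.right) 2 Bern.Ax.right) 1 Bern.Ax.left) 0 Bern.Ax.right) 1
      Bern.Ax.right) 2 Bern.Ax.left) 0 Bern.Ax.left) 1 Bern.Ax.left) 2 Bern.Ax.right) 0
      Bern.Ax.right) = true ∧
    Bern.coverU row13.cfg3 row13.R3 (.split 2 (.split 1 (.split 2 .leaf .leaf) .leaf) .leaf)
      (Bern.Box.cut (Bern.Box.cut (Bern.Box.cut (Bern.Box.cut (Bern.Box.cut (Bern.Box.cut
      (Bern.Box.cut (Bern.Box.cut (Bern.Box.cut (Bern.Box.cut (Bern.Box.cut (Bern.Box.cut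
      (Bern.Box.cut (Bern.Box.cut box3 2 Bern.Ax.right) 0 Bern.Ax.right) 0 Bern.Ax.right) 2
      Bern.Ax.right) 1 Bern.Ax.left) 0 Bern.Ax.right) 1 Bern.Ax.right) 2 Bern.Ax.left) 0
      Bern.Ax.left) 1 Bern.Ax.right) 0 Bern.Ax.left) 2 Bern.Ax.left) 1 Bern.Ax.left) 0
      Bern.Ax.left) = true ∧
    Bern.coverU row13.cfg3 row13.R3 (.split 2 (.split 1 .leaf .leaf) (.split 1 (.split 0 .leaf
      .leaf) .leaf)) (Bern.Box.cut (Bern.Box.cut (Bern.Box.cut (Bern.Box.cut (Bern.Box.cut
      (Bern.Box.cut (Bern.Box.cut (Bern.Box.cut (Bern.Box.cut (Bern.Box.cut (Bern.Box.cut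
      (Bern.Box.cut (Bern.Box.cut (Bern.Box.cut box3 2 Bern.Ax.right) 0 Bern.Ax.right) 0
      Bern.Ax.right) 2 Bern.Ax.right) 1 Bern.Ax.left) 0 Bern.Ax.right) 1 Bern.Ax.right) 2
      Bern.Ax.left) 0 Bern.Ax.left) 1 Bern.Ax.right) 0 Bern.Ax.left) 2 Bern.Ax.left) 1
      Bern.Ax.left) 0 Bern.Ax.right) = true ∧
    Bern.coverU row13.cfg3 row13.R3 .leaf (Bern.Box.cut (Bern.Box.cut (Bern.Box.cut (Bern.Box.cut
      (Bern.Box.cut (Bern.Box.cut (Bern.Box.cut (Bern.Box.cut (Bern.Box.cut (Bern.Box.cut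
      (Bern.Box.cut (Bern.Box.cut (Bern.Box.cut box3 2 Bern.Ax.right) 0 Bern.Ax.right) 0
      Bern.Ax.right) 2 Bern.Ax.right) 1 Bern.Ax.left) 0 Bern.Ax.right) 1 Bern.Ax.right) 2
      Bern.Ax.left) 0 Bern.Ax.left) 1 Bern.Ax.right) 0 Bern.Ax.left) 2 Bern.Ax.left) 1
      Bern.Ax.right) = true ∧
    Bern.coverU row13.cfg3 row13.R3 .leaf (Bern.Box.cut (Bern.Box.cut (Bern.Box.cut (Bern.Box.cut
      (Bern.Box.cut (Bern.Box.cut (Bern.Box.cut (Bern.Box.cut (Bern.Box.cut (Bern.Box.cut
      (Bern.Box.cut (Bern.Box.cut box3 2 Bern.Ax.right) 0 Bern.Ax.right) 0 Bern.Ax.right) 2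
      Bern.Ax.right) 1 Bern.Ax.left) 0 Bern.Ax.right) 1 Bern.Ax.right) 2 Bern.Ax.left) 0
      Bern.Ax.left) 1 Bern.Ax.right) 0 Bern.Ax.left) 2 Bern.Ax.right) = true ∧
    Bern.coverU row13.cfg3 row13.R3 (.split 2 .leaf .leaf) (Bern.Box.cut (Bern.Box.cut
      (Bern.Box.cut (Bern.Box.cut (Bern.Box.cut (Bern.Box.cut (Bern.Box.cut (Bern.Box.cut
      (Bern.Box.cut (Bern.Box.cut (Bern.Box.cut box3 2 Bern.Ax.right) 0 Bern.Ax.right) 0
      Bern.Ax.right) 2 Bern.Ax.right) 1 Bern.Ax.left) 0 Bern.Ax.right) 1 Bern.Ax.right) 2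
      Bern.Ax.left) 0 Bern.Ax.left) 1 Bern.Ax.right) 0 Bern.Ax.right) = true ∧
    Bern.coverU row13.cfg3 row13.R3 .leaf (Bern.Box.cut (Bern.Box.cut (Bern.Box.cut (Bern.Box.cut
      (Bern.Box.cut (Bern.Box.cut (Bern.Box.cut (Bern.Box.cut (Bern.Box.cut box3 2 Bern.Ax.right)
      0 Bern.Ax.right) 0 Bern.Ax.right) 2 Bern.Ax.right) 1 Bern.Ax.left) 0 Bern.Ax.right) 1
      Bern.Ax.right) 2 Bern.Ax.left) 0 Bern.Ax.right) = true ∧
    Bern.coverU row13.cfg3 row13.R3 (.split 1 (.split 0 .leaf .leaf) .leaf) (Bern.Box.cut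
      (Bern.Box.cut (Bern.Box.cut (Bern.Box.cut (Bern.Box.cut (Bern.Box.cut (Bern.Box.cut
      (Bern.Box.cut (Bern.Box.cut box3 2 Bern.Ax.right) 0 Bern.Ax.right) 0 Bern.Ax.right) 2
      Bern.Ax.right) 1 Bern.Ax.left) 0 Bern.Ax.right) 1 Bern.Ax.right) 2 Bern.Ax.right) 0
      Bern.Ax.left) = true ∧
    Bern.coverU row13.cfg3 row13.R3 (.split 0 .leaf (.split 0 .leaf (.split 1 .leaf (.split 1
      .leaf (.split 0 .leaf (.split 1 .leaf .leaf)))))) (Bern.Box.cut (Bern.Box.cut (Bern.Box.cut
      (Bern.Box.cut (Bern.Box.cut (Bern.Box.cut (Bern.Box.cut (Bern.Box.cut (Bern.Box.cut box3 2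
      Bern.Ax.right) 0 Bern.Ax.right) 0 Bern.Ax.right) 2 Bern.Ax.right) 1 Bern.Ax.left) 0
      Bern.Ax.right) 1 Bern.Ax.right) 2 Bern.Ax.right) 0 Bern.Ax.right) = true ∧
    Bern.coverU row13.cfg3 row13.R3 (.split 0 (.split 2 (.split 0 (.split 0 .leaf (.split 2 .leaf
      .leaf)) .leaf) .leaf) .leaf) (Bern.Box.cut (Bern.Box.cut (Bern.Box.cut (Bern.Box.cut
      (Bern.Box.cut (Bern.Box.cut box3 2 Bern.Ax.right) 0 Bern.Ax.right) 0 Bern.Ax.right) 2
      Bern.Ax.right) 1 Bern.Ax.right) 2 Bern.Ax.left) = true ∧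
    Bern.coverU row13.cfg3 row13.R3 (.split 0 .leaf (.split 0 .leaf (.split 2 .leaf (.split 0
      .leaf (.split 2 .leaf (.split 0 .leaf (.split 0 .leaf .leaf))))))) (Bern.Box.cut
      (Bern.Box.cut (Bern.Box.cut (Bern.Box.cut (Bern.Box.cut (Bern.Box.cut box3 2 Bern.Ax.right)
      0 Bern.Ax.right) 0 Bern.Ax.right) 2 Bern.Ax.right) 1 Bern.Ax.right) 2 Bern.Ax.right) = true
      := by
  exact ⟨by decide +kernel, by decide +kernel, by decide +kernel,
    by decide +kernel, by decide +kernel, by decide +kernel, by decide +kernel,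
    by decide +kernel, by decide +kernel, by decide +kernel, by decide +kernel,
    by decide +kernel, by decide +kernel, by decide +kernel, by decide +kernel,
    by decide +kernel, by decide +kernel, by decide +kernel, by decide +kernel,
    by decide +kernel, by decide +kernel, by decide +kernel, by decide +kernel,
    by decide +kernel, by decide +kernel, by decide +kernel, by decide +kernel,
    by decide +kernel, by decide +kernel, by decide +kernel, by decide +kernel,
    by decide +kernel, by decide +kernel, by decide +kernel, by decide +kernel,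
    by decide +kernel, by decide +kernel, by decide +kernel, by decide +kernel,
    by decide +kernel, by decide +kernel, by decide +kernel, by decide +kernel,
    by decide +kernel, by decide +kernel, by decide +kernel, by decide +kernel,
    by decide +kernel, by decide +kernel, by decide +kernel, by decide +kernel,
    by decide +kernel, by decide +kernel, by decide +kernel, by decide +kernel,
    by decide +kernel, by decide +kernel, by decide +kernel, by decide +kernel,
    by decide +kernel, by decide +kernel, by decide +kernel, by decide +kernel,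
    by decide +kernel, by decide +kernel, by decide +kernel, by decide +kernel,
    by decide +kernel, by decide +kernel, by decide +kernel, by decide +kernel,
    by decide +kernel, by decide +kernel, by decide +kernel, by decide +kernel,
    by decide +kernel, by decide +kernel, by decide +kernel, by decide +kernel,
    by decide +kernel, by decide +kernel, by decide +kernel, by decide +kernel⟩

/-- The row passes the check. -/
theorem row13_ok : rowFor 1 3 row13 = true := by
  obtain ⟨hrest, h1, h2, h3, h4, h5, h6, h7, h8, h9, h10, h11, h12, h13, h14, h15, h16, h17, h18,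
    h19, h20, h21, h22, h23, h24, h25, h26, h27, h28, h29, h30, h31, h32, h33, h34, h35, h36, h37,
    h38, h39, h40, h41, h42, h43, h44, h45, h46, h47, h48, h49, h50, h51, h52, h53, h54, h55, h56,
    h57, h58, h59, h60, h61, h62, h63, h64, h65, h66, h67, h68, h69, h70, h71, h72, h73, h74, h75,
    h76, h77, h78, h79, h80, h81, h82⟩ := row13_parts
  simp only [rowFor, Bool.and_eq_true, decide_eq_true_eq]
  exact ⟨⟨⟨rfl, rfl⟩, rfl⟩, rowCheck_of_quick hrest
    ((Bern.coverU_split (Bern.coverU_split h1 (Bern.coverU_split (Bern.coverU_split h2 h3) h4))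
      (Bern.coverU_split (Bern.coverU_split (Bern.coverU_split (Bern.coverU_split
      (Bern.coverU_split (Bern.coverU_split h5 h6) h7) h8) h9) h10) (Bern.coverU_split
      (Bern.coverU_split (Bern.coverU_split (Bern.coverU_split (Bern.coverU_split h11 h12) h13)
      h14) (Bern.coverU_split (Bern.coverU_split h15 (Bern.coverU_split (Bern.coverU_split h16
      (Bern.coverU_split h17 (Bern.coverU_split h18 h19))) (Bern.coverU_split (Bern.coverU_split
      h20 h21) h22))) (Bern.coverU_split h23 (Bern.coverU_split (Bern.coverU_split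
      (Bern.coverU_split (Bern.coverU_split (Bern.coverU_split h24 h25) h26) h27) h28) h29))))
      (Bern.coverU_split (Bern.coverU_split h30 (Bern.coverU_split h31 (Bern.coverU_split h32
      (Bern.coverU_split (Bern.coverU_split h33 (Bern.coverU_split h34 (Bern.coverU_split h35
      h36))) h37)))) h38)))))
    ((Bern.coverU_split (Bern.coverU_split h39 (Bern.coverU_split h40 (Bern.coverU_split
      (Bern.coverU_split h41 h42) h43))) (Bern.coverU_split (Bern.coverU_split (Bern.coverU_split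
      (Bern.coverU_split (Bern.coverU_split h44 (Bern.coverU_split (Bern.coverU_split h45 h46)
      h47)) h48) h49) h50) (Bern.coverU_split (Bern.coverU_split (Bern.coverU_split
      (Bern.coverU_split (Bern.coverU_split h51 (Bern.coverU_split h52 h53)) h54) h55) h56)
      (Bern.coverU_split (Bern.coverU_split (Bern.coverU_split (Bern.coverU_split h57
      (Bern.coverU_split h58 h59)) h60) (Bern.coverU_split h61 (Bern.coverU_split h62 h63)))
      (Bern.coverU_split (Bern.coverU_split h64 (Bern.coverU_split (Bern.coverU_split h65 h66)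
      (Bern.coverU_split (Bern.coverU_split (Bern.coverU_split (Bern.coverU_split h67
      (Bern.coverU_split (Bern.coverU_split h68 (Bern.coverU_split h69 (Bern.coverU_split h70
      h71))) h72)) (Bern.coverU_split (Bern.coverU_split (Bern.coverU_split (Bern.coverU_split h73
      h74) h75) h76) h77)) h78) (Bern.coverU_split h79 h80)))) (Bern.coverU_split h81 h82)))))))⟩

end Vale.Agent.P154.Anti
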