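import Vale.Agent.P154.Anti.RowData
import Vale.Agent.P154.RowQuick

/-!
P154: the certificate of the merge row 0 of piece 2.
-/


namespace Vale.Agent.P154.Anti

open Kron BudgetRow

/-- A part of a subdivision. -/
def row20P0 : Bern.Cover :=
  (.split 1 (.split 2 .leaf .leaf) (.split 2 .leaf .leaf))

/-- A part of a subdivision. -/
def row20P1 : Bern.Cover :=
  (.split 3 (.split 0 .leaf .leaf) .leaf)

/-- A part of a subdivision. -/
def row20P2 : Bern.Cover :=
  (.split 3 (.split 0 .leaf .leaf) .leaf)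

/-- A part of a subdivision. -/
def row20P3 : Bern.Cover :=
  (.split 3 (.split 0 (.split 1 .leaf .leaf) .leaf) .leaf)

/-- A part of a subdivision. -/
def row20P4 : Bern.Cover :=
  (.split 3 (.split 0 .leaf .leaf) .leaf)

/-- A part of a subdivision. -/
def row20P5 : Bern.Cover :=
  (.split 3 (.split 0 .leaf .leaf) .leaf)

/-- A part of a subdivision. -/
def row20P6 : Bern.Cover :=
  (.split 1 .leaf .leaf)

/-- A part of a subdivision. -/
def row20P7 : Bern.Cover :=
  .leaf

/-- A part of a subdivision. -/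
def row20P8 : Bern.Cover :=
  (.split 2 .leaf (.split 3 (.split 0 .leaf .leaf) .leaf))

/-- A part of a subdivision. -/
def row20P9 : Bern.Cover :=
  (.split 2 (.split 3 .leaf .leaf) (.split 3 .leaf .leaf))

/-- A part of a subdivision. -/
def row20P10 : Bern.Cover :=
  (.split 2 .leaf (.split 3 .leaf .leaf))

/-- A part of a subdivision. -/
def row20P11 : Bern.Cover :=
  (.split 2 (.split 3 (.split 0 .leaf .leaf) .leaf) .leaf)

/-- A part of a subdivision. -/
def row20P12 : Bern.Cover :=
  (.split 2 (.split 3 (.split 0 .leaf .leaf) .leaf) .leaf)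

/-- A part of a subdivision. -/
def row20P13 : Bern.Cover :=
  .leaf

/-- A part of a subdivision. -/
def row20P14 : Bern.Cover :=
  (.split 3 (.split 0 .leaf (.split 1 .leaf .leaf)) .leaf)

/-- A part of a subdivision. -/
def row20P15 : Bern.Cover :=
  (.split 3 .leaf .leaf)

/-- A part of a subdivision. -/
def row20P16 : Bern.Cover :=
  .leaf

/-- A part of a subdivision. -/
def row20P17 : Bern.Cover :=
  (.split 3 .leaf .leaf)

/-- A part of a subdivision. -/
def row20P18 : Bern.Cover :=
  (.split 3 (.split 0 .leaf (.split 1 (.split 2 .leaf .leaf) .leaf)) .leaf)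

/-- A part of a subdivision. -/
def row20P19 : Bern.Cover :=
  (.split 2 (.split 3 .leaf .leaf) (.split 3 .leaf (.split 0 .leaf .leaf)))

/-- A part of a subdivision. -/
def row20P20 : Bern.Cover :=
  (.split 1 (.split 2 .leaf (.split 3 .leaf .leaf)) .leaf)

/-- A part of a subdivision. -/
def row20P21 : Bern.Cover :=
  (.split 0 .leaf .leaf)

/-- A part of a subdivision. -/
def row20P22 : Bern.Cover :=
  .leaf

/-- A part of a subdivision. -/
def row20P23 : Bern.Cover :=
  (.split 2 (.split 3 .leaf .leaf) (.split 3 (.split 0 .leaf .leaf) .leaf))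

/-- A part of a subdivision. -/
def row20P24 : Bern.Cover :=
  .leaf

/-- A part of a subdivision. -/
def row20P25 : Bern.Cover :=
  .leaf

/-- A part of a subdivision. -/
def row20P26 : Bern.Cover :=
  (.split 2 (.split 3 .leaf .leaf) (.split 3 .leaf .leaf))

/-- A part of a subdivision. -/
def row20P27 : Bern.Cover :=
  (.split 2 (.split 3 .leaf .leaf) (.split 3 .leaf .leaf))

/-- A part of a subdivision. -/
def row20P28 : Bern.Cover :=
  .leaf

/-- A part of a subdivision. -/
def row20P29 : Bern.Cover :=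
  .leaf

/-- A part of a subdivision. -/
def row20R0 : Bern.Cover :=
  .leaf

/-- A part of a subdivision. -/
def row20R1 : Bern.Cover :=
  (.split 0 (.split 1 (.split 2 .leaf .leaf) (.split 2 .leaf .leaf)) (.split 1 (.split 2 .leaf
    (.split 0 .leaf (.split 1 (.split 2 .leaf .leaf) (.split 2 .leaf .leaf)))) (.split 2 .leaf
    (.split 0 .leaf (.split 1 (.split 2 .leaf .leaf) (.split 2 .leaf .leaf))))))

/-- A part of a subdivision. -/
def row20R2 : Bern.Cover :=
  (.split 2 .leaf (.split 0 (.split 1 (.split 2 .leaf .leaf) (.split 2 .leaf .leaf)) (.split 1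
    (.split 2 .leaf .leaf) (.split 2 .leaf .leaf))))

/-- A part of a subdivision. -/
def row20R3 : Bern.Cover :=
  (.split 2 .leaf (.split 0 (.split 1 (.split 2 .leaf .leaf) (.split 2 .leaf (.split 0 (.split 1
    (.split 2 .leaf .leaf) (.split 2 .leaf .leaf)) .leaf))) .leaf))

/-- A part of a subdivision. -/
def row20R4 : Bern.Cover :=
  (.split 2 .leaf (.split 0 (.split 1 (.split 2 .leaf (.split 0 .leaf .leaf)) (.split 2 .leaf
    .leaf)) .leaf))

/-- A part of a subdivision. -/
def row20R5 : Bern.Cover :=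
  .leaf

/-- A part of a subdivision. -/
def row20R6 : Bern.Cover :=
  (.split 2 (.split 0 (.split 1 (.split 2 (.split 0 .leaf .leaf) .leaf) (.split 2 (.split 0 .leaf
    .leaf) .leaf)) (.split 1 (.split 2 .leaf .leaf) (.split 2 .leaf .leaf))) .leaf)

/-- A part of a subdivision. -/
def row20R7 : Bern.Cover :=
  (.split 2 (.split 0 (.split 1 (.split 2 .leaf .leaf) (.split 2 .leaf .leaf)) (.split 1 (.split 2
    .leaf .leaf) (.split 2 .leaf .leaf))) .leaf)

/-- A part of a subdivision. -/
def row20R8 : Bern.Cover :=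
  (.split 2 .leaf (.split 0 (.split 1 (.split 2 .leaf .leaf) (.split 2 .leaf .leaf)) (.split 1
    (.split 2 .leaf .leaf) (.split 2 .leaf .leaf))))

/-- A part of a subdivision. -/
def row20R9 : Bern.Cover :=
  (.split 2 .leaf (.split 0 (.split 1 (.split 2 .leaf .leaf) (.split 2 .leaf .leaf)) (.split 1
    (.split 2 .leaf .leaf) (.split 2 .leaf .leaf))))

/-- A part of a subdivision. -/
def row20R10 : Bern.Cover :=
  (.split 1 (.split 2 .leaf (.split 0 (.split 1 (.split 2 .leaf .leaf) (.split 2 .leaf .leaf))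
    .leaf)) (.split 2 .leaf (.split 0 (.split 1 (.split 2 .leaf .leaf) (.split 2 .leaf .leaf))
    (.split 1 (.split 2 .leaf .leaf) (.split 2 .leaf .leaf)))))

/-- A part of a subdivision. -/
def row20R11 : Bern.Cover :=
  (.split 0 .leaf (.split 1 (.split 2 (.split 0 .leaf .leaf) .leaf) (.split 2 .leaf .leaf)))

/-- A part of a subdivision. -/
def row20R12 : Bern.Cover :=
  (.split 0 .leaf (.split 1 (.split 2 .leaf .leaf) .leaf))

/-- A part of a subdivision. -/
def row20R13 : Bern.Cover :=
  (.split 1 (.split 2 .leaf (.split 0 .leaf (.split 1 (.split 2 .leaf .leaf) .leaf))) (.split 2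
    .leaf .leaf))

/-- A part of a subdivision. -/
def row20R14 : Bern.Cover :=
  (.split 2 .leaf (.split 0 (.split 1 (.split 2 .leaf .leaf) (.split 2 (.split 0 .leaf (.split 1
    .leaf (.split 2 .leaf .leaf))) .leaf)) (.split 1 (.split 2 .leaf .leaf) (.split 2 (.split 0
    (.split 1 .leaf (.split 2 .leaf .leaf)) .leaf) .leaf))))

/-- A part of a subdivision. -/
def row20R15 : Bern.Cover :=
  .leaf

/-- A part of a subdivision. -/
def row20R16 : Bern.Cover :=
  (.split 1 (.split 2 (.split 0 .leaf (.split 1 (.split 2 .leaf .leaf) (.split 2 .leaf .leaf)))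
    .leaf) (.split 2 (.split 0 .leaf (.split 1 (.split 2 .leaf .leaf) (.split 2 .leaf .leaf)))
    .leaf))

/-- A part of a subdivision. -/
def row20R17 : Bern.Cover :=
  (.split 2 (.split 0 (.split 1 (.split 2 .leaf (.split 0 .leaf .leaf)) (.split 2 .leaf (.split 0
    (.split 1 (.split 2 .leaf .leaf) (.split 2 .leaf .leaf)) (.split 1 (.split 2 .leaf .leaf)
    (.split 2 .leaf .leaf))))) .leaf) .leaf)

/-- A part of a subdivision. -/
def row20R18 : Bern.Cover :=
  (.split 2 .leaf (.split 0 (.split 1 (.split 2 (.split 0 .leaf .leaf) .leaf) (.split 2 (.split 0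
    .leaf .leaf) .leaf)) (.split 1 (.split 2 .leaf .leaf) (.split 2 .leaf .leaf))))

/-- A part of a subdivision. -/
def row20R19 : Bern.Cover :=
  (.split 2 .leaf (.split 0 (.split 1 (.split 2 .leaf .leaf) .leaf) (.split 1 (.split 2 .leaf
    .leaf) .leaf)))

/-- A part of a subdivision. -/
def row20R20 : Bern.Cover :=
  .leaf

/-- A part of a subdivision. -/
def row20R21 : Bern.Cover :=
  .leaf

/-- A part of a subdivision. -/
def row20R22 : Bern.Cover :=
  (.split 0 .leaf (.split 1 (.split 2 .leaf .leaf) (.split 2 .leaf .leaf)))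

/-- A part of a subdivision. -/
def row20R23 : Bern.Cover :=
  (.split 1 (.split 2 .leaf .leaf) (.split 2 .leaf .leaf))

/-- A part of a subdivision. -/
def row20R24 : Bern.Cover :=
  .leaf

/-- A part of a subdivision. -/
def row20R25 : Bern.Cover :=
  (.split 1 (.split 2 (.split 0 .leaf (.split 1 (.split 2 .leaf .leaf) .leaf)) .leaf) (.split 2
    .leaf .leaf))

/-- A part of a subdivision. -/
def row20R26 : Bern.Cover :=
  (.split 1 (.split 2 (.split 0 (.split 1 (.split 2 .leaf (.split 0 .leaf .leaf)) (.split 2 .leaf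
    .leaf)) .leaf) .leaf) (.split 2 (.split 0 (.split 1 (.split 2 .leaf .leaf) .leaf) .leaf)
    .leaf))

/-- A part of a subdivision. -/
def row20R27 : Bern.Cover :=
  (.split 2 .leaf (.split 0 .leaf (.split 1 (.split 2 (.split 0 .leaf .leaf) .leaf) (.split 2
    (.split 0 .leaf .leaf) .leaf))))

/-- The certificate. -/
def row20 : Row where
  W := terms 6
  D := slopeT 2 0
  G := [(184281749897184, 1, 0, 0, 0), (10907985098491344, 0, 0, 1, 0),
    (-25145052678381744, 1, 0, 1, 0), (20925994054757004, 2, 0, 1, 0),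
    (-6937465989489300, 3, 0, 1, 0), (-76627461674808, 3, 0, 0, 0), (144308614220280, 4, 0, 0, 0),
    (-170541834339816, 5, 0, 0, 0), (134405237131848, 6, 0, 0, 0),
    (-1507312740078792, 1, 1, 0, 0), (3484966750902864, 2, 1, 0, 0),
    (-2822594232955284, 3, 1, 0, 0), (940804655636124, 4, 1, 0, 0),
    (11944649284741422, 0, 0, 2, 0), (-14061432000928752, 1, 0, 2, 0),
    (6477825429484344, 2, 0, 2, 0), (-969641331049116, 3, 0, 2, 0), (-37835874836604, 4, 0, 1, 0),
    (198442136193732, 5, 0, 1, 0), (415104892724592, 6, 0, 1, 0), (1409286538692720, 1, 1, 1, 0),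
    (-454403680160976, 2, 1, 1, 0), (2269222798569516, 3, 1, 1, 0),
    (-2731222514849220, 4, 1, 1, 0), (-73138781902968, 7, 0, 0, 0), (27914995775232, 8, 0, 0, 0),
    (-7464821666904, 9, 0, 0, 0), (993306977748, 5, 1, 0, 0), (-74730358821204, 6, 1, 0, 0),
    (4775202824976, 7, 1, 0, 0), (3946306309243434, 2, 2, 0, 0), (-1308702813317208, 3, 2, 0, 0),
    (-133699193111484, 4, 2, 0, 0), (264336142326120, 5, 2, 0, 0), (23243545734912, 2, 0, 0, 0),
    (-590931717225480, 0, 1, 0, 0), (-1977840018717012, 0, 1, 1, 0),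
    (-5005613267963172, 1, 2, 0, 0), (-385004426219802, 4, 0, 2, 0),
    (230464316856024, 5, 0, 2, 0), (-290713834292220, 7, 0, 1, 0), (80489652000372, 8, 0, 1, 0),
    (1375816267621944, 5, 1, 1, 0), (-349918886157984, 6, 1, 1, 0), (1370954948616, 10, 0, 0, 0),
    (-164806215840, 11, 0, 0, 0), (7790920076556, 8, 1, 0, 0), (-2558471050404, 9, 1, 0, 0),
    (-94114972349766, 6, 2, 0, 0), (16213260766608, 7, 2, 0, 0), (-1834677183340800, 0, 1, 2, 0),
    (237104829595341, 1, 1, 2, 0), (1315881176412132, 2, 1, 2, 0), (-835091920355634, 3, 1, 2, 0),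
    (-5484776876430588, 1, 2, 1, 0), (5026678626999717, 2, 2, 1, 0),
    (-2163744015230196, 3, 2, 1, 0), (479385290078874, 4, 2, 1, 0), (317369693444796, 2, 3, 0, 0),
    (40098189327615, 3, 3, 0, 0), (-107486251940700, 4, 3, 0, 0), (39987318543462, 5, 3, 0, 0),
    (2828824822281240, 0, 2, 0, 0), (1881614214727452, 0, 2, 1, 0),
    (-346125267706932, 1, 3, 0, 0), (-195743704992768, 0, 3, 0, 0), (948483334032120, 0, 4, 0, 0),
    (-1219173640812828, 1, 4, 0, 0), (632411091065664, 2, 4, 0, 0),
    (-164847126793176, 3, 4, 0, 0), (20254684802751, 4, 0, 3, 0), (3642236728416, 7, 0, 2, 0),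
    (-15981303607659, 5, 1, 2, 0), (561006647244, 10, 0, 1, 0), (-2264456438892, 8, 1, 1, 0),
    (2081875379013, 6, 2, 1, 0), (-370159976, 13, 0, 0, 0), (-15657016500, 11, 1, 0, 0),
    (45977339988, 9, 2, 0, 0), (357850667583, 7, 3, 0, 0), (-47415496808124, 6, 0, 2, 0),
    (-10662963387300, 9, 0, 1, 0), (44583390637452, 7, 1, 1, 0), (11681320776, 12, 0, 0, 0),
    (327200934276, 10, 1, 0, 0), (-1385742261744, 8, 2, 0, 0), (193762232210628, 4, 1, 2, 0),
    (-51909752003688, 5, 2, 1, 0), (-6191503373736, 6, 3, 0, 0), (2107399810572, 4, 3, 1, 0),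
    (-1125204481188, 5, 4, 0, 0), (21532330152936, 4, 4, 0, 0), (-243056217633012, 3, 0, 3, 0),
    (-25288797726864, 3, 3, 1, 0), (1093752979348554, 2, 0, 3, 0), (113799589770888, 2, 3, 1, 0),
    (-2187505958697108, 1, 0, 3, 0), (-227599179541776, 1, 3, 1, 0), (772137006192, 0, 0, 0, 0),
    (1640629469022831, 0, 0, 3, 0), (170699384656332, 0, 3, 1, 0)]
  a := 12754584
  e := slopeE 2
  kR := 192
  kG := 167772160000000
  kP := 225
  I := 12
  J := 8
  P := ⟨[(0, 1), (0, 2), (0, 3), (0, 4), (1, 0), (1, 1), (1, 2), (1, 3), (2, 0), (2, 1), (2, 2), (2, 3), (3, 0), (3, 1), (3, 2), (4, 0), (4, 1), (5, 0), (5, 1), (6, 0)],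
    [
     ((0, 0), [ -63951628800000, 206657012442624, 0, 0, 9003264000000, 169727328008448,
        -142043841499392, 0, 93836802891264, -302478127971840, 0, 0, -434242386034176, 0, 0,
        528289966547328, 0, 0, 0, 0]),
     ((0, 1), [ 3040257676800000, -1040608264038912, -34288850400000, 0, 565486387200000,
        -7634765840519424, 2031436733450496, -131426971200000, -2221570461599232, 7537067862001920,
        -1190266761600000, 0, 1770233299519488, -2259113698800000, 0, -121725077700864,
        -132502885200000, -353341027200000, 0, 0]),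
     ((0, 2), [ 6714785433600000, -5416786820529664, -330603619200000, 101917531800000,
        13104629606400000, -18902151985654528, 13458649544659712, -55525491500000,
        -42691313894152704, 23263468579018240, -9905630320800000, 613680616300000,
        57763091981275136, -18611808959600000, 4046089058550000, -45199785286078208,
        7734246659350000, 17721316839200000, -671188368687500, -2875528935900000]),
     ((0, 3), [ -2194486425600000, 2644828953600000, 3794334678400000, -2393915924000000,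
        5607550771200000, 54574384409600000, -85300760174400000, 13221874095200000,
        1057296844800000, -93122297828800000, 67797968541400000, -223750970700000,
        -56707602393600000, 48048956531800000, -499136645400000, 112151580774400000,
        -15532992954350000, -63860388567100000, 2154473545725000, 7753419757825000]),
     ((0, 4), [ 0, 6522722035200000, 19151327392000000, -4142177776000000, 0, 44829577836800000,
        -104686182617600000, -209035206400000, 0, -73360568779200000, 59931590427200000,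
        2026274434400000, -3261361017600000, 4693709259200000, 12222156926800000,
        32750962283200000, 14591995814500000, -16347531571600000, -917923937875000,
        -4038561873900000]),
     ((1, 0), [ -616156185600000, 915361256375808, -43808990400000, 0, 1017759744000000,
        667106846006016, -609476034219264, 0, -2586451602765312, 943855073886720, -87617980800000,
        0, 2760179451230208, -937943613600000, 0, -816047117889024, 0, -88335256800000, 0, 0]),
     ((1, 1), [ -29827797427200000, 9838885923977984, 3410899025600000, -350231076850000,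
        -3371126092800000, 87701502583927168, -12062158048358272, -1839645912500000,
        23821612872916224, -82116527347709440, 2058571087000000, 348307726012500,
        -25787601377250816, 22956284233400000, 1627675697975000, 2834414861269248, 910783704450000,
        7068528275100000, -379661343637500, -1924324936125000]),
     ((1, 2), [ -61213730764800000, 55371647231332352, 42650380087200000, -6542886413600000,
        -30283938201600000, 96028443747298304, -137280614354902016, -17340838797800000,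
        225944073091971072, -16138644020472320, 41513718713000000, 4548129656900000,
        -454270414261634048, 6334148391800000, 514286040950000, 434417558581932544,
        -32941913409000000, -167639790352800000, 107434001562500, 15095372156450000]),
     ((1, 3), [ -33645304627200000, 1776815728000000, 52887496380800000, 104517603200000, 0,
        -117737338400000000, 138726710382400000, -59372482608800000, 50467956940800000,
        222739947350400000, -120812927568000000, 1867572276400000, -47387611883200000,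
        -59102379162400000, 3474586482800000, -33758428880400000, -16942392961850000,
        52568621860200000, -1051395815562500, -23763651202700000]),
     ((2, 0), [ 4214022182400000, -11186048047004160, -33040526400000, 0, -12265543526400000,
        -12253871327896320, 14369021274689280, -394280913600000, 25527656961738240,
        5205773117145600, -5941577187600000, 77178344775000, -21138364939292160, 2931160489200000,
        169258487700000, 4699140441444480, -2632277589300000, -158321155200000, -54202670025000,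
        -521733236550000]),
     ((2, 1), [ 117206890099200000, -50223005702265344, -23280574457200000, 2292517774350000,
        -45690607104000000, -330100421692549888, 9437521691633152, 13921246709400000,
        -39432573283613184, 306793606242967040, 34719428672350000, -1099879486275000,
        133554431208915456, -59171666021700000, -16883612042475000, -12253946444535168,
        -18097211927212500, -54408376907625000, -579902008790625, 9506807631018750]),
     ((2, 2), [ 152354145484800000, -158490085132800000, -135595937082800000, 14982897606800000,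
        -22430203084800000, -65874274784000000, 166054874852000000, 60406463784000000,
        -380260940006400000, -277755429378800000, 27230833634400000, -8003101541050000,
        1020066759622400000, 277246755998900000, -25860826661200000, -824372875120800000,
        -57414549731175000, 276996022156600000, 6883811017231250, -28186098033000000]),
     ((2, 3), [ 0, -78551118886400000, -3580015531200000, -4052548868800000, 0, 89166777859200000,
        -145540149020800000, 7470289105600000, -39515312524800000, -70392287121600000,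
        64024812328400000, 11027380281100000, 66770001817600000, 148390144123800000,
        17566783295600000, 135645782807600000, -75947517534500000, -70742792824000000,
        -5419510444250000, -16580844804825000]),
     ((3, 0), [ -11657097292800000, 60185888227621376, 7088450299200000, -50958765900000,
        54587748864000000, 52509166019319552, -114396425892612608, 1480862871350000,
        -86367998656587264, -66449984772668160, 63754172476400000, -521640639200000,
        25103718954098176, 5778706179000000, -3743144270925000, 41298969213260672,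
        19565570496175000, -14047972473200000, -431749349518750, 3808606685250000]),
     ((3, 1), [ -144583276723200000, 148894471676800000, 48048956531800000, -586713657400000,
        120056782540800000, 367300547734400000, -12668296783600000, -14775594790600000,
        -93797135654400000, -236686664086800000, -138623377999450000, 9274384007737500,
        -46229649432000000, 15151944832900000, 37733609781200000, -320076338238700000,
        17578101879137500, 273668449315075000, 6377583602840625, -15882997690412500]),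
     ((3, 2), [ 0, 258949699747200000, 3993093163200000, 12222156926800000, 0, -208342489340800000,
        8228576655200000, -6949172965600000, 43330172851200000, 540275585359200000,
        -103443306644800000, -8783391647800000, -239561233339200000, -301868878249600000,
        -15623799636800000, -230408115062000000, 54123794499350000, 78802352883100000,
        12207880809812500, 33913077784325000]),
     ((4, 0), [ -11035212672000000, -178316168485047296, -56075790387200000, 2046935142700000,
        -58291513651200000, -13289184090427392, 429392217177491968, 4219803610050000,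
        95636096507910144, 4759916907375360, -206093218780200000, -4238930712737500,
        138866372025019904, 160038169119350000, -14400507191375000, -448106260626598912,
        -81344201498625000, 188463218754600000, 6326742147971875, -3201973926575000]),
     ((4, 1), [ -33920738611200000, -247495893099200000, -62131971817400000, -7295997907250000, 0,
        58290157084800000, 263535307272000000, -16942392961850000, 336931531430400000,
        -289555390835400000, 114829099462350000, -18986879383625000, -626098255877600000,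
        70312407516550000, -27061897249675000, 650753611989000000, 116694340407875000,
        -257802449071425000, -6006110919325000, 18397039694318750]),
     ((5, 0), [ 45227651481600000, 283541069427200000, 127720777134200000, -4086882892900000,
        -22613825740800000, -226192904803200000, -670559161411200000, -26284310930100000,
        -10132553932800000, 435267015261000000, 276996022156600000, 8842849103000000,
        -224767559571200000, -547336898630150000, 19700588220775000, 753852875018400000,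
        128901224535712500, -342602371711900000, -10491672142109375, 1969714071375000]),
     ((5, 1), [ 0, 85912111192000000, 34471576731600000, 1835847875750000, 0, -97193303971200000,
        -3437888050000000, -4205583262250000, 27751767052800000, -37113728562600000,
        -55070488137850000, -5419510444250000, 55263916738400000, 102041337645450000,
        -24415761619625000, -202455748735100000, -24024443677300000, 83933377136875000,
        11478922740125000, 41503177073025000]),
     ((6, 0), [ 0, -184033851897600000, -62027358062600000, -4038561873900000, 0,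
        246313591824000000, 241525954503200000, 47527302405400000, -133563708556800000,
        -304217844192600000, -112744392132000000, 8290422402412500, 243750827856000000,
        127063981523300000, 33913077784325000, -51231582825200000, -36794079388637500,
        7878856285500000, -20751588536512500, -33576822830300000])]⟩
  cfg := ⟨13, 12, 11, 12, 13, 294⟩
  cov := (.split 2 (.split 0 row20P0 (.split 1 (.split 2 row20P1 (.split 3 (.split 0 (.split 1 (.split 2
    row20P2 row20P3) (.split 2 row20P4 row20P5)) row20P6) row20P7)) row20P8)) (.split 0 (.split 1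
    row20P9 row20P10) (.split 1 (.split 2 (.split 3 (.split 0 (.split 1 row20P11 row20P12) (.split
    1 row20P13 (.split 2 row20P14 row20P15))) row20P16) (.split 3 (.split 0 (.split 1 (.split 2
    row20P17 row20P18) row20P19) row20P20) row20P21)) (.split 2 (.split 3 (.split 0 (.split 1
    row20P22 row20P23) row20P24) row20P25) (.split 3 (.split 0 (.split 1 row20P26 row20P27)
    row20P28) row20P29)))))
  lay := ⟨153, 14, 14, 14, 14⟩
  R3 := ⟨[(0, 1), (1, 0), (1, 1), (2, 0), (2, 1), (3, 0), (3, 1), (4, 0), (4, 1), (5, 0)],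
    [
     ((0, 0), [ 1439551378048608, 772137006192, -167349297626505216, 3160491977688840,
        -14921010976725588600, 2496947464138568976, 92537439518950640064, 16448610327478166304,
        58982492765997981720, -194449621527130077216]),
     ((0, 1), [ 191174161281192, 0, 606236869833839856, 2294089935374304, -4444553646204487848,
        -5048887210779292992, 61387051172474792736, 64815995417713427808, 172263426109503720912,
        -347428165323428967096]),
     ((0, 2), [ -572657531729616, 0, -51539177855665440, -6871890380755392, -1623484102453461360,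
        -309235067133992640, 13871689726302905760, 27037873622529372024, 97398554301367971768,
        -58284490384375393392]),
     ((0, 3), [ 0, 0, 0, 0, 0, 0, 0, 0, 258340078710211060584, 0]),
     ((1, 0), [ -1128544979287680, 0, -427376968893488088, 2412616613635800, 27591126098334069240,
        1204006745808420192, -228220078390357285656, -81008903164289689728, 377471248936736020128,
        378006033824776790136]),
     ((1, 1), [ 406717702672392, 0, 36604593240515280, 4880612432068704, 4036735434365634816,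
        219627559443091680, -178769886583981371552, -82845546438205079208, 759940122413047712976,
        208811324546628253416]),
     ((1, 2), [ -598677265727136, 0, -53880953915442240, -7184127188725632, -1697250048336430560,
        -323285723492653440, -36660601044066900096, -8146800232014866688, -245273397375695857776,
        -12669057618641706240]),
     ((2, 0), [ -223751460568968, 0, -20137631451207120, -2685017526827616, -13055140617437213496,
        1941387506735781240, 154725781975781743296, 64120811566638773160, -2025555674438391569208,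
        447340356474509718072]),
     ((2, 1), [ 2869080484590864, 0, 258217243613177760, 34428965815090368, 8133843173815099440,
        1549303461679066560, 249762637731367023336, 39042447234312477312, 74032022502888519096,
        -734745966154905488328]),
     ((3, 0), [ -1805535939221928, 0, -162498234529973520, -21666431270663136,
        -5118694387694165880, -974989407179841120, -114122303596683582624, -20716909715559343680,
        805995732448312956936, -6998031272423434968]),
     ((3, 1), [ 0, 0, 0, 0, 0, 0, 0, 0, -181433303362291468824, 0]),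
     ((4, 0), [ -603578278402056, 0, -54322045056185040, -7242939340824672, -1711144419269828760,
        -325932270337110240, -36960719456228301216, -8213493212495178048, -163777315283409057696,
        345659848137528308280])]⟩
  cfg3 := ⟨9, 8, 9, 10, 11, 527⟩
  cov3 := (.split 0 (.split 1 (.split 2 (.split 0 (.split 1 (.split 2 row20R0 row20R1) row20R2) (.split 1
    row20R3 row20R4)) (.split 0 row20R5 (.split 1 row20R6 row20R7))) (.split 2 (.split 0 (.split 1
    row20R8 row20R9) row20R10) row20R11)) (.split 1 (.split 2 row20R12 (.split 0 row20R13 (.split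
    1 row20R14 (.split 2 row20R15 (.split 0 row20R16 (.split 1 row20R17 (.split 2 (.split 0
    (.split 1 row20R18 row20R19) row20R20) row20R21))))))) (.split 2 row20R22 (.split 0 row20R23
    (.split 1 (.split 2 row20R24 (.split 0 row20R25 row20R26)) row20R27)))))
  lay3 := ⟨86, 5, 4, 16, 1⟩

set_option maxHeartbeats 8000000 in
theorem row20_parts :
    rowRest (terms 0) row20 = true ∧
    Bern.coverU row20.cfg row20.P row20P0
      (((Bern.unitBox).cut 2 Bern.Ax.left).cut 0 Bern.Ax.left) = true ∧
    Bern.coverU row20.cfg row20.P row20P1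
      (((((Bern.unitBox).cut 2 Bern.Ax.left).cut 0 Bern.Ax.right).cut 1 Bern.Ax.left).cut 2
    Bern.Ax.left) = true ∧
    Bern.coverU row20.cfg row20.P row20P2
      (((((((((Bern.unitBox).cut 2 Bern.Ax.left).cut 0 Bern.Ax.right).cut 1 Bern.Ax.left).cut 2
    Bern.Ax.right).cut 3 Bern.Ax.left).cut 0 Bern.Ax.left).cut 1 Bern.Ax.left).cut 2
    Bern.Ax.left) = true ∧
    Bern.coverU row20.cfg row20.P row20P3
      (((((((((Bern.unitBox).cut 2 Bern.Ax.left).cut 0 Bern.Ax.right).cut 1 Bern.Ax.left).cut 2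
    Bern.Ax.right).cut 3 Bern.Ax.left).cut 0 Bern.Ax.left).cut 1 Bern.Ax.left).cut 2
    Bern.Ax.right) = true ∧
    Bern.coverU row20.cfg row20.P row20P4
      (((((((((Bern.unitBox).cut 2 Bern.Ax.left).cut 0 Bern.Ax.right).cut 1 Bern.Ax.left).cut 2
    Bern.Ax.right).cut 3 Bern.Ax.left).cut 0 Bern.Ax.left).cut 1 Bern.Ax.right).cut 2
    Bern.Ax.left) = true ∧
    Bern.coverU row20.cfg row20.P row20P5
      (((((((((Bern.unitBox).cut 2 Bern.Ax.left).cut 0 Bern.Ax.right).cut 1 Bern.Ax.left).cut 2
    Bern.Ax.right).cut 3 Bern.Ax.left).cut 0 Bern.Ax.left).cut 1 Bern.Ax.right).cut 2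
    Bern.Ax.right) = true ∧
    Bern.coverU row20.cfg row20.P row20P6
      (((((((Bern.unitBox).cut 2 Bern.Ax.left).cut 0 Bern.Ax.right).cut 1 Bern.Ax.left).cut 2
    Bern.Ax.right).cut 3 Bern.Ax.left).cut 0 Bern.Ax.right) = true ∧
    Bern.coverU row20.cfg row20.P row20P7
      ((((((Bern.unitBox).cut 2 Bern.Ax.left).cut 0 Bern.Ax.right).cut 1 Bern.Ax.left).cut 2
    Bern.Ax.right).cut 3 Bern.Ax.right) = true ∧
    Bern.coverU row20.cfg row20.P row20P8
      ((((Bern.unitBox).cut 2 Bern.Ax.left).cut 0 Bern.Ax.right).cut 1 Bern.Ax.right) = true ∧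
    Bern.coverU row20.cfg row20.P row20P9
      ((((Bern.unitBox).cut 2 Bern.Ax.right).cut 0 Bern.Ax.left).cut 1 Bern.Ax.left) = true ∧
    Bern.coverU row20.cfg row20.P row20P10
      ((((Bern.unitBox).cut 2 Bern.Ax.right).cut 0 Bern.Ax.left).cut 1 Bern.Ax.right) = true ∧
    Bern.coverU row20.cfg row20.P row20P11
      ((((((((Bern.unitBox).cut 2 Bern.Ax.right).cut 0 Bern.Ax.right).cut 1 Bern.Ax.left).cut 2
    Bern.Ax.left).cut 3 Bern.Ax.left).cut 0 Bern.Ax.left).cut 1 Bern.Ax.left) = true ∧
    Bern.coverU row20.cfg row20.P row20P12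
      ((((((((Bern.unitBox).cut 2 Bern.Ax.right).cut 0 Bern.Ax.right).cut 1 Bern.Ax.left).cut 2
    Bern.Ax.left).cut 3 Bern.Ax.left).cut 0 Bern.Ax.left).cut 1 Bern.Ax.right) = true ∧
    Bern.coverU row20.cfg row20.P row20P13
      ((((((((Bern.unitBox).cut 2 Bern.Ax.right).cut 0 Bern.Ax.right).cut 1 Bern.Ax.left).cut 2
    Bern.Ax.left).cut 3 Bern.Ax.left).cut 0 Bern.Ax.right).cut 1 Bern.Ax.left) = true ∧
    Bern.coverU row20.cfg row20.P row20P14
      (((((((((Bern.unitBox).cut 2 Bern.Ax.right).cut 0 Bern.Ax.right).cut 1 Bern.Ax.left).cut 2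
    Bern.Ax.left).cut 3 Bern.Ax.left).cut 0 Bern.Ax.right).cut 1 Bern.Ax.right).cut 2
    Bern.Ax.left) = true ∧
    Bern.coverU row20.cfg row20.P row20P15
      (((((((((Bern.unitBox).cut 2 Bern.Ax.right).cut 0 Bern.Ax.right).cut 1 Bern.Ax.left).cut 2
    Bern.Ax.left).cut 3 Bern.Ax.left).cut 0 Bern.Ax.right).cut 1 Bern.Ax.right).cut 2
    Bern.Ax.right) = true ∧
    Bern.coverU row20.cfg row20.P row20P16
      ((((((Bern.unitBox).cut 2 Bern.Ax.right).cut 0 Bern.Ax.right).cut 1 Bern.Ax.left).cut 2
    Bern.Ax.left).cut 3 Bern.Ax.right) = true ∧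
    Bern.coverU row20.cfg row20.P row20P17
      (((((((((Bern.unitBox).cut 2 Bern.Ax.right).cut 0 Bern.Ax.right).cut 1 Bern.Ax.left).cut 2
    Bern.Ax.right).cut 3 Bern.Ax.left).cut 0 Bern.Ax.left).cut 1 Bern.Ax.left).cut 2
    Bern.Ax.left) = true ∧
    Bern.coverU row20.cfg row20.P row20P18
      (((((((((Bern.unitBox).cut 2 Bern.Ax.right).cut 0 Bern.Ax.right).cut 1 Bern.Ax.left).cut 2
    Bern.Ax.right).cut 3 Bern.Ax.left).cut 0 Bern.Ax.left).cut 1 Bern.Ax.left).cut 2
    Bern.Ax.right) = true ∧
    Bern.coverU row20.cfg row20.P row20P19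
      ((((((((Bern.unitBox).cut 2 Bern.Ax.right).cut 0 Bern.Ax.right).cut 1 Bern.Ax.left).cut 2
    Bern.Ax.right).cut 3 Bern.Ax.left).cut 0 Bern.Ax.left).cut 1 Bern.Ax.right) = true ∧
    Bern.coverU row20.cfg row20.P row20P20
      (((((((Bern.unitBox).cut 2 Bern.Ax.right).cut 0 Bern.Ax.right).cut 1 Bern.Ax.left).cut 2
    Bern.Ax.right).cut 3 Bern.Ax.left).cut 0 Bern.Ax.right) = true ∧
    Bern.coverU row20.cfg row20.P row20P21
      ((((((Bern.unitBox).cut 2 Bern.Ax.right).cut 0 Bern.Ax.right).cut 1 Bern.Ax.left).cut 2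
    Bern.Ax.right).cut 3 Bern.Ax.right) = true ∧
    Bern.coverU row20.cfg row20.P row20P22
      ((((((((Bern.unitBox).cut 2 Bern.Ax.right).cut 0 Bern.Ax.right).cut 1 Bern.Ax.right).cut 2
    Bern.Ax.left).cut 3 Bern.Ax.left).cut 0 Bern.Ax.left).cut 1 Bern.Ax.left) = true ∧
    Bern.coverU row20.cfg row20.P row20P23
      ((((((((Bern.unitBox).cut 2 Bern.Ax.right).cut 0 Bern.Ax.right).cut 1 Bern.Ax.right).cut 2
    Bern.Ax.left).cut 3 Bern.Ax.left).cut 0 Bern.Ax.left).cut 1 Bern.Ax.right) = true ∧
    Bern.coverU row20.cfg row20.P row20P24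
      (((((((Bern.unitBox).cut 2 Bern.Ax.right).cut 0 Bern.Ax.right).cut 1 Bern.Ax.right).cut 2
    Bern.Ax.left).cut 3 Bern.Ax.left).cut 0 Bern.Ax.right) = true ∧
    Bern.coverU row20.cfg row20.P row20P25
      ((((((Bern.unitBox).cut 2 Bern.Ax.right).cut 0 Bern.Ax.right).cut 1 Bern.Ax.right).cut 2
    Bern.Ax.left).cut 3 Bern.Ax.right) = true ∧
    Bern.coverU row20.cfg row20.P row20P26
      ((((((((Bern.unitBox).cut 2 Bern.Ax.right).cut 0 Bern.Ax.right).cut 1 Bern.Ax.right).cut 2
    Bern.Ax.right).cut 3 Bern.Ax.left).cut 0 Bern.Ax.left).cut 1 Bern.Ax.left) = true ∧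
    Bern.coverU row20.cfg row20.P row20P27
      ((((((((Bern.unitBox).cut 2 Bern.Ax.right).cut 0 Bern.Ax.right).cut 1 Bern.Ax.right).cut 2
    Bern.Ax.right).cut 3 Bern.Ax.left).cut 0 Bern.Ax.left).cut 1 Bern.Ax.right) = true ∧
    Bern.coverU row20.cfg row20.P row20P28
      (((((((Bern.unitBox).cut 2 Bern.Ax.right).cut 0 Bern.Ax.right).cut 1 Bern.Ax.right).cut 2
    Bern.Ax.right).cut 3 Bern.Ax.left).cut 0 Bern.Ax.right) = true ∧
    Bern.coverU row20.cfg row20.P row20P29
      ((((((Bern.unitBox).cut 2 Bern.Ax.right).cut 0 Bern.Ax.right).cut 1 Bern.Ax.right).cut 2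
    Bern.Ax.right).cut 3 Bern.Ax.right) = true ∧
    Bern.coverU row20.cfg3 row20.R3 row20R0
      (((((((box3).cut 0 Bern.Ax.left).cut 1 Bern.Ax.left).cut 2 Bern.Ax.left).cut 0
    Bern.Ax.left).cut 1 Bern.Ax.left).cut 2 Bern.Ax.left) = true ∧
    Bern.coverU row20.cfg3 row20.R3 row20R1
      (((((((box3).cut 0 Bern.Ax.left).cut 1 Bern.Ax.left).cut 2 Bern.Ax.left).cut 0
    Bern.Ax.left).cut 1 Bern.Ax.left).cut 2 Bern.Ax.right) = true ∧
    Bern.coverU row20.cfg3 row20.R3 row20R2
      ((((((box3).cut 0 Bern.Ax.left).cut 1 Bern.Ax.left).cut 2 Bern.Ax.left).cut 0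
    Bern.Ax.left).cut 1 Bern.Ax.right) = true ∧
    Bern.coverU row20.cfg3 row20.R3 row20R3
      ((((((box3).cut 0 Bern.Ax.left).cut 1 Bern.Ax.left).cut 2 Bern.Ax.left).cut 0
    Bern.Ax.right).cut 1 Bern.Ax.left) = true ∧
    Bern.coverU row20.cfg3 row20.R3 row20R4
      ((((((box3).cut 0 Bern.Ax.left).cut 1 Bern.Ax.left).cut 2 Bern.Ax.left).cut 0
    Bern.Ax.right).cut 1 Bern.Ax.right) = true ∧
    Bern.coverU row20.cfg3 row20.R3 row20R5
      (((((box3).cut 0 Bern.Ax.left).cut 1 Bern.Ax.left).cut 2 Bern.Ax.right).cut 0 Bern.Ax.left) = true ∧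
    Bern.coverU row20.cfg3 row20.R3 row20R6
      ((((((box3).cut 0 Bern.Ax.left).cut 1 Bern.Ax.left).cut 2 Bern.Ax.right).cut 0
    Bern.Ax.right).cut 1 Bern.Ax.left) = true ∧
    Bern.coverU row20.cfg3 row20.R3 row20R7
      ((((((box3).cut 0 Bern.Ax.left).cut 1 Bern.Ax.left).cut 2 Bern.Ax.right).cut 0
    Bern.Ax.right).cut 1 Bern.Ax.right) = true ∧
    Bern.coverU row20.cfg3 row20.R3 row20R8
      ((((((box3).cut 0 Bern.Ax.left).cut 1 Bern.Ax.right).cut 2 Bern.Ax.left).cut 0
    Bern.Ax.left).cut 1 Bern.Ax.left) = true ∧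
    Bern.coverU row20.cfg3 row20.R3 row20R9
      ((((((box3).cut 0 Bern.Ax.left).cut 1 Bern.Ax.right).cut 2 Bern.Ax.left).cut 0
    Bern.Ax.left).cut 1 Bern.Ax.right) = true ∧
    Bern.coverU row20.cfg3 row20.R3 row20R10
      (((((box3).cut 0 Bern.Ax.left).cut 1 Bern.Ax.right).cut 2 Bern.Ax.left).cut 0 Bern.Ax.right) = true ∧
    Bern.coverU row20.cfg3 row20.R3 row20R11
      ((((box3).cut 0 Bern.Ax.left).cut 1 Bern.Ax.right).cut 2 Bern.Ax.right) = true ∧
    Bern.coverU row20.cfg3 row20.R3 row20R12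
      ((((box3).cut 0 Bern.Ax.right).cut 1 Bern.Ax.left).cut 2 Bern.Ax.left) = true ∧
    Bern.coverU row20.cfg3 row20.R3 row20R13
      (((((box3).cut 0 Bern.Ax.right).cut 1 Bern.Ax.left).cut 2 Bern.Ax.right).cut 0 Bern.Ax.left) = true ∧
    Bern.coverU row20.cfg3 row20.R3 row20R14
      ((((((box3).cut 0 Bern.Ax.right).cut 1 Bern.Ax.left).cut 2 Bern.Ax.right).cut 0
    Bern.Ax.right).cut 1 Bern.Ax.left) = true ∧
    Bern.coverU row20.cfg3 row20.R3 row20R15
      (((((((box3).cut 0 Bern.Ax.right).cut 1 Bern.Ax.left).cut 2 Bern.Ax.right).cut 0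
    Bern.Ax.right).cut 1 Bern.Ax.right).cut 2 Bern.Ax.left) = true ∧
    Bern.coverU row20.cfg3 row20.R3 row20R16
      ((((((((box3).cut 0 Bern.Ax.right).cut 1 Bern.Ax.left).cut 2 Bern.Ax.right).cut 0
    Bern.Ax.right).cut 1 Bern.Ax.right).cut 2 Bern.Ax.right).cut 0 Bern.Ax.left) = true ∧
    Bern.coverU row20.cfg3 row20.R3 row20R17
      (((((((((box3).cut 0 Bern.Ax.right).cut 1 Bern.Ax.left).cut 2 Bern.Ax.right).cut 0
    Bern.Ax.right).cut 1 Bern.Ax.right).cut 2 Bern.Ax.right).cut 0 Bern.Ax.right).cut 1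
    Bern.Ax.left) = true ∧
    Bern.coverU row20.cfg3 row20.R3 row20R18
      ((((((((((((box3).cut 0 Bern.Ax.right).cut 1 Bern.Ax.left).cut 2 Bern.Ax.right).cut 0
    Bern.Ax.right).cut 1 Bern.Ax.right).cut 2 Bern.Ax.right).cut 0 Bern.Ax.right).cut 1
    Bern.Ax.right).cut 2 Bern.Ax.left).cut 0 Bern.Ax.left).cut 1 Bern.Ax.left) = true ∧
    Bern.coverU row20.cfg3 row20.R3 row20R19
      ((((((((((((box3).cut 0 Bern.Ax.right).cut 1 Bern.Ax.left).cut 2 Bern.Ax.right).cut 0
    Bern.Ax.right).cut 1 Bern.Ax.right).cut 2 Bern.Ax.right).cut 0 Bern.Ax.right).cut 1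
    Bern.Ax.right).cut 2 Bern.Ax.left).cut 0 Bern.Ax.left).cut 1 Bern.Ax.right) = true ∧
    Bern.coverU row20.cfg3 row20.R3 row20R20
      (((((((((((box3).cut 0 Bern.Ax.right).cut 1 Bern.Ax.left).cut 2 Bern.Ax.right).cut 0
    Bern.Ax.right).cut 1 Bern.Ax.right).cut 2 Bern.Ax.right).cut 0 Bern.Ax.right).cut 1
    Bern.Ax.right).cut 2 Bern.Ax.left).cut 0 Bern.Ax.right) = true ∧
    Bern.coverU row20.cfg3 row20.R3 row20R21
      ((((((((((box3).cut 0 Bern.Ax.right).cut 1 Bern.Ax.left).cut 2 Bern.Ax.right).cut 0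
    Bern.Ax.right).cut 1 Bern.Ax.right).cut 2 Bern.Ax.right).cut 0 Bern.Ax.right).cut 1
    Bern.Ax.right).cut 2 Bern.Ax.right) = true ∧
    Bern.coverU row20.cfg3 row20.R3 row20R22
      ((((box3).cut 0 Bern.Ax.right).cut 1 Bern.Ax.right).cut 2 Bern.Ax.left) = true ∧
    Bern.coverU row20.cfg3 row20.R3 row20R23
      (((((box3).cut 0 Bern.Ax.right).cut 1 Bern.Ax.right).cut 2 Bern.Ax.right).cut 0 Bern.Ax.left) = true ∧
    Bern.coverU row20.cfg3 row20.R3 row20R24
      (((((((box3).cut 0 Bern.Ax.right).cut 1 Bern.Ax.right).cut 2 Bern.Ax.right).cut 0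
    Bern.Ax.right).cut 1 Bern.Ax.left).cut 2 Bern.Ax.left) = true ∧
    Bern.coverU row20.cfg3 row20.R3 row20R25
      ((((((((box3).cut 0 Bern.Ax.right).cut 1 Bern.Ax.right).cut 2 Bern.Ax.right).cut 0
    Bern.Ax.right).cut 1 Bern.Ax.left).cut 2 Bern.Ax.right).cut 0 Bern.Ax.left) = true ∧
    Bern.coverU row20.cfg3 row20.R3 row20R26
      ((((((((box3).cut 0 Bern.Ax.right).cut 1 Bern.Ax.right).cut 2 Bern.Ax.right).cut 0
    Bern.Ax.right).cut 1 Bern.Ax.left).cut 2 Bern.Ax.right).cut 0 Bern.Ax.right) = true ∧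
    Bern.coverU row20.cfg3 row20.R3 row20R27
      ((((((box3).cut 0 Bern.Ax.right).cut 1 Bern.Ax.right).cut 2 Bern.Ax.right).cut 0
    Bern.Ax.right).cut 1 Bern.Ax.right) = true := by
  exact ⟨by decide +kernel,
    by decide +kernel,
    by decide +kernel,
    by decide +kernel,
    by decide +kernel,
    by decide +kernel,
    by decide +kernel,
    by decide +kernel,
    by decide +kernel,
    by decide +kernel,
    by decide +kernel,
    by decide +kernel,
    by decide +kernel,
    by decide +kernel,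
    by decide +kernel,
    by decide +kernel,
    by decide +kernel,
    by decide +kernel,
    by decide +kernel,
    by decide +kernel,
    by decide +kernel,
    by decide +kernel,
    by decide +kernel,
    by decide +kernel,
    by decide +kernel,
    by decide +kernel,
    by decide +kernel,
    by decide +kernel,
    by decide +kernel,
    by decide +kernel,
    by decide +kernel,
    by decide +kernel,
    by decide +kernel,
    by decide +kernel,
    by decide +kernel,
    by decide +kernel,
    by decide +kernel,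
    by decide +kernel,
    by decide +kernel,
    by decide +kernel,
    by decide +kernel,
    by decide +kernel,
    by decide +kernel,
    by decide +kernel,
    by decide +kernel,
    by decide +kernel,
    by decide +kernel,
    by decide +kernel,
    by decide +kernel,
    by decide +kernel,
    by decide +kernel,
    by decide +kernel,
    by decide +kernel,
    by decide +kernel,
    by decide +kernel,
    by decide +kernel,
    by decide +kernel,
    by decide +kernel,
    by decide +kernel⟩

theorem row20_rest : rowRest (terms 0) row20 = true := row20_parts.1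

theorem row20_cover : Bern.coverU row20.cfg row20.P row20.cov Bern.unitBox = true :=
  (Bern.coverU_split (Bern.coverU_split (row20_parts.2.1) (Bern.coverU_split (Bern.coverU_split
    (row20_parts.2.2.1) (Bern.coverU_split (Bern.coverU_split (Bern.coverU_split
    (Bern.coverU_split (row20_parts.2.2.2.1) (row20_parts.2.2.2.2.1)) (Bern.coverU_split
    (row20_parts.2.2.2.2.2.1) (row20_parts.2.2.2.2.2.2.1))) (row20_parts.2.2.2.2.2.2.2.1))
    (row20_parts.2.2.2.2.2.2.2.2.1))) (row20_parts.2.2.2.2.2.2.2.2.2.1))) (Bern.coverU_split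
    (Bern.coverU_split (row20_parts.2.2.2.2.2.2.2.2.2.2.1) (row20_parts.2.2.2.2.2.2.2.2.2.2.2.1))
    (Bern.coverU_split (Bern.coverU_split (Bern.coverU_split (Bern.coverU_split (Bern.coverU_split
    (row20_parts.2.2.2.2.2.2.2.2.2.2.2.2.1) (row20_parts.2.2.2.2.2.2.2.2.2.2.2.2.2.1))
    (Bern.coverU_split (row20_parts.2.2.2.2.2.2.2.2.2.2.2.2.2.2.1) (Bern.coverU_split
    (row20_parts.2.2.2.2.2.2.2.2.2.2.2.2.2.2.2.1)
    (row20_parts.2.2.2.2.2.2.2.2.2.2.2.2.2.2.2.2.1))))
    (row20_parts.2.2.2.2.2.2.2.2.2.2.2.2.2.2.2.2.2.1)) (Bern.coverU_split (Bern.coverU_split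
    (Bern.coverU_split (Bern.coverU_split (row20_parts.2.2.2.2.2.2.2.2.2.2.2.2.2.2.2.2.2.2.1)
    (row20_parts.2.2.2.2.2.2.2.2.2.2.2.2.2.2.2.2.2.2.2.1))
    (row20_parts.2.2.2.2.2.2.2.2.2.2.2.2.2.2.2.2.2.2.2.2.1))
    (row20_parts.2.2.2.2.2.2.2.2.2.2.2.2.2.2.2.2.2.2.2.2.2.1))
    (row20_parts.2.2.2.2.2.2.2.2.2.2.2.2.2.2.2.2.2.2.2.2.2.2.1))) (Bern.coverU_split
    (Bern.coverU_split (Bern.coverU_split (Bern.coverU_split
    (row20_parts.2.2.2.2.2.2.2.2.2.2.2.2.2.2.2.2.2.2.2.2.2.2.2.1)
    (row20_parts.2.2.2.2.2.2.2.2.2.2.2.2.2.2.2.2.2.2.2.2.2.2.2.2.1))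
    (row20_parts.2.2.2.2.2.2.2.2.2.2.2.2.2.2.2.2.2.2.2.2.2.2.2.2.2.1))
    (row20_parts.2.2.2.2.2.2.2.2.2.2.2.2.2.2.2.2.2.2.2.2.2.2.2.2.2.2.1)) (Bern.coverU_split
    (Bern.coverU_split (Bern.coverU_split
    (row20_parts.2.2.2.2.2.2.2.2.2.2.2.2.2.2.2.2.2.2.2.2.2.2.2.2.2.2.2.1)
    (row20_parts.2.2.2.2.2.2.2.2.2.2.2.2.2.2.2.2.2.2.2.2.2.2.2.2.2.2.2.2.1))
    (row20_parts.2.2.2.2.2.2.2.2.2.2.2.2.2.2.2.2.2.2.2.2.2.2.2.2.2.2.2.2.2.1))
    (row20_parts.2.2.2.2.2.2.2.2.2.2.2.2.2.2.2.2.2.2.2.2.2.2.2.2.2.2.2.2.2.2.1))))))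

theorem row20_cover3 : Bern.coverU row20.cfg3 row20.R3 row20.cov3 box3 = true :=
  (Bern.coverU_split (Bern.coverU_split (Bern.coverU_split (Bern.coverU_split (Bern.coverU_split
    (Bern.coverU_split
    (row20_parts.2.2.2.2.2.2.2.2.2.2.2.2.2.2.2.2.2.2.2.2.2.2.2.2.2.2.2.2.2.2.2.1)
    (row20_parts.2.2.2.2.2.2.2.2.2.2.2.2.2.2.2.2.2.2.2.2.2.2.2.2.2.2.2.2.2.2.2.2.1))
    (row20_parts.2.2.2.2.2.2.2.2.2.2.2.2.2.2.2.2.2.2.2.2.2.2.2.2.2.2.2.2.2.2.2.2.2.1))
    (Bern.coverU_split
    (row20_parts.2.2.2.2.2.2.2.2.2.2.2.2.2.2.2.2.2.2.2.2.2.2.2.2.2.2.2.2.2.2.2.2.2.2.1)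
    (row20_parts.2.2.2.2.2.2.2.2.2.2.2.2.2.2.2.2.2.2.2.2.2.2.2.2.2.2.2.2.2.2.2.2.2.2.2.1)))
    (Bern.coverU_split
    (row20_parts.2.2.2.2.2.2.2.2.2.2.2.2.2.2.2.2.2.2.2.2.2.2.2.2.2.2.2.2.2.2.2.2.2.2.2.2.1)
    (Bern.coverU_split
    (row20_parts.2.2.2.2.2.2.2.2.2.2.2.2.2.2.2.2.2.2.2.2.2.2.2.2.2.2.2.2.2.2.2.2.2.2.2.2.2.1)
    (row20_parts.2.2.2.2.2.2.2.2.2.2.2.2.2.2.2.2.2.2.2.2.2.2.2.2.2.2.2.2.2.2.2.2.2.2.2.2.2.2.1))))
    (Bern.coverU_split (Bern.coverU_split (Bern.coverU_split
    (row20_parts.2.2.2.2.2.2.2.2.2.2.2.2.2.2.2.2.2.2.2.2.2.2.2.2.2.2.2.2.2.2.2.2.2.2.2.2.2.2.2.1)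
    (row20_parts.2.2.2.2.2.2.2.2.2.2.2.2.2.2.2.2.2.2.2.2.2.2.2.2.2.2.2.2.2.2.2.2.2.2.2.2.2.2.2.2.1))
    (row20_parts.2.2.2.2.2.2.2.2.2.2.2.2.2.2.2.2.2.2.2.2.2.2.2.2.2.2.2.2.2.2.2.2.2.2.2.2.2.2.2.2.2.1))
    (row20_parts.2.2.2.2.2.2.2.2.2.2.2.2.2.2.2.2.2.2.2.2.2.2.2.2.2.2.2.2.2.2.2.2.2.2.2.2.2.2.2.2.2.2.1)))
    (Bern.coverU_split (Bern.coverU_split
    (row20_parts.2.2.2.2.2.2.2.2.2.2.2.2.2.2.2.2.2.2.2.2.2.2.2.2.2.2.2.2.2.2.2.2.2.2.2.2.2.2.2.2.2.2.2.1)
    (Bern.coverU_split
    (row20_parts.2.2.2.2.2.2.2.2.2.2.2.2.2.2.2.2.2.2.2.2.2.2.2.2.2.2.2.2.2.2.2.2.2.2.2.2.2.2.2.2.2.2.2.2.1)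
    (Bern.coverU_split
    (row20_parts.2.2.2.2.2.2.2.2.2.2.2.2.2.2.2.2.2.2.2.2.2.2.2.2.2.2.2.2.2.2.2.2.2.2.2.2.2.2.2.2.2.2.2.2.2.1)
    (Bern.coverU_split
    (row20_parts.2.2.2.2.2.2.2.2.2.2.2.2.2.2.2.2.2.2.2.2.2.2.2.2.2.2.2.2.2.2.2.2.2.2.2.2.2.2.2.2.2.2.2.2.2.2.1)
    (Bern.coverU_split
    (row20_parts.2.2.2.2.2.2.2.2.2.2.2.2.2.2.2.2.2.2.2.2.2.2.2.2.2.2.2.2.2.2.2.2.2.2.2.2.2.2.2.2.2.2.2.2.2.2.2.1)
    (Bern.coverU_split
    (row20_parts.2.2.2.2.2.2.2.2.2.2.2.2.2.2.2.2.2.2.2.2.2.2.2.2.2.2.2.2.2.2.2.2.2.2.2.2.2.2.2.2.2.2.2.2.2.2.2.2.1)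
    (Bern.coverU_split (Bern.coverU_split (Bern.coverU_split
    (row20_parts.2.2.2.2.2.2.2.2.2.2.2.2.2.2.2.2.2.2.2.2.2.2.2.2.2.2.2.2.2.2.2.2.2.2.2.2.2.2.2.2.2.2.2.2.2.2.2.2.2.1)
    (row20_parts.2.2.2.2.2.2.2.2.2.2.2.2.2.2.2.2.2.2.2.2.2.2.2.2.2.2.2.2.2.2.2.2.2.2.2.2.2.2.2.2.2.2.2.2.2.2.2.2.2.2.1))
    (row20_parts.2.2.2.2.2.2.2.2.2.2.2.2.2.2.2.2.2.2.2.2.2.2.2.2.2.2.2.2.2.2.2.2.2.2.2.2.2.2.2.2.2.2.2.2.2.2.2.2.2.2.2.1))
    (row20_parts.2.2.2.2.2.2.2.2.2.2.2.2.2.2.2.2.2.2.2.2.2.2.2.2.2.2.2.2.2.2.2.2.2.2.2.2.2.2.2.2.2.2.2.2.2.2.2.2.2.2.2.2.1))))))))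
    (Bern.coverU_split
    (row20_parts.2.2.2.2.2.2.2.2.2.2.2.2.2.2.2.2.2.2.2.2.2.2.2.2.2.2.2.2.2.2.2.2.2.2.2.2.2.2.2.2.2.2.2.2.2.2.2.2.2.2.2.2.2.1)
    (Bern.coverU_split
    (row20_parts.2.2.2.2.2.2.2.2.2.2.2.2.2.2.2.2.2.2.2.2.2.2.2.2.2.2.2.2.2.2.2.2.2.2.2.2.2.2.2.2.2.2.2.2.2.2.2.2.2.2.2.2.2.2.1)
    (Bern.coverU_split (Bern.coverU_split
    (row20_parts.2.2.2.2.2.2.2.2.2.2.2.2.2.2.2.2.2.2.2.2.2.2.2.2.2.2.2.2.2.2.2.2.2.2.2.2.2.2.2.2.2.2.2.2.2.2.2.2.2.2.2.2.2.2.2.1)
    (Bern.coverU_split
    (row20_parts.2.2.2.2.2.2.2.2.2.2.2.2.2.2.2.2.2.2.2.2.2.2.2.2.2.2.2.2.2.2.2.2.2.2.2.2.2.2.2.2.2.2.2.2.2.2.2.2.2.2.2.2.2.2.2.2.1)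
    (row20_parts.2.2.2.2.2.2.2.2.2.2.2.2.2.2.2.2.2.2.2.2.2.2.2.2.2.2.2.2.2.2.2.2.2.2.2.2.2.2.2.2.2.2.2.2.2.2.2.2.2.2.2.2.2.2.2.2.2.1)))
    (row20_parts.2.2.2.2.2.2.2.2.2.2.2.2.2.2.2.2.2.2.2.2.2.2.2.2.2.2.2.2.2.2.2.2.2.2.2.2.2.2.2.2.2.2.2.2.2.2.2.2.2.2.2.2.2.2.2.2.2.2))))))

theorem row20_ok : rowFor 2 0 row20 = true := by
  simp only [rowFor, Bool.and_eq_true, decide_eq_true_eq]
  exact ⟨⟨⟨rfl, rfl⟩, rfl⟩, rowCheck_of_quick row20_rest row20_cover row20_cover3⟩

end Vale.Agent.P154.Anti
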