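import Vale.Agent.P154.Anti.RowData
import Vale.Agent.P154.RowQuick

/-!
P154: the certificate of the merge row 1 of piece 2.
-/


namespace Vale.Agent.P154.Anti

open Kron BudgetRow

/-- A part of a subdivision. -/
def row21P0 : Bern.Cover :=
  (.split 1 (.split 2 .leaf .leaf) (.split 2 .leaf .leaf))

/-- A part of a subdivision. -/
def row21P1 : Bern.Cover :=
  (.split 3 (.split 0 (.split 1 .leaf .leaf) .leaf) .leaf)

/-- A part of a subdivision. -/
def row21P2 : Bern.Cover :=
  (.split 3 (.split 0 .leaf .leaf) .leaf)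

/-- A part of a subdivision. -/
def row21P3 : Bern.Cover :=
  (.split 3 (.split 0 .leaf .leaf) .leaf)

/-- A part of a subdivision. -/
def row21P4 : Bern.Cover :=
  (.split 3 (.split 0 .leaf .leaf) .leaf)

/-- A part of a subdivision. -/
def row21P5 : Bern.Cover :=
  (.split 3 (.split 0 .leaf .leaf) .leaf)

/-- A part of a subdivision. -/
def row21P6 : Bern.Cover :=
  .leaf

/-- A part of a subdivision. -/
def row21P7 : Bern.Cover :=
  .leaf

/-- A part of a subdivision. -/
def row21P8 : Bern.Cover :=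
  (.split 2 .leaf (.split 3 (.split 0 .leaf .leaf) .leaf))

/-- A part of a subdivision. -/
def row21P9 : Bern.Cover :=
  (.split 2 .leaf (.split 3 .leaf .leaf))

/-- A part of a subdivision. -/
def row21P10 : Bern.Cover :=
  (.split 2 .leaf (.split 3 .leaf .leaf))

/-- A part of a subdivision. -/
def row21P11 : Bern.Cover :=
  (.split 2 (.split 3 (.split 0 .leaf .leaf) .leaf) .leaf)

/-- A part of a subdivision. -/
def row21P12 : Bern.Cover :=
  (.split 2 (.split 3 (.split 0 .leaf .leaf) .leaf) .leaf)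

/-- A part of a subdivision. -/
def row21P13 : Bern.Cover :=
  .leaf

/-- A part of a subdivision. -/
def row21P14 : Bern.Cover :=
  .leaf

/-- A part of a subdivision. -/
def row21P15 : Bern.Cover :=
  (.split 1 .leaf (.split 2 (.split 3 .leaf .leaf) (.split 3 .leaf .leaf)))

/-- A part of a subdivision. -/
def row21P16 : Bern.Cover :=
  .leaf

/-- A part of a subdivision. -/
def row21P17 : Bern.Cover :=
  .leaf

/-- A part of a subdivision. -/
def row21P18 : Bern.Cover :=
  (.split 3 (.split 0 .leaf .leaf) .leaf)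

/-- A part of a subdivision. -/
def row21P19 : Bern.Cover :=
  (.split 1 (.split 2 (.split 3 .leaf .leaf) (.split 3 .leaf .leaf)) .leaf)

/-- A part of a subdivision. -/
def row21P20 : Bern.Cover :=
  (.split 1 .leaf (.split 2 .leaf .leaf))

/-- A part of a subdivision. -/
def row21P21 : Bern.Cover :=
  .leaf

/-- A part of a subdivision. -/
def row21R0 : Bern.Cover :=
  (.split 1 (.split 2 .leaf (.split 0 .leaf (.split 1 (.split 2 .leaf .leaf) (.split 2 .leaf
    .leaf)))) (.split 2 .leaf (.split 0 .leaf (.split 1 (.split 2 .leaf .leaf) (.split 2 .leaf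
    .leaf)))))

/-- A part of a subdivision. -/
def row21R1 : Bern.Cover :=
  (.split 1 (.split 2 .leaf (.split 0 (.split 1 (.split 2 .leaf (.split 0 .leaf .leaf)) (.split 2
    .leaf (.split 0 .leaf .leaf))) .leaf)) (.split 2 .leaf (.split 0 (.split 1 (.split 2 .leaf
    .leaf) (.split 2 .leaf .leaf)) (.split 1 .leaf (.split 2 .leaf .leaf)))))

/-- A part of a subdivision. -/
def row21R2 : Bern.Cover :=
  .leaf

/-- A part of a subdivision. -/
def row21R3 : Bern.Cover :=
  (.split 2 (.split 0 (.split 1 (.split 2 (.split 0 .leaf .leaf) .leaf) (.split 2 .leaf .leaf))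
    (.split 1 (.split 2 (.split 0 .leaf .leaf) .leaf) (.split 2 (.split 0 .leaf .leaf) .leaf)))
    .leaf)

/-- A part of a subdivision. -/
def row21R4 : Bern.Cover :=
  (.split 2 (.split 0 .leaf (.split 1 (.split 2 (.split 0 .leaf .leaf) .leaf) (.split 2 .leaf
    .leaf))) .leaf)

/-- A part of a subdivision. -/
def row21R5 : Bern.Cover :=
  (.split 1 (.split 2 (.split 0 (.split 1 .leaf (.split 2 .leaf .leaf)) .leaf) .leaf) (.split 2
    (.split 0 (.split 1 (.split 2 .leaf .leaf) (.split 2 .leaf .leaf)) .leaf) .leaf))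

/-- A part of a subdivision. -/
def row21R6 : Bern.Cover :=
  .leaf

/-- A part of a subdivision. -/
def row21R7 : Bern.Cover :=
  (.split 2 (.split 0 (.split 1 (.split 2 (.split 0 .leaf (.split 1 (.split 2 .leaf .leaf) .leaf))
    .leaf) .leaf) (.split 1 (.split 2 (.split 0 (.split 1 (.split 2 .leaf .leaf) (.split 2 .leaf
    .leaf)) .leaf) .leaf) (.split 2 (.split 0 .leaf .leaf) .leaf))) .leaf)

/-- A part of a subdivision. -/
def row21R8 : Bern.Cover :=
  (.split 1 (.split 2 .leaf .leaf) (.split 2 .leaf .leaf))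

/-- A part of a subdivision. -/
def row21R9 : Bern.Cover :=
  (.split 2 .leaf (.split 0 (.split 1 (.split 2 .leaf .leaf) (.split 2 .leaf .leaf)) (.split 1
    (.split 2 .leaf .leaf) (.split 2 .leaf .leaf))))

/-- A part of a subdivision. -/
def row21R10 : Bern.Cover :=
  (.split 2 .leaf (.split 0 (.split 1 (.split 2 .leaf .leaf) (.split 2 .leaf .leaf)) (.split 1
    (.split 2 .leaf .leaf) (.split 2 .leaf (.split 0 .leaf .leaf)))))

/-- A part of a subdivision. -/
def row21R11 : Bern.Cover :=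
  (.split 0 .leaf (.split 1 (.split 2 (.split 0 .leaf (.split 1 (.split 2 .leaf .leaf) (.split 2
    .leaf .leaf))) .leaf) (.split 2 (.split 0 .leaf (.split 1 (.split 2 .leaf .leaf) .leaf))
    .leaf)))

/-- A part of a subdivision. -/
def row21R12 : Bern.Cover :=
  .leaf

/-- A part of a subdivision. -/
def row21R13 : Bern.Cover :=
  (.split 1 (.split 2 .leaf (.split 0 .leaf (.split 1 (.split 2 .leaf .leaf) .leaf))) .leaf)

/-- A part of a subdivision. -/
def row21R14 : Bern.Cover :=
  .leaf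

/-- A part of a subdivision. -/
def row21R15 : Bern.Cover :=
  (.split 1 (.split 2 .leaf (.split 0 (.split 1 (.split 2 .leaf .leaf) (.split 2 .leaf .leaf))
    (.split 1 (.split 2 .leaf .leaf) (.split 2 .leaf .leaf)))) (.split 2 .leaf (.split 0 .leaf
    (.split 1 (.split 2 .leaf .leaf) .leaf))))

/-- A part of a subdivision. -/
def row21R16 : Bern.Cover :=
  (.split 1 (.split 2 .leaf (.split 0 (.split 1 (.split 2 .leaf .leaf) (.split 2 .leaf .leaf))
    .leaf)) (.split 2 .leaf (.split 0 (.split 1 (.split 2 .leaf .leaf) (.split 2 .leaf .leaf))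
    (.split 1 .leaf .leaf))))

/-- A part of a subdivision. -/
def row21R17 : Bern.Cover :=
  (.split 2 .leaf (.split 0 .leaf (.split 1 (.split 2 .leaf (.split 0 .leaf .leaf)) .leaf)))

/-- A part of a subdivision. -/
def row21R18 : Bern.Cover :=
  .leaf

/-- A part of a subdivision. -/
def row21R19 : Bern.Cover :=
  (.split 2 .leaf .leaf)

/-- A part of a subdivision. -/
def row21R20 : Bern.Cover :=
  (.split 2 (.split 0 (.split 1 (.split 2 .leaf .leaf) (.split 2 .leaf (.split 0 (.split 1 (.split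
    2 .leaf .leaf) (.split 2 .leaf .leaf)) .leaf))) .leaf) (.split 0 .leaf .leaf))

/-- A part of a subdivision. -/
def row21R21 : Bern.Cover :=
  (.split 0 (.split 1 (.split 2 .leaf .leaf) .leaf) .leaf)

/-- A part of a subdivision. -/
def row21R22 : Bern.Cover :=
  (.split 2 (.split 0 .leaf (.split 1 (.split 2 .leaf .leaf) (.split 2 (.split 0 .leaf (.split 1
    .leaf (.split 2 .leaf .leaf))) .leaf))) .leaf)

/-- A part of a subdivision. -/
def row21R23 : Bern.Cover :=
  (.split 2 (.split 0 .leaf (.split 1 (.split 2 (.split 0 .leaf (.split 1 (.split 2 .leaf .leaf)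
    (.split 2 .leaf .leaf))) .leaf) (.split 2 .leaf .leaf))) .leaf)

/-- A part of a subdivision. -/
def row21R24 : Bern.Cover :=
  (.split 2 (.split 0 (.split 1 .leaf (.split 2 (.split 0 (.split 1 .leaf (.split 2 .leaf .leaf))
    .leaf) .leaf)) .leaf) .leaf)

/-- A part of a subdivision. -/
def row21R25 : Bern.Cover :=
  (.split 1 (.split 2 (.split 0 (.split 1 (.split 2 .leaf .leaf) (.split 2 .leaf (.split 0 .leaf
    .leaf))) .leaf) .leaf) (.split 2 (.split 0 (.split 1 (.split 2 .leaf (.split 0 .leaf .leaf))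
    (.split 2 .leaf (.split 0 .leaf .leaf))) .leaf) (.split 0 .leaf .leaf)))

/-- A part of a subdivision. -/
def row21R26 : Bern.Cover :=
  .leaf

/-- A part of a subdivision. -/
def row21R27 : Bern.Cover :=
  .leaf

/-- A part of a subdivision. -/
def row21R28 : Bern.Cover :=
  (.split 0 .leaf (.split 1 (.split 2 .leaf .leaf) (.split 2 .leaf .leaf)))

/-- A part of a subdivision. -/
def row21R29 : Bern.Cover :=
  (.split 2 (.split 0 (.split 1 (.split 2 .leaf .leaf) (.split 2 .leaf .leaf)) .leaf) .leaf)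

/-- A part of a subdivision. -/
def row21R30 : Bern.Cover :=
  (.split 2 (.split 0 (.split 1 (.split 2 (.split 0 (.split 1 .leaf (.split 2 .leaf .leaf)) .leaf)
    .leaf) (.split 2 (.split 0 (.split 1 (.split 2 .leaf .leaf) (.split 2 .leaf .leaf)) .leaf)
    .leaf)) .leaf) .leaf)

/-- A part of a subdivision. -/
def row21R31 : Bern.Cover :=
  .leaf

/-- A part of a subdivision. -/
def row21R32 : Bern.Cover :=
  (.split 1 (.split 2 (.split 0 .leaf (.split 1 (.split 2 .leaf .leaf) .leaf)) .leaf) (.split 2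
    .leaf .leaf))

/-- A part of a subdivision. -/
def row21R33 : Bern.Cover :=
  (.split 2 (.split 0 (.split 1 (.split 2 .leaf .leaf) .leaf) .leaf) (.split 0 (.split 1 (.split 2
    .leaf .leaf) (.split 2 .leaf .leaf)) (.split 1 (.split 2 .leaf .leaf) (.split 2 (.split 0
    .leaf .leaf) .leaf))))

/-- A part of a subdivision. -/
def row21R34 : Bern.Cover :=
  (.split 2 .leaf (.split 0 (.split 1 (.split 2 .leaf .leaf) (.split 2 .leaf .leaf)) (.split 1
    (.split 2 (.split 0 (.split 1 (.split 2 .leaf .leaf) (.split 2 .leaf .leaf)) .leaf) .leaf)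
    (.split 2 (.split 0 .leaf .leaf) .leaf))))

/-- A part of a subdivision. -/
def row21R35 : Bern.Cover :=
  .leaf

/-- A part of a subdivision. -/
def row21R36 : Bern.Cover :=
  .leaf

/-- A part of a subdivision. -/
def row21R37 : Bern.Cover :=
  (.split 2 (.split 0 (.split 1 (.split 2 .leaf (.split 0 .leaf (.split 1 (.split 2 .leaf .leaf)
    (.split 2 .leaf .leaf)))) (.split 2 .leaf (.split 0 .leaf .leaf))) .leaf) (.split 0 .leaf
    .leaf))

/-- A part of a subdivision. -/
def row21R38 : Bern.Cover :=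
  .leaf

/-- A part of a subdivision. -/
def row21R39 : Bern.Cover :=
  .leaf

/-- A part of a subdivision. -/
def row21R40 : Bern.Cover :=
  (.split 2 (.split 0 .leaf .leaf) (.split 0 .leaf .leaf))

/-- A part of a subdivision. -/
def row21R41 : Bern.Cover :=
  (.split 0 .leaf (.split 1 (.split 2 .leaf (.split 0 .leaf .leaf)) (.split 2 .leaf (.split 0
    (.split 1 .leaf (.split 2 .leaf .leaf)) .leaf))))

/-- A part of a subdivision. -/
def row21R42 : Bern.Cover :=
  (.split 0 .leaf (.split 1 (.split 2 (.split 0 .leaf .leaf) .leaf) (.split 2 (.split 0 .leaf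
    .leaf) (.split 0 .leaf (.split 1 .leaf (.split 2 .leaf .leaf))))))

/-- The certificate. -/
def row21 : Row where
  W := terms 7
  D := slopeT 2 1
  G := [(93704034248352, 1, 0, 0, 0), (409725695933262, 0, 0, 1, 0), (-516099243232098, 1, 0, 1, 0),
    (-1264098292383420, 2, 0, 1, 0), (1816726372253262, 3, 0, 1, 0), (-2293990113276, 3, 0, 0, 0),
    (3622701027240, 4, 0, 0, 0), (-3806906587236, 5, 0, 0, 0), (2748102388704, 6, 0, 0, 0),
    (741040224648426, 1, 1, 0, 0), (156096157274370, 2, 1, 0, 0), (-1354629624570360, 3, 1, 0, 0),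
    (1693361749060566, 4, 1, 0, 0), (2513658209661549, 0, 0, 2, 0),
    (-812257147503684, 1, 0, 2, 0), (-313423966562355, 2, 0, 2, 0), (-39521559650067, 3, 0, 2, 0),
    (-670137312880296, 4, 0, 1, 0), (-216006706000800, 5, 0, 1, 0), (296821436253084, 6, 0, 1, 0),
    (402121641472092, 1, 1, 1, 0), (-671637943579950, 2, 1, 1, 0), (-2916958480452, 3, 1, 1, 0),
    (271690152726618, 4, 1, 1, 0), (-1395662457672, 7, 0, 0, 0), (503730935316, 8, 0, 0, 0),
    (-128654756244, 9, 0, 0, 0), (-1155588690479760, 5, 1, 0, 0), (499938143132988, 6, 1, 0, 0),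
    (-142181213707620, 7, 1, 0, 0), (-1260728296413381, 2, 2, 0, 0),
    (977603814042534, 3, 2, 0, 0), (-361067657386797, 4, 2, 0, 0), (37587297801681, 5, 2, 0, 0),
    (993404946600, 2, 0, 0, 0), (-719299473247260, 0, 1, 0, 0), (544389387778116, 0, 1, 1, 0),
    (610209814847004, 1, 2, 0, 0), (123063888177531, 4, 0, 2, 0), (-26785335552246, 5, 0, 2, 0),
    (-125737581296394, 7, 0, 1, 0), (28227564031878, 8, 0, 1, 0), (-143967402915516, 5, 1, 1, 0),
    (34312575316950, 6, 1, 1, 0), (22747827888, 10, 0, 0, 0), (-2650413204, 11, 0, 0, 0),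
    (26314972877970, 8, 1, 0, 0), (-3012796520262, 9, 1, 0, 0), (18446497722909, 6, 2, 0, 0),
    (-7448014213884, 7, 2, 0, 0), (-5943141527078331, 0, 1, 2, 0), (6922929539853801, 1, 1, 2, 0),
    (-3089215674214398, 2, 1, 2, 0), (628879488854202, 3, 1, 2, 0),
    (6140807372149038, 1, 2, 1, 0), (-4458732064466274, 2, 2, 1, 0),
    (1778408369378172, 3, 2, 1, 0), (-413512967061504, 4, 2, 1, 0),
    (-1303712878064283, 2, 3, 0, 0), (774855062413407, 3, 3, 0, 0),
    (-276647140392246, 4, 3, 0, 0), (57711940439526, 5, 3, 0, 0), (179828761117140, 0, 2, 0, 0),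
    (-3610127713985964, 0, 2, 1, 0), (1310737674137328, 1, 3, 0, 0),
    (-685570847186304, 0, 3, 0, 0), (264714454630800, 0, 4, 0, 0), (-322760815496604, 1, 4, 0, 0),
    (157302106572672, 2, 4, 0, 0), (-38062467740016, 3, 4, 0, 0), (3354428390094, 4, 0, 3, 0),
    (459250737633, 7, 0, 2, 0), (475818545673, 5, 1, 2, 0), (170029566450, 10, 0, 1, 0),
    (209283338682, 8, 1, 1, 0), (-2995104467970, 6, 2, 1, 0), (-5687152, 13, 0, 0, 0),
    (-4829224590, 11, 1, 0, 0), (-57111423795, 9, 2, 0, 0), (299427869403, 7, 3, 0, 0),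
    (-791006492493, 6, 0, 2, 0), (-3378421291554, 9, 0, 1, 0), (-4123710634716, 7, 1, 1, 0),
    (183141972, 12, 0, 0, 0), (189696279510, 10, 1, 0, 0), (1073903581305, 8, 2, 0, 0),
    (-51073846829847, 4, 1, 2, 0), (53395422206166, 5, 2, 1, 0), (-6462481729455, 6, 3, 0, 0),
    (2466531209628, 4, 3, 1, 0), (-212859743184, 5, 4, 0, 0), (4544728460208, 4, 4, 0, 0),
    (-40253140681128, 3, 0, 3, 0), (-29598374515536, 3, 3, 1, 0), (181139133065076, 2, 0, 3, 0),
    (133192685319912, 2, 3, 1, 0), (-362278266130152, 1, 0, 3, 0), (-266385370639824, 1, 3, 1, 0),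
    (192606972984, 0, 0, 0, 0), (271708699597614, 0, 0, 3, 0), (199789027979868, 0, 3, 1, 0)]
  a := 6377292
  e := slopeE 2
  kR := 96
  kG := 167772160000000
  kP := 225
  I := 12
  J := 8
  P := ⟨[(0, 1), (0, 2), (0, 3), (0, 4), (1, 0), (1, 1), (1, 2), (1, 3), (2, 0), (2, 1), (2, 2), (2, 3), (3, 0), (3, 1), (3, 2), (4, 0), (4, 1), (5, 0), (5, 1), (6, 0)],
    [
     ((0, 0), [ -43089580800000, 107093832066048, 0, 0, 6339148800000, 93544194218496,
        -75891465725184, 0, 63231892451328, -167954801671680, 0, 0, -239702461047552, 0, 0,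
        268589279192256, 0, 0, 0, 0]),
     ((0, 1), [ 1875180345600000, -1034309488612608, 114262646400000, 0, 308283340800000,
        -5329535238719616, 1997502724193664, -149410648800000, -1343013890719488, 5508229808801280,
        -1030245283200000, 0, 1460071460692992, -1825857994800000, 0, -376255526040576,
        -46006569000000, -122684184000000, 0, 0]),
     ((0, 2), [ 7808974387200000, 5453866550158336, -3485569536000000, 243093065300000,
        6454057420800000, -19144206293078528, -10230141778444288, 2577382382400000,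
        -21016039827784704, 13995926024138240, 4771679070300000, -59819134325000,
        21984814115163136, -1479904807600000, -295994573250000, -9314373705542208,
        -800394433650000, 2713223839450000, -165386646625000, -836131205975000]),
     ((0, 3), [ 7312809369600000, 27884556288000000, -266921156800000, -1495534035200000,
        6374854348800000, 15824656460800000, -62196434428800000, 1062304977200000,
        -14296769894400000, -42786060766400000, 28115238186000000, 1023165771900000,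
        -17632664928000000, 20070265999800000, 1431717653750000, 45869114706400000,
        -1477962670800000, -19757122715700000, -970213900937500, 58424090275000]),
     ((0, 4), [ 0, 15557956179200000, 11964272281600000, -3117810452800000, 0, 42858411724800000,
        -48073876764800000, -8187078161600000, 0, -49528705697600000, 14409156281600000,
        324241771200000, -7778978089600000, -3192960418400000, 4018306799600000, 16992126059200000,
        8720332168400000, -4957858639200000, 38425824725000, -566178121650000]),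
     ((1, 0), [ -250536998400000, 420834034918656, -49803549600000, 0, 866745984000000,
        70366098218112, -269492175838848, 0, -2320866824189184, 948379123127040, -99607099200000,
        0, 2453034771699456, -684615405600000, 0, -770775558087168, 0, -30671046000000, 0, 0]),
     ((1, 1), [ -21112501958400000, 9744372824711296, 989041028800000, -334831341600000,
        131221900800000, 70353835780355392, -19435606195003968, -149103613200000,
        11081924271593856, -82695862610015360, 12699649973000000, -140477101137500,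
        -19347444664955904, 39252337575700000, -1832744803050000, 9794614227006912,
        -5402333449925000, 602007217650000, -231379673425000, -988188493725000]),
     ((1, 2), [ -62823685171200000, -40215602244188416, 31098217214400000, -3004617297800000,
        -14253962112000000, 155296199040874368, 41024690340812928, -13302781631200000,
        120809337150445824, -96453738795485440, -15586271356600000, 2010127632275000,
        -202255968702537216, 2579348546400000, 6420421582600000, 126420401449448448,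
        6902048452000000, -25873530839500000, -2220574365850000, -1411474654125000]),
     ((1, 3), [ -38249126092800000, -82476236236800000, 4249219908800000, 4093539080800000, 0,
        -9542631244800000, 106422253049600000, 10665929708800000, 57373689139200000,
        110525706241600000, -26292402269600000, 135066377200000, -70008760857600000,
        -22014484266600000, -3836045452600000, -6635099434800000, -16249869166350000,
        15100556889200000, 1196309597150000, -581453824275000]),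
     ((2, 0), [ 2619785683200000, -5544769489253376, 446774059200000, 0, -10286571072000000,
        -5748823941783552, 7696711440868608, -448231946400000, 28224129053835264,
        -2770074403011840, -2245552414500000, 12781696350000, -34038027704530176, 8389441116600000,
        -387211745250000, 17182606532435328, -3039452229150000, -2797888428600000, -63439588725000,
        -294626814975000]),
     ((2, 1), [ 87152670566400000, -29564563628122624, -10696515191600000, 1547772053050000,
        -36146301312000000, -331448357903368448, 48782269851339392, 6907856640100000,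
        23711401931828736, 430079434757971840, -31995002997100000, -409971358812500,
        55162782240754176, -210121694221200000, 1529243852450000, -72380114602307328,
        31834052282937500, 21247779991650000, -1284548808390625, -194056994925000]),
     ((2, 2), [ 131871396249600000, 76346865124800000, -56230476372000000, 3602289070400000,
        -25499417395200000, -406388799136000000, -62345085426400000, 13146201134800000,
        -143715354528000000, 255960023976800000, 14933768453800000, -165034969000000,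
        497625308682400000, -1997324867700000, -15132980588200000, -357780347933200000,
        -25649236093250000, 58240613324200000, 1937498918093750, 6206029833037500]),
     ((2, 3), [ 0, 7656849193600000, 16370652350400000, -648483542400000, 0, -35962137891200000,
        -64324084232800000, 540265508800000, -6544228531200000, -26238166964000000,
        1320279752000000, 3318588652000000, 79339296916800000, 29348863111200000,
        18219437846900000, 22420761217200000, -17835362893750000, -8362619551500000,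
        -655383767462500, -13221169520625000]),
     ((3, 0), [ -10956400627200000, 23032722480050944, 2204083116000000, -121546532650000,
        43155025190400000, 39084740297801088, -50906855541677952, 2187773776800000,
        -137364944570985216, -27460013171063040, 31101581792650000, -619838257162500,
        204406269453350144, -19098378786000000, -2975961354625000, -131866958226841632,
        14588657063325000, 31544571338825000, -508623024262500, -605728927637500]),
     ((3, 1), [ -116854911667200000, 11839238460800000, 20070265999800000, 399120052300000,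
        87630771916800000, 628037401211200000, -5158697092800000, -5503621066650000,
        -268462115731200000, -840486776884800000, 998662433850000, 1834303944450000,
        152787030288000000, 417968342328700000, -1822888735650000, 40377367532600000,
        -79102197692100000, -41549359819275000, 3847875908118750, 9978484366081250]),
     ((3, 2), [ 0, -18943652688000000, -11453741230000000, 4018306799600000, 0, 234591334790400000,
        102726745321600000, 7672090905200000, -99126206784000000, -48935803278400000,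
        -60531922352800000, -9109718923450000, -190461526696000000, 14583109885200000,
        -23408480589100000, 65858159777600000, -32150019505100000, 42663128229300000,
        7650222005475000, 2551488581800000]),
     ((4, 0), [ 7723541606400000, -36946287656600832, -22934557353200000, 1062007878700000,
        -50888380416000000, -74887014565899264, 124602854034617856, 829387429350000,
        285883798483227648, 137141031763269120, -89445086983300000, -700648788037500,
        -537669314886498432, -20188683766300000, 4116134986100000, 318351048896368896,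
        -7946436279187500, -55323636424700000, 2561223239296875, 9704633132756250]),
     ((4, 1), [ -11777681664000000, 25612621876800000, -5911850683200000, -4360166084200000, 0,
        -345749340795200000, -55216387616000000, -16249869166350000, 389049885331200000,
        509344836527000000, 51298472186500000, -4458840723437500, -466837026026400000,
        -316408790768400000, 16075009752550000, 63571490233500000, 134934464143075000,
        59403146475550000, -434101204378125, -12068600362481250]),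
     ((5, 0), [ 15703575552000000, 43411581431200000, 39514245431400000, -1239464659800000,
        -7851787776000000, -19264230964800000, -103494123358000000, -7550278444600000,
        -179064859430400000, -169982239933200000, 58240613324200000, 1045327443937500,
        504713141421200000, 83098719638550000, 10665782057325000, -221294545698800000,
        -29701573237775000, -12335913031300000, 1704855161728125, -11694119128931250]),
     ((5, 1), [ 0, 21169490768000000, -15523422415000000, -76851649450000, 0, -59233196396800000,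
        71058379707200000, 4785238388600000, 32481069427200000, -82211123737000000,
        -15499991344750000, -655383767462500, 65103747105600000, 61566014529900000,
        -15300444010950000, -81959143657500000, -1736404817512500, -13638841293825000,
        788135337450000, 26419218593062500]),
     ((6, 0), [ 0, -53512397182400000, -467392722200000, -566178121650000, 0, 126488127196800000,
        -22583594466000000, 1162907648550000, -75424464633600000, 6209823837600000,
        24824119332150000, 6610584760312500, -38766651368800000, -79827874928650000,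
        2551488581800000, 155274130124100000, 24137200724962500, -46776476515725000,
        -13209609296531250, -12436980463712500])]⟩
  cfg := ⟨13, 12, 11, 12, 13, 268⟩
  cov := (.split 2 (.split 0 row21P0 (.split 1 (.split 2 row21P1 (.split 3 (.split 0 (.split 1 (.split 2
    row21P2 row21P3) (.split 2 row21P4 row21P5)) row21P6) row21P7)) row21P8)) (.split 0 (.split 1
    row21P9 row21P10) (.split 1 (.split 2 (.split 3 (.split 0 (.split 1 row21P11 row21P12)
    row21P13) row21P14) (.split 3 (.split 0 row21P15 row21P16) row21P17)) (.split 2 row21P18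
    (.split 3 (.split 0 row21P19 row21P20) row21P21)))))
  lay := ⟨152, 14, 14, 14, 14⟩
  R3 := ⟨[(0, 1), (1, 0), (1, 1), (2, 0), (2, 1), (3, 0), (3, 1), (4, 0), (4, 1), (5, 0)],
    [
     ((0, 0), [ 693455852419848, 192606972984, 19682628815545308, -11029550524504380,
        -12232343252912207472, 1277498793154076172, -43510205218399192188, 40971037631205337236,
        45750188726126875584, -22309080048693698472]),
     ((0, 1), [ 128810080743372, 0, 33718094847299628, 1545720968920464, -5388893528891068548,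
        84235462355375028, 38284200693906364728, 18424631420034508152, 134649648476273318040,
        -182506262460176432088]),
     ((0, 2), [ -232183222695936, 0, -20896490042634240, -2786198672351232, -658239436342978560,
        -125378940255805440, 52423079668381902816, 4170278044926779796, 170563365740834359560,
        -198997129285877876904]),
     ((0, 3), [ 0, 0, 0, 0, 0, 0, 0, 0, 42784338673438690896, 0]),
     ((1, 0), [ -568960449747624, 0, -31413967105335660, 12593560380704532, 12315209183838967500,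
        -1345803875746453908, -79651976146698867660, -23382954720373813920, -100223969216860582452,
        229313612180111431284]),
     ((1, 1), [ 115421919160464, 0, 10387972724441760, 1385063029925568, -466498586560577688,
        62327836346650560, 35942037582981430908, -35220097450146345300, 208935323581884430392,
        23307416116546605660]),
     ((1, 2), [ -680596668076464, 0, -61253700126881760, -8167160016917568, -1929491553996775440,
        -367522200761290560, -41677017566330349504, -9261559459184522112, -219839428273422626676,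
        289299629139943944132]),
     ((2, 0), [ -19450976559804, 0, -1750587890382360, -233411718717648, 6712164669987629316,
        120591639512100900, 2605753858124358108, -16656075984480251940, -415322747134249765392,
        216209489559438364020]),
     ((2, 1), [ 2158543272376944, 0, 194268894513924960, 25902519268523328, 6119470177188636240,
        1165613367083549760, -9935731761496916040, 29373456850505453952, 234203925295102736988,
        -367002403684274522232]),
     ((3, 0), [ -1386944056842012, 0, -124824965115781080, -16643328682104144,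
        -3931986401147104020, -748949790694686480, 57979370179990757772, -5379443740338077664,
        -125388969750934213320, -72595343744090210052]),
     ((3, 1), [ 0, 0, 0, 0, 0, 0, 0, 0, -212352161637298059576, 0]),
     ((4, 0), [ -209569517450820, 0, -18861256570573800, -2514834209409840, -594129581973074700,
        -113167539423442800, -12833198970618413520, -2851821993470758560, 236062016663187392388,
        85680690323653782000])]⟩
  cfg3 := ⟨9, 8, 9, 10, 11, 542⟩
  cov3 := (.split 0 (.split 1 (.split 2 (.split 0 row21R0 row21R1) (.split 0 row21R2 (.split 1 (.split 2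
    (.split 0 (.split 1 row21R3 row21R4) row21R5) row21R6) row21R7))) (.split 2 (.split 0 row21R8
    (.split 1 row21R9 row21R10)) row21R11)) (.split 1 (.split 2 row21R12 (.split 0 (.split 1
    (.split 2 (.split 0 row21R13 (.split 1 (.split 2 row21R14 (.split 0 row21R15 row21R16))
    row21R17)) row21R18) row21R19) (.split 1 row21R20 (.split 2 row21R21 (.split 0 (.split 1
    row21R22 row21R23) (.split 1 row21R24 (.split 2 (.split 0 row21R25 row21R26) row21R27)))))))
    (.split 2 row21R28 (.split 0 (.split 1 row21R29 row21R30) (.split 1 (.split 2 row21R31 (.split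
    0 row21R32 (.split 1 (.split 2 (.split 0 (.split 1 row21R33 row21R34) row21R35) row21R36)
    row21R37))) (.split 2 row21R38 (.split 0 row21R39 (.split 1 row21R40 (.split 2 row21R41
    row21R42)))))))))
  lay3 := ⟨85, 5, 4, 16, 1⟩

set_option maxHeartbeats 8000000 in
theorem row21_parts :
    rowRest (terms 0) row21 = true ∧
    Bern.coverU row21.cfg row21.P row21P0
      (((Bern.unitBox).cut 2 Bern.Ax.left).cut 0 Bern.Ax.left) = true ∧
    Bern.coverU row21.cfg row21.P row21P1
      (((((Bern.unitBox).cut 2 Bern.Ax.left).cut 0 Bern.Ax.right).cut 1 Bern.Ax.left).cut 2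
    Bern.Ax.left) = true ∧
    Bern.coverU row21.cfg row21.P row21P2
      (((((((((Bern.unitBox).cut 2 Bern.Ax.left).cut 0 Bern.Ax.right).cut 1 Bern.Ax.left).cut 2
    Bern.Ax.right).cut 3 Bern.Ax.left).cut 0 Bern.Ax.left).cut 1 Bern.Ax.left).cut 2
    Bern.Ax.left) = true ∧
    Bern.coverU row21.cfg row21.P row21P3
      (((((((((Bern.unitBox).cut 2 Bern.Ax.left).cut 0 Bern.Ax.right).cut 1 Bern.Ax.left).cut 2
    Bern.Ax.right).cut 3 Bern.Ax.left).cut 0 Bern.Ax.left).cut 1 Bern.Ax.left).cut 2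
    Bern.Ax.right) = true ∧
    Bern.coverU row21.cfg row21.P row21P4
      (((((((((Bern.unitBox).cut 2 Bern.Ax.left).cut 0 Bern.Ax.right).cut 1 Bern.Ax.left).cut 2
    Bern.Ax.right).cut 3 Bern.Ax.left).cut 0 Bern.Ax.left).cut 1 Bern.Ax.right).cut 2
    Bern.Ax.left) = true ∧
    Bern.coverU row21.cfg row21.P row21P5
      (((((((((Bern.unitBox).cut 2 Bern.Ax.left).cut 0 Bern.Ax.right).cut 1 Bern.Ax.left).cut 2
    Bern.Ax.right).cut 3 Bern.Ax.left).cut 0 Bern.Ax.left).cut 1 Bern.Ax.right).cut 2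
    Bern.Ax.right) = true ∧
    Bern.coverU row21.cfg row21.P row21P6
      (((((((Bern.unitBox).cut 2 Bern.Ax.left).cut 0 Bern.Ax.right).cut 1 Bern.Ax.left).cut 2
    Bern.Ax.right).cut 3 Bern.Ax.left).cut 0 Bern.Ax.right) = true ∧
    Bern.coverU row21.cfg row21.P row21P7
      ((((((Bern.unitBox).cut 2 Bern.Ax.left).cut 0 Bern.Ax.right).cut 1 Bern.Ax.left).cut 2
    Bern.Ax.right).cut 3 Bern.Ax.right) = true ∧
    Bern.coverU row21.cfg row21.P row21P8
      ((((Bern.unitBox).cut 2 Bern.Ax.left).cut 0 Bern.Ax.right).cut 1 Bern.Ax.right) = true ∧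
    Bern.coverU row21.cfg row21.P row21P9
      ((((Bern.unitBox).cut 2 Bern.Ax.right).cut 0 Bern.Ax.left).cut 1 Bern.Ax.left) = true ∧
    Bern.coverU row21.cfg row21.P row21P10
      ((((Bern.unitBox).cut 2 Bern.Ax.right).cut 0 Bern.Ax.left).cut 1 Bern.Ax.right) = true ∧
    Bern.coverU row21.cfg row21.P row21P11
      ((((((((Bern.unitBox).cut 2 Bern.Ax.right).cut 0 Bern.Ax.right).cut 1 Bern.Ax.left).cut 2
    Bern.Ax.left).cut 3 Bern.Ax.left).cut 0 Bern.Ax.left).cut 1 Bern.Ax.left) = true ∧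
    Bern.coverU row21.cfg row21.P row21P12
      ((((((((Bern.unitBox).cut 2 Bern.Ax.right).cut 0 Bern.Ax.right).cut 1 Bern.Ax.left).cut 2
    Bern.Ax.left).cut 3 Bern.Ax.left).cut 0 Bern.Ax.left).cut 1 Bern.Ax.right) = true ∧
    Bern.coverU row21.cfg row21.P row21P13
      (((((((Bern.unitBox).cut 2 Bern.Ax.right).cut 0 Bern.Ax.right).cut 1 Bern.Ax.left).cut 2
    Bern.Ax.left).cut 3 Bern.Ax.left).cut 0 Bern.Ax.right) = true ∧
    Bern.coverU row21.cfg row21.P row21P14
      ((((((Bern.unitBox).cut 2 Bern.Ax.right).cut 0 Bern.Ax.right).cut 1 Bern.Ax.left).cut 2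
    Bern.Ax.left).cut 3 Bern.Ax.right) = true ∧
    Bern.coverU row21.cfg row21.P row21P15
      (((((((Bern.unitBox).cut 2 Bern.Ax.right).cut 0 Bern.Ax.right).cut 1 Bern.Ax.left).cut 2
    Bern.Ax.right).cut 3 Bern.Ax.left).cut 0 Bern.Ax.left) = true ∧
    Bern.coverU row21.cfg row21.P row21P16
      (((((((Bern.unitBox).cut 2 Bern.Ax.right).cut 0 Bern.Ax.right).cut 1 Bern.Ax.left).cut 2
    Bern.Ax.right).cut 3 Bern.Ax.left).cut 0 Bern.Ax.right) = true ∧
    Bern.coverU row21.cfg row21.P row21P17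
      ((((((Bern.unitBox).cut 2 Bern.Ax.right).cut 0 Bern.Ax.right).cut 1 Bern.Ax.left).cut 2
    Bern.Ax.right).cut 3 Bern.Ax.right) = true ∧
    Bern.coverU row21.cfg row21.P row21P18
      (((((Bern.unitBox).cut 2 Bern.Ax.right).cut 0 Bern.Ax.right).cut 1 Bern.Ax.right).cut 2
    Bern.Ax.left) = true ∧
    Bern.coverU row21.cfg row21.P row21P19
      (((((((Bern.unitBox).cut 2 Bern.Ax.right).cut 0 Bern.Ax.right).cut 1 Bern.Ax.right).cut 2
    Bern.Ax.right).cut 3 Bern.Ax.left).cut 0 Bern.Ax.left) = true ∧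
    Bern.coverU row21.cfg row21.P row21P20
      (((((((Bern.unitBox).cut 2 Bern.Ax.right).cut 0 Bern.Ax.right).cut 1 Bern.Ax.right).cut 2
    Bern.Ax.right).cut 3 Bern.Ax.left).cut 0 Bern.Ax.right) = true ∧
    Bern.coverU row21.cfg row21.P row21P21
      ((((((Bern.unitBox).cut 2 Bern.Ax.right).cut 0 Bern.Ax.right).cut 1 Bern.Ax.right).cut 2
    Bern.Ax.right).cut 3 Bern.Ax.right) = true ∧
    Bern.coverU row21.cfg3 row21.R3 row21R0
      (((((box3).cut 0 Bern.Ax.left).cut 1 Bern.Ax.left).cut 2 Bern.Ax.left).cut 0 Bern.Ax.left) = true ∧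
    Bern.coverU row21.cfg3 row21.R3 row21R1
      (((((box3).cut 0 Bern.Ax.left).cut 1 Bern.Ax.left).cut 2 Bern.Ax.left).cut 0 Bern.Ax.right) = true ∧
    Bern.coverU row21.cfg3 row21.R3 row21R2
      (((((box3).cut 0 Bern.Ax.left).cut 1 Bern.Ax.left).cut 2 Bern.Ax.right).cut 0 Bern.Ax.left) = true ∧
    Bern.coverU row21.cfg3 row21.R3 row21R3
      (((((((((box3).cut 0 Bern.Ax.left).cut 1 Bern.Ax.left).cut 2 Bern.Ax.right).cut 0
    Bern.Ax.right).cut 1 Bern.Ax.left).cut 2 Bern.Ax.left).cut 0 Bern.Ax.left).cut 1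
    Bern.Ax.left) = true ∧
    Bern.coverU row21.cfg3 row21.R3 row21R4
      (((((((((box3).cut 0 Bern.Ax.left).cut 1 Bern.Ax.left).cut 2 Bern.Ax.right).cut 0
    Bern.Ax.right).cut 1 Bern.Ax.left).cut 2 Bern.Ax.left).cut 0 Bern.Ax.left).cut 1
    Bern.Ax.right) = true ∧
    Bern.coverU row21.cfg3 row21.R3 row21R5
      ((((((((box3).cut 0 Bern.Ax.left).cut 1 Bern.Ax.left).cut 2 Bern.Ax.right).cut 0
    Bern.Ax.right).cut 1 Bern.Ax.left).cut 2 Bern.Ax.left).cut 0 Bern.Ax.right) = true ∧
    Bern.coverU row21.cfg3 row21.R3 row21R6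
      (((((((box3).cut 0 Bern.Ax.left).cut 1 Bern.Ax.left).cut 2 Bern.Ax.right).cut 0
    Bern.Ax.right).cut 1 Bern.Ax.left).cut 2 Bern.Ax.right) = true ∧
    Bern.coverU row21.cfg3 row21.R3 row21R7
      ((((((box3).cut 0 Bern.Ax.left).cut 1 Bern.Ax.left).cut 2 Bern.Ax.right).cut 0
    Bern.Ax.right).cut 1 Bern.Ax.right) = true ∧
    Bern.coverU row21.cfg3 row21.R3 row21R8
      (((((box3).cut 0 Bern.Ax.left).cut 1 Bern.Ax.right).cut 2 Bern.Ax.left).cut 0 Bern.Ax.left) = true ∧
    Bern.coverU row21.cfg3 row21.R3 row21R9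
      ((((((box3).cut 0 Bern.Ax.left).cut 1 Bern.Ax.right).cut 2 Bern.Ax.left).cut 0
    Bern.Ax.right).cut 1 Bern.Ax.left) = true ∧
    Bern.coverU row21.cfg3 row21.R3 row21R10
      ((((((box3).cut 0 Bern.Ax.left).cut 1 Bern.Ax.right).cut 2 Bern.Ax.left).cut 0
    Bern.Ax.right).cut 1 Bern.Ax.right) = true ∧
    Bern.coverU row21.cfg3 row21.R3 row21R11
      ((((box3).cut 0 Bern.Ax.left).cut 1 Bern.Ax.right).cut 2 Bern.Ax.right) = true ∧
    Bern.coverU row21.cfg3 row21.R3 row21R12
      ((((box3).cut 0 Bern.Ax.right).cut 1 Bern.Ax.left).cut 2 Bern.Ax.left) = true ∧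
    Bern.coverU row21.cfg3 row21.R3 row21R13
      ((((((((box3).cut 0 Bern.Ax.right).cut 1 Bern.Ax.left).cut 2 Bern.Ax.right).cut 0
    Bern.Ax.left).cut 1 Bern.Ax.left).cut 2 Bern.Ax.left).cut 0 Bern.Ax.left) = true ∧
    Bern.coverU row21.cfg3 row21.R3 row21R14
      ((((((((((box3).cut 0 Bern.Ax.right).cut 1 Bern.Ax.left).cut 2 Bern.Ax.right).cut 0
    Bern.Ax.left).cut 1 Bern.Ax.left).cut 2 Bern.Ax.left).cut 0 Bern.Ax.right).cut 1
    Bern.Ax.left).cut 2 Bern.Ax.left) = true ∧
    Bern.coverU row21.cfg3 row21.R3 row21R15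
      (((((((((((box3).cut 0 Bern.Ax.right).cut 1 Bern.Ax.left).cut 2 Bern.Ax.right).cut 0
    Bern.Ax.left).cut 1 Bern.Ax.left).cut 2 Bern.Ax.left).cut 0 Bern.Ax.right).cut 1
    Bern.Ax.left).cut 2 Bern.Ax.right).cut 0 Bern.Ax.left) = true ∧
    Bern.coverU row21.cfg3 row21.R3 row21R16
      (((((((((((box3).cut 0 Bern.Ax.right).cut 1 Bern.Ax.left).cut 2 Bern.Ax.right).cut 0
    Bern.Ax.left).cut 1 Bern.Ax.left).cut 2 Bern.Ax.left).cut 0 Bern.Ax.right).cut 1
    Bern.Ax.left).cut 2 Bern.Ax.right).cut 0 Bern.Ax.right) = true ∧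
    Bern.coverU row21.cfg3 row21.R3 row21R17
      (((((((((box3).cut 0 Bern.Ax.right).cut 1 Bern.Ax.left).cut 2 Bern.Ax.right).cut 0
    Bern.Ax.left).cut 1 Bern.Ax.left).cut 2 Bern.Ax.left).cut 0 Bern.Ax.right).cut 1
    Bern.Ax.right) = true ∧
    Bern.coverU row21.cfg3 row21.R3 row21R18
      (((((((box3).cut 0 Bern.Ax.right).cut 1 Bern.Ax.left).cut 2 Bern.Ax.right).cut 0
    Bern.Ax.left).cut 1 Bern.Ax.left).cut 2 Bern.Ax.right) = true ∧
    Bern.coverU row21.cfg3 row21.R3 row21R19
      ((((((box3).cut 0 Bern.Ax.right).cut 1 Bern.Ax.left).cut 2 Bern.Ax.right).cut 0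
    Bern.Ax.left).cut 1 Bern.Ax.right) = true ∧
    Bern.coverU row21.cfg3 row21.R3 row21R20
      ((((((box3).cut 0 Bern.Ax.right).cut 1 Bern.Ax.left).cut 2 Bern.Ax.right).cut 0
    Bern.Ax.right).cut 1 Bern.Ax.left) = true ∧
    Bern.coverU row21.cfg3 row21.R3 row21R21
      (((((((box3).cut 0 Bern.Ax.right).cut 1 Bern.Ax.left).cut 2 Bern.Ax.right).cut 0
    Bern.Ax.right).cut 1 Bern.Ax.right).cut 2 Bern.Ax.left) = true ∧
    Bern.coverU row21.cfg3 row21.R3 row21R22
      (((((((((box3).cut 0 Bern.Ax.right).cut 1 Bern.Ax.left).cut 2 Bern.Ax.right).cut 0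
    Bern.Ax.right).cut 1 Bern.Ax.right).cut 2 Bern.Ax.right).cut 0 Bern.Ax.left).cut 1
    Bern.Ax.left) = true ∧
    Bern.coverU row21.cfg3 row21.R3 row21R23
      (((((((((box3).cut 0 Bern.Ax.right).cut 1 Bern.Ax.left).cut 2 Bern.Ax.right).cut 0
    Bern.Ax.right).cut 1 Bern.Ax.right).cut 2 Bern.Ax.right).cut 0 Bern.Ax.left).cut 1
    Bern.Ax.right) = true ∧
    Bern.coverU row21.cfg3 row21.R3 row21R24
      (((((((((box3).cut 0 Bern.Ax.right).cut 1 Bern.Ax.left).cut 2 Bern.Ax.right).cut 0
    Bern.Ax.right).cut 1 Bern.Ax.right).cut 2 Bern.Ax.right).cut 0 Bern.Ax.right).cut 1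
    Bern.Ax.left) = true ∧
    Bern.coverU row21.cfg3 row21.R3 row21R25
      (((((((((((box3).cut 0 Bern.Ax.right).cut 1 Bern.Ax.left).cut 2 Bern.Ax.right).cut 0
    Bern.Ax.right).cut 1 Bern.Ax.right).cut 2 Bern.Ax.right).cut 0 Bern.Ax.right).cut 1
    Bern.Ax.right).cut 2 Bern.Ax.left).cut 0 Bern.Ax.left) = true ∧
    Bern.coverU row21.cfg3 row21.R3 row21R26
      (((((((((((box3).cut 0 Bern.Ax.right).cut 1 Bern.Ax.left).cut 2 Bern.Ax.right).cut 0
    Bern.Ax.right).cut 1 Bern.Ax.right).cut 2 Bern.Ax.right).cut 0 Bern.Ax.right).cut 1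
    Bern.Ax.right).cut 2 Bern.Ax.left).cut 0 Bern.Ax.right) = true ∧
    Bern.coverU row21.cfg3 row21.R3 row21R27
      ((((((((((box3).cut 0 Bern.Ax.right).cut 1 Bern.Ax.left).cut 2 Bern.Ax.right).cut 0
    Bern.Ax.right).cut 1 Bern.Ax.right).cut 2 Bern.Ax.right).cut 0 Bern.Ax.right).cut 1
    Bern.Ax.right).cut 2 Bern.Ax.right) = true ∧
    Bern.coverU row21.cfg3 row21.R3 row21R28
      ((((box3).cut 0 Bern.Ax.right).cut 1 Bern.Ax.right).cut 2 Bern.Ax.left) = true ∧
    Bern.coverU row21.cfg3 row21.R3 row21R29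
      ((((((box3).cut 0 Bern.Ax.right).cut 1 Bern.Ax.right).cut 2 Bern.Ax.right).cut 0
    Bern.Ax.left).cut 1 Bern.Ax.left) = true ∧
    Bern.coverU row21.cfg3 row21.R3 row21R30
      ((((((box3).cut 0 Bern.Ax.right).cut 1 Bern.Ax.right).cut 2 Bern.Ax.right).cut 0
    Bern.Ax.left).cut 1 Bern.Ax.right) = true ∧
    Bern.coverU row21.cfg3 row21.R3 row21R31
      (((((((box3).cut 0 Bern.Ax.right).cut 1 Bern.Ax.right).cut 2 Bern.Ax.right).cut 0
    Bern.Ax.right).cut 1 Bern.Ax.left).cut 2 Bern.Ax.left) = true ∧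
    Bern.coverU row21.cfg3 row21.R3 row21R32
      ((((((((box3).cut 0 Bern.Ax.right).cut 1 Bern.Ax.right).cut 2 Bern.Ax.right).cut 0
    Bern.Ax.right).cut 1 Bern.Ax.left).cut 2 Bern.Ax.right).cut 0 Bern.Ax.left) = true ∧
    Bern.coverU row21.cfg3 row21.R3 row21R33
      ((((((((((((box3).cut 0 Bern.Ax.right).cut 1 Bern.Ax.right).cut 2 Bern.Ax.right).cut 0
    Bern.Ax.right).cut 1 Bern.Ax.left).cut 2 Bern.Ax.right).cut 0 Bern.Ax.right).cut 1
    Bern.Ax.left).cut 2 Bern.Ax.left).cut 0 Bern.Ax.left).cut 1 Bern.Ax.left) = true ∧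
    Bern.coverU row21.cfg3 row21.R3 row21R34
      ((((((((((((box3).cut 0 Bern.Ax.right).cut 1 Bern.Ax.right).cut 2 Bern.Ax.right).cut 0
    Bern.Ax.right).cut 1 Bern.Ax.left).cut 2 Bern.Ax.right).cut 0 Bern.Ax.right).cut 1
    Bern.Ax.left).cut 2 Bern.Ax.left).cut 0 Bern.Ax.left).cut 1 Bern.Ax.right) = true ∧
    Bern.coverU row21.cfg3 row21.R3 row21R35
      (((((((((((box3).cut 0 Bern.Ax.right).cut 1 Bern.Ax.right).cut 2 Bern.Ax.right).cut 0
    Bern.Ax.right).cut 1 Bern.Ax.left).cut 2 Bern.Ax.right).cut 0 Bern.Ax.right).cut 1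
    Bern.Ax.left).cut 2 Bern.Ax.left).cut 0 Bern.Ax.right) = true ∧
    Bern.coverU row21.cfg3 row21.R3 row21R36
      ((((((((((box3).cut 0 Bern.Ax.right).cut 1 Bern.Ax.right).cut 2 Bern.Ax.right).cut 0
    Bern.Ax.right).cut 1 Bern.Ax.left).cut 2 Bern.Ax.right).cut 0 Bern.Ax.right).cut 1
    Bern.Ax.left).cut 2 Bern.Ax.right) = true ∧
    Bern.coverU row21.cfg3 row21.R3 row21R37
      (((((((((box3).cut 0 Bern.Ax.right).cut 1 Bern.Ax.right).cut 2 Bern.Ax.right).cut 0
    Bern.Ax.right).cut 1 Bern.Ax.left).cut 2 Bern.Ax.right).cut 0 Bern.Ax.right).cut 1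
    Bern.Ax.right) = true ∧
    Bern.coverU row21.cfg3 row21.R3 row21R38
      (((((((box3).cut 0 Bern.Ax.right).cut 1 Bern.Ax.right).cut 2 Bern.Ax.right).cut 0
    Bern.Ax.right).cut 1 Bern.Ax.right).cut 2 Bern.Ax.left) = true ∧
    Bern.coverU row21.cfg3 row21.R3 row21R39
      ((((((((box3).cut 0 Bern.Ax.right).cut 1 Bern.Ax.right).cut 2 Bern.Ax.right).cut 0
    Bern.Ax.right).cut 1 Bern.Ax.right).cut 2 Bern.Ax.right).cut 0 Bern.Ax.left) = true ∧
    Bern.coverU row21.cfg3 row21.R3 row21R40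
      (((((((((box3).cut 0 Bern.Ax.right).cut 1 Bern.Ax.right).cut 2 Bern.Ax.right).cut 0
    Bern.Ax.right).cut 1 Bern.Ax.right).cut 2 Bern.Ax.right).cut 0 Bern.Ax.right).cut 1
    Bern.Ax.left) = true ∧
    Bern.coverU row21.cfg3 row21.R3 row21R41
      ((((((((((box3).cut 0 Bern.Ax.right).cut 1 Bern.Ax.right).cut 2 Bern.Ax.right).cut 0
    Bern.Ax.right).cut 1 Bern.Ax.right).cut 2 Bern.Ax.right).cut 0 Bern.Ax.right).cut 1
    Bern.Ax.right).cut 2 Bern.Ax.left) = true ∧
    Bern.coverU row21.cfg3 row21.R3 row21R42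
      ((((((((((box3).cut 0 Bern.Ax.right).cut 1 Bern.Ax.right).cut 2 Bern.Ax.right).cut 0
    Bern.Ax.right).cut 1 Bern.Ax.right).cut 2 Bern.Ax.right).cut 0 Bern.Ax.right).cut 1
    Bern.Ax.right).cut 2 Bern.Ax.right) = true := by
  exact ⟨by decide +kernel,
    by decide +kernel,
    by decide +kernel,
    by decide +kernel,
    by decide +kernel,
    by decide +kernel,
    by decide +kernel,
    by decide +kernel,
    by decide +kernel,
    by decide +kernel,
    by decide +kernel,
    by decide +kernel,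
    by decide +kernel,
    by decide +kernel,
    by decide +kernel,
    by decide +kernel,
    by decide +kernel,
    by decide +kernel,
    by decide +kernel,
    by decide +kernel,
    by decide +kernel,
    by decide +kernel,
    by decide +kernel,
    by decide +kernel,
    by decide +kernel,
    by decide +kernel,
    by decide +kernel,
    by decide +kernel,
    by decide +kernel,
    by decide +kernel,
    by decide +kernel,
    by decide +kernel,
    by decide +kernel,
    by decide +kernel,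
    by decide +kernel,
    by decide +kernel,
    by decide +kernel,
    by decide +kernel,
    by decide +kernel,
    by decide +kernel,
    by decide +kernel,
    by decide +kernel,
    by decide +kernel,
    by decide +kernel,
    by decide +kernel,
    by decide +kernel,
    by decide +kernel,
    by decide +kernel,
    by decide +kernel,
    by decide +kernel,
    by decide +kernel,
    by decide +kernel,
    by decide +kernel,
    by decide +kernel,
    by decide +kernel,
    by decide +kernel,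
    by decide +kernel,
    by decide +kernel,
    by decide +kernel,
    by decide +kernel,
    by decide +kernel,
    by decide +kernel,
    by decide +kernel,
    by decide +kernel,
    by decide +kernel,
    by decide +kernel⟩

theorem row21_rest : rowRest (terms 0) row21 = true := row21_parts.1

theorem row21_cover : Bern.coverU row21.cfg row21.P row21.cov Bern.unitBox = true :=
  (Bern.coverU_split (Bern.coverU_split (row21_parts.2.1) (Bern.coverU_split (Bern.coverU_split
    (row21_parts.2.2.1) (Bern.coverU_split (Bern.coverU_split (Bern.coverU_split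
    (Bern.coverU_split (row21_parts.2.2.2.1) (row21_parts.2.2.2.2.1)) (Bern.coverU_split
    (row21_parts.2.2.2.2.2.1) (row21_parts.2.2.2.2.2.2.1))) (row21_parts.2.2.2.2.2.2.2.1))
    (row21_parts.2.2.2.2.2.2.2.2.1))) (row21_parts.2.2.2.2.2.2.2.2.2.1))) (Bern.coverU_split
    (Bern.coverU_split (row21_parts.2.2.2.2.2.2.2.2.2.2.1) (row21_parts.2.2.2.2.2.2.2.2.2.2.2.1))
    (Bern.coverU_split (Bern.coverU_split (Bern.coverU_split (Bern.coverU_split (Bern.coverU_split
    (row21_parts.2.2.2.2.2.2.2.2.2.2.2.2.1) (row21_parts.2.2.2.2.2.2.2.2.2.2.2.2.2.1))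
    (row21_parts.2.2.2.2.2.2.2.2.2.2.2.2.2.2.1)) (row21_parts.2.2.2.2.2.2.2.2.2.2.2.2.2.2.2.1))
    (Bern.coverU_split (Bern.coverU_split (row21_parts.2.2.2.2.2.2.2.2.2.2.2.2.2.2.2.2.1)
    (row21_parts.2.2.2.2.2.2.2.2.2.2.2.2.2.2.2.2.2.1))
    (row21_parts.2.2.2.2.2.2.2.2.2.2.2.2.2.2.2.2.2.2.1))) (Bern.coverU_split
    (row21_parts.2.2.2.2.2.2.2.2.2.2.2.2.2.2.2.2.2.2.2.1) (Bern.coverU_split (Bern.coverU_split
    (row21_parts.2.2.2.2.2.2.2.2.2.2.2.2.2.2.2.2.2.2.2.2.1)
    (row21_parts.2.2.2.2.2.2.2.2.2.2.2.2.2.2.2.2.2.2.2.2.2.1))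
    (row21_parts.2.2.2.2.2.2.2.2.2.2.2.2.2.2.2.2.2.2.2.2.2.2.1))))))

theorem row21_cover3 : Bern.coverU row21.cfg3 row21.R3 row21.cov3 box3 = true :=
  (Bern.coverU_split (Bern.coverU_split (Bern.coverU_split (Bern.coverU_split
    (row21_parts.2.2.2.2.2.2.2.2.2.2.2.2.2.2.2.2.2.2.2.2.2.2.2.1)
    (row21_parts.2.2.2.2.2.2.2.2.2.2.2.2.2.2.2.2.2.2.2.2.2.2.2.2.1)) (Bern.coverU_split
    (row21_parts.2.2.2.2.2.2.2.2.2.2.2.2.2.2.2.2.2.2.2.2.2.2.2.2.2.1) (Bern.coverU_split
    (Bern.coverU_split (Bern.coverU_split (Bern.coverU_split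
    (row21_parts.2.2.2.2.2.2.2.2.2.2.2.2.2.2.2.2.2.2.2.2.2.2.2.2.2.2.1)
    (row21_parts.2.2.2.2.2.2.2.2.2.2.2.2.2.2.2.2.2.2.2.2.2.2.2.2.2.2.2.1))
    (row21_parts.2.2.2.2.2.2.2.2.2.2.2.2.2.2.2.2.2.2.2.2.2.2.2.2.2.2.2.2.1))
    (row21_parts.2.2.2.2.2.2.2.2.2.2.2.2.2.2.2.2.2.2.2.2.2.2.2.2.2.2.2.2.2.1))
    (row21_parts.2.2.2.2.2.2.2.2.2.2.2.2.2.2.2.2.2.2.2.2.2.2.2.2.2.2.2.2.2.2.1))))
    (Bern.coverU_split (Bern.coverU_split
    (row21_parts.2.2.2.2.2.2.2.2.2.2.2.2.2.2.2.2.2.2.2.2.2.2.2.2.2.2.2.2.2.2.2.1)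
    (Bern.coverU_split
    (row21_parts.2.2.2.2.2.2.2.2.2.2.2.2.2.2.2.2.2.2.2.2.2.2.2.2.2.2.2.2.2.2.2.2.1)
    (row21_parts.2.2.2.2.2.2.2.2.2.2.2.2.2.2.2.2.2.2.2.2.2.2.2.2.2.2.2.2.2.2.2.2.2.1)))
    (row21_parts.2.2.2.2.2.2.2.2.2.2.2.2.2.2.2.2.2.2.2.2.2.2.2.2.2.2.2.2.2.2.2.2.2.2.1)))
    (Bern.coverU_split (Bern.coverU_split
    (row21_parts.2.2.2.2.2.2.2.2.2.2.2.2.2.2.2.2.2.2.2.2.2.2.2.2.2.2.2.2.2.2.2.2.2.2.2.1)
    (Bern.coverU_split (Bern.coverU_split (Bern.coverU_split (Bern.coverU_split
    (row21_parts.2.2.2.2.2.2.2.2.2.2.2.2.2.2.2.2.2.2.2.2.2.2.2.2.2.2.2.2.2.2.2.2.2.2.2.2.1)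
    (Bern.coverU_split (Bern.coverU_split
    (row21_parts.2.2.2.2.2.2.2.2.2.2.2.2.2.2.2.2.2.2.2.2.2.2.2.2.2.2.2.2.2.2.2.2.2.2.2.2.2.1)
    (Bern.coverU_split
    (row21_parts.2.2.2.2.2.2.2.2.2.2.2.2.2.2.2.2.2.2.2.2.2.2.2.2.2.2.2.2.2.2.2.2.2.2.2.2.2.2.1)
    (row21_parts.2.2.2.2.2.2.2.2.2.2.2.2.2.2.2.2.2.2.2.2.2.2.2.2.2.2.2.2.2.2.2.2.2.2.2.2.2.2.2.1)))
    (row21_parts.2.2.2.2.2.2.2.2.2.2.2.2.2.2.2.2.2.2.2.2.2.2.2.2.2.2.2.2.2.2.2.2.2.2.2.2.2.2.2.2.1)))
    (row21_parts.2.2.2.2.2.2.2.2.2.2.2.2.2.2.2.2.2.2.2.2.2.2.2.2.2.2.2.2.2.2.2.2.2.2.2.2.2.2.2.2.2.1))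
    (row21_parts.2.2.2.2.2.2.2.2.2.2.2.2.2.2.2.2.2.2.2.2.2.2.2.2.2.2.2.2.2.2.2.2.2.2.2.2.2.2.2.2.2.2.1))
    (Bern.coverU_split
    (row21_parts.2.2.2.2.2.2.2.2.2.2.2.2.2.2.2.2.2.2.2.2.2.2.2.2.2.2.2.2.2.2.2.2.2.2.2.2.2.2.2.2.2.2.2.1)
    (Bern.coverU_split
    (row21_parts.2.2.2.2.2.2.2.2.2.2.2.2.2.2.2.2.2.2.2.2.2.2.2.2.2.2.2.2.2.2.2.2.2.2.2.2.2.2.2.2.2.2.2.2.1)
    (Bern.coverU_split (Bern.coverU_split
    (row21_parts.2.2.2.2.2.2.2.2.2.2.2.2.2.2.2.2.2.2.2.2.2.2.2.2.2.2.2.2.2.2.2.2.2.2.2.2.2.2.2.2.2.2.2.2.2.1)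
    (row21_parts.2.2.2.2.2.2.2.2.2.2.2.2.2.2.2.2.2.2.2.2.2.2.2.2.2.2.2.2.2.2.2.2.2.2.2.2.2.2.2.2.2.2.2.2.2.2.1))
    (Bern.coverU_split
    (row21_parts.2.2.2.2.2.2.2.2.2.2.2.2.2.2.2.2.2.2.2.2.2.2.2.2.2.2.2.2.2.2.2.2.2.2.2.2.2.2.2.2.2.2.2.2.2.2.2.1)
    (Bern.coverU_split (Bern.coverU_split
    (row21_parts.2.2.2.2.2.2.2.2.2.2.2.2.2.2.2.2.2.2.2.2.2.2.2.2.2.2.2.2.2.2.2.2.2.2.2.2.2.2.2.2.2.2.2.2.2.2.2.2.1)
    (row21_parts.2.2.2.2.2.2.2.2.2.2.2.2.2.2.2.2.2.2.2.2.2.2.2.2.2.2.2.2.2.2.2.2.2.2.2.2.2.2.2.2.2.2.2.2.2.2.2.2.2.1))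
    (row21_parts.2.2.2.2.2.2.2.2.2.2.2.2.2.2.2.2.2.2.2.2.2.2.2.2.2.2.2.2.2.2.2.2.2.2.2.2.2.2.2.2.2.2.2.2.2.2.2.2.2.2.1))))))))
    (Bern.coverU_split
    (row21_parts.2.2.2.2.2.2.2.2.2.2.2.2.2.2.2.2.2.2.2.2.2.2.2.2.2.2.2.2.2.2.2.2.2.2.2.2.2.2.2.2.2.2.2.2.2.2.2.2.2.2.2.1)
    (Bern.coverU_split (Bern.coverU_split
    (row21_parts.2.2.2.2.2.2.2.2.2.2.2.2.2.2.2.2.2.2.2.2.2.2.2.2.2.2.2.2.2.2.2.2.2.2.2.2.2.2.2.2.2.2.2.2.2.2.2.2.2.2.2.2.1)
    (row21_parts.2.2.2.2.2.2.2.2.2.2.2.2.2.2.2.2.2.2.2.2.2.2.2.2.2.2.2.2.2.2.2.2.2.2.2.2.2.2.2.2.2.2.2.2.2.2.2.2.2.2.2.2.2.1))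
    (Bern.coverU_split (Bern.coverU_split
    (row21_parts.2.2.2.2.2.2.2.2.2.2.2.2.2.2.2.2.2.2.2.2.2.2.2.2.2.2.2.2.2.2.2.2.2.2.2.2.2.2.2.2.2.2.2.2.2.2.2.2.2.2.2.2.2.2.1)
    (Bern.coverU_split
    (row21_parts.2.2.2.2.2.2.2.2.2.2.2.2.2.2.2.2.2.2.2.2.2.2.2.2.2.2.2.2.2.2.2.2.2.2.2.2.2.2.2.2.2.2.2.2.2.2.2.2.2.2.2.2.2.2.2.1)
    (Bern.coverU_split (Bern.coverU_split (Bern.coverU_split (Bern.coverU_split
    (row21_parts.2.2.2.2.2.2.2.2.2.2.2.2.2.2.2.2.2.2.2.2.2.2.2.2.2.2.2.2.2.2.2.2.2.2.2.2.2.2.2.2.2.2.2.2.2.2.2.2.2.2.2.2.2.2.2.2.1)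
    (row21_parts.2.2.2.2.2.2.2.2.2.2.2.2.2.2.2.2.2.2.2.2.2.2.2.2.2.2.2.2.2.2.2.2.2.2.2.2.2.2.2.2.2.2.2.2.2.2.2.2.2.2.2.2.2.2.2.2.2.1))
    (row21_parts.2.2.2.2.2.2.2.2.2.2.2.2.2.2.2.2.2.2.2.2.2.2.2.2.2.2.2.2.2.2.2.2.2.2.2.2.2.2.2.2.2.2.2.2.2.2.2.2.2.2.2.2.2.2.2.2.2.2.1))
    (row21_parts.2.2.2.2.2.2.2.2.2.2.2.2.2.2.2.2.2.2.2.2.2.2.2.2.2.2.2.2.2.2.2.2.2.2.2.2.2.2.2.2.2.2.2.2.2.2.2.2.2.2.2.2.2.2.2.2.2.2.2.1))
    (row21_parts.2.2.2.2.2.2.2.2.2.2.2.2.2.2.2.2.2.2.2.2.2.2.2.2.2.2.2.2.2.2.2.2.2.2.2.2.2.2.2.2.2.2.2.2.2.2.2.2.2.2.2.2.2.2.2.2.2.2.2.2.1))))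
    (Bern.coverU_split
    (row21_parts.2.2.2.2.2.2.2.2.2.2.2.2.2.2.2.2.2.2.2.2.2.2.2.2.2.2.2.2.2.2.2.2.2.2.2.2.2.2.2.2.2.2.2.2.2.2.2.2.2.2.2.2.2.2.2.2.2.2.2.2.2.1)
    (Bern.coverU_split
    (row21_parts.2.2.2.2.2.2.2.2.2.2.2.2.2.2.2.2.2.2.2.2.2.2.2.2.2.2.2.2.2.2.2.2.2.2.2.2.2.2.2.2.2.2.2.2.2.2.2.2.2.2.2.2.2.2.2.2.2.2.2.2.2.2.1)
    (Bern.coverU_split
    (row21_parts.2.2.2.2.2.2.2.2.2.2.2.2.2.2.2.2.2.2.2.2.2.2.2.2.2.2.2.2.2.2.2.2.2.2.2.2.2.2.2.2.2.2.2.2.2.2.2.2.2.2.2.2.2.2.2.2.2.2.2.2.2.2.2.1)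
    (Bern.coverU_split
    (row21_parts.2.2.2.2.2.2.2.2.2.2.2.2.2.2.2.2.2.2.2.2.2.2.2.2.2.2.2.2.2.2.2.2.2.2.2.2.2.2.2.2.2.2.2.2.2.2.2.2.2.2.2.2.2.2.2.2.2.2.2.2.2.2.2.2.1)
    (row21_parts.2.2.2.2.2.2.2.2.2.2.2.2.2.2.2.2.2.2.2.2.2.2.2.2.2.2.2.2.2.2.2.2.2.2.2.2.2.2.2.2.2.2.2.2.2.2.2.2.2.2.2.2.2.2.2.2.2.2.2.2.2.2.2.2.2))))))))))

theorem row21_ok : rowFor 2 1 row21 = true := by
  simp only [rowFor, Bool.and_eq_true, decide_eq_true_eq]
  exact ⟨⟨⟨rfl, rfl⟩, rfl⟩, rowCheck_of_quick row21_rest row21_cover row21_cover3⟩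

end Vale.Agent.P154.Anti
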