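import Vale.Agent.P154.Anti.RowData
import Vale.Agent.P154.RowQuick

/-!
P154: the certificate of the merge row 2 of piece 2.
-/


namespace Vale.Agent.P154.Anti

open Kron BudgetRow

/-- A part of a subdivision. -/
def row22P0 : Bern.Cover :=
  (.split 1 (.split 2 .leaf .leaf) (.split 2 .leaf .leaf))

/-- A part of a subdivision. -/
def row22P1 : Bern.Cover :=
  (.split 3 (.split 0 .leaf .leaf) .leaf)

/-- A part of a subdivision. -/
def row22P2 : Bern.Cover :=
  (.split 3 (.split 0 .leaf .leaf) .leaf)

/-- A part of a subdivision. -/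
def row22P3 : Bern.Cover :=
  (.split 2 .leaf (.split 3 (.split 0 .leaf .leaf) .leaf))

/-- A part of a subdivision. -/
def row22P4 : Bern.Cover :=
  (.split 2 .leaf (.split 3 .leaf .leaf))

/-- A part of a subdivision. -/
def row22P5 : Bern.Cover :=
  (.split 2 .leaf (.split 3 .leaf .leaf))

/-- A part of a subdivision. -/
def row22P6 : Bern.Cover :=
  .leaf

/-- A part of a subdivision. -/
def row22P7 : Bern.Cover :=
  (.split 3 (.split 0 .leaf .leaf) .leaf)

/-- A part of a subdivision. -/
def row22P8 : Bern.Cover :=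
  (.split 3 (.split 0 .leaf .leaf) .leaf)

/-- A part of a subdivision. -/
def row22P9 : Bern.Cover :=
  (.split 1 .leaf .leaf)

/-- A part of a subdivision. -/
def row22P10 : Bern.Cover :=
  .leaf

/-- A part of a subdivision. -/
def row22P11 : Bern.Cover :=
  (.split 2 .leaf (.split 3 .leaf .leaf))

/-- A part of a subdivision. -/
def row22P12 : Bern.Cover :=
  (.split 2 (.split 3 (.split 0 .leaf .leaf) .leaf) (.split 3 .leaf .leaf))

/-- A part of a subdivision. -/
def row22P13 : Bern.Cover :=
  (.split 3 (.split 0 .leaf .leaf) .leaf)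

/-- A part of a subdivision. -/
def row22P14 : Bern.Cover :=
  (.split 1 (.split 2 .leaf .leaf) .leaf)

/-- A part of a subdivision. -/
def row22P15 : Bern.Cover :=
  (.split 1 (.split 2 .leaf (.split 3 .leaf .leaf)) .leaf)

/-- A part of a subdivision. -/
def row22P16 : Bern.Cover :=
  .leaf

/-- A part of a subdivision. -/
def row22P17 : Bern.Cover :=
  (.split 0 .leaf (.split 1 (.split 2 (.split 3 .leaf .leaf) .leaf) .leaf))

/-- A part of a subdivision. -/
def row22P18 : Bern.Cover :=
  .leaf

/-- A part of a subdivision. -/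
def row22P19 : Bern.Cover :=
  .leaf

/-- A part of a subdivision. -/
def row22P20 : Bern.Cover :=
  (.split 1 (.split 2 .leaf (.split 3 .leaf .leaf)) .leaf)

/-- A part of a subdivision. -/
def row22P21 : Bern.Cover :=
  .leaf

/-- A part of a subdivision. -/
def row22P22 : Bern.Cover :=
  .leaf

/-- A part of a subdivision. -/
def row22P23 : Bern.Cover :=
  .leaf

/-- A part of a subdivision. -/
def row22P24 : Bern.Cover :=
  (.split 3 (.split 0 .leaf .leaf) .leaf)

/-- A part of a subdivision. -/
def row22P25 : Bern.Cover :=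
  (.split 3 (.split 0 .leaf (.split 1 .leaf .leaf)) .leaf)

/-- A part of a subdivision. -/
def row22P26 : Bern.Cover :=
  .leaf

/-- A part of a subdivision. -/
def row22P27 : Bern.Cover :=
  .leaf

/-- A part of a subdivision. -/
def row22P28 : Bern.Cover :=
  .leaf

/-- A part of a subdivision. -/
def row22P29 : Bern.Cover :=
  (.split 3 (.split 0 .leaf .leaf) (.split 0 .leaf .leaf))

/-- A part of a subdivision. -/
def row22P30 : Bern.Cover :=
  (.split 3 .leaf .leaf)

/-- A part of a subdivision. -/
def row22P31 : Bern.Cover :=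
  .leaf

/-- A part of a subdivision. -/
def row22P32 : Bern.Cover :=
  .leaf

/-- A part of a subdivision. -/
def row22P33 : Bern.Cover :=
  .leaf

/-- A part of a subdivision. -/
def row22P34 : Bern.Cover :=
  (.split 3 (.split 0 (.split 1 .leaf (.split 2 .leaf .leaf)) .leaf) .leaf)

/-- A part of a subdivision. -/
def row22P35 : Bern.Cover :=
  .leaf

/-- A part of a subdivision. -/
def row22R0 : Bern.Cover :=
  (.split 1 (.split 2 (.split 0 (.split 1 (.split 2 .leaf .leaf) (.split 2 .leaf .leaf)) .leaf)
    .leaf) (.split 2 (.split 0 .leaf .leaf) .leaf))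

/-- A part of a subdivision. -/
def row22R1 : Bern.Cover :=
  (.split 0 .leaf (.split 1 (.split 2 .leaf .leaf) .leaf))

/-- A part of a subdivision. -/
def row22R2 : Bern.Cover :=
  (.split 0 .leaf (.split 1 (.split 2 .leaf (.split 0 (.split 1 (.split 2 .leaf .leaf) .leaf)
    (.split 1 (.split 2 .leaf .leaf) (.split 2 .leaf .leaf)))) (.split 2 .leaf (.split 0 .leaf
    (.split 1 (.split 2 .leaf .leaf) (.split 2 .leaf .leaf))))))

/-- A part of a subdivision. -/
def row22R3 : Bern.Cover :=
  .leaf

/-- A part of a subdivision. -/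
def row22R4 : Bern.Cover :=
  .leaf

/-- A part of a subdivision. -/
def row22R5 : Bern.Cover :=
  (.split 2 .leaf (.split 0 .leaf (.split 1 (.split 2 .leaf .leaf) (.split 2 .leaf .leaf))))

/-- A part of a subdivision. -/
def row22R6 : Bern.Cover :=
  .leaf

/-- A part of a subdivision. -/
def row22R7 : Bern.Cover :=
  .leaf

/-- A part of a subdivision. -/
def row22R8 : Bern.Cover :=
  (.split 1 (.split 2 (.split 0 .leaf .leaf) (.split 0 .leaf .leaf)) (.split 2 (.split 0 .leaf
    .leaf) (.split 0 .leaf (.split 1 (.split 2 (.split 0 .leaf .leaf) .leaf) (.split 2 (.split 0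
    .leaf (.split 1 (.split 2 .leaf .leaf) (.split 2 .leaf .leaf))) .leaf)))))

/-- The certificate. -/
def row22 : Row where
  W := terms 8
  D := slopeT 2 2
  G := [(178949287909296, 1, 0, 0, 0), (12003112187632728, 0, 0, 1, 0),
    (-32692798342408968, 1, 0, 1, 0), (29779858224824040, 2, 0, 1, 0),
    (-9516479175488736, 3, 0, 1, 0), (-216160147110528, 3, 0, 0, 0),
    (429840616969008, 4, 0, 0, 0), (-533236079417328, 5, 0, 0, 0), (438260984895960, 6, 0, 0, 0),
    (-362434258944, 1, 1, 0, 0), (-24493410408744, 2, 1, 0, 0), (1425599696191032, 3, 1, 0, 0),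
    (-2415671589286008, 4, 1, 0, 0), (22298454053838306, 0, 0, 2, 0),
    (-29284997938960734, 1, 0, 2, 0), (18412924419723042, 2, 0, 2, 0),
    (-7401620391339348, 3, 0, 2, 0), (-2319635308520700, 4, 0, 1, 0),
    (2817567050885676, 5, 0, 1, 0), (-867964085544456, 6, 0, 1, 0),
    (-20263668510367656, 1, 1, 1, 0), (22643417616359184, 2, 1, 1, 0),
    (-15552802062761400, 3, 1, 1, 0), (6873219388777680, 4, 1, 1, 0),
    (-247241687044320, 7, 0, 0, 0), (97340211736776, 8, 0, 0, 0), (-26738511365952, 9, 0, 0, 0),
    (2004061913045892, 5, 1, 0, 0), (-1019414961654084, 6, 1, 0, 0),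
    (340970582482704, 7, 1, 0, 0), (11843985658510638, 2, 2, 0, 0),
    (-8258199935976378, 3, 2, 0, 0), (4163179107248838, 4, 2, 0, 0),
    (-1524382003275516, 5, 2, 0, 0), (61803789377400, 2, 0, 0, 0), (-762066556370352, 0, 1, 0, 0),
    (8925321710629512, 0, 1, 1, 0), (-11285144123130144, 1, 2, 0, 0),
    (1980951302929374, 4, 0, 2, 0), (-318671229995838, 5, 0, 2, 0), (83601803415096, 7, 0, 1, 0),
    (13592900365884, 8, 0, 1, 0), (-1945325335959864, 5, 1, 1, 0), (339814776983328, 6, 1, 1, 0),
    (5026675243968, 10, 0, 0, 0), (-616713699024, 11, 0, 0, 0), (-75884721873552, 8, 1, 0, 0),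
    (10877543627940, 9, 1, 0, 0), (389561951878434, 6, 2, 0, 0), (-64846918347498, 7, 2, 0, 0),
    (-15357556912727160, 0, 1, 2, 0), (18198811507052169, 1, 1, 2, 0),
    (-8425510561390212, 2, 1, 2, 0), (1858515530715594, 3, 1, 2, 0),
    (15952193784405324, 1, 2, 1, 0), (-12011573132228205, 2, 2, 1, 0),
    (4830384098966580, 3, 2, 1, 0), (-1099315566346914, 4, 2, 1, 0),
    (-4719435608804292, 2, 3, 0, 0), (2480372819247051, 3, 3, 0, 0),
    (-796170544968708, 4, 3, 0, 0), (153357591669498, 5, 3, 0, 0), (5484149778176352, 0, 2, 0, 0),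
    (-8798505566757444, 0, 2, 1, 0), (5226322019222556, 1, 3, 0, 0),
    (-2703425250456000, 0, 3, 0, 0), (446345834725296, 0, 4, 0, 0),
    (-555346327587156, 1, 4, 0, 0), (277457876672688, 2, 4, 0, 0), (-69246671443272, 3, 4, 0, 0),
    (6671739661353, 4, 0, 3, 0), (-344205987192, 7, 0, 2, 0), (5887968895539, 5, 1, 2, 0),
    (267238845864, 10, 0, 1, 0), (1421511398640, 8, 1, 1, 0), (-7012988376453, 6, 2, 1, 0),
    (-1432394776, 13, 0, 0, 0), (33922253520, 11, 1, 0, 0), (-262807717248, 9, 2, 0, 0),
    (727493174145, 7, 3, 0, 0), (24150690821934, 6, 0, 2, 0), (-3913022415996, 9, 0, 1, 0),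
    (-33403958699688, 7, 1, 1, 0), (44499584112, 12, 0, 0, 0), (-911233839708, 10, 1, 0, 0),
    (6249804565050, 8, 2, 0, 0), (-186050205275148, 4, 1, 2, 0), (134919612591768, 5, 2, 1, 0),
    (-16253361645264, 6, 3, 0, 0), (2576549288556, 4, 3, 1, 0), (-423757710108, 5, 4, 0, 0),
    (8599418384832, 4, 4, 0, 0), (-80060875936236, 3, 0, 3, 0), (-30918591462672, 3, 3, 1, 0),
    (360273941713062, 2, 0, 3, 0), (139133661582024, 2, 3, 1, 0), (-720547883426124, 1, 0, 3, 0),
    (-278267323164048, 1, 3, 1, 0), (1251109899144, 0, 0, 0, 0), (540410912569593, 0, 0, 3, 0),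
    (208700492373036, 0, 3, 1, 0)]
  a := 12754584
  e := slopeE 2
  kR := 192
  kG := 167772160000000
  kP := 225
  I := 12
  J := 8
  P := ⟨[(0, 1), (0, 2), (0, 3), (0, 4), (1, 0), (1, 1), (1, 2), (1, 3), (2, 0), (2, 1), (2, 2), (2, 3), (3, 0), (3, 1), (3, 2), (4, 0), (4, 1), (5, 0), (5, 1), (6, 0)],
    [
     ((0, 0), [ -94344460800000, 214412762936832, 0, 0, 12495206400000, 196202796171264,
        -156562212905856, 0, 160589709668352, -355957505829120, 0, 0, -506431320365568, 0, 0,
        538762934623104, 0, 0, 0, 0]),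
     ((0, 1), [ 4521827635200000, -2737631248996608, 357505520400000, 0, 785564544000000,
        -13116103281887616, 5180126587265664, -395849890800000, -3505361435743488,
        13504288955441280, -2595932001600000, 0, 3937278560308992, -4556693843100000, 0,
        -1252262102688576, -71876624400000, -191670998400000, 0, 0]),
     ((0, 2), [ 20982850444800000, 18188330125761280, -8165572750400000, 446573234000000,
        13748928614400000, -44407345794573440, -27721467447738240, 5303675233900000,
        -44947337547697920, 24555444827155200, 14785507959600000, -523730231900000,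
        40050661194465280, 4851113127400000, -2758535956450000, -10461370639539840,
        -4465921942550000, 143704254800000, -35116073112500, -454616792600000]),
     ((0, 3), [ 22880353305600000, 65324582003200000, 1740467878400000, -5403109876800000,
        16889595340800000, 30373408166400000, -130333836950400000, 403749777600000,
        -44291217331200000, -94655278294400000, 62674201851400000, 1308412593100000,
        -16498630515200000, 37149445361400000, 4991293629400000, 75350740565600000,
        3752552188850000, -34650182068900000, -1597989910975000, -128921467025000]),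
     ((0, 4), [ 0, 28580686976000000, 43224879014400000, -11794583433600000, 0, 95332464531200000,
        -106142302604800000, -23249241987200000, 0, -111277844379200000, 42467449540800000,
        1406323258400000, -14290343488000000, -19110995080000000, 15950850830800000,
        30335966216000000, 30165551094300000, -8962131324400000, -517475265825000,
        -2311152402000000]),
     ((1, 0), [ -582921600000000, 879648120766464, -131949963600000, 0, 2284639795200000,
        15780865168128, -533833784234112, 0, -6125930414762496, 2461773111893760, -263899927200000,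
        0, 6352441159601664, -1646934609600000, 0, -2042127213792192, 0, -47917749600000, 0, 0]),
     ((1, 1), [ -52058791180800000, 22763176717572352, 1898338010400000, -744784879150000,
        1871298201600000, 170423449917778304, -42740050124422016, -1576493310400000,
        26138069407011072, -192565511540872320, 23999664829000000, -300804687212500,
        -54705920984994048, 89151355404300000, -4393285236375000, 36072352211612544,
        -13943925013450000, -4036083306300000, -280551200912500, -1288723672725000]),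
     ((1, 2), [ -163601403033600000, -109742342765610240, 65166918475200000, -6633893912800000,
        -29610049228800000, 340295111531547520, 54979060768865920, -18062152553000000,
        264656463471663360, -148916685841241600, -22874090067800000, 4471424338300000,
        -407061899426442240, -42130187490600000, 16439132610650000, 253453908308878720,
        14840099162200000, -42127075854400000, -6120369136762500, -9897071020950000]),
     ((1, 3), [ -101337572044800000, -169717607484800000, 1614999110400000, 11624620993600000, 0,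
        -100895571865600000, 144497220424000000, 34448120652000000, 152006358067200000,
        366530250764800000, -41326086577600000, 876955585600000, -179023083361600000,
        -77811755881600000, -15105709198400000, 58068092954000000, -57518282896650000,
        -2715297488600000, -573674636337500, -2679459376500000]),
     ((2, 0), [ 6880060646400000, -11755024229412864, 1384100541600000, 0, -26266927910400000,
        -13367625917180928, 16805472115245312, -1187549672400000, 66784791963012096,
        -2709940672469760, -5614276462800000, 25421961825000, -77442308579768064,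
        15090734981700000, -888379662300000, 40277812368811392, -6847841488500000,
        -8129312257800000, -66269271825000, -371882872050000]),
     ((2, 1), [ 214137537849600000, -51795235841122560, -23663819573600000, 3477432636850000,
        -88355105740800000, -770280299377653120, 75437717962276480, 22908140672800000,
        24510832430595840, 895932455620089600, -17512254820350000, -1819350177625000,
        251094581205469440, -398007339955800000, -3664111078375000, -279355791622720320,
        61105506884337500, 80422198863225000, -4443369290509375, -7087773049968750]),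
     ((2, 2), [ 332279296204800000, 236568127353600000, -125348403702800000, 10616862385200000,
        -67558381363200000, -767989274528000000, -91496360271200000, 20663043288800000,
        -359313693619200000, 140098038562800000, 54780703026000000, -90483134750000,
        1134675324771200000, 216774591842300000, -31034587887500000, -800707838246800000,
        -37602147566025000, 108526445628200000, 374314671018750, 16973504219775000]),
     ((2, 3), [ 0, 67037469683200000, 20934601489600000, -2812646516800000, 0, -77005999926400000,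
        -143085578825600000, 3507822342400000, -13016044454400000, -116438411368000000,
        723865078000000, 20823089198500000, 106703232281600000, 92821970202600000,
        51144920221200000, 117438733896400000, -51908979439100000, -31139024876000000,
        -10299331635950000, -32170042369575000]),
     ((3, 0), [ -30069804499200000, 41497506218043136, 2062328814400000, -223286617000000,
        106939107379200000, 108949335576531072, -102172677932402688, 5594471355050000,
        -312170223561371904, -124980745389029760, 70917207798200000, -833619002200000,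
        458878934061287936, 9654118324700000, -5455741992625000, -302992218508156608,
        26726054709625000, 82218693552400000, -1909987026781250, -4731403010500000]),
     ((3, 1), [ -291628405958400000, -38808905019200000, 37149445361400000, 2388874385000000,
        210807630028800000, 1426421686468800000, 84260374981200000, -19452938970400000,
        -482903519414400000, -1592029359823200000, -108387295921150000, 5801373137662500,
        -77232946597600000, 662165444380700000, 3301727438400000, 439707481597900000,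
        -125032641806962500, -158616393931475000, 5462562698746875, 29335996850112500]),
     ((3, 2), [ 0, -176546301212800000, -39930349035200000, 15950850830800000, 0,
        562340510256000000, 263026121770400000, 30211418396800000, -227425193548800000,
        117251554508000000, -124138351550000000, -25572460110600000, -349167487528000000,
        -26413819507200000, -116115526432300000, 13803399115600000, -130441242901450000,
        135010393565500000, 19451965171587500, 36883381707025000]),
     ((4, 0), [ 31557844742400000, -40506940356184320, -37675370282800000, 1895997888500000,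
        -129279055065600000, -277019541299744640, 250014730833986560, -7258511619250000,
        664427784327540480, 544857939317251200, -200176959561700000, -3669960434262500,
        -1227467933398360320, -219853740798950000, 862712444725000, 643422343437416960,
        25599019369525000, -88031414709950000, 5645101124703125, 26628369465862500]),
     ((4, 1), [ -18400415846400000, 142909502161600000, 15010208755400000, -15082775547150000, 0,
        -892411200860800000, -118720793297600000, -57518282896650000, 876523710528000000,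
        977688110149400000, 75204295132050000, -12977244859775000, -855233750708000000,
        -500130567227850000, 65220621450725000, -204792154956200000, 336902526053375000,
        227023982683925000, -697643968250000, -18341411693718750]),
     ((5, 0), [ 24533887795200000, 2299268076800000, 69300364137800000, -2240532831100000,
        -12266943897600000, 129154665801600000, -168508303417600000, 1357648744300000,
        -520275984499200000, -643377590905800000, 108526445628200000, 3892378109500000,
        1315499096838400000, 317232787862950000, 33752598391375000, -352125658839800000,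
        -113511991341962500, -161244896735900000, 2633622043484375, -18976079195212500]),
     ((5, 1), [ 0, 4494857358400000, -25567838575600000, 1034950531650000, 0, -71821107433600000,
        195851812376400000, -2294698545350000, 33929867174400000, -284375634592600000,
        -2994517368150000, -10299331635950000, 244478339428000000, 87401003179950000,
        -38903930343175000, -180643235990500000, -2790575873000000, -21068976347875000,
        20850052912525000, 65178630529200000]),
     ((6, 0), [ 0, -29095474726400000, 1031371736200000, -2311152402000000, 0, 164956630108800000,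
        -158353136335200000, 5358918753000000, -95202015244800000, 226808737599000000,
        67894016879100000, 16085021184787500, -302809792672000000, -234687974800900000,
        36883381707025000, 426053911453800000, 36682823387437500, -75904316780850000,
        -32589315264600000, -70808415947200000])]⟩
  cfg := ⟨13, 12, 11, 12, 13, 359⟩
  cov := (.split 2 (.split 0 row22P0 (.split 1 (.split 2 row22P1 row22P2) row22P3)) (.split 0 (.split 1
    row22P4 row22P5) (.split 1 (.split 2 (.split 3 (.split 0 (.split 1 row22P6 (.split 2 row22P7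
    row22P8)) row22P9) row22P10) (.split 3 (.split 0 (.split 1 row22P11 row22P12) (.split 1
    (.split 2 row22P13 (.split 3 (.split 0 (.split 1 (.split 2 (.split 3 (.split 0 row22P14
    row22P15) row22P16) (.split 3 row22P17 row22P18)) row22P19) row22P20) row22P21)) row22P22))
    row22P23)) (.split 2 (.split 3 (.split 0 (.split 1 (.split 2 row22P24 row22P25) row22P26)
    row22P27) row22P28) (.split 3 (.split 0 (.split 1 (.split 2 row22P29 row22P30) row22P31)
    (.split 1 row22P32 (.split 2 row22P33 row22P34))) row22P35)))))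
  lay := ⟨154, 14, 14, 14, 14⟩
  R3 := ⟨[(0, 1), (1, 0), (1, 1), (2, 0), (2, 1), (3, 0), (3, 1), (4, 0), (4, 1), (5, 0)],
    [
     ((0, 0), [ 1243553075970264, 1251109899144, 90823106800210104, -714613105340712,
        -9921479277659669712, 82881172048797288, 49496359872321151776, 33471099862499976624,
        221783180519921969376, -266190877557719575704]),
     ((0, 1), [ 282029144580072, 0, 673550681144373792, 3384349734960864, 11740496853328640280,
        -7958387558751511824, 601069050023632920, 67604946253244398296, 475652545024706908848,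
        -485726202149934696696]),
     ((0, 2), [ -465435725941512, 0, -41889215334736080, -5585228711298144, -1319510283044186520,
        -251335292008416480, -16789403771929928376, 58688642662380405000, 406318811920480501992,
        -352880575559722552680]),
     ((0, 3), [ 0, 0, 0, 0, 0, 0, 0, 0, 85095263936858392152, 0]),
     ((1, 0), [ -1139530732069392, 0, -827812217295578808, 6901428237166800, 9686014241370282288,
        5461233652181492352, -161525406708034339824, -83619809945820359280, -272159677523325263616,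
        655985439899700706800]),
     ((1, 1), [ 124709450100912, 0, 11223850509082080, 1496513401210944, -12659567763061742976,
        67343103054492480, 10699842933794134584, -83627400322133850312, 298816467479937098712,
        288197290299066191640]),
     ((1, 2), [ -1803178815571224, 0, -162286093401410160, -21638145786854688,
        -5112011942144420040, -973716560408460960, -110419457950319472864, -24537657322293216192,
        -720872360119790068176, 735904922494322734560]),
     ((2, 0), [ 164208891708000, 0, 14778800253720000, 1970506700496000, -6081277543231224744,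
        4086617989812880608, 166680601656753072096, -5024881291123793880, -1300141008116928837936,
        282531974301502850880]),
     ((2, 1), [ 5262401147258088, 0, 473616103253227920, 63148813767097056, 14918907252476679480,
        2841696619519367520, -24113573487477263736, 71610754811888061504, 442379114884396243080,
        -750906052511674293432]),
     ((3, 0), [ -3410182244419848, 0, -306916401997786320, -40922186933038176,
        -9667866662930269080, -1841498411986717920, 23427999009653746896, 6805759222660156416,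
        371438017044809830920, -162969089565918864024]),
     ((3, 1), [ 0, 0, 0, 0, 0, 0, 0, 0, -221823996734437249752, 0]),
     ((4, 0), [ -327413015552232, 0, -29467171399700880, -3928956186626784, -928215899090577720,
        -176803028398205280, -20049463420356478752, -4455436315634773056, 168563575834094271816,
        151280204950718265456])]⟩
  cfg3 := ⟨9, 8, 9, 10, 11, 518⟩
  cov3 := (.split 0 row22R0 (.split 1 (.split 2 row22R1 row22R2) (.split 2 row22R3 (.split 0 row22R4
    (.split 1 row22R5 (.split 2 row22R6 (.split 0 row22R7 row22R8)))))))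
  lay3 := ⟨86, 5, 4, 16, 1⟩

set_option maxHeartbeats 8000000 in
theorem row22_parts :
    rowRest (terms 0) row22 = true ∧
    Bern.coverU row22.cfg row22.P row22P0
      (((Bern.unitBox).cut 2 Bern.Ax.left).cut 0 Bern.Ax.left) = true ∧
    Bern.coverU row22.cfg row22.P row22P1
      (((((Bern.unitBox).cut 2 Bern.Ax.left).cut 0 Bern.Ax.right).cut 1 Bern.Ax.left).cut 2
    Bern.Ax.left) = true ∧
    Bern.coverU row22.cfg row22.P row22P2
      (((((Bern.unitBox).cut 2 Bern.Ax.left).cut 0 Bern.Ax.right).cut 1 Bern.Ax.left).cut 2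
    Bern.Ax.right) = true ∧
    Bern.coverU row22.cfg row22.P row22P3
      ((((Bern.unitBox).cut 2 Bern.Ax.left).cut 0 Bern.Ax.right).cut 1 Bern.Ax.right) = true ∧
    Bern.coverU row22.cfg row22.P row22P4
      ((((Bern.unitBox).cut 2 Bern.Ax.right).cut 0 Bern.Ax.left).cut 1 Bern.Ax.left) = true ∧
    Bern.coverU row22.cfg row22.P row22P5
      ((((Bern.unitBox).cut 2 Bern.Ax.right).cut 0 Bern.Ax.left).cut 1 Bern.Ax.right) = true ∧
    Bern.coverU row22.cfg row22.P row22P6
      ((((((((Bern.unitBox).cut 2 Bern.Ax.right).cut 0 Bern.Ax.right).cut 1 Bern.Ax.left).cut 2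
    Bern.Ax.left).cut 3 Bern.Ax.left).cut 0 Bern.Ax.left).cut 1 Bern.Ax.left) = true ∧
    Bern.coverU row22.cfg row22.P row22P7
      (((((((((Bern.unitBox).cut 2 Bern.Ax.right).cut 0 Bern.Ax.right).cut 1 Bern.Ax.left).cut 2
    Bern.Ax.left).cut 3 Bern.Ax.left).cut 0 Bern.Ax.left).cut 1 Bern.Ax.right).cut 2
    Bern.Ax.left) = true ∧
    Bern.coverU row22.cfg row22.P row22P8
      (((((((((Bern.unitBox).cut 2 Bern.Ax.right).cut 0 Bern.Ax.right).cut 1 Bern.Ax.left).cut 2
    Bern.Ax.left).cut 3 Bern.Ax.left).cut 0 Bern.Ax.left).cut 1 Bern.Ax.right).cut 2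
    Bern.Ax.right) = true ∧
    Bern.coverU row22.cfg row22.P row22P9
      (((((((Bern.unitBox).cut 2 Bern.Ax.right).cut 0 Bern.Ax.right).cut 1 Bern.Ax.left).cut 2
    Bern.Ax.left).cut 3 Bern.Ax.left).cut 0 Bern.Ax.right) = true ∧
    Bern.coverU row22.cfg row22.P row22P10
      ((((((Bern.unitBox).cut 2 Bern.Ax.right).cut 0 Bern.Ax.right).cut 1 Bern.Ax.left).cut 2
    Bern.Ax.left).cut 3 Bern.Ax.right) = true ∧
    Bern.coverU row22.cfg row22.P row22P11
      ((((((((Bern.unitBox).cut 2 Bern.Ax.right).cut 0 Bern.Ax.right).cut 1 Bern.Ax.left).cut 2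
    Bern.Ax.right).cut 3 Bern.Ax.left).cut 0 Bern.Ax.left).cut 1 Bern.Ax.left) = true ∧
    Bern.coverU row22.cfg row22.P row22P12
      ((((((((Bern.unitBox).cut 2 Bern.Ax.right).cut 0 Bern.Ax.right).cut 1 Bern.Ax.left).cut 2
    Bern.Ax.right).cut 3 Bern.Ax.left).cut 0 Bern.Ax.left).cut 1 Bern.Ax.right) = true ∧
    Bern.coverU row22.cfg row22.P row22P13
      (((((((((Bern.unitBox).cut 2 Bern.Ax.right).cut 0 Bern.Ax.right).cut 1 Bern.Ax.left).cut 2
    Bern.Ax.right).cut 3 Bern.Ax.left).cut 0 Bern.Ax.right).cut 1 Bern.Ax.left).cut 2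
    Bern.Ax.left) = true ∧
    Bern.coverU row22.cfg row22.P row22P14
      (((((((((((((((Bern.unitBox).cut 2 Bern.Ax.right).cut 0 Bern.Ax.right).cut 1
    Bern.Ax.left).cut 2 Bern.Ax.right).cut 3 Bern.Ax.left).cut 0 Bern.Ax.right).cut 1
    Bern.Ax.left).cut 2 Bern.Ax.right).cut 3 Bern.Ax.left).cut 0 Bern.Ax.left).cut 1
    Bern.Ax.left).cut 2 Bern.Ax.left).cut 3 Bern.Ax.left).cut 0 Bern.Ax.left) = true ∧
    Bern.coverU row22.cfg row22.P row22P15
      (((((((((((((((Bern.unitBox).cut 2 Bern.Ax.right).cut 0 Bern.Ax.right).cut 1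
    Bern.Ax.left).cut 2 Bern.Ax.right).cut 3 Bern.Ax.left).cut 0 Bern.Ax.right).cut 1
    Bern.Ax.left).cut 2 Bern.Ax.right).cut 3 Bern.Ax.left).cut 0 Bern.Ax.left).cut 1
    Bern.Ax.left).cut 2 Bern.Ax.left).cut 3 Bern.Ax.left).cut 0 Bern.Ax.right) = true ∧
    Bern.coverU row22.cfg row22.P row22P16
      ((((((((((((((Bern.unitBox).cut 2 Bern.Ax.right).cut 0 Bern.Ax.right).cut 1
    Bern.Ax.left).cut 2 Bern.Ax.right).cut 3 Bern.Ax.left).cut 0 Bern.Ax.right).cut 1
    Bern.Ax.left).cut 2 Bern.Ax.right).cut 3 Bern.Ax.left).cut 0 Bern.Ax.left).cut 1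
    Bern.Ax.left).cut 2 Bern.Ax.left).cut 3 Bern.Ax.right) = true ∧
    Bern.coverU row22.cfg row22.P row22P17
      ((((((((((((((Bern.unitBox).cut 2 Bern.Ax.right).cut 0 Bern.Ax.right).cut 1
    Bern.Ax.left).cut 2 Bern.Ax.right).cut 3 Bern.Ax.left).cut 0 Bern.Ax.right).cut 1
    Bern.Ax.left).cut 2 Bern.Ax.right).cut 3 Bern.Ax.left).cut 0 Bern.Ax.left).cut 1
    Bern.Ax.left).cut 2 Bern.Ax.right).cut 3 Bern.Ax.left) = true ∧
    Bern.coverU row22.cfg row22.P row22P18
      ((((((((((((((Bern.unitBox).cut 2 Bern.Ax.right).cut 0 Bern.Ax.right).cut 1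
    Bern.Ax.left).cut 2 Bern.Ax.right).cut 3 Bern.Ax.left).cut 0 Bern.Ax.right).cut 1
    Bern.Ax.left).cut 2 Bern.Ax.right).cut 3 Bern.Ax.left).cut 0 Bern.Ax.left).cut 1
    Bern.Ax.left).cut 2 Bern.Ax.right).cut 3 Bern.Ax.right) = true ∧
    Bern.coverU row22.cfg row22.P row22P19
      ((((((((((((Bern.unitBox).cut 2 Bern.Ax.right).cut 0 Bern.Ax.right).cut 1 Bern.Ax.left).cut
    2 Bern.Ax.right).cut 3 Bern.Ax.left).cut 0 Bern.Ax.right).cut 1 Bern.Ax.left).cut 2
    Bern.Ax.right).cut 3 Bern.Ax.left).cut 0 Bern.Ax.left).cut 1 Bern.Ax.right) = true ∧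
    Bern.coverU row22.cfg row22.P row22P20
      (((((((((((Bern.unitBox).cut 2 Bern.Ax.right).cut 0 Bern.Ax.right).cut 1 Bern.Ax.left).cut 2
    Bern.Ax.right).cut 3 Bern.Ax.left).cut 0 Bern.Ax.right).cut 1 Bern.Ax.left).cut 2
    Bern.Ax.right).cut 3 Bern.Ax.left).cut 0 Bern.Ax.right) = true ∧
    Bern.coverU row22.cfg row22.P row22P21
      ((((((((((Bern.unitBox).cut 2 Bern.Ax.right).cut 0 Bern.Ax.right).cut 1 Bern.Ax.left).cut 2
    Bern.Ax.right).cut 3 Bern.Ax.left).cut 0 Bern.Ax.right).cut 1 Bern.Ax.left).cut 2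
    Bern.Ax.right).cut 3 Bern.Ax.right) = true ∧
    Bern.coverU row22.cfg row22.P row22P22
      ((((((((Bern.unitBox).cut 2 Bern.Ax.right).cut 0 Bern.Ax.right).cut 1 Bern.Ax.left).cut 2
    Bern.Ax.right).cut 3 Bern.Ax.left).cut 0 Bern.Ax.right).cut 1 Bern.Ax.right) = true ∧
    Bern.coverU row22.cfg row22.P row22P23
      ((((((Bern.unitBox).cut 2 Bern.Ax.right).cut 0 Bern.Ax.right).cut 1 Bern.Ax.left).cut 2
    Bern.Ax.right).cut 3 Bern.Ax.right) = true ∧
    Bern.coverU row22.cfg row22.P row22P24
      (((((((((Bern.unitBox).cut 2 Bern.Ax.right).cut 0 Bern.Ax.right).cut 1 Bern.Ax.right).cut 2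
    Bern.Ax.left).cut 3 Bern.Ax.left).cut 0 Bern.Ax.left).cut 1 Bern.Ax.left).cut 2
    Bern.Ax.left) = true ∧
    Bern.coverU row22.cfg row22.P row22P25
      (((((((((Bern.unitBox).cut 2 Bern.Ax.right).cut 0 Bern.Ax.right).cut 1 Bern.Ax.right).cut 2
    Bern.Ax.left).cut 3 Bern.Ax.left).cut 0 Bern.Ax.left).cut 1 Bern.Ax.left).cut 2
    Bern.Ax.right) = true ∧
    Bern.coverU row22.cfg row22.P row22P26
      ((((((((Bern.unitBox).cut 2 Bern.Ax.right).cut 0 Bern.Ax.right).cut 1 Bern.Ax.right).cut 2
    Bern.Ax.left).cut 3 Bern.Ax.left).cut 0 Bern.Ax.left).cut 1 Bern.Ax.right) = true ∧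
    Bern.coverU row22.cfg row22.P row22P27
      (((((((Bern.unitBox).cut 2 Bern.Ax.right).cut 0 Bern.Ax.right).cut 1 Bern.Ax.right).cut 2
    Bern.Ax.left).cut 3 Bern.Ax.left).cut 0 Bern.Ax.right) = true ∧
    Bern.coverU row22.cfg row22.P row22P28
      ((((((Bern.unitBox).cut 2 Bern.Ax.right).cut 0 Bern.Ax.right).cut 1 Bern.Ax.right).cut 2
    Bern.Ax.left).cut 3 Bern.Ax.right) = true ∧
    Bern.coverU row22.cfg row22.P row22P29
      (((((((((Bern.unitBox).cut 2 Bern.Ax.right).cut 0 Bern.Ax.right).cut 1 Bern.Ax.right).cut 2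
    Bern.Ax.right).cut 3 Bern.Ax.left).cut 0 Bern.Ax.left).cut 1 Bern.Ax.left).cut 2
    Bern.Ax.left) = true ∧
    Bern.coverU row22.cfg row22.P row22P30
      (((((((((Bern.unitBox).cut 2 Bern.Ax.right).cut 0 Bern.Ax.right).cut 1 Bern.Ax.right).cut 2
    Bern.Ax.right).cut 3 Bern.Ax.left).cut 0 Bern.Ax.left).cut 1 Bern.Ax.left).cut 2
    Bern.Ax.right) = true ∧
    Bern.coverU row22.cfg row22.P row22P31
      ((((((((Bern.unitBox).cut 2 Bern.Ax.right).cut 0 Bern.Ax.right).cut 1 Bern.Ax.right).cut 2
    Bern.Ax.right).cut 3 Bern.Ax.left).cut 0 Bern.Ax.left).cut 1 Bern.Ax.right) = true ∧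
    Bern.coverU row22.cfg row22.P row22P32
      ((((((((Bern.unitBox).cut 2 Bern.Ax.right).cut 0 Bern.Ax.right).cut 1 Bern.Ax.right).cut 2
    Bern.Ax.right).cut 3 Bern.Ax.left).cut 0 Bern.Ax.right).cut 1 Bern.Ax.left) = true ∧
    Bern.coverU row22.cfg row22.P row22P33
      (((((((((Bern.unitBox).cut 2 Bern.Ax.right).cut 0 Bern.Ax.right).cut 1 Bern.Ax.right).cut 2
    Bern.Ax.right).cut 3 Bern.Ax.left).cut 0 Bern.Ax.right).cut 1 Bern.Ax.right).cut 2
    Bern.Ax.left) = true ∧
    Bern.coverU row22.cfg row22.P row22P34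
      (((((((((Bern.unitBox).cut 2 Bern.Ax.right).cut 0 Bern.Ax.right).cut 1 Bern.Ax.right).cut 2
    Bern.Ax.right).cut 3 Bern.Ax.left).cut 0 Bern.Ax.right).cut 1 Bern.Ax.right).cut 2
    Bern.Ax.right) = true ∧
    Bern.coverU row22.cfg row22.P row22P35
      ((((((Bern.unitBox).cut 2 Bern.Ax.right).cut 0 Bern.Ax.right).cut 1 Bern.Ax.right).cut 2
    Bern.Ax.right).cut 3 Bern.Ax.right) = true ∧
    Bern.coverU row22.cfg3 row22.R3 row22R0
      ((box3).cut 0 Bern.Ax.left) = true ∧
    Bern.coverU row22.cfg3 row22.R3 row22R1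
      ((((box3).cut 0 Bern.Ax.right).cut 1 Bern.Ax.left).cut 2 Bern.Ax.left) = true ∧
    Bern.coverU row22.cfg3 row22.R3 row22R2
      ((((box3).cut 0 Bern.Ax.right).cut 1 Bern.Ax.left).cut 2 Bern.Ax.right) = true ∧
    Bern.coverU row22.cfg3 row22.R3 row22R3
      ((((box3).cut 0 Bern.Ax.right).cut 1 Bern.Ax.right).cut 2 Bern.Ax.left) = true ∧
    Bern.coverU row22.cfg3 row22.R3 row22R4
      (((((box3).cut 0 Bern.Ax.right).cut 1 Bern.Ax.right).cut 2 Bern.Ax.right).cut 0 Bern.Ax.left) = true ∧
    Bern.coverU row22.cfg3 row22.R3 row22R5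
      ((((((box3).cut 0 Bern.Ax.right).cut 1 Bern.Ax.right).cut 2 Bern.Ax.right).cut 0
    Bern.Ax.right).cut 1 Bern.Ax.left) = true ∧
    Bern.coverU row22.cfg3 row22.R3 row22R6
      (((((((box3).cut 0 Bern.Ax.right).cut 1 Bern.Ax.right).cut 2 Bern.Ax.right).cut 0
    Bern.Ax.right).cut 1 Bern.Ax.right).cut 2 Bern.Ax.left) = true ∧
    Bern.coverU row22.cfg3 row22.R3 row22R7
      ((((((((box3).cut 0 Bern.Ax.right).cut 1 Bern.Ax.right).cut 2 Bern.Ax.right).cut 0
    Bern.Ax.right).cut 1 Bern.Ax.right).cut 2 Bern.Ax.right).cut 0 Bern.Ax.left) = true ∧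
    Bern.coverU row22.cfg3 row22.R3 row22R8
      ((((((((box3).cut 0 Bern.Ax.right).cut 1 Bern.Ax.right).cut 2 Bern.Ax.right).cut 0
    Bern.Ax.right).cut 1 Bern.Ax.right).cut 2 Bern.Ax.right).cut 0 Bern.Ax.right) = true := by
  exact ⟨by decide +kernel,
    by decide +kernel,
    by decide +kernel,
    by decide +kernel,
    by decide +kernel,
    by decide +kernel,
    by decide +kernel,
    by decide +kernel,
    by decide +kernel,
    by decide +kernel,
    by decide +kernel,
    by decide +kernel,
    by decide +kernel,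
    by decide +kernel,
    by decide +kernel,
    by decide +kernel,
    by decide +kernel,
    by decide +kernel,
    by decide +kernel,
    by decide +kernel,
    by decide +kernel,
    by decide +kernel,
    by decide +kernel,
    by decide +kernel,
    by decide +kernel,
    by decide +kernel,
    by decide +kernel,
    by decide +kernel,
    by decide +kernel,
    by decide +kernel,
    by decide +kernel,
    by decide +kernel,
    by decide +kernel,
    by decide +kernel,
    by decide +kernel,
    by decide +kernel,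
    by decide +kernel,
    by decide +kernel,
    by decide +kernel,
    by decide +kernel,
    by decide +kernel,
    by decide +kernel,
    by decide +kernel,
    by decide +kernel,
    by decide +kernel,
    by decide +kernel⟩

theorem row22_rest : rowRest (terms 0) row22 = true := row22_parts.1

theorem row22_cover : Bern.coverU row22.cfg row22.P row22.cov Bern.unitBox = true :=
  (Bern.coverU_split (Bern.coverU_split (row22_parts.2.1) (Bern.coverU_split (Bern.coverU_split
    (row22_parts.2.2.1) (row22_parts.2.2.2.1)) (row22_parts.2.2.2.2.1))) (Bern.coverU_split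
    (Bern.coverU_split (row22_parts.2.2.2.2.2.1) (row22_parts.2.2.2.2.2.2.1)) (Bern.coverU_split
    (Bern.coverU_split (Bern.coverU_split (Bern.coverU_split (Bern.coverU_split
    (row22_parts.2.2.2.2.2.2.2.1) (Bern.coverU_split (row22_parts.2.2.2.2.2.2.2.2.1)
    (row22_parts.2.2.2.2.2.2.2.2.2.1))) (row22_parts.2.2.2.2.2.2.2.2.2.2.1))
    (row22_parts.2.2.2.2.2.2.2.2.2.2.2.1)) (Bern.coverU_split (Bern.coverU_split
    (Bern.coverU_split (row22_parts.2.2.2.2.2.2.2.2.2.2.2.2.1)
    (row22_parts.2.2.2.2.2.2.2.2.2.2.2.2.2.1)) (Bern.coverU_split (Bern.coverU_split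
    (row22_parts.2.2.2.2.2.2.2.2.2.2.2.2.2.2.1) (Bern.coverU_split (Bern.coverU_split
    (Bern.coverU_split (Bern.coverU_split (Bern.coverU_split (Bern.coverU_split
    (row22_parts.2.2.2.2.2.2.2.2.2.2.2.2.2.2.2.1) (row22_parts.2.2.2.2.2.2.2.2.2.2.2.2.2.2.2.2.1))
    (row22_parts.2.2.2.2.2.2.2.2.2.2.2.2.2.2.2.2.2.1)) (Bern.coverU_split
    (row22_parts.2.2.2.2.2.2.2.2.2.2.2.2.2.2.2.2.2.2.1)
    (row22_parts.2.2.2.2.2.2.2.2.2.2.2.2.2.2.2.2.2.2.2.1)))
    (row22_parts.2.2.2.2.2.2.2.2.2.2.2.2.2.2.2.2.2.2.2.2.1))
    (row22_parts.2.2.2.2.2.2.2.2.2.2.2.2.2.2.2.2.2.2.2.2.2.1))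
    (row22_parts.2.2.2.2.2.2.2.2.2.2.2.2.2.2.2.2.2.2.2.2.2.2.1)))
    (row22_parts.2.2.2.2.2.2.2.2.2.2.2.2.2.2.2.2.2.2.2.2.2.2.2.1)))
    (row22_parts.2.2.2.2.2.2.2.2.2.2.2.2.2.2.2.2.2.2.2.2.2.2.2.2.1))) (Bern.coverU_split
    (Bern.coverU_split (Bern.coverU_split (Bern.coverU_split (Bern.coverU_split
    (row22_parts.2.2.2.2.2.2.2.2.2.2.2.2.2.2.2.2.2.2.2.2.2.2.2.2.2.1)
    (row22_parts.2.2.2.2.2.2.2.2.2.2.2.2.2.2.2.2.2.2.2.2.2.2.2.2.2.2.1))
    (row22_parts.2.2.2.2.2.2.2.2.2.2.2.2.2.2.2.2.2.2.2.2.2.2.2.2.2.2.2.1))
    (row22_parts.2.2.2.2.2.2.2.2.2.2.2.2.2.2.2.2.2.2.2.2.2.2.2.2.2.2.2.2.1))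
    (row22_parts.2.2.2.2.2.2.2.2.2.2.2.2.2.2.2.2.2.2.2.2.2.2.2.2.2.2.2.2.2.1)) (Bern.coverU_split
    (Bern.coverU_split (Bern.coverU_split (Bern.coverU_split
    (row22_parts.2.2.2.2.2.2.2.2.2.2.2.2.2.2.2.2.2.2.2.2.2.2.2.2.2.2.2.2.2.2.1)
    (row22_parts.2.2.2.2.2.2.2.2.2.2.2.2.2.2.2.2.2.2.2.2.2.2.2.2.2.2.2.2.2.2.2.1))
    (row22_parts.2.2.2.2.2.2.2.2.2.2.2.2.2.2.2.2.2.2.2.2.2.2.2.2.2.2.2.2.2.2.2.2.1))
    (Bern.coverU_split
    (row22_parts.2.2.2.2.2.2.2.2.2.2.2.2.2.2.2.2.2.2.2.2.2.2.2.2.2.2.2.2.2.2.2.2.2.1)
    (Bern.coverU_split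
    (row22_parts.2.2.2.2.2.2.2.2.2.2.2.2.2.2.2.2.2.2.2.2.2.2.2.2.2.2.2.2.2.2.2.2.2.2.1)
    (row22_parts.2.2.2.2.2.2.2.2.2.2.2.2.2.2.2.2.2.2.2.2.2.2.2.2.2.2.2.2.2.2.2.2.2.2.2.1))))
    (row22_parts.2.2.2.2.2.2.2.2.2.2.2.2.2.2.2.2.2.2.2.2.2.2.2.2.2.2.2.2.2.2.2.2.2.2.2.2.1))))))

theorem row22_cover3 : Bern.coverU row22.cfg3 row22.R3 row22.cov3 box3 = true :=
  (Bern.coverU_split
    (row22_parts.2.2.2.2.2.2.2.2.2.2.2.2.2.2.2.2.2.2.2.2.2.2.2.2.2.2.2.2.2.2.2.2.2.2.2.2.2.1)
    (Bern.coverU_split (Bern.coverU_split
    (row22_parts.2.2.2.2.2.2.2.2.2.2.2.2.2.2.2.2.2.2.2.2.2.2.2.2.2.2.2.2.2.2.2.2.2.2.2.2.2.2.1)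
    (row22_parts.2.2.2.2.2.2.2.2.2.2.2.2.2.2.2.2.2.2.2.2.2.2.2.2.2.2.2.2.2.2.2.2.2.2.2.2.2.2.2.1))
    (Bern.coverU_split
    (row22_parts.2.2.2.2.2.2.2.2.2.2.2.2.2.2.2.2.2.2.2.2.2.2.2.2.2.2.2.2.2.2.2.2.2.2.2.2.2.2.2.2.1)
    (Bern.coverU_split
    (row22_parts.2.2.2.2.2.2.2.2.2.2.2.2.2.2.2.2.2.2.2.2.2.2.2.2.2.2.2.2.2.2.2.2.2.2.2.2.2.2.2.2.2.1)
    (Bern.coverU_split
    (row22_parts.2.2.2.2.2.2.2.2.2.2.2.2.2.2.2.2.2.2.2.2.2.2.2.2.2.2.2.2.2.2.2.2.2.2.2.2.2.2.2.2.2.2.1)
    (Bern.coverU_split
    (row22_parts.2.2.2.2.2.2.2.2.2.2.2.2.2.2.2.2.2.2.2.2.2.2.2.2.2.2.2.2.2.2.2.2.2.2.2.2.2.2.2.2.2.2.2.1)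
    (Bern.coverU_split
    (row22_parts.2.2.2.2.2.2.2.2.2.2.2.2.2.2.2.2.2.2.2.2.2.2.2.2.2.2.2.2.2.2.2.2.2.2.2.2.2.2.2.2.2.2.2.2.1)
    (row22_parts.2.2.2.2.2.2.2.2.2.2.2.2.2.2.2.2.2.2.2.2.2.2.2.2.2.2.2.2.2.2.2.2.2.2.2.2.2.2.2.2.2.2.2.2.2))))))))

theorem row22_ok : rowFor 2 2 row22 = true := by
  simp only [rowFor, Bool.and_eq_true, decide_eq_true_eq]
  exact ⟨⟨⟨rfl, rfl⟩, rfl⟩, rowCheck_of_quick row22_rest row22_cover row22_cover3⟩

end Vale.Agent.P154.Anti
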