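import Vale.Agent.P154.Anti.RowData
import Vale.Agent.P154.RowQuick

/-!
P154: the certificate of the merge row 3 of piece 2.
-/


namespace Vale.Agent.P154.Anti

open Kron BudgetRow

/-- A part of a subdivision. -/
def row23P0 : Bern.Cover :=
  (.split 1 (.split 2 .leaf .leaf) (.split 2 .leaf .leaf))

/-- A part of a subdivision. -/
def row23P1 : Bern.Cover :=
  (.split 3 (.split 0 (.split 1 .leaf .leaf) .leaf) .leaf)

/-- A part of a subdivision. -/
def row23P2 : Bern.Cover :=
  (.split 3 (.split 0 .leaf .leaf) .leaf)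

/-- A part of a subdivision. -/
def row23P3 : Bern.Cover :=
  (.split 3 (.split 0 .leaf .leaf) .leaf)

/-- A part of a subdivision. -/
def row23P4 : Bern.Cover :=
  (.split 3 (.split 0 .leaf .leaf) .leaf)

/-- A part of a subdivision. -/
def row23P5 : Bern.Cover :=
  (.split 3 (.split 0 .leaf .leaf) .leaf)

/-- A part of a subdivision. -/
def row23P6 : Bern.Cover :=
  .leaf

/-- A part of a subdivision. -/
def row23P7 : Bern.Cover :=
  .leaf

/-- A part of a subdivision. -/
def row23P8 : Bern.Cover :=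
  (.split 2 .leaf (.split 3 (.split 0 .leaf .leaf) .leaf))

/-- A part of a subdivision. -/
def row23P9 : Bern.Cover :=
  (.split 2 .leaf (.split 3 .leaf .leaf))

/-- A part of a subdivision. -/
def row23P10 : Bern.Cover :=
  (.split 2 .leaf (.split 3 .leaf .leaf))

/-- A part of a subdivision. -/
def row23P11 : Bern.Cover :=
  (.split 1 .leaf (.split 2 (.split 3 (.split 0 .leaf .leaf) .leaf) .leaf))

/-- A part of a subdivision. -/
def row23P12 : Bern.Cover :=
  .leaf

/-- A part of a subdivision. -/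
def row23P13 : Bern.Cover :=
  .leaf

/-- A part of a subdivision. -/
def row23P14 : Bern.Cover :=
  (.split 1 .leaf (.split 2 (.split 3 .leaf .leaf) (.split 3 .leaf .leaf)))

/-- A part of a subdivision. -/
def row23P15 : Bern.Cover :=
  (.split 1 (.split 2 .leaf (.split 3 .leaf .leaf)) .leaf)

/-- A part of a subdivision. -/
def row23P16 : Bern.Cover :=
  .leaf

/-- A part of a subdivision. -/
def row23P17 : Bern.Cover :=
  (.split 3 (.split 0 .leaf .leaf) .leaf)

/-- A part of a subdivision. -/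
def row23P18 : Bern.Cover :=
  .leaf

/-- A part of a subdivision. -/
def row23P19 : Bern.Cover :=
  (.split 1 .leaf (.split 2 .leaf (.split 3 (.split 0 .leaf .leaf) .leaf)))

/-- A part of a subdivision. -/
def row23P20 : Bern.Cover :=
  .leaf

/-- A part of a subdivision. -/
def row23R0 : Bern.Cover :=
  .leaf

/-- A part of a subdivision. -/
def row23R1 : Bern.Cover :=
  (.split 0 (.split 1 (.split 2 .leaf .leaf) (.split 2 .leaf .leaf)) (.split 1 (.split 2 .leaf
    (.split 0 .leaf (.split 1 (.split 2 .leaf .leaf) (.split 2 .leaf .leaf)))) (.split 2 .leaf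
    (.split 0 .leaf (.split 1 (.split 2 .leaf .leaf) (.split 2 .leaf .leaf))))))

/-- A part of a subdivision. -/
def row23R2 : Bern.Cover :=
  (.split 2 .leaf (.split 0 (.split 1 (.split 2 .leaf .leaf) (.split 2 .leaf .leaf)) (.split 1
    (.split 2 .leaf (.split 0 .leaf (.split 1 (.split 2 .leaf .leaf) (.split 2 .leaf .leaf))))
    (.split 2 .leaf .leaf))))

/-- A part of a subdivision. -/
def row23R3 : Bern.Cover :=
  .leaf

/-- A part of a subdivision. -/
def row23R4 : Bern.Cover :=
  .leaf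

/-- A part of a subdivision. -/
def row23R5 : Bern.Cover :=
  (.split 2 .leaf (.split 0 (.split 1 (.split 2 .leaf .leaf) (.split 2 .leaf .leaf)) (.split 1
    .leaf (.split 2 .leaf .leaf))))

/-- A part of a subdivision. -/
def row23R6 : Bern.Cover :=
  (.split 2 .leaf (.split 0 (.split 1 (.split 2 .leaf .leaf) (.split 2 .leaf .leaf)) (.split 1
    (.split 2 .leaf .leaf) (.split 2 .leaf .leaf))))

/-- A part of a subdivision. -/
def row23R7 : Bern.Cover :=
  (.split 1 (.split 2 .leaf .leaf) (.split 2 .leaf .leaf))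

/-- A part of a subdivision. -/
def row23R8 : Bern.Cover :=
  .leaf

/-- A part of a subdivision. -/
def row23R9 : Bern.Cover :=
  (.split 0 (.split 1 (.split 2 .leaf (.split 0 .leaf (.split 1 (.split 2 .leaf .leaf) (.split 2
    .leaf .leaf)))) (.split 2 .leaf (.split 0 .leaf (.split 1 (.split 2 .leaf .leaf) .leaf))))
    (.split 1 (.split 2 .leaf .leaf) (.split 2 .leaf (.split 0 .leaf .leaf))))

/-- A part of a subdivision. -/
def row23R10 : Bern.Cover :=
  (.split 1 .leaf (.split 2 .leaf .leaf))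

/-- A part of a subdivision. -/
def row23R11 : Bern.Cover :=
  .leaf

/-- A part of a subdivision. -/
def row23R12 : Bern.Cover :=
  (.split 2 .leaf (.split 0 (.split 1 (.split 2 .leaf .leaf) (.split 2 .leaf .leaf)) (.split 1
    (.split 2 .leaf (.split 0 .leaf .leaf)) (.split 2 .leaf .leaf))))

/-- A part of a subdivision. -/
def row23R13 : Bern.Cover :=
  (.split 2 .leaf (.split 0 (.split 1 (.split 2 .leaf .leaf) (.split 2 .leaf .leaf)) (.split 1
    (.split 2 .leaf .leaf) (.split 2 .leaf .leaf))))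

/-- A part of a subdivision. -/
def row23R14 : Bern.Cover :=
  (.split 1 (.split 2 .leaf (.split 0 (.split 1 (.split 2 .leaf .leaf) (.split 2 .leaf .leaf))
    .leaf)) (.split 2 .leaf (.split 0 (.split 1 (.split 2 .leaf .leaf) (.split 2 .leaf .leaf))
    .leaf)))

/-- A part of a subdivision. -/
def row23R15 : Bern.Cover :=
  (.split 0 .leaf (.split 1 (.split 2 .leaf .leaf) .leaf))

/-- A part of a subdivision. -/
def row23R16 : Bern.Cover :=
  (.split 2 .leaf (.split 0 (.split 1 (.split 2 .leaf .leaf) (.split 2 .leaf .leaf)) (.split 1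
    (.split 2 .leaf .leaf) (.split 2 .leaf .leaf))))

/-- A part of a subdivision. -/
def row23R17 : Bern.Cover :=
  (.split 2 .leaf (.split 0 (.split 1 (.split 2 .leaf .leaf) (.split 2 .leaf .leaf)) (.split 1
    (.split 2 .leaf .leaf) (.split 2 .leaf .leaf))))

/-- A part of a subdivision. -/
def row23R18 : Bern.Cover :=
  .leaf

/-- A part of a subdivision. -/
def row23R19 : Bern.Cover :=
  (.split 2 .leaf (.split 0 (.split 1 (.split 2 .leaf .leaf) (.split 2 .leaf .leaf)) (.split 1
    (.split 2 .leaf .leaf) (.split 2 .leaf .leaf))))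

/-- A part of a subdivision. -/
def row23R20 : Bern.Cover :=
  (.split 2 .leaf (.split 0 (.split 1 (.split 2 .leaf .leaf) (.split 2 .leaf .leaf)) (.split 1
    (.split 2 .leaf .leaf) (.split 2 .leaf .leaf))))

/-- A part of a subdivision. -/
def row23R21 : Bern.Cover :=
  (.split 2 .leaf (.split 0 (.split 1 (.split 2 .leaf .leaf) (.split 2 .leaf .leaf)) (.split 1
    (.split 2 .leaf .leaf) (.split 2 .leaf .leaf))))

/-- A part of a subdivision. -/
def row23R22 : Bern.Cover :=
  (.split 2 .leaf (.split 0 (.split 1 (.split 2 .leaf .leaf) (.split 2 .leaf .leaf)) (.split 1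
    (.split 2 .leaf .leaf) (.split 2 .leaf .leaf))))

/-- A part of a subdivision. -/
def row23R23 : Bern.Cover :=
  .leaf

/-- A part of a subdivision. -/
def row23R24 : Bern.Cover :=
  (.split 1 (.split 2 .leaf (.split 0 .leaf (.split 1 (.split 2 .leaf .leaf) (.split 2 .leaf
    .leaf)))) (.split 2 .leaf (.split 0 .leaf (.split 1 (.split 2 .leaf .leaf) (.split 2 .leaf
    .leaf)))))

/-- A part of a subdivision. -/
def row23R25 : Bern.Cover :=
  (.split 2 .leaf (.split 0 (.split 1 (.split 2 .leaf .leaf) (.split 2 .leaf .leaf)) (.split 1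
    (.split 2 .leaf .leaf) (.split 2 .leaf .leaf))))

/-- A part of a subdivision. -/
def row23R26 : Bern.Cover :=
  (.split 2 .leaf (.split 0 (.split 1 (.split 2 .leaf .leaf) (.split 2 .leaf .leaf)) (.split 1
    (.split 2 .leaf .leaf) (.split 2 .leaf .leaf))))

/-- A part of a subdivision. -/
def row23R27 : Bern.Cover :=
  .leaf

/-- A part of a subdivision. -/
def row23R28 : Bern.Cover :=
  (.split 0 .leaf (.split 1 (.split 2 (.split 0 .leaf (.split 1 (.split 2 (.split 0 .leaf (.split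
    1 (.split 2 .leaf .leaf) .leaf)) .leaf) .leaf)) .leaf) .leaf))

/-- A part of a subdivision. -/
def row23R29 : Bern.Cover :=
  (.split 1 (.split 2 (.split 0 .leaf (.split 1 (.split 2 .leaf (.split 0 .leaf .leaf)) (.split 2
    .leaf .leaf))) .leaf) (.split 2 .leaf .leaf))

/-- A part of a subdivision. -/
def row23R30 : Bern.Cover :=
  (.split 2 (.split 0 (.split 1 (.split 2 .leaf .leaf) (.split 2 .leaf .leaf)) .leaf) (.split 0
    .leaf (.split 1 (.split 2 .leaf (.split 0 .leaf (.split 1 (.split 2 .leaf .leaf) .leaf)))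
    .leaf)))

/-- A part of a subdivision. -/
def row23R31 : Bern.Cover :=
  (.split 2 (.split 0 (.split 1 (.split 2 .leaf .leaf) .leaf) .leaf) (.split 0 (.split 1 .leaf
    .leaf) (.split 1 .leaf (.split 2 (.split 0 (.split 1 .leaf (.split 2 (.split 0 .leaf .leaf)
    .leaf)) .leaf) .leaf))))

/-- A part of a subdivision. -/
def row23R32 : Bern.Cover :=
  (.split 0 (.split 1 (.split 2 .leaf (.split 0 (.split 1 .leaf (.split 2 .leaf .leaf)) .leaf))
    (.split 2 .leaf (.split 0 (.split 1 (.split 2 .leaf .leaf) (.split 2 .leaf .leaf)) .leaf)))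
    .leaf)

/-- A part of a subdivision. -/
def row23R33 : Bern.Cover :=
  .leaf

/-- A part of a subdivision. -/
def row23R34 : Bern.Cover :=
  .leaf

/-- A part of a subdivision. -/
def row23R35 : Bern.Cover :=
  .leaf

/-- A part of a subdivision. -/
def row23R36 : Bern.Cover :=
  (.split 2 (.split 0 .leaf (.split 1 .leaf (.split 2 .leaf (.split 0 .leaf .leaf)))) (.split 0
    .leaf (.split 1 .leaf (.split 2 (.split 0 (.split 1 .leaf (.split 2 .leaf .leaf)) .leaf)
    .leaf))))

/-- A part of a subdivision. -/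
def row23R37 : Bern.Cover :=
  (.split 0 .leaf .leaf)

/-- A part of a subdivision. -/
def row23R38 : Bern.Cover :=
  (.split 0 .leaf (.split 1 (.split 2 (.split 0 (.split 1 (.split 2 .leaf .leaf) (.split 2 .leaf
    .leaf)) (.split 1 (.split 2 .leaf .leaf) (.split 2 .leaf .leaf))) .leaf) (.split 2 (.split 0
    .leaf (.split 1 (.split 2 .leaf .leaf) .leaf)) .leaf)))

/-- A part of a subdivision. -/
def row23R39 : Bern.Cover :=
  (.split 1 .leaf (.split 2 .leaf .leaf))

/-- A part of a subdivision. -/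
def row23R40 : Bern.Cover :=
  (.split 0 .leaf .leaf)

/-- A part of a subdivision. -/
def row23R41 : Bern.Cover :=
  (.split 2 (.split 0 (.split 1 (.split 2 .leaf (.split 0 .leaf (.split 1 (.split 2 .leaf .leaf)
    .leaf))) .leaf) (.split 1 (.split 2 .leaf .leaf) .leaf)) (.split 0 .leaf .leaf))

/-- A part of a subdivision. -/
def row23R42 : Bern.Cover :=
  .leaf

/-- A part of a subdivision. -/
def row23R43 : Bern.Cover :=
  .leaf

/-- A part of a subdivision. -/
def row23R44 : Bern.Cover :=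
  (.split 2 (.split 0 .leaf .leaf) (.split 0 .leaf (.split 1 .leaf (.split 2 .leaf .leaf))))

/-- A part of a subdivision. -/
def row23R45 : Bern.Cover :=
  (.split 0 .leaf .leaf)

/-- A part of a subdivision. -/
def row23R46 : Bern.Cover :=
  .leaf

/-- A part of a subdivision. -/
def row23R47 : Bern.Cover :=
  (.split 2 (.split 0 .leaf .leaf) .leaf)

/-- A part of a subdivision. -/
def row23R48 : Bern.Cover :=
  (.split 0 .leaf (.split 1 (.split 2 .leaf (.split 0 .leaf .leaf)) (.split 2 (.split 0 .leaf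
    .leaf) (.split 0 .leaf (.split 1 (.split 2 .leaf .leaf) (.split 2 .leaf (.split 0 .leaf
    .leaf)))))))

/-- A part of a subdivision. -/
def row23R49 : Bern.Cover :=
  (.split 0 .leaf (.split 1 .leaf (.split 2 (.split 0 .leaf .leaf) .leaf)))

/-- The certificate. -/
def row23 : Row where
  W := terms 9
  D := slopeT 2 3
  G := [(80635900058352, 1, 0, 0, 0), (2510106719661594, 0, 0, 1, 0), (-5863907202215130, 1, 0, 1, 0),
    (4410561330235188, 2, 0, 1, 0), (-882593536985352, 3, 0, 1, 0),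
    (-307211978045376, 3, 0, 0, 0), (534658670709264, 4, 0, 0, 0), (-586257138884808, 5, 0, 0, 0),
    (432749530517472, 6, 0, 0, 0), (734737211094114, 1, 1, 0, 0), (-1902348402939054, 2, 1, 0, 0),
    (2913841480572000, 3, 1, 0, 0), (-2637600962081148, 4, 1, 0, 0),
    (7118436827471868, 0, 0, 2, 0), (-8319738026859372, 1, 0, 2, 0),
    (5446121694573537, 2, 0, 2, 0), (-2425920264821349, 3, 0, 2, 0),
    (-657830161615950, 4, 0, 1, 0), (470569860473004, 5, 0, 1, 0), (-94804845695532, 6, 0, 1, 0),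
    (-1431003776309694, 1, 1, 1, 0), (4133462301456372, 2, 1, 1, 0),
    (-4510593358520472, 3, 1, 1, 0), (2606704156248390, 4, 1, 1, 0),
    (-222666203080368, 7, 0, 0, 0), (81027733624668, 8, 0, 0, 0), (-20802175120152, 9, 0, 0, 0),
    (1544657116089294, 5, 1, 0, 0), (-618765828538788, 6, 1, 0, 0), (173847766427244, 7, 1, 0, 0),
    (5729993412869178, 2, 2, 0, 0), (-4276537177993308, 3, 2, 0, 0),
    (2287917175911759, 4, 2, 0, 0), (-877684583177109, 5, 2, 0, 0), (98054081489520, 2, 0, 0, 0),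
    (-411667814118420, 0, 1, 0, 0), (-214281080975178, 0, 1, 1, 0),
    (-5125633454040282, 1, 2, 0, 0), (580692395333862, 4, 0, 2, 0), (-23927931111330, 5, 0, 2, 0),
    (-14267848644360, 7, 0, 1, 0), (10385689558572, 8, 0, 1, 0), (-874282655531574, 5, 1, 1, 0),
    (171877283604900, 6, 1, 1, 0), (3688634741040, 10, 0, 0, 0), (-430102695456, 11, 0, 0, 0),
    (-34134049691928, 8, 1, 0, 0), (4499087280696, 9, 1, 0, 0), (232746588703512, 6, 2, 0, 0),
    (-40019540147766, 7, 2, 0, 0), (-8858621935123317, 0, 1, 2, 0),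
    (9527704439163210, 1, 1, 2, 0), (-3692040949375830, 2, 1, 2, 0),
    (538074247842432, 3, 1, 2, 0), (7282459680935742, 1, 2, 1, 0),
    (-6133321938350250, 2, 2, 1, 0), (2717727853460940, 3, 2, 1, 0),
    (-679035127156704, 4, 2, 1, 0), (-2480604507949401, 2, 3, 0, 0),
    (1381774022823618, 3, 3, 0, 0), (-469724898989754, 4, 3, 0, 0), (95717593193724, 5, 3, 0, 0),
    (2391233669059644, 0, 2, 0, 0), (-3454740086725476, 0, 2, 1, 0),
    (2599927471495908, 1, 3, 0, 0), (-1288420078527036, 0, 3, 0, 0),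
    (225177390622584, 0, 4, 0, 0), (-292352690422350, 1, 4, 0, 0), (153390558622680, 2, 4, 0, 0),
    (-40509391363236, 3, 4, 0, 0), (9495812942874, 4, 0, 3, 0), (2046473770437, 7, 0, 2, 0),
    (-5101948369386, 5, 1, 2, 0), (118267191234, 10, 0, 1, 0), (857871947214, 8, 1, 1, 0),
    (-5248724771574, 6, 2, 1, 0), (-918513296, 13, 0, 0, 0), (13059725826, 11, 1, 0, 0),
    (-172938724479, 9, 2, 0, 0), (508800091410, 7, 3, 0, 0), (-15442240982643, 6, 0, 2, 0),
    (-1866312335106, 9, 0, 1, 0), (-18539224998084, 7, 1, 1, 0), (29680821624, 12, 0, 0, 0),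
    (-358753141350, 10, 1, 0, 0), (3980510456643, 8, 2, 0, 0), (2242422483795, 4, 1, 2, 0),
    (91628281215702, 5, 2, 1, 0), (-10731880374057, 6, 3, 0, 0), (4179220614306, 4, 3, 1, 0),
    (-285559651638, 5, 4, 0, 0), (5371285296960, 4, 4, 0, 0), (-113949755314488, 3, 0, 3, 0),
    (-50150647371672, 3, 3, 1, 0), (512773898915196, 2, 0, 3, 0), (225677913172524, 2, 3, 1, 0),
    (-1025547797830392, 1, 0, 3, 0), (-451355826345048, 1, 3, 1, 0), (790663039452, 0, 0, 0, 0),
    (769160848372794, 0, 0, 3, 0), (338516869758786, 0, 3, 1, 0)]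
  a := 6377292
  e := slopeE 2
  kR := 96
  kG := 167772160000000
  kP := 225
  I := 12
  J := 8
  P := ⟨[(0, 1), (0, 2), (0, 3), (0, 4), (1, 0), (1, 1), (1, 2), (1, 3), (2, 0), (2, 1), (2, 2), (2, 3), (3, 0), (3, 1), (3, 2), (4, 0), (4, 1), (5, 0), (5, 1), (6, 0)],
    [
     ((0, 0), [ -58020864000000, 109542720028416, 0, 0, 8178201600000, 114422296405632,
        -80930066732928, 0, 90549304594176, -188417868514560, 0, 0, -260135077622784, 0, 0,
        266805617031552, 0, 0, 0, 0]),
     ((0, 1), [ 2533088332800000, -1953156468476544, 304444131600000, 0, -266540044800000,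
        -7715653242132288, 3511983386242752, -268780075200000, -961826345856384, 8002477077959040,
        -1651189377600000, 0, 1686170279744256, -2717834317800000, 0, -764491820861568,
        -30081214800000, -80216572800000, 0, 0]),
     ((0, 2), [ 14839416652800000, 3397925015902080, -2301499080800000, 106561859100000,
        5692070745600000, -40585400875851840, -6317611600344640, 2017775461100000,
        -24061175343669120, 34423483585427200, 3794332719300000, -51709979950000,
        25369860036046080, -8851385272000000, -187400972575000, -10777852038322240,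
        441876381200000, 2742972042100000, -248100533275000, -855972397737500]),
     ((0, 3), [ 19484424422400000, 18411992646400000, 1980568923200000, -1549563781200000,
        11467949875200000, -5261313856000000, -53233996112000000, 1402808011200000,
        -35422408627200000, -30226934217600000, 28380128638400000, 1591987327550000,
        17133914185600000, 8195514143600000, 3618774107300000, 23568236832400000, 3939240416150000,
        -16016676434800000, -1533299515712500, -641309984225000]),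
     ((0, 4), [ 0, 6819958982400000, 12396510249600000, -611163448000000, 0, 72463883488000000,
        -59554772582400000, -3692815227200000, 0, -83698192032000000, 21949872432800000,
        938873630000000, -3409979491200000, 4252513191200000, 3506249925200000, 21838633828800000,
        7501842382300000, -8477953714800000, -143943026650000, -330676829050000]),
     ((1, 0), [ -29459481600000, 382059159781632, -89593358400000, 0, 1376287872000000,
        -645820356299136, -203999367344256, 0, -3863057435758848, 1844494980602880,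
        -179186716800000, 0, 3925424541119232, -1009720244400000, 0, -1265096699671296, 0,
        -20054143200000, 0, 0]),
     ((1, 1), [ -30515464070400000, 20809052099413632, -328832116000000, -566124089750000,
        7063292812800000, 101855847328364864, -38650876161400256, 228859314500000,
        3247943810593152, -116111141007717120, 20211843687800000, -69177204400000,
        -18326553642048768, 50321698246400000, -1673820461700000, 12477063473632704,
        -4926138114325000, 1057707895650000, -377555535756250, -1303180858987500]),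
     ((1, 2), [ -110532580377600000, -24901525945783936, 26616998056000000, -3722173286400000,
        -10842337497600000, 307100616333147328, -13467224759790912, -12421618128400000,
        142656653044543104, -219257355905642240, -1074045440300000, 2419573819500000,
        -273535685376468736, 38573282648800000, 6837014958225000, 198076722699539008,
        5037153186000000, -37209937448900000, -3356249646325000, -2903288459362500]),
     ((1, 3), [ -68807699251200000, -64568814755200000, 5611232044800000, 1846407613600000, 0,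
        14646996128000000, 99372945027200000, -20601323720400000, 103211548876800000,
        158379560750400000, -51349789450400000, 1493936597200000, -233867955483200000,
        -16706450755000000, -5190347941200000, 109520803643200000, -6295326826800000,
        -1166816706400000, 85725629487500, 1125867949575000]),
     ((2, 0), [ 1811826278400000, -6176909789461248, 1106950269600000, 0, -16047596352000000,
        -1619805753568896, 8998080284006784, -806340225600000, 44497958051081472,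
        -9040615684696320, -2533238553300000, 36182795850000, -50108655761307648,
        11691159616800000, -523540971975000, 23251493904433344, -3641562192150000,
        -3262254036000000, -107490242137500, -406412896350000]),
     ((2, 1), [ 126386926368000000, -70003385983648640, -7556733554400000, 2615568501000000,
        -63740502873600000, -463294377613049280, 110115638995213120, 9898722546900000,
        73026271757400960, 595703478634102400, -49493991303450000, -1741950213137500,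
        32514314993199360, -273260239815900000, -4966436457100000, -90290942177326080,
        29528427311450000, 28844841514575000, -2150452253406250, -1491101664431250]),
     ((2, 2), [ 211352240332800000, 60709323508800000, -56760257276800000, 5487468108200000,
        -45871799500800000, -646778998009600000, -4296181761200000, 25674894725200000,
        -162127267411200000, 395951930427600000, 68906396146600000, -2933300165250000,
        718476680605600000, -39977936377600000, -32940750543700000, -557748286080200000,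
        -29385934853075000, 41803833279150000, 1280177489450000, 13200828866362500]),
     ((2, 3), [ 0, 6618877433600000, 25471797240800000, -1877747260000000, 0, -17709364326400000,
        -77426362224000000, 5975746388800000, -18525591475200000, -111484813640800000,
        23466401322000000, -287364447800000, 111117510403200000, 63622735189800000,
        10483572918500000, 60563599020000000, -39238899971050000, -33529296873600000,
        2225808291687500, -10252470996000000]),
     ((3, 0), [ -12266854886400000, 25607800599922560, -2141739273200000, -53280929550000,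
        64249898188800000, 35256776422653120, -68380547023276480, 7308373608850000,
        -201304875099795840, -15607858108089600, 44904792537850000, -868105550025000,
        286188336525730560, -26980050471400000, -2960716959387500, -175387152935979680,
        18299438717750000, 40201885929950000, -806686922137500, -1512181287643750]),
     ((3, 1), [ -173941396339200000, 70811082176000000, 8195514143600000, -531564148900000,
        129244191283200000, 805147171942400000, -77146565297600000, -4176612688750000,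
        -374117107737600000, -1093040959263600000, 19988968188800000, 3976420949362500,
        215840403771200000, 472105613458300000, 15655455887275000, 113761882294700000,
        -40752259202837500, -67671059966000000, 3000077875790625, 14280981459518750]),
     ((3, 2), [ 0, -11993662244800000, -28950192858400000, 3506249925200000, 0, 214249019097600000,
        109392239331600000, 10380695882400000, -134026488825600000, 158925966627200000,
        -131763002174800000, -5241786459250000, -189485885400800000, -125243647098200000,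
        20349007370200000, -11032748314800000, 18786690447300000, 124023743026350000,
        8030941916812500, -11341143560700000]),
     ((4, 0), [ 17176622553600000, -40795730017397632, -11784118416200000, 1364914614300000,
        -77196573811200000, -88194223549932864, 195857928029472256, -13690100455400000,
        379336724940382848, 172785022795557120, -139437071520050000, -1892612469375000,
        -707357507269135232, -56880941147350000, -689546769675000, 360993758725719296,
        4106537282787500, -40437002947600000, 2399754312281250, 12178073241506250]),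
     ((4, 1), [ -7700790988800000, -14140044198400000, 15756961664600000, -3750921191150000, 0,
        -315272839316800000, -40297225488000000, -6295326826800000, 466119960595200000,
        472454836983200000, 58771869706150000, -9809724992762500, -585582038968000000,
        -163009036811350000, -9393345223650000, -32852298262300000, 42867995137175000,
        98919736885225000, 2156965293496875, -15978679966575000]),
     ((5, 0), [ 10267721318400000, 43887552673600000, 32033352869600000, -2119488428700000,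
        -5133860659200000, -33846652660800000, -148839749795600000, 583408353200000,
        -208784258304000000, -230758732116600000, 41803833279150000, 4191162109200000,
        643230174879200000, 135342119932000000, 31005935756587500, -161748011790400000,
        -49459868442612500, -45052915860600000, 970346521125000, -19843706498625000]),
     ((5, 1), [ 0, 31756868259200000, -24532792251400000, 287886053300000, 0, -96654217153600000,
        107399988682400000, 342902517950000, 55035003974400000, -137628944218000000,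
        -10241419915600000, 2225808291687500, 103255926033600000, 48001246012650000,
        -16061883833625000, -76792137993000000, 8627861173987500, -7762772169000000,
        -4189108339650000, 20518788259462500]),
     ((6, 0), [ 0, -54782233455200000, 5130479873800000, -330676829050000, 0, 166807149950400000,
        -46452615349800000, -2251735899150000, -104041701465600000, 47715253261800000,
        52803315465450000, 5126235498000000, -96779602409200000, -114247851676150000,
        -11341143560700000, 194849171864100000, 31957359933150000, -79374825994500000,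
        -10259394129731250, 8664566564012500])]⟩
  cfg := ⟨13, 12, 11, 12, 13, 268⟩
  cov := (.split 2 (.split 0 row23P0 (.split 1 (.split 2 row23P1 (.split 3 (.split 0 (.split 1 (.split 2
    row23P2 row23P3) (.split 2 row23P4 row23P5)) row23P6) row23P7)) row23P8)) (.split 0 (.split 1
    row23P9 row23P10) (.split 1 (.split 2 (.split 3 (.split 0 row23P11 row23P12) row23P13) (.split
    3 (.split 0 row23P14 row23P15) row23P16)) (.split 2 row23P17 (.split 3 (.split 0 row23P18
    row23P19) row23P20)))))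
  lay := ⟨152, 14, 14, 14, 14⟩
  R3 := ⟨[(0, 1), (1, 0), (1, 1), (2, 0), (2, 1), (3, 0), (3, 1), (4, 0), (4, 1), (5, 0)],
    [
     ((0, 0), [ 506008791034092, 790663039452, 29398520316863196, 2856759307732476,
        -3698227632877278660, -81158377187735136, -15715743690908988072, 17104053795092808588,
        -12566406239567862912, 2558708879849406540]),
     ((0, 1), [ 173444996165760, 0, 151155812516644476, 2081339953989120, -2528098139246458932,
        -1129649448006329868, 71685604441064769768, 14055684796115585964, 94173048323729753688,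
        -205033598447913330552]),
     ((0, 2), [ -147395531232936, 0, -13265597810964240, -1768746374795232, -417866331045373560,
        -79593586865785440, 21719223939418177392, 18751603399890174000, 241219126777053355524,
        -201743241962460839928]),
     ((0, 3), [ 0, 0, 0, 0, 0, 0, 0, 0, 121115143828173634416, 0]),
     ((1, 0), [ -560781457966368, 0, -298949746031063856, 4385653485600924, 11023158987662030856,
        1064018980097996004, -106212193333113085956, -32663188615770386208, 153368920997887476168,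
        150529494188230970112]),
     ((1, 1), [ -145810550965716, 0, -13122949586914440, -1749726611588592, -100951095925995336,
        -78737697521486640, -63869757259863254688, -41729581998787845636, 536332039259207805036,
        47171935121520838068]),
     ((1, 2), [ -1224349302380256, 0, -110191437214223040, -14692191628563072,
        -3471030272248025760, -661148623285338240, -74974253880557356416, -16660945306790523648,
        -252188616542295910464, 376138791279454609404]),
     ((2, 0), [ 147603532988808, 0, 13284317968992720, 1771242395865696, -12760945663093968096,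
        1822915252558436796, 125197971497897353956, 30530544626811250152, -978070819479982534728,
        242228417930974351800]),
     ((2, 1), [ 3192435399660984, 0, 287319185969488560, 38309224795931808, 9050554358038889640,
        1723915115816931360, 59492675879604928008, 43442660918586670272, -337193253610818610284,
        -306408129152331623616]),
     ((3, 0), [ -1916381360588184, 0, -172474322452936560, -22996576327058208,
        -5432941157267501640, -1034845934717619360, -69602264541239222520, -718145149236358284,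
        335716812287962452648, -124090985735765563140]),
     ((3, 1), [ 0, 0, 0, 0, 0, 0, 0, 0, -359803487562957981252, 0]),
     ((4, 0), [ -137026207495944, 0, -12332358674634960, -1644314489951328, -388469298251001240,
        -73994152047809760, -8390936842221626784, -1864652631604805952, 429073571468173360896,
        83707339754621120184])]⟩
  cfg3 := ⟨9, 8, 9, 10, 11, 552⟩
  cov3 := (.split 0 (.split 1 (.split 2 (.split 0 (.split 1 (.split 2 row23R0 row23R1) row23R2) (.split 1
    (.split 2 row23R3 (.split 0 (.split 1 (.split 2 row23R4 (.split 0 (.split 1 row23R5 row23R6)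
    row23R7)) (.split 2 row23R8 row23R9)) row23R10)) (.split 2 row23R11 (.split 0 (.split 1
    row23R12 row23R13) row23R14)))) row23R15) (.split 2 (.split 0 (.split 1 row23R16 row23R17)
    (.split 1 (.split 2 row23R18 (.split 0 (.split 1 row23R19 row23R20) (.split 1 row23R21
    row23R22))) (.split 2 row23R23 (.split 0 row23R24 (.split 1 row23R25 row23R26))))) row23R27))
    (.split 1 (.split 2 row23R28 (.split 0 row23R29 (.split 1 row23R30 row23R31))) (.split 2
    row23R32 (.split 0 row23R33 (.split 1 (.split 2 row23R34 (.split 0 row23R35 (.split 1 (.split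
    2 (.split 0 (.split 1 row23R36 (.split 2 row23R37 row23R38)) row23R39) row23R40) row23R41)))
    (.split 2 row23R42 (.split 0 row23R43 (.split 1 row23R44 (.split 2 row23R45 (.split 0 row23R46
    (.split 1 row23R47 (.split 2 row23R48 row23R49))))))))))))
  lay3 := ⟨86, 5, 4, 16, 1⟩

set_option maxHeartbeats 8000000 in
theorem row23_parts :
    rowRest (terms 0) row23 = true ∧
    Bern.coverU row23.cfg row23.P row23P0
      (((Bern.unitBox).cut 2 Bern.Ax.left).cut 0 Bern.Ax.left) = true ∧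
    Bern.coverU row23.cfg row23.P row23P1
      (((((Bern.unitBox).cut 2 Bern.Ax.left).cut 0 Bern.Ax.right).cut 1 Bern.Ax.left).cut 2
    Bern.Ax.left) = true ∧
    Bern.coverU row23.cfg row23.P row23P2
      (((((((((Bern.unitBox).cut 2 Bern.Ax.left).cut 0 Bern.Ax.right).cut 1 Bern.Ax.left).cut 2
    Bern.Ax.right).cut 3 Bern.Ax.left).cut 0 Bern.Ax.left).cut 1 Bern.Ax.left).cut 2
    Bern.Ax.left) = true ∧
    Bern.coverU row23.cfg row23.P row23P3
      (((((((((Bern.unitBox).cut 2 Bern.Ax.left).cut 0 Bern.Ax.right).cut 1 Bern.Ax.left).cut 2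
    Bern.Ax.right).cut 3 Bern.Ax.left).cut 0 Bern.Ax.left).cut 1 Bern.Ax.left).cut 2
    Bern.Ax.right) = true ∧
    Bern.coverU row23.cfg row23.P row23P4
      (((((((((Bern.unitBox).cut 2 Bern.Ax.left).cut 0 Bern.Ax.right).cut 1 Bern.Ax.left).cut 2
    Bern.Ax.right).cut 3 Bern.Ax.left).cut 0 Bern.Ax.left).cut 1 Bern.Ax.right).cut 2
    Bern.Ax.left) = true ∧
    Bern.coverU row23.cfg row23.P row23P5
      (((((((((Bern.unitBox).cut 2 Bern.Ax.left).cut 0 Bern.Ax.right).cut 1 Bern.Ax.left).cut 2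
    Bern.Ax.right).cut 3 Bern.Ax.left).cut 0 Bern.Ax.left).cut 1 Bern.Ax.right).cut 2
    Bern.Ax.right) = true ∧
    Bern.coverU row23.cfg row23.P row23P6
      (((((((Bern.unitBox).cut 2 Bern.Ax.left).cut 0 Bern.Ax.right).cut 1 Bern.Ax.left).cut 2
    Bern.Ax.right).cut 3 Bern.Ax.left).cut 0 Bern.Ax.right) = true ∧
    Bern.coverU row23.cfg row23.P row23P7
      ((((((Bern.unitBox).cut 2 Bern.Ax.left).cut 0 Bern.Ax.right).cut 1 Bern.Ax.left).cut 2
    Bern.Ax.right).cut 3 Bern.Ax.right) = true ∧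
    Bern.coverU row23.cfg row23.P row23P8
      ((((Bern.unitBox).cut 2 Bern.Ax.left).cut 0 Bern.Ax.right).cut 1 Bern.Ax.right) = true ∧
    Bern.coverU row23.cfg row23.P row23P9
      ((((Bern.unitBox).cut 2 Bern.Ax.right).cut 0 Bern.Ax.left).cut 1 Bern.Ax.left) = true ∧
    Bern.coverU row23.cfg row23.P row23P10
      ((((Bern.unitBox).cut 2 Bern.Ax.right).cut 0 Bern.Ax.left).cut 1 Bern.Ax.right) = true ∧
    Bern.coverU row23.cfg row23.P row23P11
      (((((((Bern.unitBox).cut 2 Bern.Ax.right).cut 0 Bern.Ax.right).cut 1 Bern.Ax.left).cut 2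
    Bern.Ax.left).cut 3 Bern.Ax.left).cut 0 Bern.Ax.left) = true ∧
    Bern.coverU row23.cfg row23.P row23P12
      (((((((Bern.unitBox).cut 2 Bern.Ax.right).cut 0 Bern.Ax.right).cut 1 Bern.Ax.left).cut 2
    Bern.Ax.left).cut 3 Bern.Ax.left).cut 0 Bern.Ax.right) = true ∧
    Bern.coverU row23.cfg row23.P row23P13
      ((((((Bern.unitBox).cut 2 Bern.Ax.right).cut 0 Bern.Ax.right).cut 1 Bern.Ax.left).cut 2
    Bern.Ax.left).cut 3 Bern.Ax.right) = true ∧
    Bern.coverU row23.cfg row23.P row23P14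
      (((((((Bern.unitBox).cut 2 Bern.Ax.right).cut 0 Bern.Ax.right).cut 1 Bern.Ax.left).cut 2
    Bern.Ax.right).cut 3 Bern.Ax.left).cut 0 Bern.Ax.left) = true ∧
    Bern.coverU row23.cfg row23.P row23P15
      (((((((Bern.unitBox).cut 2 Bern.Ax.right).cut 0 Bern.Ax.right).cut 1 Bern.Ax.left).cut 2
    Bern.Ax.right).cut 3 Bern.Ax.left).cut 0 Bern.Ax.right) = true ∧
    Bern.coverU row23.cfg row23.P row23P16
      ((((((Bern.unitBox).cut 2 Bern.Ax.right).cut 0 Bern.Ax.right).cut 1 Bern.Ax.left).cut 2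
    Bern.Ax.right).cut 3 Bern.Ax.right) = true ∧
    Bern.coverU row23.cfg row23.P row23P17
      (((((Bern.unitBox).cut 2 Bern.Ax.right).cut 0 Bern.Ax.right).cut 1 Bern.Ax.right).cut 2
    Bern.Ax.left) = true ∧
    Bern.coverU row23.cfg row23.P row23P18
      (((((((Bern.unitBox).cut 2 Bern.Ax.right).cut 0 Bern.Ax.right).cut 1 Bern.Ax.right).cut 2
    Bern.Ax.right).cut 3 Bern.Ax.left).cut 0 Bern.Ax.left) = true ∧
    Bern.coverU row23.cfg row23.P row23P19
      (((((((Bern.unitBox).cut 2 Bern.Ax.right).cut 0 Bern.Ax.right).cut 1 Bern.Ax.right).cut 2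
    Bern.Ax.right).cut 3 Bern.Ax.left).cut 0 Bern.Ax.right) = true ∧
    Bern.coverU row23.cfg row23.P row23P20
      ((((((Bern.unitBox).cut 2 Bern.Ax.right).cut 0 Bern.Ax.right).cut 1 Bern.Ax.right).cut 2
    Bern.Ax.right).cut 3 Bern.Ax.right) = true ∧
    Bern.coverU row23.cfg3 row23.R3 row23R0
      (((((((box3).cut 0 Bern.Ax.left).cut 1 Bern.Ax.left).cut 2 Bern.Ax.left).cut 0
    Bern.Ax.left).cut 1 Bern.Ax.left).cut 2 Bern.Ax.left) = true ∧
    Bern.coverU row23.cfg3 row23.R3 row23R1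
      (((((((box3).cut 0 Bern.Ax.left).cut 1 Bern.Ax.left).cut 2 Bern.Ax.left).cut 0
    Bern.Ax.left).cut 1 Bern.Ax.left).cut 2 Bern.Ax.right) = true ∧
    Bern.coverU row23.cfg3 row23.R3 row23R2
      ((((((box3).cut 0 Bern.Ax.left).cut 1 Bern.Ax.left).cut 2 Bern.Ax.left).cut 0
    Bern.Ax.left).cut 1 Bern.Ax.right) = true ∧
    Bern.coverU row23.cfg3 row23.R3 row23R3
      (((((((box3).cut 0 Bern.Ax.left).cut 1 Bern.Ax.left).cut 2 Bern.Ax.left).cut 0
    Bern.Ax.right).cut 1 Bern.Ax.left).cut 2 Bern.Ax.left) = true ∧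
    Bern.coverU row23.cfg3 row23.R3 row23R4
      ((((((((((box3).cut 0 Bern.Ax.left).cut 1 Bern.Ax.left).cut 2 Bern.Ax.left).cut 0
    Bern.Ax.right).cut 1 Bern.Ax.left).cut 2 Bern.Ax.right).cut 0 Bern.Ax.left).cut 1
    Bern.Ax.left).cut 2 Bern.Ax.left) = true ∧
    Bern.coverU row23.cfg3 row23.R3 row23R5
      ((((((((((((box3).cut 0 Bern.Ax.left).cut 1 Bern.Ax.left).cut 2 Bern.Ax.left).cut 0
    Bern.Ax.right).cut 1 Bern.Ax.left).cut 2 Bern.Ax.right).cut 0 Bern.Ax.left).cut 1
    Bern.Ax.left).cut 2 Bern.Ax.right).cut 0 Bern.Ax.left).cut 1 Bern.Ax.left) = true ∧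
    Bern.coverU row23.cfg3 row23.R3 row23R6
      ((((((((((((box3).cut 0 Bern.Ax.left).cut 1 Bern.Ax.left).cut 2 Bern.Ax.left).cut 0
    Bern.Ax.right).cut 1 Bern.Ax.left).cut 2 Bern.Ax.right).cut 0 Bern.Ax.left).cut 1
    Bern.Ax.left).cut 2 Bern.Ax.right).cut 0 Bern.Ax.left).cut 1 Bern.Ax.right) = true ∧
    Bern.coverU row23.cfg3 row23.R3 row23R7
      (((((((((((box3).cut 0 Bern.Ax.left).cut 1 Bern.Ax.left).cut 2 Bern.Ax.left).cut 0
    Bern.Ax.right).cut 1 Bern.Ax.left).cut 2 Bern.Ax.right).cut 0 Bern.Ax.left).cut 1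
    Bern.Ax.left).cut 2 Bern.Ax.right).cut 0 Bern.Ax.right) = true ∧
    Bern.coverU row23.cfg3 row23.R3 row23R8
      ((((((((((box3).cut 0 Bern.Ax.left).cut 1 Bern.Ax.left).cut 2 Bern.Ax.left).cut 0
    Bern.Ax.right).cut 1 Bern.Ax.left).cut 2 Bern.Ax.right).cut 0 Bern.Ax.left).cut 1
    Bern.Ax.right).cut 2 Bern.Ax.left) = true ∧
    Bern.coverU row23.cfg3 row23.R3 row23R9
      ((((((((((box3).cut 0 Bern.Ax.left).cut 1 Bern.Ax.left).cut 2 Bern.Ax.left).cut 0
    Bern.Ax.right).cut 1 Bern.Ax.left).cut 2 Bern.Ax.right).cut 0 Bern.Ax.left).cut 1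
    Bern.Ax.right).cut 2 Bern.Ax.right) = true ∧
    Bern.coverU row23.cfg3 row23.R3 row23R10
      ((((((((box3).cut 0 Bern.Ax.left).cut 1 Bern.Ax.left).cut 2 Bern.Ax.left).cut 0
    Bern.Ax.right).cut 1 Bern.Ax.left).cut 2 Bern.Ax.right).cut 0 Bern.Ax.right) = true ∧
    Bern.coverU row23.cfg3 row23.R3 row23R11
      (((((((box3).cut 0 Bern.Ax.left).cut 1 Bern.Ax.left).cut 2 Bern.Ax.left).cut 0
    Bern.Ax.right).cut 1 Bern.Ax.right).cut 2 Bern.Ax.left) = true ∧
    Bern.coverU row23.cfg3 row23.R3 row23R12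
      (((((((((box3).cut 0 Bern.Ax.left).cut 1 Bern.Ax.left).cut 2 Bern.Ax.left).cut 0
    Bern.Ax.right).cut 1 Bern.Ax.right).cut 2 Bern.Ax.right).cut 0 Bern.Ax.left).cut 1
    Bern.Ax.left) = true ∧
    Bern.coverU row23.cfg3 row23.R3 row23R13
      (((((((((box3).cut 0 Bern.Ax.left).cut 1 Bern.Ax.left).cut 2 Bern.Ax.left).cut 0
    Bern.Ax.right).cut 1 Bern.Ax.right).cut 2 Bern.Ax.right).cut 0 Bern.Ax.left).cut 1
    Bern.Ax.right) = true ∧
    Bern.coverU row23.cfg3 row23.R3 row23R14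
      ((((((((box3).cut 0 Bern.Ax.left).cut 1 Bern.Ax.left).cut 2 Bern.Ax.left).cut 0
    Bern.Ax.right).cut 1 Bern.Ax.right).cut 2 Bern.Ax.right).cut 0 Bern.Ax.right) = true ∧
    Bern.coverU row23.cfg3 row23.R3 row23R15
      ((((box3).cut 0 Bern.Ax.left).cut 1 Bern.Ax.left).cut 2 Bern.Ax.right) = true ∧
    Bern.coverU row23.cfg3 row23.R3 row23R16
      ((((((box3).cut 0 Bern.Ax.left).cut 1 Bern.Ax.right).cut 2 Bern.Ax.left).cut 0
    Bern.Ax.left).cut 1 Bern.Ax.left) = true ∧
    Bern.coverU row23.cfg3 row23.R3 row23R17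
      ((((((box3).cut 0 Bern.Ax.left).cut 1 Bern.Ax.right).cut 2 Bern.Ax.left).cut 0
    Bern.Ax.left).cut 1 Bern.Ax.right) = true ∧
    Bern.coverU row23.cfg3 row23.R3 row23R18
      (((((((box3).cut 0 Bern.Ax.left).cut 1 Bern.Ax.right).cut 2 Bern.Ax.left).cut 0
    Bern.Ax.right).cut 1 Bern.Ax.left).cut 2 Bern.Ax.left) = true ∧
    Bern.coverU row23.cfg3 row23.R3 row23R19
      (((((((((box3).cut 0 Bern.Ax.left).cut 1 Bern.Ax.right).cut 2 Bern.Ax.left).cut 0
    Bern.Ax.right).cut 1 Bern.Ax.left).cut 2 Bern.Ax.right).cut 0 Bern.Ax.left).cut 1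
    Bern.Ax.left) = true ∧
    Bern.coverU row23.cfg3 row23.R3 row23R20
      (((((((((box3).cut 0 Bern.Ax.left).cut 1 Bern.Ax.right).cut 2 Bern.Ax.left).cut 0
    Bern.Ax.right).cut 1 Bern.Ax.left).cut 2 Bern.Ax.right).cut 0 Bern.Ax.left).cut 1
    Bern.Ax.right) = true ∧
    Bern.coverU row23.cfg3 row23.R3 row23R21
      (((((((((box3).cut 0 Bern.Ax.left).cut 1 Bern.Ax.right).cut 2 Bern.Ax.left).cut 0
    Bern.Ax.right).cut 1 Bern.Ax.left).cut 2 Bern.Ax.right).cut 0 Bern.Ax.right).cut 1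
    Bern.Ax.left) = true ∧
    Bern.coverU row23.cfg3 row23.R3 row23R22
      (((((((((box3).cut 0 Bern.Ax.left).cut 1 Bern.Ax.right).cut 2 Bern.Ax.left).cut 0
    Bern.Ax.right).cut 1 Bern.Ax.left).cut 2 Bern.Ax.right).cut 0 Bern.Ax.right).cut 1
    Bern.Ax.right) = true ∧
    Bern.coverU row23.cfg3 row23.R3 row23R23
      (((((((box3).cut 0 Bern.Ax.left).cut 1 Bern.Ax.right).cut 2 Bern.Ax.left).cut 0
    Bern.Ax.right).cut 1 Bern.Ax.right).cut 2 Bern.Ax.left) = true ∧
    Bern.coverU row23.cfg3 row23.R3 row23R24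
      ((((((((box3).cut 0 Bern.Ax.left).cut 1 Bern.Ax.right).cut 2 Bern.Ax.left).cut 0
    Bern.Ax.right).cut 1 Bern.Ax.right).cut 2 Bern.Ax.right).cut 0 Bern.Ax.left) = true ∧
    Bern.coverU row23.cfg3 row23.R3 row23R25
      (((((((((box3).cut 0 Bern.Ax.left).cut 1 Bern.Ax.right).cut 2 Bern.Ax.left).cut 0
    Bern.Ax.right).cut 1 Bern.Ax.right).cut 2 Bern.Ax.right).cut 0 Bern.Ax.right).cut 1
    Bern.Ax.left) = true ∧
    Bern.coverU row23.cfg3 row23.R3 row23R26
      (((((((((box3).cut 0 Bern.Ax.left).cut 1 Bern.Ax.right).cut 2 Bern.Ax.left).cut 0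
    Bern.Ax.right).cut 1 Bern.Ax.right).cut 2 Bern.Ax.right).cut 0 Bern.Ax.right).cut 1
    Bern.Ax.right) = true ∧
    Bern.coverU row23.cfg3 row23.R3 row23R27
      ((((box3).cut 0 Bern.Ax.left).cut 1 Bern.Ax.right).cut 2 Bern.Ax.right) = true ∧
    Bern.coverU row23.cfg3 row23.R3 row23R28
      ((((box3).cut 0 Bern.Ax.right).cut 1 Bern.Ax.left).cut 2 Bern.Ax.left) = true ∧
    Bern.coverU row23.cfg3 row23.R3 row23R29
      (((((box3).cut 0 Bern.Ax.right).cut 1 Bern.Ax.left).cut 2 Bern.Ax.right).cut 0 Bern.Ax.left) = true ∧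
    Bern.coverU row23.cfg3 row23.R3 row23R30
      ((((((box3).cut 0 Bern.Ax.right).cut 1 Bern.Ax.left).cut 2 Bern.Ax.right).cut 0
    Bern.Ax.right).cut 1 Bern.Ax.left) = true ∧
    Bern.coverU row23.cfg3 row23.R3 row23R31
      ((((((box3).cut 0 Bern.Ax.right).cut 1 Bern.Ax.left).cut 2 Bern.Ax.right).cut 0
    Bern.Ax.right).cut 1 Bern.Ax.right) = true ∧
    Bern.coverU row23.cfg3 row23.R3 row23R32
      ((((box3).cut 0 Bern.Ax.right).cut 1 Bern.Ax.right).cut 2 Bern.Ax.left) = true ∧
    Bern.coverU row23.cfg3 row23.R3 row23R33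
      (((((box3).cut 0 Bern.Ax.right).cut 1 Bern.Ax.right).cut 2 Bern.Ax.right).cut 0 Bern.Ax.left) = true ∧
    Bern.coverU row23.cfg3 row23.R3 row23R34
      (((((((box3).cut 0 Bern.Ax.right).cut 1 Bern.Ax.right).cut 2 Bern.Ax.right).cut 0
    Bern.Ax.right).cut 1 Bern.Ax.left).cut 2 Bern.Ax.left) = true ∧
    Bern.coverU row23.cfg3 row23.R3 row23R35
      ((((((((box3).cut 0 Bern.Ax.right).cut 1 Bern.Ax.right).cut 2 Bern.Ax.right).cut 0
    Bern.Ax.right).cut 1 Bern.Ax.left).cut 2 Bern.Ax.right).cut 0 Bern.Ax.left) = true ∧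
    Bern.coverU row23.cfg3 row23.R3 row23R36
      ((((((((((((box3).cut 0 Bern.Ax.right).cut 1 Bern.Ax.right).cut 2 Bern.Ax.right).cut 0
    Bern.Ax.right).cut 1 Bern.Ax.left).cut 2 Bern.Ax.right).cut 0 Bern.Ax.right).cut 1
    Bern.Ax.left).cut 2 Bern.Ax.left).cut 0 Bern.Ax.left).cut 1 Bern.Ax.left) = true ∧
    Bern.coverU row23.cfg3 row23.R3 row23R37
      (((((((((((((box3).cut 0 Bern.Ax.right).cut 1 Bern.Ax.right).cut 2 Bern.Ax.right).cut 0
    Bern.Ax.right).cut 1 Bern.Ax.left).cut 2 Bern.Ax.right).cut 0 Bern.Ax.right).cut 1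
    Bern.Ax.left).cut 2 Bern.Ax.left).cut 0 Bern.Ax.left).cut 1 Bern.Ax.right).cut 2
    Bern.Ax.left) = true ∧
    Bern.coverU row23.cfg3 row23.R3 row23R38
      (((((((((((((box3).cut 0 Bern.Ax.right).cut 1 Bern.Ax.right).cut 2 Bern.Ax.right).cut 0
    Bern.Ax.right).cut 1 Bern.Ax.left).cut 2 Bern.Ax.right).cut 0 Bern.Ax.right).cut 1
    Bern.Ax.left).cut 2 Bern.Ax.left).cut 0 Bern.Ax.left).cut 1 Bern.Ax.right).cut 2
    Bern.Ax.right) = true ∧
    Bern.coverU row23.cfg3 row23.R3 row23R39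
      (((((((((((box3).cut 0 Bern.Ax.right).cut 1 Bern.Ax.right).cut 2 Bern.Ax.right).cut 0
    Bern.Ax.right).cut 1 Bern.Ax.left).cut 2 Bern.Ax.right).cut 0 Bern.Ax.right).cut 1
    Bern.Ax.left).cut 2 Bern.Ax.left).cut 0 Bern.Ax.right) = true ∧
    Bern.coverU row23.cfg3 row23.R3 row23R40
      ((((((((((box3).cut 0 Bern.Ax.right).cut 1 Bern.Ax.right).cut 2 Bern.Ax.right).cut 0
    Bern.Ax.right).cut 1 Bern.Ax.left).cut 2 Bern.Ax.right).cut 0 Bern.Ax.right).cut 1
    Bern.Ax.left).cut 2 Bern.Ax.right) = true ∧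
    Bern.coverU row23.cfg3 row23.R3 row23R41
      (((((((((box3).cut 0 Bern.Ax.right).cut 1 Bern.Ax.right).cut 2 Bern.Ax.right).cut 0
    Bern.Ax.right).cut 1 Bern.Ax.left).cut 2 Bern.Ax.right).cut 0 Bern.Ax.right).cut 1
    Bern.Ax.right) = true ∧
    Bern.coverU row23.cfg3 row23.R3 row23R42
      (((((((box3).cut 0 Bern.Ax.right).cut 1 Bern.Ax.right).cut 2 Bern.Ax.right).cut 0
    Bern.Ax.right).cut 1 Bern.Ax.right).cut 2 Bern.Ax.left) = true ∧
    Bern.coverU row23.cfg3 row23.R3 row23R43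
      ((((((((box3).cut 0 Bern.Ax.right).cut 1 Bern.Ax.right).cut 2 Bern.Ax.right).cut 0
    Bern.Ax.right).cut 1 Bern.Ax.right).cut 2 Bern.Ax.right).cut 0 Bern.Ax.left) = true ∧
    Bern.coverU row23.cfg3 row23.R3 row23R44
      (((((((((box3).cut 0 Bern.Ax.right).cut 1 Bern.Ax.right).cut 2 Bern.Ax.right).cut 0
    Bern.Ax.right).cut 1 Bern.Ax.right).cut 2 Bern.Ax.right).cut 0 Bern.Ax.right).cut 1
    Bern.Ax.left) = true ∧
    Bern.coverU row23.cfg3 row23.R3 row23R45
      ((((((((((box3).cut 0 Bern.Ax.right).cut 1 Bern.Ax.right).cut 2 Bern.Ax.right).cut 0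
    Bern.Ax.right).cut 1 Bern.Ax.right).cut 2 Bern.Ax.right).cut 0 Bern.Ax.right).cut 1
    Bern.Ax.right).cut 2 Bern.Ax.left) = true ∧
    Bern.coverU row23.cfg3 row23.R3 row23R46
      (((((((((((box3).cut 0 Bern.Ax.right).cut 1 Bern.Ax.right).cut 2 Bern.Ax.right).cut 0
    Bern.Ax.right).cut 1 Bern.Ax.right).cut 2 Bern.Ax.right).cut 0 Bern.Ax.right).cut 1
    Bern.Ax.right).cut 2 Bern.Ax.right).cut 0 Bern.Ax.left) = true ∧
    Bern.coverU row23.cfg3 row23.R3 row23R47
      ((((((((((((box3).cut 0 Bern.Ax.right).cut 1 Bern.Ax.right).cut 2 Bern.Ax.right).cut 0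
    Bern.Ax.right).cut 1 Bern.Ax.right).cut 2 Bern.Ax.right).cut 0 Bern.Ax.right).cut 1
    Bern.Ax.right).cut 2 Bern.Ax.right).cut 0 Bern.Ax.right).cut 1 Bern.Ax.left) = true ∧
    Bern.coverU row23.cfg3 row23.R3 row23R48
      (((((((((((((box3).cut 0 Bern.Ax.right).cut 1 Bern.Ax.right).cut 2 Bern.Ax.right).cut 0
    Bern.Ax.right).cut 1 Bern.Ax.right).cut 2 Bern.Ax.right).cut 0 Bern.Ax.right).cut 1
    Bern.Ax.right).cut 2 Bern.Ax.right).cut 0 Bern.Ax.right).cut 1 Bern.Ax.right).cut 2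
    Bern.Ax.left) = true ∧
    Bern.coverU row23.cfg3 row23.R3 row23R49
      (((((((((((((box3).cut 0 Bern.Ax.right).cut 1 Bern.Ax.right).cut 2 Bern.Ax.right).cut 0
    Bern.Ax.right).cut 1 Bern.Ax.right).cut 2 Bern.Ax.right).cut 0 Bern.Ax.right).cut 1
    Bern.Ax.right).cut 2 Bern.Ax.right).cut 0 Bern.Ax.right).cut 1 Bern.Ax.right).cut 2
    Bern.Ax.right) = true := by
  exact ⟨by decide +kernel,
    by decide +kernel,
    by decide +kernel,
    by decide +kernel,
    by decide +kernel,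
    by decide +kernel,
    by decide +kernel,
    by decide +kernel,
    by decide +kernel,
    by decide +kernel,
    by decide +kernel,
    by decide +kernel,
    by decide +kernel,
    by decide +kernel,
    by decide +kernel,
    by decide +kernel,
    by decide +kernel,
    by decide +kernel,
    by decide +kernel,
    by decide +kernel,
    by decide +kernel,
    by decide +kernel,
    by decide +kernel,
    by decide +kernel,
    by decide +kernel,
    by decide +kernel,
    by decide +kernel,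
    by decide +kernel,
    by decide +kernel,
    by decide +kernel,
    by decide +kernel,
    by decide +kernel,
    by decide +kernel,
    by decide +kernel,
    by decide +kernel,
    by decide +kernel,
    by decide +kernel,
    by decide +kernel,
    by decide +kernel,
    by decide +kernel,
    by decide +kernel,
    by decide +kernel,
    by decide +kernel,
    by decide +kernel,
    by decide +kernel,
    by decide +kernel,
    by decide +kernel,
    by decide +kernel,
    by decide +kernel,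
    by decide +kernel,
    by decide +kernel,
    by decide +kernel,
    by decide +kernel,
    by decide +kernel,
    by decide +kernel,
    by decide +kernel,
    by decide +kernel,
    by decide +kernel,
    by decide +kernel,
    by decide +kernel,
    by decide +kernel,
    by decide +kernel,
    by decide +kernel,
    by decide +kernel,
    by decide +kernel,
    by decide +kernel,
    by decide +kernel,
    by decide +kernel,
    by decide +kernel,
    by decide +kernel,
    by decide +kernel,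
    by decide +kernel⟩

theorem row23_rest : rowRest (terms 0) row23 = true := row23_parts.1

theorem row23_cover : Bern.coverU row23.cfg row23.P row23.cov Bern.unitBox = true :=
  (Bern.coverU_split (Bern.coverU_split (row23_parts.2.1) (Bern.coverU_split (Bern.coverU_split
    (row23_parts.2.2.1) (Bern.coverU_split (Bern.coverU_split (Bern.coverU_split
    (Bern.coverU_split (row23_parts.2.2.2.1) (row23_parts.2.2.2.2.1)) (Bern.coverU_split
    (row23_parts.2.2.2.2.2.1) (row23_parts.2.2.2.2.2.2.1))) (row23_parts.2.2.2.2.2.2.2.1))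
    (row23_parts.2.2.2.2.2.2.2.2.1))) (row23_parts.2.2.2.2.2.2.2.2.2.1))) (Bern.coverU_split
    (Bern.coverU_split (row23_parts.2.2.2.2.2.2.2.2.2.2.1) (row23_parts.2.2.2.2.2.2.2.2.2.2.2.1))
    (Bern.coverU_split (Bern.coverU_split (Bern.coverU_split (Bern.coverU_split
    (row23_parts.2.2.2.2.2.2.2.2.2.2.2.2.1) (row23_parts.2.2.2.2.2.2.2.2.2.2.2.2.2.1))
    (row23_parts.2.2.2.2.2.2.2.2.2.2.2.2.2.2.1)) (Bern.coverU_split (Bern.coverU_split
    (row23_parts.2.2.2.2.2.2.2.2.2.2.2.2.2.2.2.1) (row23_parts.2.2.2.2.2.2.2.2.2.2.2.2.2.2.2.2.1))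
    (row23_parts.2.2.2.2.2.2.2.2.2.2.2.2.2.2.2.2.2.1))) (Bern.coverU_split
    (row23_parts.2.2.2.2.2.2.2.2.2.2.2.2.2.2.2.2.2.2.1) (Bern.coverU_split (Bern.coverU_split
    (row23_parts.2.2.2.2.2.2.2.2.2.2.2.2.2.2.2.2.2.2.2.1)
    (row23_parts.2.2.2.2.2.2.2.2.2.2.2.2.2.2.2.2.2.2.2.2.1))
    (row23_parts.2.2.2.2.2.2.2.2.2.2.2.2.2.2.2.2.2.2.2.2.2.1))))))

theorem row23_cover3 : Bern.coverU row23.cfg3 row23.R3 row23.cov3 box3 = true :=
  (Bern.coverU_split (Bern.coverU_split (Bern.coverU_split (Bern.coverU_split (Bern.coverU_split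
    (Bern.coverU_split (row23_parts.2.2.2.2.2.2.2.2.2.2.2.2.2.2.2.2.2.2.2.2.2.2.1)
    (row23_parts.2.2.2.2.2.2.2.2.2.2.2.2.2.2.2.2.2.2.2.2.2.2.2.1))
    (row23_parts.2.2.2.2.2.2.2.2.2.2.2.2.2.2.2.2.2.2.2.2.2.2.2.2.1)) (Bern.coverU_split
    (Bern.coverU_split (row23_parts.2.2.2.2.2.2.2.2.2.2.2.2.2.2.2.2.2.2.2.2.2.2.2.2.2.1)
    (Bern.coverU_split (Bern.coverU_split (Bern.coverU_split
    (row23_parts.2.2.2.2.2.2.2.2.2.2.2.2.2.2.2.2.2.2.2.2.2.2.2.2.2.2.1) (Bern.coverU_split
    (Bern.coverU_split (row23_parts.2.2.2.2.2.2.2.2.2.2.2.2.2.2.2.2.2.2.2.2.2.2.2.2.2.2.2.1)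
    (row23_parts.2.2.2.2.2.2.2.2.2.2.2.2.2.2.2.2.2.2.2.2.2.2.2.2.2.2.2.2.1))
    (row23_parts.2.2.2.2.2.2.2.2.2.2.2.2.2.2.2.2.2.2.2.2.2.2.2.2.2.2.2.2.2.1))) (Bern.coverU_split
    (row23_parts.2.2.2.2.2.2.2.2.2.2.2.2.2.2.2.2.2.2.2.2.2.2.2.2.2.2.2.2.2.2.1)
    (row23_parts.2.2.2.2.2.2.2.2.2.2.2.2.2.2.2.2.2.2.2.2.2.2.2.2.2.2.2.2.2.2.2.1)))
    (row23_parts.2.2.2.2.2.2.2.2.2.2.2.2.2.2.2.2.2.2.2.2.2.2.2.2.2.2.2.2.2.2.2.2.1)))
    (Bern.coverU_split
    (row23_parts.2.2.2.2.2.2.2.2.2.2.2.2.2.2.2.2.2.2.2.2.2.2.2.2.2.2.2.2.2.2.2.2.2.1)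
    (Bern.coverU_split (Bern.coverU_split
    (row23_parts.2.2.2.2.2.2.2.2.2.2.2.2.2.2.2.2.2.2.2.2.2.2.2.2.2.2.2.2.2.2.2.2.2.2.1)
    (row23_parts.2.2.2.2.2.2.2.2.2.2.2.2.2.2.2.2.2.2.2.2.2.2.2.2.2.2.2.2.2.2.2.2.2.2.2.1))
    (row23_parts.2.2.2.2.2.2.2.2.2.2.2.2.2.2.2.2.2.2.2.2.2.2.2.2.2.2.2.2.2.2.2.2.2.2.2.2.1)))))
    (row23_parts.2.2.2.2.2.2.2.2.2.2.2.2.2.2.2.2.2.2.2.2.2.2.2.2.2.2.2.2.2.2.2.2.2.2.2.2.2.1))
    (Bern.coverU_split (Bern.coverU_split (Bern.coverU_split
    (row23_parts.2.2.2.2.2.2.2.2.2.2.2.2.2.2.2.2.2.2.2.2.2.2.2.2.2.2.2.2.2.2.2.2.2.2.2.2.2.2.1)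
    (row23_parts.2.2.2.2.2.2.2.2.2.2.2.2.2.2.2.2.2.2.2.2.2.2.2.2.2.2.2.2.2.2.2.2.2.2.2.2.2.2.2.1))
    (Bern.coverU_split (Bern.coverU_split
    (row23_parts.2.2.2.2.2.2.2.2.2.2.2.2.2.2.2.2.2.2.2.2.2.2.2.2.2.2.2.2.2.2.2.2.2.2.2.2.2.2.2.2.1)
    (Bern.coverU_split (Bern.coverU_split
    (row23_parts.2.2.2.2.2.2.2.2.2.2.2.2.2.2.2.2.2.2.2.2.2.2.2.2.2.2.2.2.2.2.2.2.2.2.2.2.2.2.2.2.2.1)
    (row23_parts.2.2.2.2.2.2.2.2.2.2.2.2.2.2.2.2.2.2.2.2.2.2.2.2.2.2.2.2.2.2.2.2.2.2.2.2.2.2.2.2.2.2.1))
    (Bern.coverU_split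
    (row23_parts.2.2.2.2.2.2.2.2.2.2.2.2.2.2.2.2.2.2.2.2.2.2.2.2.2.2.2.2.2.2.2.2.2.2.2.2.2.2.2.2.2.2.2.1)
    (row23_parts.2.2.2.2.2.2.2.2.2.2.2.2.2.2.2.2.2.2.2.2.2.2.2.2.2.2.2.2.2.2.2.2.2.2.2.2.2.2.2.2.2.2.2.2.1))))
    (Bern.coverU_split
    (row23_parts.2.2.2.2.2.2.2.2.2.2.2.2.2.2.2.2.2.2.2.2.2.2.2.2.2.2.2.2.2.2.2.2.2.2.2.2.2.2.2.2.2.2.2.2.2.1)
    (Bern.coverU_split
    (row23_parts.2.2.2.2.2.2.2.2.2.2.2.2.2.2.2.2.2.2.2.2.2.2.2.2.2.2.2.2.2.2.2.2.2.2.2.2.2.2.2.2.2.2.2.2.2.2.1)
    (Bern.coverU_split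
    (row23_parts.2.2.2.2.2.2.2.2.2.2.2.2.2.2.2.2.2.2.2.2.2.2.2.2.2.2.2.2.2.2.2.2.2.2.2.2.2.2.2.2.2.2.2.2.2.2.2.1)
    (row23_parts.2.2.2.2.2.2.2.2.2.2.2.2.2.2.2.2.2.2.2.2.2.2.2.2.2.2.2.2.2.2.2.2.2.2.2.2.2.2.2.2.2.2.2.2.2.2.2.2.1))))))
    (row23_parts.2.2.2.2.2.2.2.2.2.2.2.2.2.2.2.2.2.2.2.2.2.2.2.2.2.2.2.2.2.2.2.2.2.2.2.2.2.2.2.2.2.2.2.2.2.2.2.2.2.1)))
    (Bern.coverU_split (Bern.coverU_split
    (row23_parts.2.2.2.2.2.2.2.2.2.2.2.2.2.2.2.2.2.2.2.2.2.2.2.2.2.2.2.2.2.2.2.2.2.2.2.2.2.2.2.2.2.2.2.2.2.2.2.2.2.2.1)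
    (Bern.coverU_split
    (row23_parts.2.2.2.2.2.2.2.2.2.2.2.2.2.2.2.2.2.2.2.2.2.2.2.2.2.2.2.2.2.2.2.2.2.2.2.2.2.2.2.2.2.2.2.2.2.2.2.2.2.2.2.1)
    (Bern.coverU_split
    (row23_parts.2.2.2.2.2.2.2.2.2.2.2.2.2.2.2.2.2.2.2.2.2.2.2.2.2.2.2.2.2.2.2.2.2.2.2.2.2.2.2.2.2.2.2.2.2.2.2.2.2.2.2.2.1)
    (row23_parts.2.2.2.2.2.2.2.2.2.2.2.2.2.2.2.2.2.2.2.2.2.2.2.2.2.2.2.2.2.2.2.2.2.2.2.2.2.2.2.2.2.2.2.2.2.2.2.2.2.2.2.2.2.1))))
    (Bern.coverU_split
    (row23_parts.2.2.2.2.2.2.2.2.2.2.2.2.2.2.2.2.2.2.2.2.2.2.2.2.2.2.2.2.2.2.2.2.2.2.2.2.2.2.2.2.2.2.2.2.2.2.2.2.2.2.2.2.2.2.1)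
    (Bern.coverU_split
    (row23_parts.2.2.2.2.2.2.2.2.2.2.2.2.2.2.2.2.2.2.2.2.2.2.2.2.2.2.2.2.2.2.2.2.2.2.2.2.2.2.2.2.2.2.2.2.2.2.2.2.2.2.2.2.2.2.2.1)
    (Bern.coverU_split (Bern.coverU_split
    (row23_parts.2.2.2.2.2.2.2.2.2.2.2.2.2.2.2.2.2.2.2.2.2.2.2.2.2.2.2.2.2.2.2.2.2.2.2.2.2.2.2.2.2.2.2.2.2.2.2.2.2.2.2.2.2.2.2.2.1)
    (Bern.coverU_split
    (row23_parts.2.2.2.2.2.2.2.2.2.2.2.2.2.2.2.2.2.2.2.2.2.2.2.2.2.2.2.2.2.2.2.2.2.2.2.2.2.2.2.2.2.2.2.2.2.2.2.2.2.2.2.2.2.2.2.2.2.1)
    (Bern.coverU_split (Bern.coverU_split (Bern.coverU_split (Bern.coverU_split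
    (row23_parts.2.2.2.2.2.2.2.2.2.2.2.2.2.2.2.2.2.2.2.2.2.2.2.2.2.2.2.2.2.2.2.2.2.2.2.2.2.2.2.2.2.2.2.2.2.2.2.2.2.2.2.2.2.2.2.2.2.2.1)
    (Bern.coverU_split
    (row23_parts.2.2.2.2.2.2.2.2.2.2.2.2.2.2.2.2.2.2.2.2.2.2.2.2.2.2.2.2.2.2.2.2.2.2.2.2.2.2.2.2.2.2.2.2.2.2.2.2.2.2.2.2.2.2.2.2.2.2.2.1)
    (row23_parts.2.2.2.2.2.2.2.2.2.2.2.2.2.2.2.2.2.2.2.2.2.2.2.2.2.2.2.2.2.2.2.2.2.2.2.2.2.2.2.2.2.2.2.2.2.2.2.2.2.2.2.2.2.2.2.2.2.2.2.2.1)))
    (row23_parts.2.2.2.2.2.2.2.2.2.2.2.2.2.2.2.2.2.2.2.2.2.2.2.2.2.2.2.2.2.2.2.2.2.2.2.2.2.2.2.2.2.2.2.2.2.2.2.2.2.2.2.2.2.2.2.2.2.2.2.2.2.1))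
    (row23_parts.2.2.2.2.2.2.2.2.2.2.2.2.2.2.2.2.2.2.2.2.2.2.2.2.2.2.2.2.2.2.2.2.2.2.2.2.2.2.2.2.2.2.2.2.2.2.2.2.2.2.2.2.2.2.2.2.2.2.2.2.2.2.1))
    (row23_parts.2.2.2.2.2.2.2.2.2.2.2.2.2.2.2.2.2.2.2.2.2.2.2.2.2.2.2.2.2.2.2.2.2.2.2.2.2.2.2.2.2.2.2.2.2.2.2.2.2.2.2.2.2.2.2.2.2.2.2.2.2.2.2.1))))
    (Bern.coverU_split
    (row23_parts.2.2.2.2.2.2.2.2.2.2.2.2.2.2.2.2.2.2.2.2.2.2.2.2.2.2.2.2.2.2.2.2.2.2.2.2.2.2.2.2.2.2.2.2.2.2.2.2.2.2.2.2.2.2.2.2.2.2.2.2.2.2.2.2.1)
    (Bern.coverU_split
    (row23_parts.2.2.2.2.2.2.2.2.2.2.2.2.2.2.2.2.2.2.2.2.2.2.2.2.2.2.2.2.2.2.2.2.2.2.2.2.2.2.2.2.2.2.2.2.2.2.2.2.2.2.2.2.2.2.2.2.2.2.2.2.2.2.2.2.2.1)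
    (Bern.coverU_split
    (row23_parts.2.2.2.2.2.2.2.2.2.2.2.2.2.2.2.2.2.2.2.2.2.2.2.2.2.2.2.2.2.2.2.2.2.2.2.2.2.2.2.2.2.2.2.2.2.2.2.2.2.2.2.2.2.2.2.2.2.2.2.2.2.2.2.2.2.2.1)
    (Bern.coverU_split
    (row23_parts.2.2.2.2.2.2.2.2.2.2.2.2.2.2.2.2.2.2.2.2.2.2.2.2.2.2.2.2.2.2.2.2.2.2.2.2.2.2.2.2.2.2.2.2.2.2.2.2.2.2.2.2.2.2.2.2.2.2.2.2.2.2.2.2.2.2.2.1)
    (Bern.coverU_split
    (row23_parts.2.2.2.2.2.2.2.2.2.2.2.2.2.2.2.2.2.2.2.2.2.2.2.2.2.2.2.2.2.2.2.2.2.2.2.2.2.2.2.2.2.2.2.2.2.2.2.2.2.2.2.2.2.2.2.2.2.2.2.2.2.2.2.2.2.2.2.2.1)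
    (Bern.coverU_split
    (row23_parts.2.2.2.2.2.2.2.2.2.2.2.2.2.2.2.2.2.2.2.2.2.2.2.2.2.2.2.2.2.2.2.2.2.2.2.2.2.2.2.2.2.2.2.2.2.2.2.2.2.2.2.2.2.2.2.2.2.2.2.2.2.2.2.2.2.2.2.2.2.1)
    (Bern.coverU_split
    (row23_parts.2.2.2.2.2.2.2.2.2.2.2.2.2.2.2.2.2.2.2.2.2.2.2.2.2.2.2.2.2.2.2.2.2.2.2.2.2.2.2.2.2.2.2.2.2.2.2.2.2.2.2.2.2.2.2.2.2.2.2.2.2.2.2.2.2.2.2.2.2.2.1)
    (row23_parts.2.2.2.2.2.2.2.2.2.2.2.2.2.2.2.2.2.2.2.2.2.2.2.2.2.2.2.2.2.2.2.2.2.2.2.2.2.2.2.2.2.2.2.2.2.2.2.2.2.2.2.2.2.2.2.2.2.2.2.2.2.2.2.2.2.2.2.2.2.2.2)))))))))))))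

theorem row23_ok : rowFor 2 3 row23 = true := by
  simp only [rowFor, Bool.and_eq_true, decide_eq_true_eq]
  exact ⟨⟨⟨rfl, rfl⟩, rfl⟩, rowCheck_of_quick row23_rest row23_cover row23_cover3⟩

end Vale.Agent.P154.Anti
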