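import Vale.Agent.P154.Anti.RowData
import Vale.Agent.P154.RowQuick

/-!
P154: the certificate of the merge row 3 of piece 3.
-/


namespace Vale.Agent.P154.Anti

open Kron BudgetRow

/-- A part of a subdivision. -/
def row33P0 : Bern.Cover :=
  (.split 3 (.split 0 .leaf .leaf) .leaf)

/-- A part of a subdivision. -/
def row33P1 : Bern.Cover :=
  (.split 3 (.split 0 .leaf .leaf) .leaf)

/-- A part of a subdivision. -/
def row33P2 : Bern.Cover :=
  .leaf

/-- A part of a subdivision. -/
def row33P3 : Bern.Cover :=
  (.split 1 .leaf .leaf)

/-- A part of a subdivision. -/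
def row33P4 : Bern.Cover :=
  (.split 3 (.split 0 .leaf .leaf) .leaf)

/-- A part of a subdivision. -/
def row33P5 : Bern.Cover :=
  (.split 3 (.split 0 .leaf .leaf) .leaf)

/-- A part of a subdivision. -/
def row33P6 : Bern.Cover :=
  (.split 2 .leaf (.split 3 .leaf .leaf))

/-- A part of a subdivision. -/
def row33P7 : Bern.Cover :=
  (.split 3 (.split 0 .leaf .leaf) .leaf)

/-- A part of a subdivision. -/
def row33P8 : Bern.Cover :=
  .leaf

/-- A part of a subdivision. -/
def row33P9 : Bern.Cover :=
  (.split 3 (.split 0 .leaf .leaf) .leaf)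

/-- A part of a subdivision. -/
def row33P10 : Bern.Cover :=
  (.split 3 (.split 0 .leaf .leaf) .leaf)

/-- A part of a subdivision. -/
def row33P11 : Bern.Cover :=
  .leaf

/-- A part of a subdivision. -/
def row33P12 : Bern.Cover :=
  .leaf

/-- A part of a subdivision. -/
def row33P13 : Bern.Cover :=
  (.split 2 .leaf (.split 3 (.split 0 .leaf (.split 1 .leaf .leaf)) .leaf))

/-- A part of a subdivision. -/
def row33R0 : Bern.Cover :=
  (.split 1 (.split 2 .leaf (.split 0 .leaf (.split 1 (.split 2 .leaf .leaf) .leaf))) (.split 2
    .leaf .leaf))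

/-- A part of a subdivision. -/
def row33R1 : Bern.Cover :=
  (.split 0 .leaf (.split 1 (.split 2 .leaf .leaf) .leaf))

/-- A part of a subdivision. -/
def row33R2 : Bern.Cover :=
  (.split 1 (.split 2 (.split 0 .leaf (.split 1 .leaf (.split 2 .leaf .leaf))) .leaf) (.split 2
    (.split 0 .leaf (.split 1 (.split 2 .leaf .leaf) (.split 2 (.split 0 .leaf (.split 1 .leaf
    (.split 2 .leaf .leaf))) .leaf))) .leaf))

/-- A part of a subdivision. -/
def row33R3 : Bern.Cover :=
  (.split 2 .leaf (.split 0 .leaf (.split 1 (.split 2 .leaf (.split 0 (.split 1 (.split 2 .leaf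
    .leaf) .leaf) (.split 1 (.split 2 .leaf .leaf) (.split 2 .leaf .leaf)))) (.split 2 .leaf
    (.split 0 .leaf (.split 1 (.split 2 .leaf .leaf) (.split 2 .leaf .leaf)))))))

/-- A part of a subdivision. -/
def row33R4 : Bern.Cover :=
  (.split 2 (.split 0 (.split 1 (.split 2 .leaf .leaf) (.split 2 (.split 0 (.split 1 .leaf (.split
    2 .leaf (.split 0 .leaf .leaf))) .leaf) .leaf)) .leaf) (.split 0 .leaf (.split 1 (.split 2
    .leaf (.split 0 .leaf (.split 1 (.split 2 .leaf .leaf) .leaf))) .leaf)))

/-- A part of a subdivision. -/
def row33R5 : Bern.Cover :=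
  .leaf

/-- A part of a subdivision. -/
def row33R6 : Bern.Cover :=
  (.split 1 (.split 2 (.split 0 .leaf (.split 1 (.split 2 (.split 0 .leaf (.split 1 (.split 2
    .leaf .leaf) .leaf)) .leaf) .leaf)) .leaf) (.split 2 .leaf .leaf))

/-- A part of a subdivision. -/
def row33R7 : Bern.Cover :=
  (.split 1 (.split 2 .leaf (.split 0 (.split 1 (.split 2 .leaf .leaf) .leaf) (.split 1 (.split 2
    .leaf .leaf) (.split 2 .leaf .leaf)))) (.split 2 .leaf (.split 0 .leaf (.split 1 (.split 2
    .leaf .leaf) .leaf))))

/-- A part of a subdivision. -/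
def row33R8 : Bern.Cover :=
  (.split 1 (.split 2 .leaf .leaf) (.split 2 .leaf .leaf))

/-- A part of a subdivision. -/
def row33R9 : Bern.Cover :=
  .leaf

/-- A part of a subdivision. -/
def row33R10 : Bern.Cover :=
  (.split 2 (.split 0 .leaf .leaf) .leaf)

/-- A part of a subdivision. -/
def row33R11 : Bern.Cover :=
  .leaf

/-- A part of a subdivision. -/
def row33R12 : Bern.Cover :=
  (.split 0 .leaf (.split 1 .leaf .leaf))

/-- A part of a subdivision. -/
def row33R13 : Bern.Cover :=
  (.split 0 (.split 1 (.split 2 .leaf .leaf) (.split 2 .leaf .leaf)) (.split 1 .leaf (.split 2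
    .leaf (.split 0 (.split 1 .leaf (.split 2 .leaf (.split 0 .leaf .leaf))) .leaf))))

/-- A part of a subdivision. -/
def row33R14 : Bern.Cover :=
  .leaf

/-- A part of a subdivision. -/
def row33R15 : Bern.Cover :=
  .leaf

/-- A part of a subdivision. -/
def row33R16 : Bern.Cover :=
  (.split 0 (.split 1 .leaf (.split 2 (.split 0 .leaf (.split 1 .leaf (.split 2 (.split 0 .leaf
    .leaf) (.split 0 .leaf .leaf)))) .leaf)) (.split 1 .leaf (.split 2 .leaf (.split 0 (.split 1
    .leaf (.split 2 .leaf .leaf)) .leaf))))

/-- A part of a subdivision. -/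
def row33R17 : Bern.Cover :=
  (.split 0 .leaf (.split 1 (.split 2 .leaf .leaf) (.split 2 .leaf .leaf)))

/-- The certificate. -/
def row33 : Row where
  W := terms 12
  D := slopeT 3 3
  G := [(388848326415048, 1, 0, 0, 0), (5917475975655348, 0, 0, 1, 0),
    (-7030251268064460, 1, 0, 1, 0), (-9819138921335964, 2, 0, 1, 0),
    (23070131911421928, 3, 0, 1, 0), (6320404721061864, 3, 0, 0, 0),
    (-7205921446984488, 4, 0, 0, 0), (4577784320752560, 5, 0, 0, 0),
    (-1422307756116504, 6, 0, 0, 0), (-2844866234943108, 1, 1, 0, 0),
    (2933805716865972, 2, 1, 0, 0), (-387332842096908, 3, 1, 0, 0),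
    (-1929793876209432, 4, 1, 0, 0), (34303311645707160, 0, 0, 2, 0),
    (-44872957691763966, 1, 0, 2, 0), (18253393537771836, 2, 0, 2, 0),
    (-322300802673306, 3, 0, 2, 0), (-17430141945867300, 4, 0, 1, 0),
    (5567227270745076, 5, 0, 1, 0), (60338314068516, 6, 0, 1, 0),
    (-49240167579461340, 1, 1, 1, 0), (47349015506659152, 2, 1, 1, 0),
    (-17932510551465252, 3, 1, 1, 0), (-551299420748412, 4, 1, 1, 0),
    (-96815779146432, 7, 0, 0, 0), (292484047950144, 8, 0, 0, 0), (-133331621498496, 9, 0, 0, 0),
    (2209031206595604, 5, 1, 0, 0), (-1339613935209684, 6, 1, 0, 0),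
    (535645115909388, 7, 1, 0, 0), (3103502222045556, 2, 2, 0, 0),
    (-2483094193199946, 3, 2, 0, 0), (2196765416649456, 4, 2, 0, 0),
    (-1523632275710370, 5, 2, 0, 0), (-2715514597397448, 2, 0, 0, 0),
    (722440453241088, 0, 1, 0, 0), (19400126580061272, 0, 1, 1, 0),
    (-2660636915125416, 1, 2, 0, 0), (-1504006958971152, 4, 0, 2, 0),
    (296781063668838, 5, 0, 2, 0), (-614107313039520, 7, 0, 1, 0), (194442310450440, 8, 0, 1, 0),
    (2644079936004252, 5, 1, 1, 0), (-867870414240768, 6, 1, 1, 0), (33010751693808, 10, 0, 0, 0),
    (-4863299198040, 11, 0, 0, 0), (-145459406709360, 8, 1, 0, 0), (25645045935672, 9, 1, 0, 0),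
    (633649042892916, 6, 2, 0, 0), (-148662902103534, 7, 2, 0, 0),
    (11995311928343004, 0, 1, 2, 0), (-11452730610375117, 1, 1, 2, 0),
    (3082501234981116, 2, 1, 2, 0), (223976195591094, 3, 1, 2, 0),
    (-4027156172526600, 1, 2, 1, 0), (7442294554756269, 2, 2, 1, 0),
    (-4111367074486092, 3, 2, 1, 0), (1073440986321258, 4, 2, 1, 0),
    (588320531000748, 2, 3, 0, 0), (2198165376775725, 3, 3, 0, 0),
    (-1431686590379100, 4, 3, 0, 0), (390924548658342, 5, 3, 0, 0), (835312984734456, 0, 2, 0, 0),
    (-2685211700488668, 0, 2, 1, 0), (-5434046141183244, 1, 3, 0, 0),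
    (4084572525780816, 0, 3, 0, 0), (2323260504013896, 0, 4, 0, 0),
    (-2825872644562740, 1, 4, 0, 0), (1372067832745440, 2, 4, 0, 0),
    (-330055769707704, 3, 4, 0, 0), (-55437823585773, 4, 0, 3, 0), (-3434185069578, 7, 0, 2, 0),
    (24386455049085, 5, 1, 2, 0), (1375948201932, 10, 0, 1, 0), (-6280179364008, 8, 1, 1, 0),
    (6865678445409, 6, 2, 1, 0), (-14402283496, 13, 0, 0, 0), (117091543212, 11, 1, 0, 0),
    (-918225037350, 9, 2, 0, 0), (2617305498279, 7, 3, 0, 0), (2646178084764, 6, 0, 2, 0),
    (-26349943317552, 9, 0, 1, 0), (120100813498980, 7, 1, 1, 0), (401814907800, 12, 0, 0, 0),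
    (-2622202728984, 10, 1, 0, 0), (18278365210128, 8, 2, 0, 0), (-213657378917616, 4, 1, 2, 0),
    (-136793719781892, 5, 2, 1, 0), (-51055448469192, 6, 3, 0, 0), (-5145932521692, 4, 3, 1, 0),
    (-1800962007012, 5, 4, 0, 0), (39042972528120, 4, 4, 0, 0), (665253883029276, 3, 0, 3, 0),
    (61751190260304, 3, 3, 1, 0), (-2993642473631742, 2, 0, 3, 0), (-277880356171368, 2, 3, 1, 0),
    (5987284947263484, 1, 0, 3, 0), (555760712342736, 1, 3, 1, 0), (171308450290752, 0, 0, 0, 0),
    (-4490463710447613, 0, 0, 3, 0), (-416820534257052, 0, 3, 1, 0)]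
  a := 12754584
  e := slopeE 3
  kR := 384
  kG := 2181038080000000
  kP := 1125
  I := 12
  J := 8
  P := ⟨[(0, 1), (0, 2), (0, 3), (0, 4), (1, 0), (1, 1), (1, 2), (1, 3), (2, 0), (2, 1), (2, 2), (2, 3), (3, 0), (3, 1), (3, 2), (4, 0), (4, 1), (5, 0), (5, 1), (6, 0)],
    [
     ((0, 0), [ -221243842560000, 452188072164864, 0, 0, 676204631040000, 61343688764928,
        -308608093821312, 0, -501402855300096, -593649784650240, 0, 0, -775422825639936, 0, 0,
        1344569412772608, 0, 0, 0, 0]),
     ((0, 1), [ -2982168384000000, 9320675993218560, -2585625828240000, 0, 3202510264320000,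
        10490714066565120, -12325975162644480, 958547051280000, 6344467473500160,
        -11039481105129600, 3102045972480000, 0, -17951829018973440, 5150380189500000, 0,
        13987601148832320, -1053315637920000, -2808841701120000, 0, 0]),
     ((0, 2), [ -70512794027520000, -102182117756882432, 3184215116160000, -669068522720000,
        71251964267520000, 130018340558497536, 110041374351110656, -8242256358700000,
        -178090121085629952, -6147009184474880, -57798681789160000, -264777417840000,
        372807444895379968, -87339404893000000, 11323474927310000, -326066680645026304,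
        37138116901470000, 119334099370460000, -986981592317500, -13390430837030000]),
     ((0, 3), [ -165480053007360000, -25473720929280000, 18292884213760000, -1612879097440000,
        -40898007521280000, 437854897392640000, -403759390960640000, 44066462710400000,
        260081868533760000, -827434979575360000, 315728886960760000, 10706812696320000,
        -666051379818240000, 551506518749160000, -47258921289320000, 930348256708000000,
        -172785575755650000, -466655895341740000, -8729115540860000, 49711923572805000]),
     ((0, 4), [ 0, -42820385454080000, 12903032779520000, 22286438462080000, 0,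
        -385855874876160000, -358995197666560000, 6898505095040000, 0, 368911391867200000,
        80033104020480000, -1509133884960000, 21410192727040000, -178057118670080000,
        -40049050867280000, 128953716174400000, -21127311805340000, -1049600116240000,
        1700612550585000, 795018267160000]),
     ((1, 0), [ -762046172160000, 2392470232481280, 319515683760000, 0, -13425688642560000,
        5073101030146560, -2197037600058240, 0, 19132554608302080, -2801151691564800,
        639031367520000, 0, -11358905292894720, -36433422480000, 0, 1040422724420160, 0,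
        -702210425280000, 0, 0]),
     ((1, 1), [ 40172581862400000, -72666285621553152, 27365931087040000, 3014499022470000,
        -80520621634560000, -124015132909339904, 143812778585308416, -10999846772980000,
        9133445553520128, 146255811748360320, -63406568260360000, -1123737395007500,
        138245908158613248, -56270782782500000, -4334262518755000, -195582560878710144,
        2388814850500000, 73973108216280000, 129102740032500, -6555445025415000]),
     ((1, 2), [ 384886029066240000, 434124812107921408, 201879695480320000, -22437199854160000,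
        -238285170478080000, -1119769456381622784, -227250785951544064, -24229862512440000,
        799577133500556288, 1049275052949470720, 104814191529320000, 19322265808560000,
        -1889679175320904192, -503239257947400000, 1434052107670000, 2152760135347394176,
        113912510660000, -969115796324000000, -26591817310727500, 92359306264420000]),
     ((1, 3), [ 245388045127680000, 263752203478400000, 176265850841600000, -3449252547520000, 0,
        -703990193470720000, 193838900099520000, -148856755303360000, -368082067691520000,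
        960308630627840000, 4836769970240000, 8655936489200000, 2029023401354560000,
        84335662911760000, -66319526538720000, -2344661453061200000, -88110037078050000,
        764987828566520000, 21928866634382500, 17989452104780000]),
     ((2, 0), [ -12112237263360000, -36724944631595520, -8127558391680000, 0, 107057673638400000,
        143312521032960, 45597032602076160, 2875641153840000, -206164756915422720,
        33103314548083200, -24122906173080000, -549223980045000, 235790065889268480,
        -16886161433700000, -421267286700000, -97366982831869440, -9068460297000000,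
        16525523008800000, 344121001965000, -1380770504880000]),
     ((2, 1), [ -168108557210880000, 31200473118676480, -206858744893840000, -11528480995850000,
        221623816842240000, 569519708638056960, -532594109190019840, 60019289414240000,
        -319661850028830720, -382537634346796800, 465352799054910000, 9960655259620000,
        -198459662195339520, -79300233778740000, -22243555863165000, 936697401618634560,
        99617689550047500, -541419315321105000, -21334630173260625, 49627122726528750]),
     ((2, 2), [ -397061884477440000, -924778908626560000, -631457773921520000, 20008276005120000,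
        163592030085120000, 2029010184331520000, 419256766117280000, -2418384985120000,
        -1543865995077120000, -3722822392439280000, -539628716028480000, 26803540287810000,
        3577928490194240000, 3615903924388340000, -22024821711100000, -3285297070097120000,
        -706510424241895000, 822797566406920000, 27983271099436250, 102455680283385000]),
     ((2, 3), [ 0, 33891509483520000, 171309003141120000, 3018267769920000, 0, -287676773121920000,
        -618312505873920000, 34623745956800000, 281202677783040000, 637481936615680000,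
        -214428322302480000, -53524411775380000, -538164959637760000, -488796530051960000,
        55537847668680000, 710084387021360000, -75729813050840000, 406128697903760000,
        47936110682785000, -86158290754185000]),
     ((3, 0), [ 137310064769280000, 359692566820275712, 83256422477280000, 334534261360000,
        -276489961743360000, -264254988628286976, -467046723786464896, -63406981292330000,
        984217304883244032, 98314734077950080, 223620530637140000, 4204413747170000,
        -1788685243693362688, -32714126700060000, -14759313884445000, 1043011375620590464,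
        123545050503095000, -172616073434090000, -4894313472473750, 18467987372705000]),
     ((3, 1), [ 329624332128000000, 698715239144000000, 551506518749160000, 22257139833760000,
        4663478077440000, -900332524520000000, 1006478515894800000, 21083915727940000,
        540357165878400000, -317200935114960000, -1807951962194170000, -30549783128247500,
        261713013600480000, 550139413170100000, 181772569559750000, -1992068894730460000,
        96269064386592500, 1439099200003075000, -3164233641960625, 7447870845187500]),
     ((3, 2), [ 0, 724702395347840000, 378071370314560000, -40049050867280000, 0,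
        554785602400640000, 22944833722720000, 132639053077440000, -107844425395200000,
        711793787621280000, -88099286844400000, -27768923834340000, -944596088604480000,
        -1454180556478000000, 324384860010900000, -718720670968560000, -204723291297330000,
        1129245886408900000, 64746107406727500, -193197437223765000]),
     ((4, 0), [ -410023003004160000, -1338532801068838912, -465174128354000000, 8059607260900000,
        258811045501440000, 1392375697625880576, 2186940921590010496, 293082681632650000,
        -1866607040836319232, -1749701353821118080, -821324267524280000, -22190137094417500,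
        4346967910302719488, 996034447365230000, -44920041935535000, -3263861153991700864,
        -439825054100575000, 680047514878160000, -5028594590313125, -10290395297162500]),
     ((4, 1), [ -269648803307520000, -1188419740847040000, -691142303022600000, 10563655902670000,
        0, 152884150432000000, -911300085280000, -88110037078050000, 1160762918016000000,
        1593883032800760000, 1413020848483790000, -18932453262710000, -3953441616099040000,
        385076257546370000, 102361645648665000, 3518600432804600000, -473137813505825000,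
        -2233736856521885000, -7658673012201250, -100771339697551250]),
     ((5, 0), [ 359531737743360000, 1909345589927360000, 933311790683480000, -262400029060000,
        -179765868871680000, -2367139462920960000, -3876463185296000000, -382493914283260000,
        1057633472563200000, 4331354522568840000, 822797566406920000, -50766087237970000,
        -2761857174945440000, -2878198400006150000, 282311471602225000, 2720190059512640000,
        1116868428260942500, -486522809196580000, -16324379438241875, -176319901956022500]),
     ((5, 1), [ 0, 126333643816640000, -139665848653760000, -3401225101170000, 0,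
        33050301448320000, 850938153943280000, 87715466537530000, -176189953006080000,
        -1365416331088680000, -223866168795490000, 47936110682785000, 626472124476640000,
        -50627738271370000, -129492214813455000, 160915026890020000, -30634692048805000,
        130595035505935000, -100104154887685000, 186343670382675000]),
     ((6, 0), [ 0, -856987573569920000, -397695388582440000, 795018267160000, 0,
        839096963253120000, 1477748900230720000, -35978904209560000, -353477249249280000,
        -1588067927248920000, 409822721133540000, 43079145377092500, 1181951191853120000,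
        -59582966761500000, -193197437223765000, -164646324754600000, 201542679395102500,
        -705279607824090000, -93171835191337500, 273300327497405000])]⟩
  cfg := ⟨13, 12, 11, 12, 13, 277⟩
  cov := (.split 2 (.split 0 (.split 1 (.split 2 row33P0 row33P1) row33P2) row33P3) (.split 0 (.split 1
    (.split 2 row33P4 row33P5) row33P6) (.split 1 (.split 2 row33P7 (.split 3 (.split 0 row33P8
    (.split 1 (.split 2 row33P9 row33P10) row33P11)) row33P12)) row33P13)))
  lay := ⟨158, 14, 14, 14, 14⟩
  R3 := ⟨[(0, 1), (1, 0), (1, 1), (2, 0), (2, 1), (3, 0), (3, 1), (4, 0), (4, 1), (5, 0)],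
    [
     ((0, 0), [ 4799011307608512, 171308450290752, 2010039370613171064, -152113310776082376,
        3075823942450060536, -9122216937132920904, -206089930493597960424, 80872304954384664144,
        -139565508786368072208, 225534957829653274200]),
     ((0, 1), [ 254375586635904, 0, 342437505482620152, 3052507039630848, -26183866453748323560,
        555185132728726104, 234757444354945915104, 54627393515807778120, -59439052287570646512,
        -484847032559682418920]),
     ((0, 2), [ -1374512909960376, 0, -123706161896433840, -16494154919524512,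
        -3896744099737665960, -742236971378603040, -61474093110402165720, 81324085080141281952,
        -252275290526839014720, -234123440952598324704]),
     ((0, 3), [ 0, 0, 0, 0, 0, 0, 0, 0, -707086377701922933432, 0]),
     ((1, 0), [ -757185738453432, 0, -90230482247829336, -28592121098950560, 26679577484286766584,
        -2129633567493318720, -246119605277234474232, -58175866943258526360, -92988423114380601696,
        636817028598441743328]),
     ((1, 1), [ 2162456391502728, 0, 194621075235245520, 25949476698032736, -22154820683819100696,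
        1167726451411473120, -108209366547631599240, 36046200631862575512, 2005844084861681748528,
        -530371706280057340632]),
     ((1, 2), [ 1679377593887784, 0, 151143983449900560, 20152531126653408, 4761035478671867640,
        906863900699403360, 102838366339312341024, 22852970297624964672, 1782212797422648800064,
        -503679043002391357968]),
     ((2, 0), [ -1940444822000952, 0, -174640033980085680, -23285337864011424,
        26777794950540469656, -438897038009095656, -218158485037060004064, 8377403181459034968,
        -481108696050671538480, 244459109506951810296]),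
     ((2, 1), [ -717340889957040, 0, -64560680096133600, -8608090679484480, -2033661423028208400,
        -387364080576801600, -149633130538846205928, -9761574830535400320, -129628804965168707784,
        -50284041539803479072]),
     ((3, 0), [ 1476382229063712, 0, 132874400615734080, 17716586748764544, 4185543619395623520,
        797246403694404480, 246832087353963333696, -60306031651844808432, -1458678542771989506024,
        744558394954889767824]),
     ((3, 1), [ 0, 0, 0, 0, 0, 0, 0, 0, 443031043092203943864, 0]),
     ((4, 0), [ -1845412470104976, 0, -166087122309447840, -22144949641259712,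
        -5231744352747606960, -996522733856687040, -113005678019348310336, -25112372893188513408,
        -1362276146065316384664, 750365836859299002696])]⟩
  cfg3 := ⟨9, 8, 9, 10, 11, 526⟩
  cov3 := (.split 0 row33R0 (.split 1 (.split 2 row33R1 (.split 0 row33R2 (.split 1 row33R3 row33R4)))
    (.split 2 row33R5 (.split 0 row33R6 (.split 1 (.split 2 (.split 0 (.split 1 (.split 2 (.split
    0 row33R7 row33R8) row33R9) row33R10) row33R11) row33R12) (.split 2 row33R13 (.split 0
    row33R14 (.split 1 row33R15 (.split 2 row33R16 row33R17)))))))))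
  lay3 := ⟨87, 5, 4, 16, 1⟩

set_option maxHeartbeats 8000000 in
theorem row33_parts :
    rowRest (terms 0) row33 = true ∧
    Bern.coverU row33.cfg row33.P row33P0
      (((((Bern.unitBox).cut 2 Bern.Ax.left).cut 0 Bern.Ax.left).cut 1 Bern.Ax.left).cut 2
    Bern.Ax.left) = true ∧
    Bern.coverU row33.cfg row33.P row33P1
      (((((Bern.unitBox).cut 2 Bern.Ax.left).cut 0 Bern.Ax.left).cut 1 Bern.Ax.left).cut 2
    Bern.Ax.right) = true ∧
    Bern.coverU row33.cfg row33.P row33P2
      ((((Bern.unitBox).cut 2 Bern.Ax.left).cut 0 Bern.Ax.left).cut 1 Bern.Ax.right) = true ∧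
    Bern.coverU row33.cfg row33.P row33P3
      (((Bern.unitBox).cut 2 Bern.Ax.left).cut 0 Bern.Ax.right) = true ∧
    Bern.coverU row33.cfg row33.P row33P4
      (((((Bern.unitBox).cut 2 Bern.Ax.right).cut 0 Bern.Ax.left).cut 1 Bern.Ax.left).cut 2
    Bern.Ax.left) = true ∧
    Bern.coverU row33.cfg row33.P row33P5
      (((((Bern.unitBox).cut 2 Bern.Ax.right).cut 0 Bern.Ax.left).cut 1 Bern.Ax.left).cut 2
    Bern.Ax.right) = true ∧
    Bern.coverU row33.cfg row33.P row33P6
      ((((Bern.unitBox).cut 2 Bern.Ax.right).cut 0 Bern.Ax.left).cut 1 Bern.Ax.right) = true ∧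
    Bern.coverU row33.cfg row33.P row33P7
      (((((Bern.unitBox).cut 2 Bern.Ax.right).cut 0 Bern.Ax.right).cut 1 Bern.Ax.left).cut 2
    Bern.Ax.left) = true ∧
    Bern.coverU row33.cfg row33.P row33P8
      (((((((Bern.unitBox).cut 2 Bern.Ax.right).cut 0 Bern.Ax.right).cut 1 Bern.Ax.left).cut 2
    Bern.Ax.right).cut 3 Bern.Ax.left).cut 0 Bern.Ax.left) = true ∧
    Bern.coverU row33.cfg row33.P row33P9
      (((((((((Bern.unitBox).cut 2 Bern.Ax.right).cut 0 Bern.Ax.right).cut 1 Bern.Ax.left).cut 2
    Bern.Ax.right).cut 3 Bern.Ax.left).cut 0 Bern.Ax.right).cut 1 Bern.Ax.left).cut 2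
    Bern.Ax.left) = true ∧
    Bern.coverU row33.cfg row33.P row33P10
      (((((((((Bern.unitBox).cut 2 Bern.Ax.right).cut 0 Bern.Ax.right).cut 1 Bern.Ax.left).cut 2
    Bern.Ax.right).cut 3 Bern.Ax.left).cut 0 Bern.Ax.right).cut 1 Bern.Ax.left).cut 2
    Bern.Ax.right) = true ∧
    Bern.coverU row33.cfg row33.P row33P11
      ((((((((Bern.unitBox).cut 2 Bern.Ax.right).cut 0 Bern.Ax.right).cut 1 Bern.Ax.left).cut 2
    Bern.Ax.right).cut 3 Bern.Ax.left).cut 0 Bern.Ax.right).cut 1 Bern.Ax.right) = true ∧
    Bern.coverU row33.cfg row33.P row33P12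
      ((((((Bern.unitBox).cut 2 Bern.Ax.right).cut 0 Bern.Ax.right).cut 1 Bern.Ax.left).cut 2
    Bern.Ax.right).cut 3 Bern.Ax.right) = true ∧
    Bern.coverU row33.cfg row33.P row33P13
      ((((Bern.unitBox).cut 2 Bern.Ax.right).cut 0 Bern.Ax.right).cut 1 Bern.Ax.right) = true ∧
    Bern.coverU row33.cfg3 row33.R3 row33R0
      ((box3).cut 0 Bern.Ax.left) = true ∧
    Bern.coverU row33.cfg3 row33.R3 row33R1
      ((((box3).cut 0 Bern.Ax.right).cut 1 Bern.Ax.left).cut 2 Bern.Ax.left) = true ∧
    Bern.coverU row33.cfg3 row33.R3 row33R2
      (((((box3).cut 0 Bern.Ax.right).cut 1 Bern.Ax.left).cut 2 Bern.Ax.right).cut 0 Bern.Ax.left) = true ∧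
    Bern.coverU row33.cfg3 row33.R3 row33R3
      ((((((box3).cut 0 Bern.Ax.right).cut 1 Bern.Ax.left).cut 2 Bern.Ax.right).cut 0
    Bern.Ax.right).cut 1 Bern.Ax.left) = true ∧
    Bern.coverU row33.cfg3 row33.R3 row33R4
      ((((((box3).cut 0 Bern.Ax.right).cut 1 Bern.Ax.left).cut 2 Bern.Ax.right).cut 0
    Bern.Ax.right).cut 1 Bern.Ax.right) = true ∧
    Bern.coverU row33.cfg3 row33.R3 row33R5
      ((((box3).cut 0 Bern.Ax.right).cut 1 Bern.Ax.right).cut 2 Bern.Ax.left) = true ∧
    Bern.coverU row33.cfg3 row33.R3 row33R6
      (((((box3).cut 0 Bern.Ax.right).cut 1 Bern.Ax.right).cut 2 Bern.Ax.right).cut 0 Bern.Ax.left) = true ∧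
    Bern.coverU row33.cfg3 row33.R3 row33R7
      (((((((((((box3).cut 0 Bern.Ax.right).cut 1 Bern.Ax.right).cut 2 Bern.Ax.right).cut 0
    Bern.Ax.right).cut 1 Bern.Ax.left).cut 2 Bern.Ax.left).cut 0 Bern.Ax.left).cut 1
    Bern.Ax.left).cut 2 Bern.Ax.left).cut 0 Bern.Ax.left) = true ∧
    Bern.coverU row33.cfg3 row33.R3 row33R8
      (((((((((((box3).cut 0 Bern.Ax.right).cut 1 Bern.Ax.right).cut 2 Bern.Ax.right).cut 0
    Bern.Ax.right).cut 1 Bern.Ax.left).cut 2 Bern.Ax.left).cut 0 Bern.Ax.left).cut 1
    Bern.Ax.left).cut 2 Bern.Ax.left).cut 0 Bern.Ax.right) = true ∧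
    Bern.coverU row33.cfg3 row33.R3 row33R9
      ((((((((((box3).cut 0 Bern.Ax.right).cut 1 Bern.Ax.right).cut 2 Bern.Ax.right).cut 0
    Bern.Ax.right).cut 1 Bern.Ax.left).cut 2 Bern.Ax.left).cut 0 Bern.Ax.left).cut 1
    Bern.Ax.left).cut 2 Bern.Ax.right) = true ∧
    Bern.coverU row33.cfg3 row33.R3 row33R10
      (((((((((box3).cut 0 Bern.Ax.right).cut 1 Bern.Ax.right).cut 2 Bern.Ax.right).cut 0
    Bern.Ax.right).cut 1 Bern.Ax.left).cut 2 Bern.Ax.left).cut 0 Bern.Ax.left).cut 1
    Bern.Ax.right) = true ∧
    Bern.coverU row33.cfg3 row33.R3 row33R11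
      ((((((((box3).cut 0 Bern.Ax.right).cut 1 Bern.Ax.right).cut 2 Bern.Ax.right).cut 0
    Bern.Ax.right).cut 1 Bern.Ax.left).cut 2 Bern.Ax.left).cut 0 Bern.Ax.right) = true ∧
    Bern.coverU row33.cfg3 row33.R3 row33R12
      (((((((box3).cut 0 Bern.Ax.right).cut 1 Bern.Ax.right).cut 2 Bern.Ax.right).cut 0
    Bern.Ax.right).cut 1 Bern.Ax.left).cut 2 Bern.Ax.right) = true ∧
    Bern.coverU row33.cfg3 row33.R3 row33R13
      (((((((box3).cut 0 Bern.Ax.right).cut 1 Bern.Ax.right).cut 2 Bern.Ax.right).cut 0
    Bern.Ax.right).cut 1 Bern.Ax.right).cut 2 Bern.Ax.left) = true ∧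
    Bern.coverU row33.cfg3 row33.R3 row33R14
      ((((((((box3).cut 0 Bern.Ax.right).cut 1 Bern.Ax.right).cut 2 Bern.Ax.right).cut 0
    Bern.Ax.right).cut 1 Bern.Ax.right).cut 2 Bern.Ax.right).cut 0 Bern.Ax.left) = true ∧
    Bern.coverU row33.cfg3 row33.R3 row33R15
      (((((((((box3).cut 0 Bern.Ax.right).cut 1 Bern.Ax.right).cut 2 Bern.Ax.right).cut 0
    Bern.Ax.right).cut 1 Bern.Ax.right).cut 2 Bern.Ax.right).cut 0 Bern.Ax.right).cut 1
    Bern.Ax.left) = true ∧
    Bern.coverU row33.cfg3 row33.R3 row33R16
      ((((((((((box3).cut 0 Bern.Ax.right).cut 1 Bern.Ax.right).cut 2 Bern.Ax.right).cut 0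
    Bern.Ax.right).cut 1 Bern.Ax.right).cut 2 Bern.Ax.right).cut 0 Bern.Ax.right).cut 1
    Bern.Ax.right).cut 2 Bern.Ax.left) = true ∧
    Bern.coverU row33.cfg3 row33.R3 row33R17
      ((((((((((box3).cut 0 Bern.Ax.right).cut 1 Bern.Ax.right).cut 2 Bern.Ax.right).cut 0
    Bern.Ax.right).cut 1 Bern.Ax.right).cut 2 Bern.Ax.right).cut 0 Bern.Ax.right).cut 1
    Bern.Ax.right).cut 2 Bern.Ax.right) = true := by
  exact ⟨by decide +kernel,
    by decide +kernel,
    by decide +kernel,
    by decide +kernel,
    by decide +kernel,
    by decide +kernel,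
    by decide +kernel,
    by decide +kernel,
    by decide +kernel,
    by decide +kernel,
    by decide +kernel,
    by decide +kernel,
    by decide +kernel,
    by decide +kernel,
    by decide +kernel,
    by decide +kernel,
    by decide +kernel,
    by decide +kernel,
    by decide +kernel,
    by decide +kernel,
    by decide +kernel,
    by decide +kernel,
    by decide +kernel,
    by decide +kernel,
    by decide +kernel,
    by decide +kernel,
    by decide +kernel,
    by decide +kernel,
    by decide +kernel,
    by decide +kernel,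
    by decide +kernel,
    by decide +kernel,
    by decide +kernel⟩

theorem row33_rest : rowRest (terms 0) row33 = true := row33_parts.1

theorem row33_cover : Bern.coverU row33.cfg row33.P row33.cov Bern.unitBox = true :=
  (Bern.coverU_split (Bern.coverU_split (Bern.coverU_split (Bern.coverU_split (row33_parts.2.1)
    (row33_parts.2.2.1)) (row33_parts.2.2.2.1)) (row33_parts.2.2.2.2.1)) (Bern.coverU_split
    (Bern.coverU_split (Bern.coverU_split (row33_parts.2.2.2.2.2.1) (row33_parts.2.2.2.2.2.2.1))
    (row33_parts.2.2.2.2.2.2.2.1)) (Bern.coverU_split (Bern.coverU_split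
    (row33_parts.2.2.2.2.2.2.2.2.1) (Bern.coverU_split (Bern.coverU_split
    (row33_parts.2.2.2.2.2.2.2.2.2.1) (Bern.coverU_split (Bern.coverU_split
    (row33_parts.2.2.2.2.2.2.2.2.2.2.1) (row33_parts.2.2.2.2.2.2.2.2.2.2.2.1))
    (row33_parts.2.2.2.2.2.2.2.2.2.2.2.2.1))) (row33_parts.2.2.2.2.2.2.2.2.2.2.2.2.2.1)))
    (row33_parts.2.2.2.2.2.2.2.2.2.2.2.2.2.2.1))))

theorem row33_cover3 : Bern.coverU row33.cfg3 row33.R3 row33.cov3 box3 = true :=
  (Bern.coverU_split (row33_parts.2.2.2.2.2.2.2.2.2.2.2.2.2.2.2.1) (Bern.coverU_split
    (Bern.coverU_split (row33_parts.2.2.2.2.2.2.2.2.2.2.2.2.2.2.2.2.1) (Bern.coverU_split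
    (row33_parts.2.2.2.2.2.2.2.2.2.2.2.2.2.2.2.2.2.1) (Bern.coverU_split
    (row33_parts.2.2.2.2.2.2.2.2.2.2.2.2.2.2.2.2.2.2.1)
    (row33_parts.2.2.2.2.2.2.2.2.2.2.2.2.2.2.2.2.2.2.2.1)))) (Bern.coverU_split
    (row33_parts.2.2.2.2.2.2.2.2.2.2.2.2.2.2.2.2.2.2.2.2.1) (Bern.coverU_split
    (row33_parts.2.2.2.2.2.2.2.2.2.2.2.2.2.2.2.2.2.2.2.2.2.1) (Bern.coverU_split
    (Bern.coverU_split (Bern.coverU_split (Bern.coverU_split (Bern.coverU_split (Bern.coverU_split
    (row33_parts.2.2.2.2.2.2.2.2.2.2.2.2.2.2.2.2.2.2.2.2.2.2.1)
    (row33_parts.2.2.2.2.2.2.2.2.2.2.2.2.2.2.2.2.2.2.2.2.2.2.2.1))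
    (row33_parts.2.2.2.2.2.2.2.2.2.2.2.2.2.2.2.2.2.2.2.2.2.2.2.2.1))
    (row33_parts.2.2.2.2.2.2.2.2.2.2.2.2.2.2.2.2.2.2.2.2.2.2.2.2.2.1))
    (row33_parts.2.2.2.2.2.2.2.2.2.2.2.2.2.2.2.2.2.2.2.2.2.2.2.2.2.2.1))
    (row33_parts.2.2.2.2.2.2.2.2.2.2.2.2.2.2.2.2.2.2.2.2.2.2.2.2.2.2.2.1)) (Bern.coverU_split
    (row33_parts.2.2.2.2.2.2.2.2.2.2.2.2.2.2.2.2.2.2.2.2.2.2.2.2.2.2.2.2.1) (Bern.coverU_split
    (row33_parts.2.2.2.2.2.2.2.2.2.2.2.2.2.2.2.2.2.2.2.2.2.2.2.2.2.2.2.2.2.1) (Bern.coverU_split
    (row33_parts.2.2.2.2.2.2.2.2.2.2.2.2.2.2.2.2.2.2.2.2.2.2.2.2.2.2.2.2.2.2.1) (Bern.coverU_split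
    (row33_parts.2.2.2.2.2.2.2.2.2.2.2.2.2.2.2.2.2.2.2.2.2.2.2.2.2.2.2.2.2.2.2.1)
    (row33_parts.2.2.2.2.2.2.2.2.2.2.2.2.2.2.2.2.2.2.2.2.2.2.2.2.2.2.2.2.2.2.2.2))))))))))

theorem row33_ok : rowFor 3 3 row33 = true := by
  simp only [rowFor, Bool.and_eq_true, decide_eq_true_eq]
  exact ⟨⟨⟨rfl, rfl⟩, rfl⟩, rowCheck_of_quick row33_rest row33_cover row33_cover3⟩

end Vale.Agent.P154.Anti
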