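import Vale.Agent.P154.Anti.RowData
import Vale.Agent.P154.RowQuick

/-!
P154: the certificate of the merge row 1 of piece 4.
-/


namespace Vale.Agent.P154.Anti

open Kron BudgetRow

/-- A part of a subdivision. -/
def row41P0 : Bern.Cover :=
  (.split 3 (.split 0 .leaf .leaf) (.split 0 .leaf .leaf))

/-- A part of a subdivision. -/
def row41P1 : Bern.Cover :=
  .leaf

/-- A part of a subdivision. -/
def row41P2 : Bern.Cover :=
  (.split 3 (.split 0 .leaf .leaf) .leaf)

/-- A part of a subdivision. -/
def row41P3 : Bern.Cover :=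
  (.split 3 (.split 0 .leaf .leaf) .leaf)

/-- A part of a subdivision. -/
def row41P4 : Bern.Cover :=
  .leaf

/-- A part of a subdivision. -/
def row41P5 : Bern.Cover :=
  (.split 0 .leaf .leaf)

/-- A part of a subdivision. -/
def row41P6 : Bern.Cover :=
  .leaf

/-- A part of a subdivision. -/
def row41P7 : Bern.Cover :=
  (.split 3 (.split 0 .leaf .leaf) (.split 0 .leaf .leaf))

/-- A part of a subdivision. -/
def row41P8 : Bern.Cover :=
  (.split 0 .leaf (.split 1 .leaf .leaf))

/-- A part of a subdivision. -/
def row41P9 : Bern.Cover :=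
  (.split 0 .leaf (.split 1 .leaf .leaf))

/-- A part of a subdivision. -/
def row41P10 : Bern.Cover :=
  (.split 2 .leaf .leaf)

/-- A part of a subdivision. -/
def row41P11 : Bern.Cover :=
  (.split 3 (.split 0 .leaf .leaf) (.split 0 .leaf .leaf))

/-- A part of a subdivision. -/
def row41P12 : Bern.Cover :=
  (.split 3 .leaf .leaf)

/-- A part of a subdivision. -/
def row41P13 : Bern.Cover :=
  .leaf

/-- A part of a subdivision. -/
def row41P14 : Bern.Cover :=
  .leaf

/-- A part of a subdivision. -/
def row41P15 : Bern.Cover :=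
  (.split 3 .leaf (.split 0 .leaf .leaf))

/-- A part of a subdivision. -/
def row41P16 : Bern.Cover :=
  (.split 3 (.split 0 .leaf .leaf) (.split 0 .leaf .leaf))

/-- A part of a subdivision. -/
def row41P17 : Bern.Cover :=
  .leaf

/-- A part of a subdivision. -/
def row41P18 : Bern.Cover :=
  .leaf

/-- A part of a subdivision. -/
def row41P19 : Bern.Cover :=
  (.split 3 (.split 0 .leaf .leaf) (.split 0 .leaf .leaf))

/-- A part of a subdivision. -/
def row41P20 : Bern.Cover :=
  (.split 0 .leaf (.split 1 .leaf .leaf))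

/-- A part of a subdivision. -/
def row41P21 : Bern.Cover :=
  (.split 0 .leaf (.split 1 .leaf .leaf))

/-- A part of a subdivision. -/
def row41P22 : Bern.Cover :=
  .leaf

/-- A part of a subdivision. -/
def row41P23 : Bern.Cover :=
  .leaf

/-- A part of a subdivision. -/
def row41P24 : Bern.Cover :=
  (.split 3 (.split 0 .leaf .leaf) (.split 0 .leaf .leaf))

/-- A part of a subdivision. -/
def row41P25 : Bern.Cover :=
  (.split 3 (.split 0 .leaf .leaf) .leaf)

/-- A part of a subdivision. -/
def row41P26 : Bern.Cover :=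
  .leaf

/-- A part of a subdivision. -/
def row41P27 : Bern.Cover :=
  .leaf

/-- A part of a subdivision. -/
def row41P28 : Bern.Cover :=
  (.split 3 (.split 0 .leaf .leaf) (.split 0 .leaf (.split 1 .leaf .leaf)))

/-- A part of a subdivision. -/
def row41P29 : Bern.Cover :=
  .leaf

/-- A part of a subdivision. -/
def row41P30 : Bern.Cover :=
  .leaf

/-- A part of a subdivision. -/
def row41P31 : Bern.Cover :=
  (.split 2 .leaf (.split 3 .leaf .leaf))

/-- A part of a subdivision. -/
def row41R0 : Bern.Cover :=
  (.split 1 (.split 2 .leaf .leaf) (.split 2 .leaf .leaf))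

/-- A part of a subdivision. -/
def row41R1 : Bern.Cover :=
  (.split 0 .leaf (.split 1 (.split 2 (.split 0 .leaf (.split 1 (.split 2 .leaf .leaf) .leaf))
    .leaf) (.split 2 .leaf (.split 0 .leaf (.split 1 .leaf .leaf)))))

/-- A part of a subdivision. -/
def row41R2 : Bern.Cover :=
  (.split 1 (.split 2 .leaf .leaf) .leaf)

/-- A part of a subdivision. -/
def row41R3 : Bern.Cover :=
  (.split 0 .leaf (.split 1 (.split 2 .leaf .leaf) .leaf))

/-- A part of a subdivision. -/
def row41R4 : Bern.Cover :=
  (.split 1 (.split 2 (.split 0 .leaf (.split 1 .leaf .leaf)) .leaf) .leaf)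

/-- A part of a subdivision. -/
def row41R5 : Bern.Cover :=
  (.split 0 (.split 1 .leaf .leaf) .leaf)

/-- A part of a subdivision. -/
def row41R6 : Bern.Cover :=
  (.split 0 (.split 1 (.split 2 .leaf .leaf) .leaf) (.split 1 (.split 2 (.split 0 .leaf (.split 1
    (.split 2 .leaf .leaf) .leaf)) (.split 0 (.split 1 (.split 2 .leaf .leaf) .leaf) .leaf))
    (.split 2 .leaf (.split 0 .leaf (.split 1 .leaf .leaf)))))

/-- A part of a subdivision. -/
def row41R7 : Bern.Cover :=
  (.split 2 (.split 0 (.split 1 .leaf .leaf) (.split 1 .leaf (.split 2 .leaf .leaf))) (.split 0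
    .leaf (.split 1 .leaf (.split 2 (.split 0 .leaf (.split 1 .leaf (.split 2 .leaf .leaf)))
    .leaf))))

/-- A part of a subdivision. -/
def row41R8 : Bern.Cover :=
  (.split 0 .leaf (.split 1 (.split 2 (.split 0 .leaf (.split 1 .leaf .leaf)) (.split 0 .leaf
    (.split 1 .leaf .leaf))) .leaf))

/-- A part of a subdivision. -/
def row41R9 : Bern.Cover :=
  (.split 0 .leaf (.split 1 (.split 2 (.split 0 .leaf (.split 1 (.split 2 (.split 0 .leaf (.split
    1 .leaf .leaf)) (.split 0 .leaf (.split 1 .leaf .leaf))) .leaf)) (.split 0 .leaf (.split 1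
    (.split 2 (.split 0 .leaf (.split 1 .leaf .leaf)) .leaf) .leaf))) .leaf))

/-- A part of a subdivision. -/
def row41R10 : Bern.Cover :=
  (.split 0 .leaf (.split 1 .leaf (.split 2 .leaf (.split 0 .leaf (.split 1 .leaf (.split 2 .leaf
    .leaf))))))

/-- A part of a subdivision. -/
def row41R11 : Bern.Cover :=
  (.split 0 .leaf (.split 1 (.split 2 .leaf (.split 0 .leaf (.split 1 (.split 2 .leaf (.split 0
    .leaf (.split 1 .leaf .leaf))) .leaf))) (.split 2 .leaf (.split 0 .leaf (.split 1 .leaf
    (.split 2 .leaf .leaf))))))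

/-- The certificate. -/
def row41 : Row where
  W := terms 13
  D := slopeT 4 1
  G := [(62495705718936, 1, 0, 0, 0), (-1432114435209888, 0, 0, 1, 0), (2510894653220070, 1, 0, 1, 0),
    (-1884242355573456, 2, 0, 1, 0), (1120983674531040, 3, 0, 1, 0),
    (1041072375144312, 3, 0, 0, 0), (-1477301397371316, 4, 0, 0, 0),
    (1250083062595656, 5, 0, 0, 0), (-708981451832592, 6, 0, 0, 0),
    (-596491790433552, 1, 1, 0, 0), (-129771870264882, 2, 1, 0, 0),
    (1466495433835524, 3, 1, 0, 0), (-1678616294393880, 4, 1, 0, 0),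
    (11078594544966237, 0, 0, 2, 0), (-12991899022128162, 1, 0, 2, 0),
    (1198598735986209, 2, 0, 2, 0), (4580490774862422, 3, 0, 2, 0),
    (-369231837515910, 4, 0, 1, 0), (-698998088853954, 5, 0, 1, 0), (925280081930754, 6, 0, 1, 0),
    (-11828728525651956, 1, 1, 1, 0), (10752272079472494, 2, 1, 1, 0),
    (-244822176314280, 3, 1, 1, 0), (-4434975815081310, 4, 1, 1, 0),
    (288517916677248, 7, 0, 0, 0), (-88539761596176, 8, 0, 0, 0), (21101778346212, 9, 0, 0, 0),
    (935895353019606, 5, 1, 0, 0), (-299367895782330, 6, 1, 0, 0), (57397353742746, 7, 1, 0, 0),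
    (7692868918349919, 2, 2, 0, 0), (-4542304376068272, 3, 2, 0, 0),
    (2031006909848607, 4, 2, 0, 0), (-775381883624496, 5, 2, 0, 0),
    (-313885888525116, 2, 0, 0, 0), (33666009320376, 0, 1, 0, 0), (3847625488045206, 0, 1, 1, 0),
    (-7944353828920026, 1, 2, 0, 0), (-2735029537074081, 4, 0, 2, 0),
    (672689982897594, 5, 0, 2, 0), (-468031826403540, 7, 0, 1, 0), (120069444992022, 8, 0, 1, 0),
    (2635097905326708, 5, 1, 1, 0), (-685487301513282, 6, 1, 1, 0), (-3869184898260, 10, 0, 0, 0),
    (511230695616, 11, 0, 0, 0), (-6727831844724, 8, 1, 0, 0), (520610553450, 9, 1, 0, 0),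
    (229520791078677, 6, 2, 0, 0), (-44199667692828, 7, 2, 0, 0), (10102100934064032, 0, 1, 2, 0),
    (-9872927198863911, 1, 1, 2, 0), (3037926055889088, 2, 1, 2, 0),
    (-87635482700472, 3, 1, 2, 0), (-3763787754219390, 1, 2, 1, 0),
    (5279063713455483, 2, 2, 1, 0), (-2518808094680544, 3, 2, 1, 0),
    (558735647327136, 4, 2, 1, 0), (-2873767072566474, 2, 3, 0, 0),
    (2196631616197221, 3, 3, 0, 0), (-866175943772268, 4, 3, 0, 0), (181150777592514, 5, 3, 0, 0),
    (3838662091828008, 0, 2, 0, 0), (-1183609657106226, 0, 2, 1, 0),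
    (1842753425964822, 1, 3, 0, 0), (-759755661000768, 0, 3, 0, 0),
    (1509310369953288, 0, 4, 0, 0), (-1654336322067510, 1, 4, 0, 0),
    (691880355325800, 2, 4, 0, 0), (-131682303196956, 3, 4, 0, 0), (-30395365576065, 4, 0, 3, 0),
    (3058048366254, 7, 0, 2, 0), (13885633937070, 5, 1, 2, 0), (814116831534, 10, 0, 1, 0),
    (-4213043389350, 8, 1, 1, 0), (1948610123343, 6, 2, 1, 0), (1628178364, 13, 0, 0, 0),
    (1085990790, 11, 1, 0, 0), (-203086223964, 9, 2, 0, 0), (746646359004, 7, 3, 0, 0),
    (-75756586270365, 6, 0, 2, 0), (-15580515600288, 9, 0, 1, 0), (85941642530232, 7, 1, 1, 0),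
    (-42437852772, 12, 0, 0, 0), (-30924284400, 10, 1, 0, 0), (4683057004629, 8, 2, 0, 0),
    (-108490900700448, 4, 1, 2, 0), (-56679137775594, 5, 2, 1, 0), (-18848360203866, 6, 3, 0, 0),
    (-3775308191586, 4, 3, 1, 0), (-110126587986, 5, 4, 0, 0), (10069518913920, 4, 4, 0, 0),
    (364744386912780, 3, 0, 3, 0), (45303698299032, 3, 3, 1, 0), (-1641349741107510, 2, 0, 3, 0),
    (-203866642345644, 2, 3, 1, 0), (3282699482215020, 1, 0, 3, 0), (407733284691288, 1, 3, 1, 0),
    (40029279781032, 0, 0, 0, 0), (-2462024611661265, 0, 0, 3, 0), (-305799963518466, 0, 3, 1, 0)]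
  a := 6377292
  e := slopeE 4
  kR := 32
  kG := 251658240000000
  kP := 225
  I := 12
  J := 8
  P := ⟨[(0, 1), (0, 2), (0, 3), (0, 4), (1, 0), (1, 1), (1, 2), (1, 3), (2, 0), (2, 1), (2, 2), (2, 3), (3, 0), (3, 1), (3, 2), (4, 0), (4, 1), (5, 0), (5, 1), (6, 0)],
    [
     ((0, 0), [ -85316659200000, 108353131054848, 0, 0, 293659603200000, -16410492563904,
        -76562381215584, 0, -239038532191872, -141799066879680, 0, 0, -145375101418752, 0, 0,
        375890903765856, 0, 0, 0, 0]),
     ((0, 1), [ -1504501488000000, 4530426282969216, -1276979930100000, 0, 428787776000000,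
        6379164564527232, -6597868179939328, 532766486700000, 5515924923422976, -7888921386342560,
        1984026920400000, 0, -11371491897841984, 3676914827775000, 0, 7862206196899152,
        -533936963700000, -1423831903200000, 0, 0]),
     ((0, 2), [ -34131675888000000, -21127820628827904, 7816584900000000, -2442565121850000,
        29119253139200000, 74925458895316992, 22508157688029632, -9287283017400000,
        -86736279649657344, -44886649075943360, -17095433802150000, -519991710412500,
        173356961636544896, -15204338591550000, 5277377683162500, -140315944570735488,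
        15337261109700000, 48567232787100000, 381269037956250, -4362832030218750]),
     ((0, 3), [ -81726715526400000, -62532679200000000, 8553506700000000, 552003802800000,
        -22731370099200000, 173959834608000000, -66203466128400000, 7535358796800000,
        132080408812800000, -242825625532800000, 80458766097300000, 6265021196475000,
        -307918730500800000, 140094289252500000, -6058555836975000, 331497324762000000,
        -34944707743800000, -134300222801700000, -5280650708550000, 7997657385862500]),
     ((0, 4), [ 0, -156324167798400000, -4416030422400000, 7154085357600000, 0,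
        -146017168147200000, -20678648880000000, 36064200303600000, 0, 95375958720000000,
        30764975413200000, 1861190185500000, 78162083899200000, -20538478825200000,
        -2828533419600000, -13368375057600000, -35179057659600000, -9785603724600000,
        -178504758375000, -4219332784575000]),
     ((1, 0), [ 222900768000000, 1167251028263808, 177588828900000, 0, -5709387616000000,
        1481426301782016, -959493863023264, 0, 9388138146002688, -1189183528393280,
        355177657800000, 0, -6785047267681792, 243337752000000, 0, 1294951973396976, 0,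
        -355957975800000, 0, 0]),
     ((1, 1), [ 24583782816000000, -39290199136627584, 10872489663000000, 1140759126150000,
        -22519666310400000, -5960291025706368, 60442778387115072, -1132121897700000,
        -19390683777421824, -30510396616054560, -18129204467700000, -303930006525000,
        84084307165521216, 16612609648275000, 650449231275000, -86267900365400448,
        -2197530959662500, 28277540191575000, 405091634446875, -2586175440018750]),
     ((1, 2), [ 206157985344000000, 89732760467332608, 33101733064200000, -1292415555000000,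
        -86998249964800000, -475198639321440384, -140599572182553664, 31465850272500000,
        364204394870239488, 656444683425598720, 73419012555450000, 12302479574137500,
        -664511647799972992, -318324484345500000, 11613417846787500, 605643195500880576,
        -21517261705725000, -261056214708600000, -11200159792556250, 3994998774993750]),
     ((1, 3), [ 136388220595200000, 297193056556800000, 30141435187200000, -18032100151800000, 0,
        -72455801452800000, -251726802180000000, -29225157547800000, -204582330892800000,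
        151266849160800000, 39688652951400000, 6186995983650000, 817336653408000000,
        84790230944400000, -10255725499500000, -536193247870800000, -92811213582450000,
        107229571195500000, 6439058069137500, 1420099221975000]),
     ((2, 0), [ -10731344457600000, -20051736473679744, -4127512775400000, 0, 44446989737600000,
        10617426881301312, 21812278530388352, 1598299460100000, -101536456505011584,
        3502696699071040, -8905207036050000, -173727512437500, 102776321052981056,
        1324246695075000, 147591077287500, -38046946024111968, -4039224346125000, 5861233018800000,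
        145652322206250, -537304618350000]),
     ((2, 1), [ -121781507688000000, 92010511433382912, -60706406383200000, -2980498710000000,
        67429729222400000, -127751755468992576, -329382010426002496, 9454178072550000,
        -40480111940016768, 307937829672158080, 176232614829450000, 4823785962787500,
        -47176486207175488, -49154201043750000, -20654383086262500, 225708314721318864,
        -19900092816600000, -111998646032850000, -4232865033543750, 4859430829875000]),
     ((2, 2), [ -253955445811200000, -273526940834400000, -160917532194600000, 7691243853300000,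
        90925480396800000, 580134542966400000, 293676050221800000, -19844326475700000,
        -569933250307200000, -1409860918635600000, -61406466979500000, -15467939246775000,
        830679383720400000, 1006360489326000000, -89009200948725000, -459392408674500000,
        -119793179775075000, 70692076758975000, 27499498819275000, 91246927652943750]),
     ((2, 3), [ 0, 66558938932800000, 100240339143600000, -3722380371000000, 0, -77806081670400000,
        -393679346372400000, 24747983934600000, 88948486368000000, 308722301618400000,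
        123743513974200000, -10662119078550000, -230181471093600000, -176210832785400000,
        -51353944183500000, 305687930061600000, -56414345313750000, -37659799480050000,
        9161096822512500, 17209759781475000]),
     ((3, 0), [ 87686753832000000, 171968329311125376, 38489841312600000, 1221282560925000,
        -129407975910400000, -163709579709272448, -165426871340744608, -25541770419000000,
        420472409036756736, 23308281385591840, 51917461482525000, 1798292742918750,
        -631126093222397824, 24965169921375000, -6690088969593750, 355505117591448672,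
        6702823410075000, -64125609858600000, -858997157034375, 1959735386503125]),
     ((3, 1), [ 235322548977600000, 121634708732400000, 140094289252500000, 2567309853150000,
        -31147232256000000, 265801754372400000, 636648968691000000, 21197557736100000,
        -42375894242400000, -196616804175000000, -503180244663000000, -11013177049087500,
        -199721359371000000, -352257749474850000, 48497732276287500, -559822651666800000,
        150156644443912500, 398964222063825000, 12504744253828125, 27317618325637500]),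
     ((3, 2), [ 0, 337752171722400000, 48468446695800000, -2828533419600000, 0, -83257501603200000,
        185814685548600000, 20511450999000000, 37783315785600000, 660940258760400000,
        -356036803794900000, 25676972091750000, -428165694054000000, -387981858210300000,
        100754107910175000, -878242137813600000, 100266443409750000, 657323207587425000,
        5470196235300000, -56889787811250000]),
     ((4, 0), [ -232008305716800000, -568028975393142912, -165748662381000000, -835523441100000,
        157303125654400000, 650273479849872576, 610321916133882496, 67024155983850000,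
        -673149025766543232, -433929678275858080, -114848102168625000, -9552747814425000,
        1445421852867215488, 279911325833400000, -54890133613350000, -1248934181783388864,
        -86613557729062500, 316483353652350000, 9753788769693750, 30684039645890625]),
     ((4, 1), [ -136687862707200000, -490792355510400000, -139778830975200000, 17589528829800000,
        0, -140641981418400000, 172138093645800000, -92811213582450000, 517020716304000000,
        -318401485065600000, 239586359550150000, -14103586328437500, -214490349122400000,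
        600626577775650000, -50133221704875000, 692908461832500000, -71579326652775000,
        -497269032432075000, -3837615747440625, -59008328348831250]),
     ((5, 0), [ 182250483609600000, 777075724593600000, 268600445603400000, -2446400931150000,
        -91125241804800000, -904881286130400000, -1044224858834400000, -53614785597750000,
        375118913203200000, 895989168262800000, 70692076758975000, 4707474935006250,
        -1026009757737600000, -797928444127650000, 164330801896856250, 1265933414609400000,
        248634516216037500, -113155231520625000, -33411511359421875, -177687692972493750]),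
     ((5, 1), [ 0, -48802436858400000, -84490411336800000, 357009516750000, 0, 103703458418400000,
        358405113361800000, 25756232276550000, -74573988969600000, -270903362146800000,
        -219995990554200000, 9161096822512500, 109951636100400000, 200075908061250000,
        -10940392470600000, -312121240630200000, -15350462989762500, 267292090875375000,
        -12703336034906250, -15959662542056250]),
     ((6, 0), [ 0, -279221249934000000, -63981259086900000, -4219332784575000, 0,
        331030456322400000, 63919980399900000, -2840198443950000, -137549982297600000,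
        -155501786556000000, 364987710611775000, -8604879890737500, 125423064736200000,
        -218540946605100000, -56889787811250000, 490944634334250000, 118016656697662500,
        -710750771889975000, 7979831271028125, 118567574130037500])]⟩
  cfg := ⟨13, 12, 11, 12, 13, 283⟩
  cov := (.split 2 (.split 0 (.split 1 (.split 2 row41P0 (.split 3 (.split 0 row41P1 (.split 1 (.split 2
    row41P2 row41P3) row41P4)) row41P5)) row41P6) (.split 1 (.split 2 row41P7 (.split 3 row41P8
    row41P9)) row41P10)) (.split 0 (.split 1 (.split 2 row41P11 row41P12) row41P13) (.split 1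
    (.split 2 (.split 3 (.split 0 row41P14 (.split 1 (.split 2 row41P15 row41P16) row41P17))
    (.split 0 row41P18 (.split 1 (.split 2 row41P19 (.split 3 row41P20 row41P21)) row41P22)))
    (.split 3 (.split 0 row41P23 (.split 1 (.split 2 row41P24 row41P25) row41P26)) (.split 0
    row41P27 (.split 1 (.split 2 row41P28 row41P29) row41P30)))) row41P31)))
  lay := ⟨154, 14, 14, 14, 14⟩
  R3 := ⟨[(0, 1), (1, 0), (1, 1), (2, 0), (2, 1), (3, 0), (3, 1), (4, 0), (4, 1), (5, 0)],
    [
     ((0, 0), [ 492792242378904, 40029279781032, 303873360759916488, -20763848918513124,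
        9549033070960926072, -1750146121514041776, 51696913803901282080, -38712894992158658652,
        -134981994483507731544, 69942480932170710828]),
     ((0, 1), [ 170027890057152, 0, -62031669396190272, 2040334680685824, 5533652429063032284,
        384099708079808676, 19322012062150034940, -39984993180371881116, -160976716509855244212,
        213477037225468849944]),
     ((0, 2), [ -1032437320301124, 0, -92919358827101160, -12389247843613488, -2926959803053686540,
        -557516152962606960, -16519549365232547688, 18255774638463851700, 742010134126867994556,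
        -376536435413937558228]),
     ((0, 3), [ 0, 0, 0, 0, 0, 0, 0, 0, -387680243450629431960, 0]),
     ((1, 0), [ -278905617108684, 0, 224939481767770680, -4255849656954360, 13006655917988813820,
        -4244432595772324032, -65028940574997868416, 39412052140986307764, 630839209130524649448,
        -375358136919095470320]),
     ((1, 1), [ 1350041882193180, 0, 121503769397386200, 16200502586318160, -1782469225552245048,
        729022616384317200, 123642437059512783036, 9354345028286194620, 209946092448981708072,
        -376538097605902927740]),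
     ((1, 2), [ 1617908311190484, 0, 145611748007143560, 19414899734285808, 4586770062225022140,
        873670488042861360, 99074233344060478224, 22016496298680106272, 947586415531587313860,
        -370754753551898746464]),
     ((2, 0), [ -1345507799768064, 0, -121095701979125760, -16146093597216768,
        -13942047162220472520, 2071810453067863272, 25906353548268348036, -41697632672355262392,
        -581056806297312053352, 232799117307808979592]),
     ((2, 1), [ -1283011594494588, 0, -115471043504512920, -15396139133935056,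
        -3637337870392156980, -692826261027077520, -125160475762114283484, -17459221777882353504,
        -697717775872385563068, 156747117629899554300]),
     ((3, 0), [ 1975826816046576, 0, 177824413444191840, 23709921792558912, 5601469023492042960,
        1066946480665151040, 43895704506240742704, 41841321988239922752, -311694417347848807464,
        369802601198679468636]),
     ((3, 1), [ 0, 0, 0, 0, 0, 0, 0, 0, 325029276824434179012, 0]),
     ((4, 0), [ -1621462822432524, 0, -145931654018927160, -19457553869190288,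
        -4596847101596205540, -875589924113562960, -99291897394478039664, -22064866087661786592,
        -530209211806088913672, 376572709199153729448])]⟩
  cfg3 := ⟨9, 8, 9, 10, 11, 521⟩
  cov3 := (.split 0 row41R0 (.split 1 (.split 2 row41R1 (.split 0 row41R2 (.split 1 (.split 2 row41R3
    (.split 0 row41R4 (.split 1 (.split 2 row41R5 row41R6) row41R7))) (.split 2 row41R8
    row41R9)))) (.split 2 row41R10 row41R11)))
  lay3 := ⟨87, 5, 4, 16, 1⟩

set_option maxHeartbeats 8000000 in
theorem row41_parts :
    rowRest (terms 0) row41 = true ∧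
    Bern.coverU row41.cfg row41.P row41P0
      (((((Bern.unitBox).cut 2 Bern.Ax.left).cut 0 Bern.Ax.left).cut 1 Bern.Ax.left).cut 2
    Bern.Ax.left) = true ∧
    Bern.coverU row41.cfg row41.P row41P1
      (((((((Bern.unitBox).cut 2 Bern.Ax.left).cut 0 Bern.Ax.left).cut 1 Bern.Ax.left).cut 2
    Bern.Ax.right).cut 3 Bern.Ax.left).cut 0 Bern.Ax.left) = true ∧
    Bern.coverU row41.cfg row41.P row41P2
      (((((((((Bern.unitBox).cut 2 Bern.Ax.left).cut 0 Bern.Ax.left).cut 1 Bern.Ax.left).cut 2
    Bern.Ax.right).cut 3 Bern.Ax.left).cut 0 Bern.Ax.right).cut 1 Bern.Ax.left).cut 2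
    Bern.Ax.left) = true ∧
    Bern.coverU row41.cfg row41.P row41P3
      (((((((((Bern.unitBox).cut 2 Bern.Ax.left).cut 0 Bern.Ax.left).cut 1 Bern.Ax.left).cut 2
    Bern.Ax.right).cut 3 Bern.Ax.left).cut 0 Bern.Ax.right).cut 1 Bern.Ax.left).cut 2
    Bern.Ax.right) = true ∧
    Bern.coverU row41.cfg row41.P row41P4
      ((((((((Bern.unitBox).cut 2 Bern.Ax.left).cut 0 Bern.Ax.left).cut 1 Bern.Ax.left).cut 2
    Bern.Ax.right).cut 3 Bern.Ax.left).cut 0 Bern.Ax.right).cut 1 Bern.Ax.right) = true ∧
    Bern.coverU row41.cfg row41.P row41P5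
      ((((((Bern.unitBox).cut 2 Bern.Ax.left).cut 0 Bern.Ax.left).cut 1 Bern.Ax.left).cut 2
    Bern.Ax.right).cut 3 Bern.Ax.right) = true ∧
    Bern.coverU row41.cfg row41.P row41P6
      ((((Bern.unitBox).cut 2 Bern.Ax.left).cut 0 Bern.Ax.left).cut 1 Bern.Ax.right) = true ∧
    Bern.coverU row41.cfg row41.P row41P7
      (((((Bern.unitBox).cut 2 Bern.Ax.left).cut 0 Bern.Ax.right).cut 1 Bern.Ax.left).cut 2
    Bern.Ax.left) = true ∧
    Bern.coverU row41.cfg row41.P row41P8
      ((((((Bern.unitBox).cut 2 Bern.Ax.left).cut 0 Bern.Ax.right).cut 1 Bern.Ax.left).cut 2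
    Bern.Ax.right).cut 3 Bern.Ax.left) = true ∧
    Bern.coverU row41.cfg row41.P row41P9
      ((((((Bern.unitBox).cut 2 Bern.Ax.left).cut 0 Bern.Ax.right).cut 1 Bern.Ax.left).cut 2
    Bern.Ax.right).cut 3 Bern.Ax.right) = true ∧
    Bern.coverU row41.cfg row41.P row41P10
      ((((Bern.unitBox).cut 2 Bern.Ax.left).cut 0 Bern.Ax.right).cut 1 Bern.Ax.right) = true ∧
    Bern.coverU row41.cfg row41.P row41P11
      (((((Bern.unitBox).cut 2 Bern.Ax.right).cut 0 Bern.Ax.left).cut 1 Bern.Ax.left).cut 2
    Bern.Ax.left) = true ∧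
    Bern.coverU row41.cfg row41.P row41P12
      (((((Bern.unitBox).cut 2 Bern.Ax.right).cut 0 Bern.Ax.left).cut 1 Bern.Ax.left).cut 2
    Bern.Ax.right) = true ∧
    Bern.coverU row41.cfg row41.P row41P13
      ((((Bern.unitBox).cut 2 Bern.Ax.right).cut 0 Bern.Ax.left).cut 1 Bern.Ax.right) = true ∧
    Bern.coverU row41.cfg row41.P row41P14
      (((((((Bern.unitBox).cut 2 Bern.Ax.right).cut 0 Bern.Ax.right).cut 1 Bern.Ax.left).cut 2
    Bern.Ax.left).cut 3 Bern.Ax.left).cut 0 Bern.Ax.left) = true ∧
    Bern.coverU row41.cfg row41.P row41P15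
      (((((((((Bern.unitBox).cut 2 Bern.Ax.right).cut 0 Bern.Ax.right).cut 1 Bern.Ax.left).cut 2
    Bern.Ax.left).cut 3 Bern.Ax.left).cut 0 Bern.Ax.right).cut 1 Bern.Ax.left).cut 2
    Bern.Ax.left) = true ∧
    Bern.coverU row41.cfg row41.P row41P16
      (((((((((Bern.unitBox).cut 2 Bern.Ax.right).cut 0 Bern.Ax.right).cut 1 Bern.Ax.left).cut 2
    Bern.Ax.left).cut 3 Bern.Ax.left).cut 0 Bern.Ax.right).cut 1 Bern.Ax.left).cut 2
    Bern.Ax.right) = true ∧
    Bern.coverU row41.cfg row41.P row41P17
      ((((((((Bern.unitBox).cut 2 Bern.Ax.right).cut 0 Bern.Ax.right).cut 1 Bern.Ax.left).cut 2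
    Bern.Ax.left).cut 3 Bern.Ax.left).cut 0 Bern.Ax.right).cut 1 Bern.Ax.right) = true ∧
    Bern.coverU row41.cfg row41.P row41P18
      (((((((Bern.unitBox).cut 2 Bern.Ax.right).cut 0 Bern.Ax.right).cut 1 Bern.Ax.left).cut 2
    Bern.Ax.left).cut 3 Bern.Ax.right).cut 0 Bern.Ax.left) = true ∧
    Bern.coverU row41.cfg row41.P row41P19
      (((((((((Bern.unitBox).cut 2 Bern.Ax.right).cut 0 Bern.Ax.right).cut 1 Bern.Ax.left).cut 2
    Bern.Ax.left).cut 3 Bern.Ax.right).cut 0 Bern.Ax.right).cut 1 Bern.Ax.left).cut 2
    Bern.Ax.left) = true ∧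
    Bern.coverU row41.cfg row41.P row41P20
      ((((((((((Bern.unitBox).cut 2 Bern.Ax.right).cut 0 Bern.Ax.right).cut 1 Bern.Ax.left).cut 2
    Bern.Ax.left).cut 3 Bern.Ax.right).cut 0 Bern.Ax.right).cut 1 Bern.Ax.left).cut 2
    Bern.Ax.right).cut 3 Bern.Ax.left) = true ∧
    Bern.coverU row41.cfg row41.P row41P21
      ((((((((((Bern.unitBox).cut 2 Bern.Ax.right).cut 0 Bern.Ax.right).cut 1 Bern.Ax.left).cut 2
    Bern.Ax.left).cut 3 Bern.Ax.right).cut 0 Bern.Ax.right).cut 1 Bern.Ax.left).cut 2
    Bern.Ax.right).cut 3 Bern.Ax.right) = true ∧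
    Bern.coverU row41.cfg row41.P row41P22
      ((((((((Bern.unitBox).cut 2 Bern.Ax.right).cut 0 Bern.Ax.right).cut 1 Bern.Ax.left).cut 2
    Bern.Ax.left).cut 3 Bern.Ax.right).cut 0 Bern.Ax.right).cut 1 Bern.Ax.right) = true ∧
    Bern.coverU row41.cfg row41.P row41P23
      (((((((Bern.unitBox).cut 2 Bern.Ax.right).cut 0 Bern.Ax.right).cut 1 Bern.Ax.left).cut 2
    Bern.Ax.right).cut 3 Bern.Ax.left).cut 0 Bern.Ax.left) = true ∧
    Bern.coverU row41.cfg row41.P row41P24
      (((((((((Bern.unitBox).cut 2 Bern.Ax.right).cut 0 Bern.Ax.right).cut 1 Bern.Ax.left).cut 2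
    Bern.Ax.right).cut 3 Bern.Ax.left).cut 0 Bern.Ax.right).cut 1 Bern.Ax.left).cut 2
    Bern.Ax.left) = true ∧
    Bern.coverU row41.cfg row41.P row41P25
      (((((((((Bern.unitBox).cut 2 Bern.Ax.right).cut 0 Bern.Ax.right).cut 1 Bern.Ax.left).cut 2
    Bern.Ax.right).cut 3 Bern.Ax.left).cut 0 Bern.Ax.right).cut 1 Bern.Ax.left).cut 2
    Bern.Ax.right) = true ∧
    Bern.coverU row41.cfg row41.P row41P26
      ((((((((Bern.unitBox).cut 2 Bern.Ax.right).cut 0 Bern.Ax.right).cut 1 Bern.Ax.left).cut 2
    Bern.Ax.right).cut 3 Bern.Ax.left).cut 0 Bern.Ax.right).cut 1 Bern.Ax.right) = true ∧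
    Bern.coverU row41.cfg row41.P row41P27
      (((((((Bern.unitBox).cut 2 Bern.Ax.right).cut 0 Bern.Ax.right).cut 1 Bern.Ax.left).cut 2
    Bern.Ax.right).cut 3 Bern.Ax.right).cut 0 Bern.Ax.left) = true ∧
    Bern.coverU row41.cfg row41.P row41P28
      (((((((((Bern.unitBox).cut 2 Bern.Ax.right).cut 0 Bern.Ax.right).cut 1 Bern.Ax.left).cut 2
    Bern.Ax.right).cut 3 Bern.Ax.right).cut 0 Bern.Ax.right).cut 1 Bern.Ax.left).cut 2
    Bern.Ax.left) = true ∧
    Bern.coverU row41.cfg row41.P row41P29
      (((((((((Bern.unitBox).cut 2 Bern.Ax.right).cut 0 Bern.Ax.right).cut 1 Bern.Ax.left).cut 2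
    Bern.Ax.right).cut 3 Bern.Ax.right).cut 0 Bern.Ax.right).cut 1 Bern.Ax.left).cut 2
    Bern.Ax.right) = true ∧
    Bern.coverU row41.cfg row41.P row41P30
      ((((((((Bern.unitBox).cut 2 Bern.Ax.right).cut 0 Bern.Ax.right).cut 1 Bern.Ax.left).cut 2
    Bern.Ax.right).cut 3 Bern.Ax.right).cut 0 Bern.Ax.right).cut 1 Bern.Ax.right) = true ∧
    Bern.coverU row41.cfg row41.P row41P31
      ((((Bern.unitBox).cut 2 Bern.Ax.right).cut 0 Bern.Ax.right).cut 1 Bern.Ax.right) = true ∧
    Bern.coverU row41.cfg3 row41.R3 row41R0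
      ((box3).cut 0 Bern.Ax.left) = true ∧
    Bern.coverU row41.cfg3 row41.R3 row41R1
      ((((box3).cut 0 Bern.Ax.right).cut 1 Bern.Ax.left).cut 2 Bern.Ax.left) = true ∧
    Bern.coverU row41.cfg3 row41.R3 row41R2
      (((((box3).cut 0 Bern.Ax.right).cut 1 Bern.Ax.left).cut 2 Bern.Ax.right).cut 0 Bern.Ax.left) = true ∧
    Bern.coverU row41.cfg3 row41.R3 row41R3
      (((((((box3).cut 0 Bern.Ax.right).cut 1 Bern.Ax.left).cut 2 Bern.Ax.right).cut 0
    Bern.Ax.right).cut 1 Bern.Ax.left).cut 2 Bern.Ax.left) = true ∧
    Bern.coverU row41.cfg3 row41.R3 row41R4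
      ((((((((box3).cut 0 Bern.Ax.right).cut 1 Bern.Ax.left).cut 2 Bern.Ax.right).cut 0
    Bern.Ax.right).cut 1 Bern.Ax.left).cut 2 Bern.Ax.right).cut 0 Bern.Ax.left) = true ∧
    Bern.coverU row41.cfg3 row41.R3 row41R5
      ((((((((((box3).cut 0 Bern.Ax.right).cut 1 Bern.Ax.left).cut 2 Bern.Ax.right).cut 0
    Bern.Ax.right).cut 1 Bern.Ax.left).cut 2 Bern.Ax.right).cut 0 Bern.Ax.right).cut 1
    Bern.Ax.left).cut 2 Bern.Ax.left) = true ∧
    Bern.coverU row41.cfg3 row41.R3 row41R6
      ((((((((((box3).cut 0 Bern.Ax.right).cut 1 Bern.Ax.left).cut 2 Bern.Ax.right).cut 0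
    Bern.Ax.right).cut 1 Bern.Ax.left).cut 2 Bern.Ax.right).cut 0 Bern.Ax.right).cut 1
    Bern.Ax.left).cut 2 Bern.Ax.right) = true ∧
    Bern.coverU row41.cfg3 row41.R3 row41R7
      (((((((((box3).cut 0 Bern.Ax.right).cut 1 Bern.Ax.left).cut 2 Bern.Ax.right).cut 0
    Bern.Ax.right).cut 1 Bern.Ax.left).cut 2 Bern.Ax.right).cut 0 Bern.Ax.right).cut 1
    Bern.Ax.right) = true ∧
    Bern.coverU row41.cfg3 row41.R3 row41R8
      (((((((box3).cut 0 Bern.Ax.right).cut 1 Bern.Ax.left).cut 2 Bern.Ax.right).cut 0
    Bern.Ax.right).cut 1 Bern.Ax.right).cut 2 Bern.Ax.left) = true ∧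
    Bern.coverU row41.cfg3 row41.R3 row41R9
      (((((((box3).cut 0 Bern.Ax.right).cut 1 Bern.Ax.left).cut 2 Bern.Ax.right).cut 0
    Bern.Ax.right).cut 1 Bern.Ax.right).cut 2 Bern.Ax.right) = true ∧
    Bern.coverU row41.cfg3 row41.R3 row41R10
      ((((box3).cut 0 Bern.Ax.right).cut 1 Bern.Ax.right).cut 2 Bern.Ax.left) = true ∧
    Bern.coverU row41.cfg3 row41.R3 row41R11
      ((((box3).cut 0 Bern.Ax.right).cut 1 Bern.Ax.right).cut 2 Bern.Ax.right) = true := by
  exact ⟨by decide +kernel,
    by decide +kernel,
    by decide +kernel,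
    by decide +kernel,
    by decide +kernel,
    by decide +kernel,
    by decide +kernel,
    by decide +kernel,
    by decide +kernel,
    by decide +kernel,
    by decide +kernel,
    by decide +kernel,
    by decide +kernel,
    by decide +kernel,
    by decide +kernel,
    by decide +kernel,
    by decide +kernel,
    by decide +kernel,
    by decide +kernel,
    by decide +kernel,
    by decide +kernel,
    by decide +kernel,
    by decide +kernel,
    by decide +kernel,
    by decide +kernel,
    by decide +kernel,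
    by decide +kernel,
    by decide +kernel,
    by decide +kernel,
    by decide +kernel,
    by decide +kernel,
    by decide +kernel,
    by decide +kernel,
    by decide +kernel,
    by decide +kernel,
    by decide +kernel,
    by decide +kernel,
    by decide +kernel,
    by decide +kernel,
    by decide +kernel,
    by decide +kernel,
    by decide +kernel,
    by decide +kernel,
    by decide +kernel,
    by decide +kernel⟩

theorem row41_rest : rowRest (terms 0) row41 = true := row41_parts.1

theorem row41_cover : Bern.coverU row41.cfg row41.P row41.cov Bern.unitBox = true :=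
  (Bern.coverU_split (Bern.coverU_split (Bern.coverU_split (Bern.coverU_split (row41_parts.2.1)
    (Bern.coverU_split (Bern.coverU_split (row41_parts.2.2.1) (Bern.coverU_split
    (Bern.coverU_split (row41_parts.2.2.2.1) (row41_parts.2.2.2.2.1)) (row41_parts.2.2.2.2.2.1)))
    (row41_parts.2.2.2.2.2.2.1))) (row41_parts.2.2.2.2.2.2.2.1)) (Bern.coverU_split
    (Bern.coverU_split (row41_parts.2.2.2.2.2.2.2.2.1) (Bern.coverU_split
    (row41_parts.2.2.2.2.2.2.2.2.2.1) (row41_parts.2.2.2.2.2.2.2.2.2.2.1)))
    (row41_parts.2.2.2.2.2.2.2.2.2.2.2.1))) (Bern.coverU_split (Bern.coverU_split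
    (Bern.coverU_split (row41_parts.2.2.2.2.2.2.2.2.2.2.2.2.1)
    (row41_parts.2.2.2.2.2.2.2.2.2.2.2.2.2.1)) (row41_parts.2.2.2.2.2.2.2.2.2.2.2.2.2.2.1))
    (Bern.coverU_split (Bern.coverU_split (Bern.coverU_split (Bern.coverU_split
    (row41_parts.2.2.2.2.2.2.2.2.2.2.2.2.2.2.2.1) (Bern.coverU_split (Bern.coverU_split
    (row41_parts.2.2.2.2.2.2.2.2.2.2.2.2.2.2.2.2.1)
    (row41_parts.2.2.2.2.2.2.2.2.2.2.2.2.2.2.2.2.2.1))
    (row41_parts.2.2.2.2.2.2.2.2.2.2.2.2.2.2.2.2.2.2.1))) (Bern.coverU_split
    (row41_parts.2.2.2.2.2.2.2.2.2.2.2.2.2.2.2.2.2.2.2.1) (Bern.coverU_split (Bern.coverU_split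
    (row41_parts.2.2.2.2.2.2.2.2.2.2.2.2.2.2.2.2.2.2.2.2.1) (Bern.coverU_split
    (row41_parts.2.2.2.2.2.2.2.2.2.2.2.2.2.2.2.2.2.2.2.2.2.1)
    (row41_parts.2.2.2.2.2.2.2.2.2.2.2.2.2.2.2.2.2.2.2.2.2.2.1)))
    (row41_parts.2.2.2.2.2.2.2.2.2.2.2.2.2.2.2.2.2.2.2.2.2.2.2.1)))) (Bern.coverU_split
    (Bern.coverU_split (row41_parts.2.2.2.2.2.2.2.2.2.2.2.2.2.2.2.2.2.2.2.2.2.2.2.2.1)
    (Bern.coverU_split (Bern.coverU_split
    (row41_parts.2.2.2.2.2.2.2.2.2.2.2.2.2.2.2.2.2.2.2.2.2.2.2.2.2.1)
    (row41_parts.2.2.2.2.2.2.2.2.2.2.2.2.2.2.2.2.2.2.2.2.2.2.2.2.2.2.1))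
    (row41_parts.2.2.2.2.2.2.2.2.2.2.2.2.2.2.2.2.2.2.2.2.2.2.2.2.2.2.2.1))) (Bern.coverU_split
    (row41_parts.2.2.2.2.2.2.2.2.2.2.2.2.2.2.2.2.2.2.2.2.2.2.2.2.2.2.2.2.1) (Bern.coverU_split
    (Bern.coverU_split (row41_parts.2.2.2.2.2.2.2.2.2.2.2.2.2.2.2.2.2.2.2.2.2.2.2.2.2.2.2.2.2.1)
    (row41_parts.2.2.2.2.2.2.2.2.2.2.2.2.2.2.2.2.2.2.2.2.2.2.2.2.2.2.2.2.2.2.1))
    (row41_parts.2.2.2.2.2.2.2.2.2.2.2.2.2.2.2.2.2.2.2.2.2.2.2.2.2.2.2.2.2.2.2.1)))))
    (row41_parts.2.2.2.2.2.2.2.2.2.2.2.2.2.2.2.2.2.2.2.2.2.2.2.2.2.2.2.2.2.2.2.2.1))))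

theorem row41_cover3 : Bern.coverU row41.cfg3 row41.R3 row41.cov3 box3 = true :=
  (Bern.coverU_split
    (row41_parts.2.2.2.2.2.2.2.2.2.2.2.2.2.2.2.2.2.2.2.2.2.2.2.2.2.2.2.2.2.2.2.2.2.1)
    (Bern.coverU_split (Bern.coverU_split
    (row41_parts.2.2.2.2.2.2.2.2.2.2.2.2.2.2.2.2.2.2.2.2.2.2.2.2.2.2.2.2.2.2.2.2.2.2.1)
    (Bern.coverU_split
    (row41_parts.2.2.2.2.2.2.2.2.2.2.2.2.2.2.2.2.2.2.2.2.2.2.2.2.2.2.2.2.2.2.2.2.2.2.2.1)
    (Bern.coverU_split (Bern.coverU_split
    (row41_parts.2.2.2.2.2.2.2.2.2.2.2.2.2.2.2.2.2.2.2.2.2.2.2.2.2.2.2.2.2.2.2.2.2.2.2.2.1)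
    (Bern.coverU_split
    (row41_parts.2.2.2.2.2.2.2.2.2.2.2.2.2.2.2.2.2.2.2.2.2.2.2.2.2.2.2.2.2.2.2.2.2.2.2.2.2.1)
    (Bern.coverU_split (Bern.coverU_split
    (row41_parts.2.2.2.2.2.2.2.2.2.2.2.2.2.2.2.2.2.2.2.2.2.2.2.2.2.2.2.2.2.2.2.2.2.2.2.2.2.2.1)
    (row41_parts.2.2.2.2.2.2.2.2.2.2.2.2.2.2.2.2.2.2.2.2.2.2.2.2.2.2.2.2.2.2.2.2.2.2.2.2.2.2.2.1))
    (row41_parts.2.2.2.2.2.2.2.2.2.2.2.2.2.2.2.2.2.2.2.2.2.2.2.2.2.2.2.2.2.2.2.2.2.2.2.2.2.2.2.2.1))))
    (Bern.coverU_split
    (row41_parts.2.2.2.2.2.2.2.2.2.2.2.2.2.2.2.2.2.2.2.2.2.2.2.2.2.2.2.2.2.2.2.2.2.2.2.2.2.2.2.2.2.1)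
    (row41_parts.2.2.2.2.2.2.2.2.2.2.2.2.2.2.2.2.2.2.2.2.2.2.2.2.2.2.2.2.2.2.2.2.2.2.2.2.2.2.2.2.2.2.1)))))
    (Bern.coverU_split
    (row41_parts.2.2.2.2.2.2.2.2.2.2.2.2.2.2.2.2.2.2.2.2.2.2.2.2.2.2.2.2.2.2.2.2.2.2.2.2.2.2.2.2.2.2.2.1)
    (row41_parts.2.2.2.2.2.2.2.2.2.2.2.2.2.2.2.2.2.2.2.2.2.2.2.2.2.2.2.2.2.2.2.2.2.2.2.2.2.2.2.2.2.2.2.2))))

theorem row41_ok : rowFor 4 1 row41 = true := by
  simp only [rowFor, Bool.and_eq_true, decide_eq_true_eq]
  exact ⟨⟨⟨rfl, rfl⟩, rfl⟩, rowCheck_of_quick row41_rest row41_cover row41_cover3⟩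

end Vale.Agent.P154.Anti
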