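import Vale.Agent.P154.Anti.RowData
import Vale.Agent.P154.RowQuick

/-!
P154: the certificate of the merge row 2 of piece 4.
-/


namespace Vale.Agent.P154.Anti

open Kron BudgetRow

/-- A part of a subdivision. -/
def row42P0 : Bern.Cover :=
  .leaf

/-- A part of a subdivision. -/
def row42P1 : Bern.Cover :=
  .leaf

/-- A part of a subdivision. -/
def row42P2 : Bern.Cover :=
  (.split 3 (.split 0 .leaf (.split 1 .leaf .leaf)) (.split 0 .leaf .leaf))

/-- A part of a subdivision. -/
def row42P3 : Bern.Cover :=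
  .leaf

/-- A part of a subdivision. -/
def row42P4 : Bern.Cover :=
  (.split 0 .leaf .leaf)

/-- A part of a subdivision. -/
def row42P5 : Bern.Cover :=
  .leaf

/-- A part of a subdivision. -/
def row42P6 : Bern.Cover :=
  .leaf

/-- A part of a subdivision. -/
def row42P7 : Bern.Cover :=
  (.split 3 (.split 0 .leaf .leaf) .leaf)

/-- A part of a subdivision. -/
def row42P8 : Bern.Cover :=
  (.split 3 (.split 0 .leaf .leaf) (.split 0 .leaf .leaf))

/-- A part of a subdivision. -/
def row42P9 : Bern.Cover :=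
  .leaf

/-- A part of a subdivision. -/
def row42P10 : Bern.Cover :=
  (.split 0 .leaf .leaf)

/-- A part of a subdivision. -/
def row42P11 : Bern.Cover :=
  (.split 3 (.split 0 .leaf .leaf) (.split 0 .leaf .leaf))

/-- A part of a subdivision. -/
def row42P12 : Bern.Cover :=
  .leaf

/-- A part of a subdivision. -/
def row42P13 : Bern.Cover :=
  (.split 0 .leaf .leaf)

/-- A part of a subdivision. -/
def row42P14 : Bern.Cover :=
  .leaf

/-- A part of a subdivision. -/
def row42P15 : Bern.Cover :=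
  (.split 3 (.split 0 .leaf .leaf) .leaf)

/-- A part of a subdivision. -/
def row42P16 : Bern.Cover :=
  (.split 3 (.split 0 .leaf .leaf) (.split 0 .leaf (.split 1 .leaf .leaf)))

/-- A part of a subdivision. -/
def row42P17 : Bern.Cover :=
  .leaf

/-- A part of a subdivision. -/
def row42P18 : Bern.Cover :=
  (.split 3 (.split 0 .leaf (.split 1 (.split 2 .leaf .leaf) .leaf)) .leaf)

/-- A part of a subdivision. -/
def row42P19 : Bern.Cover :=
  (.split 2 (.split 3 (.split 0 .leaf .leaf) (.split 0 .leaf .leaf)) .leaf)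

/-- A part of a subdivision. -/
def row42P20 : Bern.Cover :=
  .leaf

/-- A part of a subdivision. -/
def row42P21 : Bern.Cover :=
  (.split 0 .leaf (.split 1 .leaf .leaf))

/-- A part of a subdivision. -/
def row42P22 : Bern.Cover :=
  .leaf

/-- A part of a subdivision. -/
def row42P23 : Bern.Cover :=
  (.split 0 (.split 1 .leaf .leaf) .leaf)

/-- A part of a subdivision. -/
def row42P24 : Bern.Cover :=
  (.split 2 .leaf (.split 3 (.split 0 .leaf .leaf) (.split 0 .leaf .leaf)))

/-- A part of a subdivision. -/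
def row42P25 : Bern.Cover :=
  .leaf

/-- A part of a subdivision. -/
def row42P26 : Bern.Cover :=
  .leaf

/-- A part of a subdivision. -/
def row42P27 : Bern.Cover :=
  (.split 0 (.split 1 .leaf .leaf) .leaf)

/-- A part of a subdivision. -/
def row42P28 : Bern.Cover :=
  (.split 3 (.split 0 .leaf .leaf) (.split 0 .leaf .leaf))

/-- A part of a subdivision. -/
def row42P29 : Bern.Cover :=
  (.split 3 (.split 0 .leaf .leaf) (.split 0 .leaf .leaf))

/-- A part of a subdivision. -/
def row42P30 : Bern.Cover :=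
  .leaf

/-- A part of a subdivision. -/
def row42P31 : Bern.Cover :=
  .leaf

/-- A part of a subdivision. -/
def row42P32 : Bern.Cover :=
  .leaf

/-- A part of a subdivision. -/
def row42P33 : Bern.Cover :=
  (.split 1 (.split 2 .leaf (.split 3 .leaf .leaf)) .leaf)

/-- A part of a subdivision. -/
def row42P34 : Bern.Cover :=
  (.split 3 (.split 0 (.split 1 .leaf .leaf) .leaf) .leaf)

/-- A part of a subdivision. -/
def row42P35 : Bern.Cover :=
  (.split 2 (.split 3 .leaf .leaf) (.split 3 .leaf (.split 0 .leaf .leaf)))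

/-- A part of a subdivision. -/
def row42P36 : Bern.Cover :=
  .leaf

/-- A part of a subdivision. -/
def row42P37 : Bern.Cover :=
  .leaf

/-- A part of a subdivision. -/
def row42P38 : Bern.Cover :=
  (.split 0 (.split 1 .leaf .leaf) .leaf)

/-- A part of a subdivision. -/
def row42P39 : Bern.Cover :=
  (.split 2 .leaf .leaf)

/-- A part of a subdivision. -/
def row42P40 : Bern.Cover :=
  .leaf

/-- A part of a subdivision. -/
def row42P41 : Bern.Cover :=
  (.split 3 (.split 0 .leaf .leaf) (.split 0 .leaf .leaf))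

/-- A part of a subdivision. -/
def row42P42 : Bern.Cover :=
  (.split 0 .leaf (.split 1 .leaf .leaf))

/-- A part of a subdivision. -/
def row42P43 : Bern.Cover :=
  .leaf

/-- A part of a subdivision. -/
def row42P44 : Bern.Cover :=
  .leaf

/-- A part of a subdivision. -/
def row42P45 : Bern.Cover :=
  (.split 2 .leaf (.split 3 .leaf (.split 0 .leaf (.split 1 .leaf .leaf))))

/-- A part of a subdivision. -/
def row42P46 : Bern.Cover :=
  .leaf

/-- A part of a subdivision. -/
def row42P47 : Bern.Cover :=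
  (.split 0 .leaf (.split 1 .leaf .leaf))

/-- A part of a subdivision. -/
def row42P48 : Bern.Cover :=
  (.split 0 .leaf (.split 1 .leaf .leaf))

/-- A part of a subdivision. -/
def row42P49 : Bern.Cover :=
  (.split 3 .leaf .leaf)

/-- A part of a subdivision. -/
def row42R0 : Bern.Cover :=
  (.split 0 (.split 1 (.split 2 .leaf .leaf) (.split 2 .leaf .leaf)) (.split 1 (.split 2 .leaf
    .leaf) (.split 2 .leaf .leaf)))

/-- A part of a subdivision. -/
def row42R1 : Bern.Cover :=
  (.split 1 (.split 2 (.split 0 (.split 1 (.split 2 .leaf .leaf) (.split 2 .leaf .leaf)) .leaf)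
    .leaf) (.split 2 (.split 0 (.split 1 (.split 2 .leaf .leaf) (.split 2 .leaf .leaf)) .leaf)
    .leaf))

/-- A part of a subdivision. -/
def row42R2 : Bern.Cover :=
  (.split 1 (.split 2 (.split 0 .leaf (.split 1 (.split 2 .leaf (.split 0 .leaf (.split 1 (.split
    2 .leaf .leaf) .leaf))) (.split 2 .leaf .leaf))) .leaf) (.split 2 .leaf .leaf))

/-- A part of a subdivision. -/
def row42R3 : Bern.Cover :=
  (.split 0 (.split 1 (.split 2 .leaf .leaf) (.split 2 .leaf .leaf)) (.split 1 (.split 2 .leaf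
    .leaf) (.split 2 .leaf .leaf)))

/-- A part of a subdivision. -/
def row42R4 : Bern.Cover :=
  (.split 0 (.split 1 (.split 2 (.split 0 (.split 1 (.split 2 .leaf .leaf) (.split 2 .leaf .leaf))
    .leaf) .leaf) (.split 2 (.split 0 (.split 1 (.split 2 .leaf .leaf) (.split 2 .leaf .leaf))
    .leaf) .leaf)) .leaf)

/-- A part of a subdivision. -/
def row42R5 : Bern.Cover :=
  (.split 0 (.split 1 (.split 2 .leaf .leaf) (.split 2 .leaf .leaf)) (.split 1 (.split 2 (.split 0
    .leaf (.split 1 (.split 2 .leaf .leaf) .leaf)) .leaf) (.split 2 .leaf .leaf)))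

/-- A part of a subdivision. -/
def row42R6 : Bern.Cover :=
  (.split 1 (.split 2 (.split 0 (.split 1 (.split 2 .leaf .leaf) (.split 2 .leaf .leaf)) .leaf)
    .leaf) (.split 2 (.split 0 (.split 1 (.split 2 .leaf .leaf) .leaf) .leaf) .leaf))

/-- A part of a subdivision. -/
def row42R7 : Bern.Cover :=
  .leaf

/-- A part of a subdivision. -/
def row42R8 : Bern.Cover :=
  .leaf

/-- A part of a subdivision. -/
def row42R9 : Bern.Cover :=
  (.split 2 .leaf (.split 0 (.split 1 (.split 2 .leaf (.split 0 .leaf (.split 1 (.split 2 .leaf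
    (.split 0 .leaf .leaf)) .leaf))) .leaf) .leaf))

/-- A part of a subdivision. -/
def row42R10 : Bern.Cover :=
  (.split 2 (.split 0 .leaf (.split 1 .leaf .leaf)) (.split 0 .leaf (.split 1 (.split 2 .leaf
    .leaf) (.split 2 (.split 0 .leaf (.split 1 (.split 2 .leaf .leaf) .leaf)) .leaf))))

/-- A part of a subdivision. -/
def row42R11 : Bern.Cover :=
  (.split 2 .leaf (.split 0 .leaf (.split 1 (.split 2 .leaf .leaf) .leaf)))

/-- A part of a subdivision. -/
def row42R12 : Bern.Cover :=
  (.split 0 (.split 1 (.split 2 .leaf .leaf) (.split 2 .leaf .leaf)) (.split 1 (.split 2 .leaf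
    .leaf) (.split 2 (.split 0 .leaf (.split 1 (.split 2 .leaf .leaf) (.split 2 .leaf .leaf)))
    (.split 0 .leaf (.split 1 .leaf (.split 2 .leaf .leaf))))))

/-- A part of a subdivision. -/
def row42R13 : Bern.Cover :=
  (.split 1 (.split 2 .leaf .leaf) .leaf)

/-- A part of a subdivision. -/
def row42R14 : Bern.Cover :=
  (.split 2 .leaf (.split 0 .leaf (.split 1 (.split 2 .leaf (.split 0 .leaf (.split 1 .leaf
    .leaf))) .leaf)))

/-- A part of a subdivision. -/
def row42R15 : Bern.Cover :=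
  (.split 0 (.split 1 .leaf (.split 2 .leaf (.split 0 .leaf (.split 1 .leaf (.split 2 .leaf
    .leaf))))) (.split 1 .leaf (.split 2 .leaf (.split 0 (.split 1 .leaf (.split 2 .leaf .leaf))
    .leaf))))

/-- A part of a subdivision. -/
def row42R16 : Bern.Cover :=
  (.split 0 .leaf (.split 1 .leaf (.split 2 .leaf (.split 0 .leaf (.split 1 .leaf (.split 2
    (.split 0 .leaf (.split 1 .leaf (.split 2 .leaf .leaf))) .leaf))))))

/-- The certificate. -/
def row42 : Row where
  W := terms 14
  D := slopeT 4 2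
  G := [(-903593609971272, 1, 0, 0, 0), (4819361697042480, 0, 0, 1, 0),
    (-12614353237286280, 1, 0, 1, 0), (10777850289334764, 2, 0, 1, 0),
    (-1789379017425684, 3, 0, 1, 0), (-3106189335993912, 3, 0, 0, 0),
    (2241668498398920, 4, 0, 0, 0), (-828037857693312, 5, 0, 0, 0), (25084675837296, 6, 0, 0, 0),
    (1586333666520864, 1, 1, 0, 0), (-3854416940244000, 2, 1, 0, 0),
    (4497925388774652, 3, 1, 0, 0), (-2369184363018252, 4, 1, 0, 0),
    (15352641257789808, 0, 0, 2, 0), (-20466342537265314, 1, 0, 2, 0),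
    (6303798007168122, 2, 0, 2, 0), (2311469123798322, 3, 0, 2, 0),
    (-2073921286947120, 4, 0, 1, 0), (514575124064964, 5, 0, 1, 0), (620871084856080, 6, 0, 1, 0),
    (-17674279307781372, 1, 1, 1, 0), (12121377799164012, 2, 1, 1, 0),
    (2001087783778536, 3, 1, 1, 0), (-5592960807309108, 4, 1, 1, 0),
    (123304680916920, 7, 0, 0, 0), (-60114466041264, 8, 0, 0, 0), (13982312369808, 9, 0, 0, 0),
    (66268569041352, 5, 1, 0, 0), (613219517960364, 6, 1, 0, 0), (-362407952513088, 7, 1, 0, 0),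
    (5256361675453140, 2, 2, 0, 0), (601745409763614, 3, 2, 0, 0),
    (-2318385070743210, 4, 2, 0, 0), (1257129923925762, 5, 2, 0, 0),
    (2416052515749696, 2, 0, 0, 0), (-412250359193568, 0, 1, 0, 0),
    (7089842160501264, 0, 1, 1, 0), (-8516118145361688, 1, 2, 0, 0),
    (-1926535700694276, 4, 0, 2, 0), (477432922408866, 5, 0, 2, 0),
    (-411944916577068, 7, 0, 1, 0), (104061911569488, 8, 0, 1, 0), (2506680532669716, 5, 1, 1, 0),
    (-483941786655348, 6, 1, 1, 0), (-1612187704368, 10, 0, 0, 0), (39100301184, 11, 0, 0, 0),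
    (104576376830220, 8, 1, 0, 0), (-16938963736488, 9, 1, 0, 0), (-337896888733656, 6, 2, 0, 0),
    (50007379160970, 7, 2, 0, 0), (13150515842565480, 0, 1, 2, 0),
    (-12686839481047527, 1, 1, 2, 0), (4333374405109476, 2, 1, 2, 0),
    (-543115570927194, 3, 1, 2, 0), (-14983797119198616, 1, 2, 1, 0),
    (10601098510203225, 2, 2, 1, 0), (-3054996014021100, 3, 2, 1, 0),
    (247483775564442, 4, 2, 1, 0), (2964153192935400, 2, 3, 0, 0), (-746488032182361, 3, 3, 0, 0),
    (23925677423868, 4, 3, 0, 0), (20573571316734, 5, 3, 0, 0), (4362551527322016, 0, 2, 0, 0),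
    (6595034162645556, 0, 2, 1, 0), (-4641580232884764, 1, 3, 0, 0),
    (2389899106783440, 0, 3, 0, 0), (1222571338092504, 0, 4, 0, 0),
    (-1252213447525452, 1, 4, 0, 0), (464020396160256, 2, 4, 0, 0), (-66734124036120, 3, 4, 0, 0),
    (9645970068711, 4, 0, 3, 0), (2144126247858, 7, 0, 2, 0), (3473062563033, 5, 1, 2, 0),
    (536723308692, 10, 0, 1, 0), (-546232422960, 8, 1, 1, 0), (-6311940962103, 6, 2, 1, 0),
    (-749567336, 13, 0, 0, 0), (-53378539132, 11, 1, 0, 0), (123801973374, 9, 2, 0, 0),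
    (79047705879, 7, 3, 0, 0), (-51973259846166, 6, 0, 2, 0), (-12148640569980, 9, 0, 1, 0),
    (38120493108672, 7, 1, 1, 0), (9898823640, 12, 0, 0, 0), (1471742155284, 10, 1, 0, 0),
    (-3882597328386, 8, 2, 0, 0), (-2310927553476, 4, 1, 2, 0), (40751767500588, 5, 2, 1, 0),
    (-2919492789660, 6, 3, 0, 0), (3697133835276, 4, 3, 1, 0), (420342912540, 5, 4, 0, 0),
    (787839328584, 4, 4, 0, 0), (-115751640824532, 3, 0, 3, 0), (-44365606023312, 3, 3, 1, 0),
    (520882383710394, 2, 0, 3, 0), (199645227104904, 2, 3, 1, 0), (-1041764767420788, 1, 0, 3, 0),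
    (-399290454209808, 1, 3, 1, 0), (163098962299152, 0, 0, 0, 0), (781323575565591, 0, 0, 3, 0),
    (299467840657356, 0, 3, 1, 0)]
  a := 4251528
  e := slopeE 4
  kR := 128
  kG := 1509949440000000
  kP := 225
  I := 12
  J := 8
  P := ⟨[(0, 1), (0, 2), (0, 3), (0, 4), (1, 0), (1, 1), (1, 2), (1, 3), (2, 0), (2, 1), (2, 2), (2, 3), (3, 0), (3, 1), (3, 2), (4, 0), (4, 1), (5, 0), (5, 1), (6, 0)],
    [
     ((0, 0), [ 488856384000000, 178390943113728, 0, 0, 3878758835200000, -1624118660262144,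
        -127051035194624, 0, -3371403418056192, 105482082859520, 0, 0, 244939362224128, 0, 0,
        1464301172313216, 0, 0, 0, 0]),
     ((0, 1), [ -45701274124800000, 55070125318017024, -12378252751200000, 0, 17312086323200000,
        130097733137077248, -80988752309934592, 5904688406400000, 20481130475249664,
        -125004892777475840, 27429044227200000, 0, -67821342827339776, 44872656519600000, 0,
        47567190875344128, -3001418204400000, -8003781878400000, 0, 0]),
     ((0, 2), [ -432609942067200000, -252731039335738368, 52342108262400000, -5399776770600000,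
        134770696601600000, 814704065183460864, 446003910232415744, -56407138052700000,
        -310864633158478848, -241529319604997120, -294350634582000000, -2778428673300000,
        862409137762399232, -320968627707600000, 62288860983150000, -979136864386711296,
        195055446214650000, 426142406004000000, 666542021662500, -34927061270400000]),
     ((0, 3), [ -792208176076800000, -418736866099200000, 332556666614400000, -36539273006400000,
        -251933372006400000, 1370736940377600000, -361000824081600000, -104007007924800000,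
        1202739597158400000, -1330104241060800000, 447476388171000000, 37448074659000000,
        -2196130515648000000, 361880330110200000, 20775960770400000, 1790933482814400000,
        80166321019950000, -604789774443900000, -36310411852650000, 45883807348125000]),
     ((0, 4), [ 0, -345585713318400000, 292314184051200000, -30823778496000000, 0,
        -437070054470400000, -969406156320000000, -198943065124800000, 0, -587445897700800000,
        435036504998400000, 2368524502800000, 172792856659200000, 10998892430400000,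
        44125800340800000, 493352838254400000, 156872925557700000, -260751371701200000,
        6934493508825000, -7807132338900000]),
     ((1, 0), [ -7009549977600000, 5949603022843392, 1968229468800000, 0, -73494269209600000,
        35622475326192384, -6596185967854336, 0, 123447369335296512, -35618731536158720,
        3936458937600000, 0, -86237946438251008, 10665203824800000, 0, 20367841713191424, 0,
        -2000945469600000, 0, 0]),
     ((1, 1), [ 516878488396800000, -415017243387518976, 85671058773600000, 3414609800550000,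
        -327860076236800000, -1540636144123594752, 786787006777553408, -19606804186500000,
        136380082688753664, 1660891498317084160, -351000714990600000, -2604913443037500,
        604003950140724224, -747426632420400000, 29155589887425000, -817198378751647872,
        110392029807150000, 299063922887700000, -1837692051337500, -27405092758725000]),
     ((1, 2), [ 2572912834099200000, 1782242299424971776, 180500412040800000, -60587884770000000,
        -521247789260800000, -6259754881194459648, -3175739481804855808, 285888838875000000,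
        1096322860066907136, 4772244994312867840, 1694967437250600000, 55001301508200000,
        -3548826394233831424, -830772570684600000, 55073226031650000, 5785095545589929472,
        -542658968486100000, -2937920460627000000, -50039521261387500, 76965611841150000]),
     ((1, 3), [ 1511600232038400000, 1805028417686400000, -416028031699200000, 99471532562400000,
        0, -1254835467936000000, -2287110711000000000, 116758789516800000, -2267400348057600000,
        233642024937600000, 1188788358002400000, -18544773582600000, 3043026622440000000,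
        1157978494659600000, -43296415546200000, 1738388571990000000, -410712949335450000,
        -1053556821979800000, 62461878145312500, -52577464897500000]),
     ((2, 0), [ -39830804006400000, -70544454243523584, -37585612411200000, 0, 523183080371200000,
        -64035286391098368, 64360363770883072, 17714065219200000, -1247133427328077824,
        242108699697405440, -43436729692800000, 330794583975000, 1359556935586825216,
        -161707920573600000, 8099065956600000, -644000634334712448, 15967671268500000,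
        118323572857200000, -855818017425000, -7493136702750000]),
     ((2, 1), [ -1983356236224000000, 493236323530543104, -332526060265200000, 18357684303150000,
        1256756023603200000, 6620316396057873408, -2391183018120671232, 14602626558600000,
        -1991408218967955456, -6224293741504688640, 906085765636950000, 2704356218550000,
        -1386526018119069696, 2000794308054300000, 7112971299225000, 4613388005676549888,
        -209678027523562500, -1902091725747225000, -7078007054090625, 63230253934893750]),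
     ((2, 2), [ -3510917661081600000, -4709610153312000000, -894952776342000000,
        108759126249600000, 1007733488025600000, 11232022879699200000, 6779869749002400000,
        -594394179001200000, -2779950700339200000, -7248686125095600000, -3891704068659600000,
        -34595260192050000, 3981463343952000000, 757383531236100000, -248773883355300000,
        -6860624809339200000, 313376357557725000, 3674768685329400000, 88676911252106250,
        68528272535100000]),
     ((2, 3), [ 0, 355638870182400000, 599169194544000000, -4737049005600000, 0,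
        -666857841417600000, -1760041648262400000, -74179094330400000, -169366826995200000,
        173078797987200000, 276762081536400000, -17035931508900000, 1308292591987200000,
        318632924185800000, 329182192288200000, 132389167076400000, -292348626152400000,
        -215160885304800000, 42775435779975000, -267160296755025000]),
     ((3, 0), [ 530201442816000000, 855735898336473600, 274516314456000000, 2699888385300000,
        -1463486479692800000, -1190054594606572800, -883966893531948800, -95094581951250000,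
        5479056748535769600, 692363720388224000, 248841458997000000, -10221035874900000,
        -8650451016531046400, -167290775254200000, -9617540909325000, 5419880479831459200,
        52627329570825000, -1124161474326000000, -2259605313243750, 23370274146600000]),
     ((3, 1), [ 2871850017254400000, 2567749021660800000, 361880330110200000, -1374861553800000,
        -1365146089574400000, -11958826118726400000, 1661545141369200000, 289494623664900000,
        5174653458355200000, 8003177232217200000, -378691765618050000, 19914557761612500,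
        1338326202033600000, 1797969819953700000, -318320422079100000, -10802568960243900000,
        -1470996853727137500, 3840077520642375000, 123159731056471875, 53206626861937500]),
     ((3, 2), [ 0, 3986487102921600000, -166207686163200000, 44125800340800000, 0,
        -3731915505590400000, 881171616506400000, 86592831092400000, 2073360884889600000,
        -227615081575200000, -995095533421200000, -164591096144100000, -615522618196800000,
        2546563376632800000, 397955077783800000, -2752084361523600000, -1140679988656650000,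
        845180678427900000, 133512663477037500, -519757197878925000]),
     ((4, 0), [ -1448419247539200000, -3945538998190559232, -895466741407200000, 30834552390900000,
        1574486838886400000, 6369812238969063936, 5806277673790125056, -217298571498750000,
        -10586527728980554752, -9149100375088186880, -1715156202334800000, -4137161471137500,
        21786504974660423168, 5401284480121950000, -172005272595225000, -16958760039779675904,
        -404391686881875000, 4277009048438100000, 75962138052496875, 109212101309100000]),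
     ((4, 1), [ -768363060326400000, -6241774278868800000, 320665284079800000, -78436462778850000,
        0, 7065089907657600000, 4341271747888800000, -410712949335450000, -2043861922368000000,
        -3354848440377000000, -626752715115450000, -73087156538100000, -1684074546266400000,
        -5883987414908550000, 570339994328325000, 3235133495055000000, 3395991536719125000,
        1252498632993375000, -67199147640543750, -281849402021306250]),
     ((5, 0), [ 1024484080435200000, 6818278496064000000, 1209579548887800000, -65187842925300000,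
        -512242040217600000, -9570045532406400000, -11751681842508000000, 526778410989900000,
        7572708662860800000, 15216733805977800000, 3674768685329400000, 26895110663100000,
        -17986583589216000000, -7680155041284750000, 211295169606975000, 17108036193752400000,
        -626249316496687500, -4956824405779800000, 2667209053003125, -372780922745475000]),
     ((5, 1), [ 0, -85317378772800000, -580966589642400000, -13868987017650000, 0,
        -470449165142400000, 1601264680364400000, 249847512581250000, 438178824921600000,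
        -452992451461800000, -709415290016850000, 42775435779975000, 289229480095200000,
        1970555696903550000, -267025326954075000, -2430788417679900000, -268796590562175000,
        -21337672424025000, -114390014536725000, 558091379509425000]),
     ((6, 0), [ 0, -2235331921305600000, -367070458785000000, -7807132338900000, 0,
        3507851873116800000, 1231449789458400000, 105154929795000000, -1918242995904000000,
        -2023368125916600000, 274113090140400000, 133580148377512500, 1495697545382400000,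
        -425653014895500000, -519757197878925000, 1747393620945600000, 563698804042612500,
        -1491123690981900000, -279045689754712500, 661361295484275000])]⟩
  cfg := ⟨13, 12, 11, 12, 13, 335⟩
  cov := (.split 2 (.split 0 (.split 1 (.split 2 (.split 3 (.split 0 row42P0 (.split 1 (.split 2 row42P1
    row42P2) row42P3)) row42P4) (.split 3 (.split 0 row42P5 (.split 1 (.split 2 (.split 3 (.split
    0 row42P6 (.split 1 (.split 2 row42P7 row42P8) row42P9)) row42P10) row42P11) row42P12))
    row42P13)) row42P14) (.split 1 (.split 2 row42P15 row42P16) (.split 2 row42P17 row42P18)))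
    (.split 0 (.split 1 row42P19 row42P20) (.split 1 (.split 2 (.split 3 row42P21 (.split 0
    row42P22 (.split 1 (.split 2 (.split 3 row42P23 (.split 0 (.split 1 row42P24 row42P25)
    row42P26)) (.split 3 row42P27 (.split 0 (.split 1 (.split 2 row42P28 row42P29) row42P30)
    row42P31))) row42P32))) (.split 3 (.split 0 row42P33 (.split 1 (.split 2 row42P34 (.split 3
    (.split 0 (.split 1 row42P35 row42P36) row42P37) row42P38)) row42P39)) (.split 0 row42P40
    (.split 1 (.split 2 row42P41 (.split 3 row42P42 (.split 0 row42P43 (.split 1 row42P44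
    row42P45)))) row42P46)))) (.split 2 (.split 3 row42P47 row42P48) row42P49))))
  lay := ⟨157, 14, 14, 14, 14⟩
  R3 := ⟨[(0, 1), (1, 0), (1, 1), (2, 0), (2, 1), (3, 0), (3, 1), (4, 0), (4, 1), (5, 0)],
    [
     ((0, 0), [ -6656006253707640, 163098962299152, -221090252700086136, 95890075068853152,
        9294790021850034648, -2170217381026890528, -83664224373068003880, 8155564752756596328,
        18240398639857551240, 93930061236604315272]),
     ((0, 1), [ -162373953480840, 0, 245631875827018320, -1948487441770080, 6874166645215787088,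
        -3095311228517258640, -81417678248947822344, 18728590585651207056, 173232959511129341976,
        -11878855703394336144]),
     ((0, 2), [ -1368182669620752, 0, -123136440265867680, -16418192035449024,
        -3878797868374831920, -738818641595206080, -83681104612306308552, 26150072139515886912,
        753074527664139646032, -251044723278856635480]),
     ((0, 3), [ 0, 0, 0, 0, 0, 0, 0, 0, 123030335502860221224, 0]),
     ((1, 0), [ 262685363921496, 0, -618636579293360160, 14282984065284288, 3935919350864131416,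
        3098323159717674888, -45214606768470128712, -27888766944070859712, -177264096369200804736,
        251027558508713117472]),
     ((1, 1), [ 2971616358254040, 0, 267445472242863600, 35659396299048480, -1912457494360639512,
        1604672833457181600, 83650034880702905040, 14010864316552784376, 270284481469365888240,
        -207152791696491976440]),
     ((1, 2), [ 2988565248938688, 0, 268970872404481920, 35862782987264256, 8472582480741180480,
        1613825234426891520, 183007781584009498368, 40668395907557666304, -752975116651439615232,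
        -251047349385396092640]),
     ((2, 0), [ -2501778005007408, 0, -225160020450666720, -30021336060088896,
        -9297706229884776312, 1829339940713749344, 83658092653491781320, -27892492937378587872,
        -753131190309563563920, 187557126431828221728]),
     ((2, 1), [ -4434954282942192, 0, -399145885464797280, -53219451395306304,
        -12573095392141114320, -2394875312788783680, -11958745623543111816, -60350857882277348736,
        753117348166011446832, -251038200453647721552]),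
     ((3, 0), [ 3516732597887856, 0, 316505933809907040, 42200791174654272, 9969936915012071760,
        1899035602859442240, 83677869183219207840, 815313073239494928, -753130810305852405336,
        191752773125251889448]),
     ((3, 1), [ 0, 0, 0, 0, 0, 0, 0, 0, -318298977413571859992, 0]),
     ((4, 0), [ -1519120659013848, 0, -136720859311246320, -18229447908166176,
        -4306707068304259080, -820325155867477920, -93024872675371996128, -20672193927860443584,
        640297922844288822048, 251046508735624149144])]⟩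
  cfg3 := ⟨9, 8, 9, 10, 11, 529⟩
  cov3 := (.split 0 (.split 1 (.split 2 row42R0 (.split 0 row42R1 row42R2)) (.split 2 row42R3 row42R4))
    (.split 1 (.split 2 row42R5 (.split 0 row42R6 (.split 1 (.split 2 row42R7 (.split 0 row42R8
    (.split 1 row42R9 row42R10))) row42R11))) (.split 2 row42R12 (.split 0 row42R13 (.split 1
    row42R14 (.split 2 row42R15 row42R16))))))
  lay3 := ⟨86, 5, 4, 16, 1⟩

set_option maxHeartbeats 8000000 in
theorem row42_parts :
    rowRest (terms 0) row42 = true ∧
    Bern.coverU row42.cfg row42.P row42P0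
      (((((((Bern.unitBox).cut 2 Bern.Ax.left).cut 0 Bern.Ax.left).cut 1 Bern.Ax.left).cut 2
    Bern.Ax.left).cut 3 Bern.Ax.left).cut 0 Bern.Ax.left) = true ∧
    Bern.coverU row42.cfg row42.P row42P1
      (((((((((Bern.unitBox).cut 2 Bern.Ax.left).cut 0 Bern.Ax.left).cut 1 Bern.Ax.left).cut 2
    Bern.Ax.left).cut 3 Bern.Ax.left).cut 0 Bern.Ax.right).cut 1 Bern.Ax.left).cut 2
    Bern.Ax.left) = true ∧
    Bern.coverU row42.cfg row42.P row42P2
      (((((((((Bern.unitBox).cut 2 Bern.Ax.left).cut 0 Bern.Ax.left).cut 1 Bern.Ax.left).cut 2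
    Bern.Ax.left).cut 3 Bern.Ax.left).cut 0 Bern.Ax.right).cut 1 Bern.Ax.left).cut 2
    Bern.Ax.right) = true ∧
    Bern.coverU row42.cfg row42.P row42P3
      ((((((((Bern.unitBox).cut 2 Bern.Ax.left).cut 0 Bern.Ax.left).cut 1 Bern.Ax.left).cut 2
    Bern.Ax.left).cut 3 Bern.Ax.left).cut 0 Bern.Ax.right).cut 1 Bern.Ax.right) = true ∧
    Bern.coverU row42.cfg row42.P row42P4
      ((((((Bern.unitBox).cut 2 Bern.Ax.left).cut 0 Bern.Ax.left).cut 1 Bern.Ax.left).cut 2
    Bern.Ax.left).cut 3 Bern.Ax.right) = true ∧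
    Bern.coverU row42.cfg row42.P row42P5
      (((((((Bern.unitBox).cut 2 Bern.Ax.left).cut 0 Bern.Ax.left).cut 1 Bern.Ax.left).cut 2
    Bern.Ax.right).cut 3 Bern.Ax.left).cut 0 Bern.Ax.left) = true ∧
    Bern.coverU row42.cfg row42.P row42P6
      (((((((((((Bern.unitBox).cut 2 Bern.Ax.left).cut 0 Bern.Ax.left).cut 1 Bern.Ax.left).cut 2
    Bern.Ax.right).cut 3 Bern.Ax.left).cut 0 Bern.Ax.right).cut 1 Bern.Ax.left).cut 2
    Bern.Ax.left).cut 3 Bern.Ax.left).cut 0 Bern.Ax.left) = true ∧
    Bern.coverU row42.cfg row42.P row42P7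
      (((((((((((((Bern.unitBox).cut 2 Bern.Ax.left).cut 0 Bern.Ax.left).cut 1 Bern.Ax.left).cut 2
    Bern.Ax.right).cut 3 Bern.Ax.left).cut 0 Bern.Ax.right).cut 1 Bern.Ax.left).cut 2
    Bern.Ax.left).cut 3 Bern.Ax.left).cut 0 Bern.Ax.right).cut 1 Bern.Ax.left).cut 2
    Bern.Ax.left) = true ∧
    Bern.coverU row42.cfg row42.P row42P8
      (((((((((((((Bern.unitBox).cut 2 Bern.Ax.left).cut 0 Bern.Ax.left).cut 1 Bern.Ax.left).cut 2
    Bern.Ax.right).cut 3 Bern.Ax.left).cut 0 Bern.Ax.right).cut 1 Bern.Ax.left).cut 2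
    Bern.Ax.left).cut 3 Bern.Ax.left).cut 0 Bern.Ax.right).cut 1 Bern.Ax.left).cut 2
    Bern.Ax.right) = true ∧
    Bern.coverU row42.cfg row42.P row42P9
      ((((((((((((Bern.unitBox).cut 2 Bern.Ax.left).cut 0 Bern.Ax.left).cut 1 Bern.Ax.left).cut 2
    Bern.Ax.right).cut 3 Bern.Ax.left).cut 0 Bern.Ax.right).cut 1 Bern.Ax.left).cut 2
    Bern.Ax.left).cut 3 Bern.Ax.left).cut 0 Bern.Ax.right).cut 1 Bern.Ax.right) = true ∧
    Bern.coverU row42.cfg row42.P row42P10
      ((((((((((Bern.unitBox).cut 2 Bern.Ax.left).cut 0 Bern.Ax.left).cut 1 Bern.Ax.left).cut 2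
    Bern.Ax.right).cut 3 Bern.Ax.left).cut 0 Bern.Ax.right).cut 1 Bern.Ax.left).cut 2
    Bern.Ax.left).cut 3 Bern.Ax.right) = true ∧
    Bern.coverU row42.cfg row42.P row42P11
      (((((((((Bern.unitBox).cut 2 Bern.Ax.left).cut 0 Bern.Ax.left).cut 1 Bern.Ax.left).cut 2
    Bern.Ax.right).cut 3 Bern.Ax.left).cut 0 Bern.Ax.right).cut 1 Bern.Ax.left).cut 2
    Bern.Ax.right) = true ∧
    Bern.coverU row42.cfg row42.P row42P12
      ((((((((Bern.unitBox).cut 2 Bern.Ax.left).cut 0 Bern.Ax.left).cut 1 Bern.Ax.left).cut 2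
    Bern.Ax.right).cut 3 Bern.Ax.left).cut 0 Bern.Ax.right).cut 1 Bern.Ax.right) = true ∧
    Bern.coverU row42.cfg row42.P row42P13
      ((((((Bern.unitBox).cut 2 Bern.Ax.left).cut 0 Bern.Ax.left).cut 1 Bern.Ax.left).cut 2
    Bern.Ax.right).cut 3 Bern.Ax.right) = true ∧
    Bern.coverU row42.cfg row42.P row42P14
      ((((Bern.unitBox).cut 2 Bern.Ax.left).cut 0 Bern.Ax.left).cut 1 Bern.Ax.right) = true ∧
    Bern.coverU row42.cfg row42.P row42P15
      (((((Bern.unitBox).cut 2 Bern.Ax.left).cut 0 Bern.Ax.right).cut 1 Bern.Ax.left).cut 2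
    Bern.Ax.left) = true ∧
    Bern.coverU row42.cfg row42.P row42P16
      (((((Bern.unitBox).cut 2 Bern.Ax.left).cut 0 Bern.Ax.right).cut 1 Bern.Ax.left).cut 2
    Bern.Ax.right) = true ∧
    Bern.coverU row42.cfg row42.P row42P17
      (((((Bern.unitBox).cut 2 Bern.Ax.left).cut 0 Bern.Ax.right).cut 1 Bern.Ax.right).cut 2
    Bern.Ax.left) = true ∧
    Bern.coverU row42.cfg row42.P row42P18
      (((((Bern.unitBox).cut 2 Bern.Ax.left).cut 0 Bern.Ax.right).cut 1 Bern.Ax.right).cut 2
    Bern.Ax.right) = true ∧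
    Bern.coverU row42.cfg row42.P row42P19
      ((((Bern.unitBox).cut 2 Bern.Ax.right).cut 0 Bern.Ax.left).cut 1 Bern.Ax.left) = true ∧
    Bern.coverU row42.cfg row42.P row42P20
      ((((Bern.unitBox).cut 2 Bern.Ax.right).cut 0 Bern.Ax.left).cut 1 Bern.Ax.right) = true ∧
    Bern.coverU row42.cfg row42.P row42P21
      ((((((Bern.unitBox).cut 2 Bern.Ax.right).cut 0 Bern.Ax.right).cut 1 Bern.Ax.left).cut 2
    Bern.Ax.left).cut 3 Bern.Ax.left) = true ∧
    Bern.coverU row42.cfg row42.P row42P22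
      (((((((Bern.unitBox).cut 2 Bern.Ax.right).cut 0 Bern.Ax.right).cut 1 Bern.Ax.left).cut 2
    Bern.Ax.left).cut 3 Bern.Ax.right).cut 0 Bern.Ax.left) = true ∧
    Bern.coverU row42.cfg row42.P row42P23
      ((((((((((Bern.unitBox).cut 2 Bern.Ax.right).cut 0 Bern.Ax.right).cut 1 Bern.Ax.left).cut 2
    Bern.Ax.left).cut 3 Bern.Ax.right).cut 0 Bern.Ax.right).cut 1 Bern.Ax.left).cut 2
    Bern.Ax.left).cut 3 Bern.Ax.left) = true ∧
    Bern.coverU row42.cfg row42.P row42P24
      ((((((((((((Bern.unitBox).cut 2 Bern.Ax.right).cut 0 Bern.Ax.right).cut 1 Bern.Ax.left).cut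
    2 Bern.Ax.left).cut 3 Bern.Ax.right).cut 0 Bern.Ax.right).cut 1 Bern.Ax.left).cut 2
    Bern.Ax.left).cut 3 Bern.Ax.right).cut 0 Bern.Ax.left).cut 1 Bern.Ax.left) = true ∧
    Bern.coverU row42.cfg row42.P row42P25
      ((((((((((((Bern.unitBox).cut 2 Bern.Ax.right).cut 0 Bern.Ax.right).cut 1 Bern.Ax.left).cut
    2 Bern.Ax.left).cut 3 Bern.Ax.right).cut 0 Bern.Ax.right).cut 1 Bern.Ax.left).cut 2
    Bern.Ax.left).cut 3 Bern.Ax.right).cut 0 Bern.Ax.left).cut 1 Bern.Ax.right) = true ∧
    Bern.coverU row42.cfg row42.P row42P26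
      (((((((((((Bern.unitBox).cut 2 Bern.Ax.right).cut 0 Bern.Ax.right).cut 1 Bern.Ax.left).cut 2
    Bern.Ax.left).cut 3 Bern.Ax.right).cut 0 Bern.Ax.right).cut 1 Bern.Ax.left).cut 2
    Bern.Ax.left).cut 3 Bern.Ax.right).cut 0 Bern.Ax.right) = true ∧
    Bern.coverU row42.cfg row42.P row42P27
      ((((((((((Bern.unitBox).cut 2 Bern.Ax.right).cut 0 Bern.Ax.right).cut 1 Bern.Ax.left).cut 2
    Bern.Ax.left).cut 3 Bern.Ax.right).cut 0 Bern.Ax.right).cut 1 Bern.Ax.left).cut 2
    Bern.Ax.right).cut 3 Bern.Ax.left) = true ∧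
    Bern.coverU row42.cfg row42.P row42P28
      (((((((((((((Bern.unitBox).cut 2 Bern.Ax.right).cut 0 Bern.Ax.right).cut 1 Bern.Ax.left).cut
    2 Bern.Ax.left).cut 3 Bern.Ax.right).cut 0 Bern.Ax.right).cut 1 Bern.Ax.left).cut 2
    Bern.Ax.right).cut 3 Bern.Ax.right).cut 0 Bern.Ax.left).cut 1 Bern.Ax.left).cut 2
    Bern.Ax.left) = true ∧
    Bern.coverU row42.cfg row42.P row42P29
      (((((((((((((Bern.unitBox).cut 2 Bern.Ax.right).cut 0 Bern.Ax.right).cut 1 Bern.Ax.left).cut
    2 Bern.Ax.left).cut 3 Bern.Ax.right).cut 0 Bern.Ax.right).cut 1 Bern.Ax.left).cut 2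
    Bern.Ax.right).cut 3 Bern.Ax.right).cut 0 Bern.Ax.left).cut 1 Bern.Ax.left).cut 2
    Bern.Ax.right) = true ∧
    Bern.coverU row42.cfg row42.P row42P30
      ((((((((((((Bern.unitBox).cut 2 Bern.Ax.right).cut 0 Bern.Ax.right).cut 1 Bern.Ax.left).cut
    2 Bern.Ax.left).cut 3 Bern.Ax.right).cut 0 Bern.Ax.right).cut 1 Bern.Ax.left).cut 2
    Bern.Ax.right).cut 3 Bern.Ax.right).cut 0 Bern.Ax.left).cut 1 Bern.Ax.right) = true ∧
    Bern.coverU row42.cfg row42.P row42P31
      (((((((((((Bern.unitBox).cut 2 Bern.Ax.right).cut 0 Bern.Ax.right).cut 1 Bern.Ax.left).cut 2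
    Bern.Ax.left).cut 3 Bern.Ax.right).cut 0 Bern.Ax.right).cut 1 Bern.Ax.left).cut 2
    Bern.Ax.right).cut 3 Bern.Ax.right).cut 0 Bern.Ax.right) = true ∧
    Bern.coverU row42.cfg row42.P row42P32
      ((((((((Bern.unitBox).cut 2 Bern.Ax.right).cut 0 Bern.Ax.right).cut 1 Bern.Ax.left).cut 2
    Bern.Ax.left).cut 3 Bern.Ax.right).cut 0 Bern.Ax.right).cut 1 Bern.Ax.right) = true ∧
    Bern.coverU row42.cfg row42.P row42P33
      (((((((Bern.unitBox).cut 2 Bern.Ax.right).cut 0 Bern.Ax.right).cut 1 Bern.Ax.left).cut 2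
    Bern.Ax.right).cut 3 Bern.Ax.left).cut 0 Bern.Ax.left) = true ∧
    Bern.coverU row42.cfg row42.P row42P34
      (((((((((Bern.unitBox).cut 2 Bern.Ax.right).cut 0 Bern.Ax.right).cut 1 Bern.Ax.left).cut 2
    Bern.Ax.right).cut 3 Bern.Ax.left).cut 0 Bern.Ax.right).cut 1 Bern.Ax.left).cut 2
    Bern.Ax.left) = true ∧
    Bern.coverU row42.cfg row42.P row42P35
      ((((((((((((Bern.unitBox).cut 2 Bern.Ax.right).cut 0 Bern.Ax.right).cut 1 Bern.Ax.left).cut
    2 Bern.Ax.right).cut 3 Bern.Ax.left).cut 0 Bern.Ax.right).cut 1 Bern.Ax.left).cut 2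
    Bern.Ax.right).cut 3 Bern.Ax.left).cut 0 Bern.Ax.left).cut 1 Bern.Ax.left) = true ∧
    Bern.coverU row42.cfg row42.P row42P36
      ((((((((((((Bern.unitBox).cut 2 Bern.Ax.right).cut 0 Bern.Ax.right).cut 1 Bern.Ax.left).cut
    2 Bern.Ax.right).cut 3 Bern.Ax.left).cut 0 Bern.Ax.right).cut 1 Bern.Ax.left).cut 2
    Bern.Ax.right).cut 3 Bern.Ax.left).cut 0 Bern.Ax.left).cut 1 Bern.Ax.right) = true ∧
    Bern.coverU row42.cfg row42.P row42P37
      (((((((((((Bern.unitBox).cut 2 Bern.Ax.right).cut 0 Bern.Ax.right).cut 1 Bern.Ax.left).cut 2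
    Bern.Ax.right).cut 3 Bern.Ax.left).cut 0 Bern.Ax.right).cut 1 Bern.Ax.left).cut 2
    Bern.Ax.right).cut 3 Bern.Ax.left).cut 0 Bern.Ax.right) = true ∧
    Bern.coverU row42.cfg row42.P row42P38
      ((((((((((Bern.unitBox).cut 2 Bern.Ax.right).cut 0 Bern.Ax.right).cut 1 Bern.Ax.left).cut 2
    Bern.Ax.right).cut 3 Bern.Ax.left).cut 0 Bern.Ax.right).cut 1 Bern.Ax.left).cut 2
    Bern.Ax.right).cut 3 Bern.Ax.right) = true ∧
    Bern.coverU row42.cfg row42.P row42P39
      ((((((((Bern.unitBox).cut 2 Bern.Ax.right).cut 0 Bern.Ax.right).cut 1 Bern.Ax.left).cut 2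
    Bern.Ax.right).cut 3 Bern.Ax.left).cut 0 Bern.Ax.right).cut 1 Bern.Ax.right) = true ∧
    Bern.coverU row42.cfg row42.P row42P40
      (((((((Bern.unitBox).cut 2 Bern.Ax.right).cut 0 Bern.Ax.right).cut 1 Bern.Ax.left).cut 2
    Bern.Ax.right).cut 3 Bern.Ax.right).cut 0 Bern.Ax.left) = true ∧
    Bern.coverU row42.cfg row42.P row42P41
      (((((((((Bern.unitBox).cut 2 Bern.Ax.right).cut 0 Bern.Ax.right).cut 1 Bern.Ax.left).cut 2
    Bern.Ax.right).cut 3 Bern.Ax.right).cut 0 Bern.Ax.right).cut 1 Bern.Ax.left).cut 2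
    Bern.Ax.left) = true ∧
    Bern.coverU row42.cfg row42.P row42P42
      ((((((((((Bern.unitBox).cut 2 Bern.Ax.right).cut 0 Bern.Ax.right).cut 1 Bern.Ax.left).cut 2
    Bern.Ax.right).cut 3 Bern.Ax.right).cut 0 Bern.Ax.right).cut 1 Bern.Ax.left).cut 2
    Bern.Ax.right).cut 3 Bern.Ax.left) = true ∧
    Bern.coverU row42.cfg row42.P row42P43
      (((((((((((Bern.unitBox).cut 2 Bern.Ax.right).cut 0 Bern.Ax.right).cut 1 Bern.Ax.left).cut 2
    Bern.Ax.right).cut 3 Bern.Ax.right).cut 0 Bern.Ax.right).cut 1 Bern.Ax.left).cut 2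
    Bern.Ax.right).cut 3 Bern.Ax.right).cut 0 Bern.Ax.left) = true ∧
    Bern.coverU row42.cfg row42.P row42P44
      ((((((((((((Bern.unitBox).cut 2 Bern.Ax.right).cut 0 Bern.Ax.right).cut 1 Bern.Ax.left).cut
    2 Bern.Ax.right).cut 3 Bern.Ax.right).cut 0 Bern.Ax.right).cut 1 Bern.Ax.left).cut 2
    Bern.Ax.right).cut 3 Bern.Ax.right).cut 0 Bern.Ax.right).cut 1 Bern.Ax.left) = true ∧
    Bern.coverU row42.cfg row42.P row42P45
      ((((((((((((Bern.unitBox).cut 2 Bern.Ax.right).cut 0 Bern.Ax.right).cut 1 Bern.Ax.left).cut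
    2 Bern.Ax.right).cut 3 Bern.Ax.right).cut 0 Bern.Ax.right).cut 1 Bern.Ax.left).cut 2
    Bern.Ax.right).cut 3 Bern.Ax.right).cut 0 Bern.Ax.right).cut 1 Bern.Ax.right) = true ∧
    Bern.coverU row42.cfg row42.P row42P46
      ((((((((Bern.unitBox).cut 2 Bern.Ax.right).cut 0 Bern.Ax.right).cut 1 Bern.Ax.left).cut 2
    Bern.Ax.right).cut 3 Bern.Ax.right).cut 0 Bern.Ax.right).cut 1 Bern.Ax.right) = true ∧
    Bern.coverU row42.cfg row42.P row42P47
      ((((((Bern.unitBox).cut 2 Bern.Ax.right).cut 0 Bern.Ax.right).cut 1 Bern.Ax.right).cut 2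
    Bern.Ax.left).cut 3 Bern.Ax.left) = true ∧
    Bern.coverU row42.cfg row42.P row42P48
      ((((((Bern.unitBox).cut 2 Bern.Ax.right).cut 0 Bern.Ax.right).cut 1 Bern.Ax.right).cut 2
    Bern.Ax.left).cut 3 Bern.Ax.right) = true ∧
    Bern.coverU row42.cfg row42.P row42P49
      (((((Bern.unitBox).cut 2 Bern.Ax.right).cut 0 Bern.Ax.right).cut 1 Bern.Ax.right).cut 2
    Bern.Ax.right) = true ∧
    Bern.coverU row42.cfg3 row42.R3 row42R0
      ((((box3).cut 0 Bern.Ax.left).cut 1 Bern.Ax.left).cut 2 Bern.Ax.left) = true ∧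
    Bern.coverU row42.cfg3 row42.R3 row42R1
      (((((box3).cut 0 Bern.Ax.left).cut 1 Bern.Ax.left).cut 2 Bern.Ax.right).cut 0 Bern.Ax.left) = true ∧
    Bern.coverU row42.cfg3 row42.R3 row42R2
      (((((box3).cut 0 Bern.Ax.left).cut 1 Bern.Ax.left).cut 2 Bern.Ax.right).cut 0 Bern.Ax.right) = true ∧
    Bern.coverU row42.cfg3 row42.R3 row42R3
      ((((box3).cut 0 Bern.Ax.left).cut 1 Bern.Ax.right).cut 2 Bern.Ax.left) = true ∧
    Bern.coverU row42.cfg3 row42.R3 row42R4
      ((((box3).cut 0 Bern.Ax.left).cut 1 Bern.Ax.right).cut 2 Bern.Ax.right) = true ∧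
    Bern.coverU row42.cfg3 row42.R3 row42R5
      ((((box3).cut 0 Bern.Ax.right).cut 1 Bern.Ax.left).cut 2 Bern.Ax.left) = true ∧
    Bern.coverU row42.cfg3 row42.R3 row42R6
      (((((box3).cut 0 Bern.Ax.right).cut 1 Bern.Ax.left).cut 2 Bern.Ax.right).cut 0 Bern.Ax.left) = true ∧
    Bern.coverU row42.cfg3 row42.R3 row42R7
      (((((((box3).cut 0 Bern.Ax.right).cut 1 Bern.Ax.left).cut 2 Bern.Ax.right).cut 0
    Bern.Ax.right).cut 1 Bern.Ax.left).cut 2 Bern.Ax.left) = true ∧
    Bern.coverU row42.cfg3 row42.R3 row42R8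
      ((((((((box3).cut 0 Bern.Ax.right).cut 1 Bern.Ax.left).cut 2 Bern.Ax.right).cut 0
    Bern.Ax.right).cut 1 Bern.Ax.left).cut 2 Bern.Ax.right).cut 0 Bern.Ax.left) = true ∧
    Bern.coverU row42.cfg3 row42.R3 row42R9
      (((((((((box3).cut 0 Bern.Ax.right).cut 1 Bern.Ax.left).cut 2 Bern.Ax.right).cut 0
    Bern.Ax.right).cut 1 Bern.Ax.left).cut 2 Bern.Ax.right).cut 0 Bern.Ax.right).cut 1
    Bern.Ax.left) = true ∧
    Bern.coverU row42.cfg3 row42.R3 row42R10
      (((((((((box3).cut 0 Bern.Ax.right).cut 1 Bern.Ax.left).cut 2 Bern.Ax.right).cut 0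
    Bern.Ax.right).cut 1 Bern.Ax.left).cut 2 Bern.Ax.right).cut 0 Bern.Ax.right).cut 1
    Bern.Ax.right) = true ∧
    Bern.coverU row42.cfg3 row42.R3 row42R11
      ((((((box3).cut 0 Bern.Ax.right).cut 1 Bern.Ax.left).cut 2 Bern.Ax.right).cut 0
    Bern.Ax.right).cut 1 Bern.Ax.right) = true ∧
    Bern.coverU row42.cfg3 row42.R3 row42R12
      ((((box3).cut 0 Bern.Ax.right).cut 1 Bern.Ax.right).cut 2 Bern.Ax.left) = true ∧
    Bern.coverU row42.cfg3 row42.R3 row42R13
      (((((box3).cut 0 Bern.Ax.right).cut 1 Bern.Ax.right).cut 2 Bern.Ax.right).cut 0 Bern.Ax.left) = true ∧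
    Bern.coverU row42.cfg3 row42.R3 row42R14
      ((((((box3).cut 0 Bern.Ax.right).cut 1 Bern.Ax.right).cut 2 Bern.Ax.right).cut 0
    Bern.Ax.right).cut 1 Bern.Ax.left) = true ∧
    Bern.coverU row42.cfg3 row42.R3 row42R15
      (((((((box3).cut 0 Bern.Ax.right).cut 1 Bern.Ax.right).cut 2 Bern.Ax.right).cut 0
    Bern.Ax.right).cut 1 Bern.Ax.right).cut 2 Bern.Ax.left) = true ∧
    Bern.coverU row42.cfg3 row42.R3 row42R16
      (((((((box3).cut 0 Bern.Ax.right).cut 1 Bern.Ax.right).cut 2 Bern.Ax.right).cut 0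
    Bern.Ax.right).cut 1 Bern.Ax.right).cut 2 Bern.Ax.right) = true := by
  exact ⟨by decide +kernel,
    by decide +kernel,
    by decide +kernel,
    by decide +kernel,
    by decide +kernel,
    by decide +kernel,
    by decide +kernel,
    by decide +kernel,
    by decide +kernel,
    by decide +kernel,
    by decide +kernel,
    by decide +kernel,
    by decide +kernel,
    by decide +kernel,
    by decide +kernel,
    by decide +kernel,
    by decide +kernel,
    by decide +kernel,
    by decide +kernel,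
    by decide +kernel,
    by decide +kernel,
    by decide +kernel,
    by decide +kernel,
    by decide +kernel,
    by decide +kernel,
    by decide +kernel,
    by decide +kernel,
    by decide +kernel,
    by decide +kernel,
    by decide +kernel,
    by decide +kernel,
    by decide +kernel,
    by decide +kernel,
    by decide +kernel,
    by decide +kernel,
    by decide +kernel,
    by decide +kernel,
    by decide +kernel,
    by decide +kernel,
    by decide +kernel,
    by decide +kernel,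
    by decide +kernel,
    by decide +kernel,
    by decide +kernel,
    by decide +kernel,
    by decide +kernel,
    by decide +kernel,
    by decide +kernel,
    by decide +kernel,
    by decide +kernel,
    by decide +kernel,
    by decide +kernel,
    by decide +kernel,
    by decide +kernel,
    by decide +kernel,
    by decide +kernel,
    by decide +kernel,
    by decide +kernel,
    by decide +kernel,
    by decide +kernel,
    by decide +kernel,
    by decide +kernel,
    by decide +kernel,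
    by decide +kernel,
    by decide +kernel,
    by decide +kernel,
    by decide +kernel,
    by decide +kernel⟩

theorem row42_rest : rowRest (terms 0) row42 = true := row42_parts.1

theorem row42_cover : Bern.coverU row42.cfg row42.P row42.cov Bern.unitBox = true :=
  (Bern.coverU_split (Bern.coverU_split (Bern.coverU_split (Bern.coverU_split (Bern.coverU_split
    (Bern.coverU_split (row42_parts.2.1) (Bern.coverU_split (Bern.coverU_split (row42_parts.2.2.1)
    (row42_parts.2.2.2.1)) (row42_parts.2.2.2.2.1))) (row42_parts.2.2.2.2.2.1)) (Bern.coverU_split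
    (Bern.coverU_split (row42_parts.2.2.2.2.2.2.1) (Bern.coverU_split (Bern.coverU_split
    (Bern.coverU_split (Bern.coverU_split (row42_parts.2.2.2.2.2.2.2.1) (Bern.coverU_split
    (Bern.coverU_split (row42_parts.2.2.2.2.2.2.2.2.1) (row42_parts.2.2.2.2.2.2.2.2.2.1))
    (row42_parts.2.2.2.2.2.2.2.2.2.2.1))) (row42_parts.2.2.2.2.2.2.2.2.2.2.2.1))
    (row42_parts.2.2.2.2.2.2.2.2.2.2.2.2.1)) (row42_parts.2.2.2.2.2.2.2.2.2.2.2.2.2.1)))
    (row42_parts.2.2.2.2.2.2.2.2.2.2.2.2.2.2.1))) (row42_parts.2.2.2.2.2.2.2.2.2.2.2.2.2.2.2.1))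
    (Bern.coverU_split (Bern.coverU_split (row42_parts.2.2.2.2.2.2.2.2.2.2.2.2.2.2.2.2.1)
    (row42_parts.2.2.2.2.2.2.2.2.2.2.2.2.2.2.2.2.2.1)) (Bern.coverU_split
    (row42_parts.2.2.2.2.2.2.2.2.2.2.2.2.2.2.2.2.2.2.1)
    (row42_parts.2.2.2.2.2.2.2.2.2.2.2.2.2.2.2.2.2.2.2.1)))) (Bern.coverU_split (Bern.coverU_split
    (row42_parts.2.2.2.2.2.2.2.2.2.2.2.2.2.2.2.2.2.2.2.2.1)
    (row42_parts.2.2.2.2.2.2.2.2.2.2.2.2.2.2.2.2.2.2.2.2.2.1)) (Bern.coverU_split
    (Bern.coverU_split (Bern.coverU_split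
    (row42_parts.2.2.2.2.2.2.2.2.2.2.2.2.2.2.2.2.2.2.2.2.2.2.1) (Bern.coverU_split
    (row42_parts.2.2.2.2.2.2.2.2.2.2.2.2.2.2.2.2.2.2.2.2.2.2.2.1) (Bern.coverU_split
    (Bern.coverU_split (Bern.coverU_split
    (row42_parts.2.2.2.2.2.2.2.2.2.2.2.2.2.2.2.2.2.2.2.2.2.2.2.2.1) (Bern.coverU_split
    (Bern.coverU_split (row42_parts.2.2.2.2.2.2.2.2.2.2.2.2.2.2.2.2.2.2.2.2.2.2.2.2.2.1)
    (row42_parts.2.2.2.2.2.2.2.2.2.2.2.2.2.2.2.2.2.2.2.2.2.2.2.2.2.2.1))
    (row42_parts.2.2.2.2.2.2.2.2.2.2.2.2.2.2.2.2.2.2.2.2.2.2.2.2.2.2.2.1))) (Bern.coverU_split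
    (row42_parts.2.2.2.2.2.2.2.2.2.2.2.2.2.2.2.2.2.2.2.2.2.2.2.2.2.2.2.2.1) (Bern.coverU_split
    (Bern.coverU_split (Bern.coverU_split
    (row42_parts.2.2.2.2.2.2.2.2.2.2.2.2.2.2.2.2.2.2.2.2.2.2.2.2.2.2.2.2.2.1)
    (row42_parts.2.2.2.2.2.2.2.2.2.2.2.2.2.2.2.2.2.2.2.2.2.2.2.2.2.2.2.2.2.2.1))
    (row42_parts.2.2.2.2.2.2.2.2.2.2.2.2.2.2.2.2.2.2.2.2.2.2.2.2.2.2.2.2.2.2.2.1))
    (row42_parts.2.2.2.2.2.2.2.2.2.2.2.2.2.2.2.2.2.2.2.2.2.2.2.2.2.2.2.2.2.2.2.2.1))))
    (row42_parts.2.2.2.2.2.2.2.2.2.2.2.2.2.2.2.2.2.2.2.2.2.2.2.2.2.2.2.2.2.2.2.2.2.1))))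
    (Bern.coverU_split (Bern.coverU_split
    (row42_parts.2.2.2.2.2.2.2.2.2.2.2.2.2.2.2.2.2.2.2.2.2.2.2.2.2.2.2.2.2.2.2.2.2.2.1)
    (Bern.coverU_split (Bern.coverU_split
    (row42_parts.2.2.2.2.2.2.2.2.2.2.2.2.2.2.2.2.2.2.2.2.2.2.2.2.2.2.2.2.2.2.2.2.2.2.2.1)
    (Bern.coverU_split (Bern.coverU_split (Bern.coverU_split
    (row42_parts.2.2.2.2.2.2.2.2.2.2.2.2.2.2.2.2.2.2.2.2.2.2.2.2.2.2.2.2.2.2.2.2.2.2.2.2.1)
    (row42_parts.2.2.2.2.2.2.2.2.2.2.2.2.2.2.2.2.2.2.2.2.2.2.2.2.2.2.2.2.2.2.2.2.2.2.2.2.2.1))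
    (row42_parts.2.2.2.2.2.2.2.2.2.2.2.2.2.2.2.2.2.2.2.2.2.2.2.2.2.2.2.2.2.2.2.2.2.2.2.2.2.2.1))
    (row42_parts.2.2.2.2.2.2.2.2.2.2.2.2.2.2.2.2.2.2.2.2.2.2.2.2.2.2.2.2.2.2.2.2.2.2.2.2.2.2.2.1)))
    (row42_parts.2.2.2.2.2.2.2.2.2.2.2.2.2.2.2.2.2.2.2.2.2.2.2.2.2.2.2.2.2.2.2.2.2.2.2.2.2.2.2.2.1)))
    (Bern.coverU_split
    (row42_parts.2.2.2.2.2.2.2.2.2.2.2.2.2.2.2.2.2.2.2.2.2.2.2.2.2.2.2.2.2.2.2.2.2.2.2.2.2.2.2.2.2.1)
    (Bern.coverU_split (Bern.coverU_split
    (row42_parts.2.2.2.2.2.2.2.2.2.2.2.2.2.2.2.2.2.2.2.2.2.2.2.2.2.2.2.2.2.2.2.2.2.2.2.2.2.2.2.2.2.2.1)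
    (Bern.coverU_split
    (row42_parts.2.2.2.2.2.2.2.2.2.2.2.2.2.2.2.2.2.2.2.2.2.2.2.2.2.2.2.2.2.2.2.2.2.2.2.2.2.2.2.2.2.2.2.1)
    (Bern.coverU_split
    (row42_parts.2.2.2.2.2.2.2.2.2.2.2.2.2.2.2.2.2.2.2.2.2.2.2.2.2.2.2.2.2.2.2.2.2.2.2.2.2.2.2.2.2.2.2.2.1)
    (Bern.coverU_split
    (row42_parts.2.2.2.2.2.2.2.2.2.2.2.2.2.2.2.2.2.2.2.2.2.2.2.2.2.2.2.2.2.2.2.2.2.2.2.2.2.2.2.2.2.2.2.2.2.1)
    (row42_parts.2.2.2.2.2.2.2.2.2.2.2.2.2.2.2.2.2.2.2.2.2.2.2.2.2.2.2.2.2.2.2.2.2.2.2.2.2.2.2.2.2.2.2.2.2.2.1)))))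
    (row42_parts.2.2.2.2.2.2.2.2.2.2.2.2.2.2.2.2.2.2.2.2.2.2.2.2.2.2.2.2.2.2.2.2.2.2.2.2.2.2.2.2.2.2.2.2.2.2.2.1)))))
    (Bern.coverU_split (Bern.coverU_split
    (row42_parts.2.2.2.2.2.2.2.2.2.2.2.2.2.2.2.2.2.2.2.2.2.2.2.2.2.2.2.2.2.2.2.2.2.2.2.2.2.2.2.2.2.2.2.2.2.2.2.2.1)
    (row42_parts.2.2.2.2.2.2.2.2.2.2.2.2.2.2.2.2.2.2.2.2.2.2.2.2.2.2.2.2.2.2.2.2.2.2.2.2.2.2.2.2.2.2.2.2.2.2.2.2.2.1))
    (row42_parts.2.2.2.2.2.2.2.2.2.2.2.2.2.2.2.2.2.2.2.2.2.2.2.2.2.2.2.2.2.2.2.2.2.2.2.2.2.2.2.2.2.2.2.2.2.2.2.2.2.2.1)))))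

theorem row42_cover3 : Bern.coverU row42.cfg3 row42.R3 row42.cov3 box3 = true :=
  (Bern.coverU_split (Bern.coverU_split (Bern.coverU_split
    (row42_parts.2.2.2.2.2.2.2.2.2.2.2.2.2.2.2.2.2.2.2.2.2.2.2.2.2.2.2.2.2.2.2.2.2.2.2.2.2.2.2.2.2.2.2.2.2.2.2.2.2.2.2.1)
    (Bern.coverU_split
    (row42_parts.2.2.2.2.2.2.2.2.2.2.2.2.2.2.2.2.2.2.2.2.2.2.2.2.2.2.2.2.2.2.2.2.2.2.2.2.2.2.2.2.2.2.2.2.2.2.2.2.2.2.2.2.1)
    (row42_parts.2.2.2.2.2.2.2.2.2.2.2.2.2.2.2.2.2.2.2.2.2.2.2.2.2.2.2.2.2.2.2.2.2.2.2.2.2.2.2.2.2.2.2.2.2.2.2.2.2.2.2.2.2.1)))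
    (Bern.coverU_split
    (row42_parts.2.2.2.2.2.2.2.2.2.2.2.2.2.2.2.2.2.2.2.2.2.2.2.2.2.2.2.2.2.2.2.2.2.2.2.2.2.2.2.2.2.2.2.2.2.2.2.2.2.2.2.2.2.2.1)
    (row42_parts.2.2.2.2.2.2.2.2.2.2.2.2.2.2.2.2.2.2.2.2.2.2.2.2.2.2.2.2.2.2.2.2.2.2.2.2.2.2.2.2.2.2.2.2.2.2.2.2.2.2.2.2.2.2.2.1)))
    (Bern.coverU_split (Bern.coverU_split
    (row42_parts.2.2.2.2.2.2.2.2.2.2.2.2.2.2.2.2.2.2.2.2.2.2.2.2.2.2.2.2.2.2.2.2.2.2.2.2.2.2.2.2.2.2.2.2.2.2.2.2.2.2.2.2.2.2.2.2.1)
    (Bern.coverU_split
    (row42_parts.2.2.2.2.2.2.2.2.2.2.2.2.2.2.2.2.2.2.2.2.2.2.2.2.2.2.2.2.2.2.2.2.2.2.2.2.2.2.2.2.2.2.2.2.2.2.2.2.2.2.2.2.2.2.2.2.2.1)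
    (Bern.coverU_split (Bern.coverU_split
    (row42_parts.2.2.2.2.2.2.2.2.2.2.2.2.2.2.2.2.2.2.2.2.2.2.2.2.2.2.2.2.2.2.2.2.2.2.2.2.2.2.2.2.2.2.2.2.2.2.2.2.2.2.2.2.2.2.2.2.2.2.1)
    (Bern.coverU_split
    (row42_parts.2.2.2.2.2.2.2.2.2.2.2.2.2.2.2.2.2.2.2.2.2.2.2.2.2.2.2.2.2.2.2.2.2.2.2.2.2.2.2.2.2.2.2.2.2.2.2.2.2.2.2.2.2.2.2.2.2.2.2.1)
    (Bern.coverU_split
    (row42_parts.2.2.2.2.2.2.2.2.2.2.2.2.2.2.2.2.2.2.2.2.2.2.2.2.2.2.2.2.2.2.2.2.2.2.2.2.2.2.2.2.2.2.2.2.2.2.2.2.2.2.2.2.2.2.2.2.2.2.2.2.1)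
    (row42_parts.2.2.2.2.2.2.2.2.2.2.2.2.2.2.2.2.2.2.2.2.2.2.2.2.2.2.2.2.2.2.2.2.2.2.2.2.2.2.2.2.2.2.2.2.2.2.2.2.2.2.2.2.2.2.2.2.2.2.2.2.2.1))))
    (row42_parts.2.2.2.2.2.2.2.2.2.2.2.2.2.2.2.2.2.2.2.2.2.2.2.2.2.2.2.2.2.2.2.2.2.2.2.2.2.2.2.2.2.2.2.2.2.2.2.2.2.2.2.2.2.2.2.2.2.2.2.2.2.2.1))))
    (Bern.coverU_split
    (row42_parts.2.2.2.2.2.2.2.2.2.2.2.2.2.2.2.2.2.2.2.2.2.2.2.2.2.2.2.2.2.2.2.2.2.2.2.2.2.2.2.2.2.2.2.2.2.2.2.2.2.2.2.2.2.2.2.2.2.2.2.2.2.2.2.1)
    (Bern.coverU_split
    (row42_parts.2.2.2.2.2.2.2.2.2.2.2.2.2.2.2.2.2.2.2.2.2.2.2.2.2.2.2.2.2.2.2.2.2.2.2.2.2.2.2.2.2.2.2.2.2.2.2.2.2.2.2.2.2.2.2.2.2.2.2.2.2.2.2.2.1)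
    (Bern.coverU_split
    (row42_parts.2.2.2.2.2.2.2.2.2.2.2.2.2.2.2.2.2.2.2.2.2.2.2.2.2.2.2.2.2.2.2.2.2.2.2.2.2.2.2.2.2.2.2.2.2.2.2.2.2.2.2.2.2.2.2.2.2.2.2.2.2.2.2.2.2.1)
    (Bern.coverU_split
    (row42_parts.2.2.2.2.2.2.2.2.2.2.2.2.2.2.2.2.2.2.2.2.2.2.2.2.2.2.2.2.2.2.2.2.2.2.2.2.2.2.2.2.2.2.2.2.2.2.2.2.2.2.2.2.2.2.2.2.2.2.2.2.2.2.2.2.2.2.1)
    (row42_parts.2.2.2.2.2.2.2.2.2.2.2.2.2.2.2.2.2.2.2.2.2.2.2.2.2.2.2.2.2.2.2.2.2.2.2.2.2.2.2.2.2.2.2.2.2.2.2.2.2.2.2.2.2.2.2.2.2.2.2.2.2.2.2.2.2.2.2)))))))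

theorem row42_ok : rowFor 4 2 row42 = true := by
  simp only [rowFor, Bool.and_eq_true, decide_eq_true_eq]
  exact ⟨⟨⟨rfl, rfl⟩, rfl⟩, rowCheck_of_quick row42_rest row42_cover row42_cover3⟩

end Vale.Agent.P154.Anti
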