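import Vale.Agent.P154.Anti.RowData
import Vale.Agent.P154.RowQuick

/-!
P154: the certificate of the merge row 3 of piece 4.
-/


namespace Vale.Agent.P154.Anti

open Kron BudgetRow

/-- A part of a subdivision. -/
def row43P0 : Bern.Cover :=
  .leaf

/-- A part of a subdivision. -/
def row43P1 : Bern.Cover :=
  (.split 3 (.split 0 .leaf .leaf) (.split 0 .leaf .leaf))

/-- A part of a subdivision. -/
def row43P2 : Bern.Cover :=
  (.split 1 (.split 2 .leaf (.split 3 (.split 0 .leaf .leaf) .leaf)) .leaf)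

/-- A part of a subdivision. -/
def row43P3 : Bern.Cover :=
  (.split 1 .leaf .leaf)

/-- A part of a subdivision. -/
def row43P4 : Bern.Cover :=
  (.split 0 .leaf .leaf)

/-- A part of a subdivision. -/
def row43P5 : Bern.Cover :=
  (.split 2 .leaf .leaf)

/-- A part of a subdivision. -/
def row43P6 : Bern.Cover :=
  (.split 0 .leaf .leaf)

/-- A part of a subdivision. -/
def row43P7 : Bern.Cover :=
  .leaf

/-- A part of a subdivision. -/
def row43P8 : Bern.Cover :=
  (.split 1 (.split 2 (.split 3 (.split 0 .leaf .leaf) .leaf) .leaf) .leaf)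

/-- A part of a subdivision. -/
def row43P9 : Bern.Cover :=
  .leaf

/-- A part of a subdivision. -/
def row43P10 : Bern.Cover :=
  (.split 0 .leaf .leaf)

/-- A part of a subdivision. -/
def row43P11 : Bern.Cover :=
  (.split 3 (.split 0 .leaf .leaf) (.split 0 .leaf .leaf))

/-- A part of a subdivision. -/
def row43P12 : Bern.Cover :=
  .leaf

/-- A part of a subdivision. -/
def row43P13 : Bern.Cover :=
  (.split 0 .leaf .leaf)

/-- A part of a subdivision. -/
def row43P14 : Bern.Cover :=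
  .leaf

/-- A part of a subdivision. -/
def row43P15 : Bern.Cover :=
  (.split 2 .leaf (.split 3 (.split 0 .leaf .leaf) (.split 0 .leaf .leaf)))

/-- A part of a subdivision. -/
def row43P16 : Bern.Cover :=
  (.split 2 .leaf (.split 3 (.split 0 .leaf (.split 1 .leaf .leaf)) .leaf))

/-- A part of a subdivision. -/
def row43P17 : Bern.Cover :=
  (.split 2 (.split 3 (.split 0 .leaf .leaf) (.split 0 .leaf .leaf)) .leaf)

/-- A part of a subdivision. -/
def row43P18 : Bern.Cover :=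
  .leaf

/-- A part of a subdivision. -/
def row43P19 : Bern.Cover :=
  (.split 0 .leaf (.split 1 .leaf .leaf))

/-- A part of a subdivision. -/
def row43P20 : Bern.Cover :=
  .leaf

/-- A part of a subdivision. -/
def row43P21 : Bern.Cover :=
  (.split 3 .leaf (.split 0 .leaf .leaf))

/-- A part of a subdivision. -/
def row43P22 : Bern.Cover :=
  (.split 0 .leaf .leaf)

/-- A part of a subdivision. -/
def row43P23 : Bern.Cover :=
  (.split 2 .leaf (.split 3 (.split 0 .leaf .leaf) (.split 0 .leaf .leaf)))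

/-- A part of a subdivision. -/
def row43P24 : Bern.Cover :=
  .leaf

/-- A part of a subdivision. -/
def row43P25 : Bern.Cover :=
  .leaf

/-- A part of a subdivision. -/
def row43P26 : Bern.Cover :=
  .leaf

/-- A part of a subdivision. -/
def row43P27 : Bern.Cover :=
  .leaf

/-- A part of a subdivision. -/
def row43P28 : Bern.Cover :=
  .leaf

/-- A part of a subdivision. -/
def row43P29 : Bern.Cover :=
  (.split 3 .leaf .leaf)

/-- A part of a subdivision. -/
def row43P30 : Bern.Cover :=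
  (.split 3 (.split 0 .leaf (.split 1 .leaf .leaf)) .leaf)

/-- A part of a subdivision. -/
def row43P31 : Bern.Cover :=
  (.split 1 (.split 2 .leaf (.split 3 .leaf (.split 0 .leaf .leaf))) .leaf)

/-- A part of a subdivision. -/
def row43P32 : Bern.Cover :=
  (.split 0 .leaf .leaf)

/-- A part of a subdivision. -/
def row43P33 : Bern.Cover :=
  (.split 2 (.split 3 (.split 0 .leaf .leaf) (.split 0 .leaf .leaf)) .leaf)

/-- A part of a subdivision. -/
def row43P34 : Bern.Cover :=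
  .leaf

/-- A part of a subdivision. -/
def row43P35 : Bern.Cover :=
  .leaf

/-- A part of a subdivision. -/
def row43P36 : Bern.Cover :=
  (.split 0 .leaf (.split 1 .leaf .leaf))

/-- A part of a subdivision. -/
def row43P37 : Bern.Cover :=
  .leaf

/-- A part of a subdivision. -/
def row43P38 : Bern.Cover :=
  .leaf

/-- A part of a subdivision. -/
def row43P39 : Bern.Cover :=
  .leaf

/-- A part of a subdivision. -/
def row43P40 : Bern.Cover :=
  (.split 0 .leaf (.split 1 .leaf .leaf))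

/-- A part of a subdivision. -/
def row43P41 : Bern.Cover :=
  .leaf

/-- A part of a subdivision. -/
def row43P42 : Bern.Cover :=
  .leaf

/-- A part of a subdivision. -/
def row43P43 : Bern.Cover :=
  (.split 0 .leaf (.split 1 .leaf .leaf))

/-- A part of a subdivision. -/
def row43P44 : Bern.Cover :=
  (.split 0 .leaf (.split 1 .leaf .leaf))

/-- A part of a subdivision. -/
def row43P45 : Bern.Cover :=
  .leaf

/-- A part of a subdivision. -/
def row43P46 : Bern.Cover :=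
  .leaf

/-- A part of a subdivision. -/
def row43P47 : Bern.Cover :=
  (.split 3 (.split 0 .leaf (.split 1 .leaf .leaf)) .leaf)

/-- A part of a subdivision. -/
def row43P48 : Bern.Cover :=
  .leaf

/-- A part of a subdivision. -/
def row43P49 : Bern.Cover :=
  .leaf

/-- A part of a subdivision. -/
def row43P50 : Bern.Cover :=
  (.split 1 (.split 2 .leaf (.split 3 (.split 0 .leaf .leaf) .leaf)) .leaf)

/-- A part of a subdivision. -/
def row43P51 : Bern.Cover :=
  .leaf

/-- A part of a subdivision. -/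
def row43P52 : Bern.Cover :=
  .leaf

/-- A part of a subdivision. -/
def row43P53 : Bern.Cover :=
  (.split 2 (.split 3 (.split 0 .leaf .leaf) .leaf) (.split 3 .leaf .leaf))

/-- A part of a subdivision. -/
def row43P54 : Bern.Cover :=
  .leaf

/-- A part of a subdivision. -/
def row43P55 : Bern.Cover :=
  .leaf

/-- A part of a subdivision. -/
def row43P56 : Bern.Cover :=
  .leaf

/-- A part of a subdivision. -/
def row43P57 : Bern.Cover :=
  .leaf

/-- A part of a subdivision. -/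
def row43R0 : Bern.Cover :=
  (.split 0 (.split 1 (.split 2 .leaf (.split 0 (.split 1 (.split 2 .leaf .leaf) (.split 2 .leaf
    .leaf)) .leaf)) (.split 2 .leaf (.split 0 (.split 1 (.split 2 .leaf .leaf) (.split 2 .leaf
    .leaf)) .leaf))) (.split 1 (.split 2 .leaf .leaf) (.split 2 .leaf .leaf)))

/-- A part of a subdivision. -/
def row43R1 : Bern.Cover :=
  (.split 2 (.split 0 (.split 1 (.split 2 (.split 0 (.split 1 (.split 2 .leaf .leaf) (.split 2
    .leaf .leaf)) .leaf) .leaf) (.split 2 (.split 0 (.split 1 (.split 2 .leaf .leaf) (.split 2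
    .leaf .leaf)) .leaf) .leaf)) (.split 1 .leaf (.split 2 .leaf .leaf))) .leaf)

/-- A part of a subdivision. -/
def row43R2 : Bern.Cover :=
  (.split 0 (.split 1 (.split 2 (.split 0 (.split 1 (.split 2 .leaf .leaf) (.split 2 .leaf .leaf))
    .leaf) .leaf) (.split 2 (.split 0 (.split 1 (.split 2 .leaf .leaf) (.split 2 .leaf .leaf))
    .leaf) .leaf)) (.split 1 (.split 2 .leaf .leaf) (.split 2 .leaf .leaf)))

/-- A part of a subdivision. -/
def row43R3 : Bern.Cover :=
  .leaf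

/-- A part of a subdivision. -/
def row43R4 : Bern.Cover :=
  (.split 1 (.split 2 .leaf .leaf) .leaf)

/-- A part of a subdivision. -/
def row43R5 : Bern.Cover :=
  (.split 1 (.split 2 .leaf (.split 0 .leaf (.split 1 (.split 2 (.split 0 (.split 1 (.split 2
    .leaf .leaf) .leaf) (.split 1 (.split 2 .leaf .leaf) (.split 2 .leaf .leaf))) .leaf) (.split 2
    .leaf .leaf)))) (.split 2 .leaf .leaf))

/-- A part of a subdivision. -/
def row43R6 : Bern.Cover :=
  .leaf

/-- A part of a subdivision. -/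
def row43R7 : Bern.Cover :=
  (.split 2 (.split 0 .leaf (.split 1 (.split 2 .leaf .leaf) .leaf)) .leaf)

/-- A part of a subdivision. -/
def row43R8 : Bern.Cover :=
  (.split 0 (.split 1 (.split 2 .leaf (.split 0 (.split 1 (.split 2 .leaf .leaf) (.split 2 .leaf
    .leaf)) .leaf)) (.split 2 .leaf (.split 0 (.split 1 (.split 2 .leaf .leaf) (.split 2 .leaf
    .leaf)) .leaf))) (.split 1 (.split 2 .leaf .leaf) (.split 2 .leaf .leaf)))

/-- A part of a subdivision. -/
def row43R9 : Bern.Cover :=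
  (.split 0 (.split 1 (.split 2 (.split 0 (.split 1 (.split 2 .leaf .leaf) (.split 2 .leaf .leaf))
    .leaf) .leaf) (.split 2 (.split 0 (.split 1 (.split 2 .leaf .leaf) (.split 2 .leaf .leaf))
    .leaf) .leaf)) (.split 1 (.split 2 .leaf .leaf) (.split 2 .leaf .leaf)))

/-- A part of a subdivision. -/
def row43R10 : Bern.Cover :=
  .leaf

/-- A part of a subdivision. -/
def row43R11 : Bern.Cover :=
  (.split 0 (.split 1 (.split 2 (.split 0 (.split 1 (.split 2 .leaf .leaf) (.split 2 .leaf .leaf))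
    .leaf) .leaf) (.split 2 (.split 0 (.split 1 (.split 2 .leaf .leaf) (.split 2 .leaf .leaf))
    .leaf) .leaf)) (.split 1 (.split 2 .leaf .leaf) (.split 2 .leaf .leaf)))

/-- A part of a subdivision. -/
def row43R12 : Bern.Cover :=
  .leaf

/-- A part of a subdivision. -/
def row43R13 : Bern.Cover :=
  (.split 1 (.split 2 .leaf .leaf) (.split 2 .leaf .leaf))

/-- A part of a subdivision. -/
def row43R14 : Bern.Cover :=
  (.split 0 (.split 1 (.split 2 .leaf .leaf) (.split 2 .leaf .leaf)) (.split 1 (.split 2 (.split 0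
    .leaf (.split 1 (.split 2 .leaf .leaf) .leaf)) .leaf) (.split 2 .leaf .leaf)))

/-- A part of a subdivision. -/
def row43R15 : Bern.Cover :=
  (.split 2 (.split 0 (.split 1 (.split 2 .leaf (.split 0 (.split 1 (.split 2 .leaf .leaf) (.split
    2 .leaf .leaf)) .leaf)) (.split 2 .leaf (.split 0 (.split 1 (.split 2 .leaf .leaf) .leaf)
    .leaf))) (.split 1 .leaf .leaf)) .leaf)

/-- A part of a subdivision. -/
def row43R16 : Bern.Cover :=
  (.split 2 (.split 0 (.split 1 (.split 2 .leaf .leaf) .leaf) .leaf) .leaf)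

/-- A part of a subdivision. -/
def row43R17 : Bern.Cover :=
  .leaf

/-- A part of a subdivision. -/
def row43R18 : Bern.Cover :=
  .leaf

/-- A part of a subdivision. -/
def row43R19 : Bern.Cover :=
  .leaf

/-- A part of a subdivision. -/
def row43R20 : Bern.Cover :=
  (.split 1 (.split 2 .leaf (.split 0 .leaf (.split 1 (.split 2 .leaf (.split 0 .leaf (.split 1
    (.split 2 .leaf (.split 0 (.split 1 (.split 2 .leaf .leaf) .leaf) .leaf)) .leaf))) .leaf)))
    .leaf)

/-- A part of a subdivision. -/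
def row43R21 : Bern.Cover :=
  (.split 1 (.split 2 .leaf (.split 0 (.split 1 .leaf .leaf) .leaf)) .leaf)

/-- A part of a subdivision. -/
def row43R22 : Bern.Cover :=
  (.split 2 .leaf (.split 0 .leaf (.split 1 .leaf (.split 2 (.split 0 .leaf (.split 1 (.split 2
    .leaf .leaf) (.split 2 .leaf .leaf))) .leaf))))

/-- A part of a subdivision. -/
def row43R23 : Bern.Cover :=
  (.split 2 .leaf (.split 0 .leaf (.split 1 (.split 2 .leaf (.split 0 .leaf (.split 1 (.split 2
    .leaf .leaf) .leaf))) .leaf)))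

/-- A part of a subdivision. -/
def row43R24 : Bern.Cover :=
  (.split 0 (.split 1 (.split 2 .leaf .leaf) (.split 2 .leaf .leaf)) (.split 1 (.split 2 .leaf
    .leaf) (.split 2 .leaf (.split 0 .leaf (.split 1 .leaf (.split 2 .leaf (.split 0 .leaf
    .leaf)))))))

/-- A part of a subdivision. -/
def row43R25 : Bern.Cover :=
  (.split 1 (.split 2 .leaf .leaf) (.split 2 .leaf .leaf))

/-- A part of a subdivision. -/
def row43R26 : Bern.Cover :=
  (.split 2 .leaf (.split 0 .leaf (.split 1 .leaf .leaf)))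

/-- A part of a subdivision. -/
def row43R27 : Bern.Cover :=
  (.split 0 (.split 1 .leaf (.split 2 .leaf (.split 0 .leaf (.split 1 .leaf (.split 2 .leaf
    .leaf))))) (.split 1 .leaf (.split 2 .leaf (.split 0 (.split 1 .leaf (.split 2 .leaf .leaf))
    .leaf))))

/-- A part of a subdivision. -/
def row43R28 : Bern.Cover :=
  (.split 0 .leaf (.split 1 .leaf (.split 2 .leaf (.split 0 .leaf (.split 1 .leaf (.split 2
    (.split 0 .leaf (.split 1 .leaf (.split 2 .leaf .leaf))) .leaf))))))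

/-- The certificate. -/
def row43 : Row where
  W := terms 15
  D := slopeT 4 3
  G := [(-792433404054720, 1, 0, 0, 0), (-10996599492522, 0, 0, 1, 0),
    (-2123668417597272, 1, 0, 1, 0), (3903469234986348, 2, 0, 1, 0),
    (-2382636646417644, 3, 0, 1, 0), (-2701160500462740, 3, 0, 0, 0),
    (2125602374436432, 4, 0, 0, 0), (-954206651166264, 5, 0, 0, 0), (144173543099904, 6, 0, 0, 0),
    (502810598346066, 1, 1, 0, 0), (-1450668214650204, 2, 1, 0, 0),
    (1374697756503828, 3, 1, 0, 0), (-128217571809948, 4, 1, 0, 0),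
    (5746454417411154, 0, 0, 2, 0), (-7220584275868260, 1, 0, 2, 0),
    (850789331474715, 2, 0, 2, 0), (1662936253076151, 3, 0, 2, 0), (711844326638478, 4, 0, 1, 0),
    (-628802893465722, 5, 0, 1, 0), (595958951255292, 6, 0, 1, 0),
    (-2337975815294574, 1, 1, 1, 0), (112518403224228, 2, 1, 1, 0),
    (4518653254150554, 3, 1, 1, 0), (-3977548855045596, 4, 1, 1, 0), (99522193869396, 7, 0, 0, 0),
    (-77364209469312, 8, 0, 0, 0), (27308310978564, 9, 0, 0, 0), (-745615656947898, 5, 1, 0, 0),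
    (667900869068142, 6, 1, 0, 0), (-288106029451692, 7, 1, 0, 0), (-185514868379592, 2, 2, 0, 0),
    (2213457770108340, 3, 2, 0, 0), (-1937377813649517, 4, 2, 0, 0),
    (809092946435445, 5, 2, 0, 0), (2041474369373496, 2, 0, 0, 0), (-87019697604780, 0, 1, 0, 0),
    (108761450595084, 0, 1, 1, 0), (-1896371080560900, 1, 2, 0, 0),
    (-567712081086768, 4, 0, 2, 0), (-42549918034050, 5, 0, 2, 0), (-265598470454400, 7, 0, 1, 0),
    (58607783892360, 8, 0, 1, 0), (1358144076234510, 5, 1, 1, 0), (-185622331051080, 6, 1, 1, 0),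
    (-5860975721184, 10, 0, 0, 0), (784659517848, 11, 0, 0, 0), (72117042585804, 8, 1, 0, 0),
    (-10643626313532, 9, 1, 0, 0), (-188806326745986, 6, 2, 0, 0), (25165550032686, 7, 2, 0, 0),
    (8488902155761845, 0, 1, 2, 0), (-5909379977361690, 1, 1, 2, 0),
    (-148488270729930, 2, 1, 2, 0), (1084482280089360, 3, 1, 2, 0),
    (-10104962119504272, 1, 2, 1, 0), (6638698955584359, 2, 2, 1, 0),
    (-1610885712962772, 3, 2, 1, 0), (3815928147402, 4, 2, 1, 0), (1753406547116607, 2, 3, 0, 0),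
    (-429246136424466, 3, 3, 0, 0), (25314463590498, 4, 3, 0, 0), (2454099767352, 5, 3, 0, 0),
    (1364502579815196, 0, 2, 0, 0), (4726320880376880, 0, 2, 1, 0),
    (-2806507217354328, 1, 3, 0, 0), (1410358309535520, 0, 3, 0, 0),
    (825778659679488, 0, 4, 0, 0), (-774873426667716, 1, 4, 0, 0), (235732992061248, 2, 4, 0, 0),
    (-12984628919616, 3, 4, 0, 0), (-29519213008419, 4, 0, 3, 0), (-4442838889959, 7, 0, 2, 0),
    (27767152865970, 5, 1, 2, 0), (238006358820, 10, 0, 1, 0), (1195063609806, 8, 1, 1, 0),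
    (-6043412428137, 6, 2, 1, 0), (2087396232, 13, 0, 0, 0), (-29128962668, 11, 1, 0, 0),
    (58323648081, 9, 2, 0, 0), (-140832055170, 7, 3, 0, 0), (40192113492243, 6, 0, 2, 0),
    (-6179119119522, 9, 0, 1, 0), (1696834235286, 7, 1, 1, 0), (-60723515532, 12, 0, 0, 0),
    (858575945226, 10, 1, 0, 0), (-1819852763589, 8, 2, 0, 0), (-313522872150195, 4, 1, 2, 0),
    (55025085221532, 5, 2, 1, 0), (623042951463, 6, 3, 0, 0), (-1170299902140, 4, 3, 1, 0),
    (690607221048, 5, 4, 0, 0), (-5371292461248, 4, 4, 0, 0), (354230556101028, 3, 0, 3, 0),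
    (14043598825680, 3, 3, 1, 0), (-1594037502454626, 2, 0, 3, 0), (-63196194715560, 2, 3, 1, 0),
    (3188075004909252, 1, 0, 3, 0), (126392389431120, 1, 3, 1, 0), (148918256375652, 0, 0, 0, 0),
    (-2391056253681939, 0, 0, 3, 0), (-94794292073340, 0, 3, 1, 0)]
  a := 2125764
  e := slopeE 4
  kR := 64
  kG := 1509949440000000
  kP := 675
  I := 12
  J := 8
  P := ⟨[(0, 1), (0, 2), (0, 3), (0, 4), (1, 0), (1, 1), (1, 2), (1, 3), (2, 0), (2, 1), (2, 2), (2, 3), (3, 0), (3, 1), (3, 2), (4, 0), (4, 1), (5, 0), (5, 1), (6, 0)],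
    [
     ((0, 0), [ 51742368000000, 6657521420544, 0, 0, 616317772800000, -322875896579712,
        -3495771994752, 0, -709401767759616, 65076925800960, 0, 0, 140766044799744, 0, 0,
        231707559029568, 0, 0, 0, 0]),
     ((0, 1), [ -9003878150400000, 11510531445204480, -2773888866000000, 0, 1166044339200000,
        27160629878472960, -17729420272803840, 1362204144000000, 7525996292897280,
        -27558599843356800, 6252819955200000, 0, -17997953356331520, 10608507491400000, 0,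
        11725839494290560, -786290563800000, -2096774836800000, 0, 0]),
     ((0, 2), [ -92562873676800000, -86927401475529728, 17387482328000000, -1232892997100000,
        31666816563200000, 166265078052230144, 110187662804922624, -9023342275300000,
        -87632996092919808, -28888268349899520, -51895623310400000, -3178688746175000,
        243420702300559872, -82908751273800000, 6199948383250000, -235562789719465216,
        35350888978000000, 81914065061000000, 1933280178812500, -4013907080050000]),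
     ((0, 3), [ -177528887424000000, -139099858624000000, 119370924833600000, -18933701326400000,
        -58120710144000000, 184138952640000000, -415957256000000, -51058607620800000,
        281071743590400000, -158481924936000000, 88780684847800000, 4006756896000000,
        -519223730579200000, 7134314182400000, 5131391420050000, 424701513816800000,
        38603910632350000, -145735238854400000, -8051392771687500, 8330561301950000]),
     ((0, 4), [ 0, -78905151814400000, 151469610611200000, -32720886222400000, 0,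
        -301371876256000000, -123778512518400000, -94298507042400000, 0, 14046582691200000,
        77056227545600000, 1619558689400000, 39452575907200000, -75157093384800000,
        28840930903200000, 76411328961600000, 69795949219100000, -44459610038400000,
        -1086207193900000, -5287573804050000]),
     ((1, 0), [ -682134489600000, 1932586387547904, 454068048000000, 0, -13153781299200000,
        6630288637723008, -1772279035189632, 0, 26303800997977344, -7455194635856640,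
        908136096000000, 0, -20137226673424896, 2279023404000000, 0, 5958970598575488, 0,
        -524193709200000, 0, 0]),
     ((1, 1), [ 108853954636800000, -83388504354807808, 11508684540000000, 2354467783250000,
        -54219689062400000, -315503984130070016, 158892220899675264, 4031977139300000,
        -141659526386688, 335714152331233280, -62819069208500000, -2199983971375000,
        172230896975137792, -149816760213100000, 1440321590650000, -208542256395614976,
        21722478063250000, 72767837688600000, 670559711750000, -3805639748025000]),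
     ((1, 2), [ 568468753843200000, 440487137756732416, 207978628000000, -7736157032400000,
        -116054677145600000, -1270164828358586368, -962619835490364928, 155253350387200000,
        313351906383538176, 916376585518045440, 584164561142600000, 11707317193325000,
        -697132537940918784, -257117185144000000, 36461204774050000, 1145272134840119552,
        -79068770203750000, -620223048158700000, -16792044063012500, -12784256149200000]),
     ((1, 3), [ 348724260864000000, 288746952809600000, -204234430483200000, 47149253521200000, 0,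
        258046536915200000, -1242026803097600000, 370477729484800000, -523086391296000000,
        -561004887824000000, 780013121124400000, 3320677447700000, 1232456347121600000,
        344307271339800000, -32431578539600000, 376813939429600000, -255409849846400000,
        -445815583533000000, -128467621912500, -5187067013625000]),
     ((2, 0), [ -15120101779200000, -21367523721976320, -8783491987200000, 0, 107112842086400000,
        475720073871360, 19275474418722560, 4086612432000000, -271544306571371520,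
        39427277985971200, -8893994983200000, -337439563425000, 306366485111847680,
        -29362796842200000, 494745604050000, -152445458343407040, 2931800498400000,
        27886671340200000, 90300918375000, -883684248225000]),
     ((2, 1), [ -441944198073600000, 58524483395428352, -39620481234000000, -438955709100000,
        242612105702400000, 1342440779618690304, -458490154766470016, -35062805489000000,
        -319541329277372928, -790219438830232320, 41612652534750000, 3998219583537500,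
        -521430543403938048, 5116259923500000, 34595222579900000, 1186708806114044544,
        13382520773150000, -422226589674825000, -5954751630531250, -10045463086106250]),
     ((2, 2), [ -800360954265600000, -830329972966400000, -177561369695600000, 19264056886400000,
        232482840576000000, 2010210214672000000, 2336658244570400000, -390006560562200000,
        -569215678924800000, -332901220278000000, -1975070980765600000, 6414414455900000,
        -242040051443200000, -396400640592800000, -27107207932600000, -756181366593000000,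
        204203607939875000, 914214320330500000, 7593805250125000, 55019503298062500]),
     ((2, 3), [ 0, 406872159510400000, 64108110336000000, -3239117378800000, 0,
        -563195896672000000, -374634150186400000, 13282709790800000, 172769056473600000,
        255886053346400000, -51315315647200000, 28114656275300000, -75204630356800000,
        42974956637800000, 117848011915700000, 87256910434400000, -67799860993650000,
        -531741060700000, -8732276313562500, -73266466184400000]),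
     ((3, 0), [ 144728209344000000, 242389746673785088, 64902966322400000, 616446498550000,
        -326771102438400000, -344576259730871424, -173778564173941504, -38514260847550000,
        1228243890118464768, 261217601724961920, -15127503215200000, 587536174662500,
        -2021231267572256512, -108387233203700000, 16813194241075000, 1191125065672827136,
        55389088495600000, -173938933799900000, -3154918656968750, -7001114092025000]),
     ((3, 1), [ 678944479449600000, 663270010190400000, 7134314182400000, 9394636673100000,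
        -291714995712000000, -2397068163409600000, 514234370288000000, 86076817834950000,
        939609498950400000, 20465039694000000, 198200320296400000, 2685934789862500,
        867097865629600000, 1644095289052300000, -152885133825950000, -2809553302292300000,
        -485660597756337500, 797284744830650000, 27212281973328125, 58937729364568750]),
     ((3, 2), [ 0, 396796696528000000, -41051131360400000, 28840930903200000, 0,
        -184361163603200000, 583379276384800000, 64863157079200000, 126654874636800000,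
        -1107047122556800000, -108428831730400000, -58924005957850000, 1076044431428800000,
        1223081070607600000, -256620253577100000, -1142615496520800000, -588347819227050000,
        117187680357000000, 47968856417587500, 9250222835075000]),
     ((4, 0), [ -379665167424000000, -944900709234041344, -212350756908400000, 4775708060100000,
        379507958604800000, 1661249954760698112, 1147443160941041152, -47101742428700000,
        -2460692252545949184, -2367163562057672960, -189045341648250000, -2726778451075000,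
        4778182252469139456, 1404776651146150000, -71413468532550000, -3356455975701407168,
        -125746548744887500, 716042988874275000, 22618143662818750, 63031362992943750]),
     ((4, 1), [ -201290384332800000, -1131228447296000000, 154415642529400000, -34897974609550000,
        0, 1390238596048000000, 632550161630000000, -255409849846400000, -375270463795200000,
        214120332370400000, -408407215879750000, -16949965248412500, -1772450831859200000,
        -1942642391025350000, 294173909613525000, 1005972389959100000, 1480021649530950000,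
        853557270407775000, 4355319157746875, -84966014904300000]),
     ((5, 0), [ 268387179110400000, 1310625040976000000, 291470477708800000, -11114902509600000,
        -134193589555200000, -2328570806035200000, -2480892192634800000, 222907791766500000,
        1784746965772800000, 3377812717398600000, 914214320330500000, 66467632587500,
        -2783022940798400000, -1594569489661300000, 29296920089250000, 2864171955497100000,
        -426778635203887500, -1268003069790400000, 7962407343531250, -103006912969256250]),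
     ((5, 1), [ 0, -247459862888000000, -128822284347000000, 2172414387800000, 0,
        171663286208000000, 537345410016400000, -513870487650000, -46234070208000000,
        -381104104354000000, -60750442001000000, -8732276313562500, 403829588092000000,
        435396511573250000, -95937712835175000, -723780597210200000, 17421276630987500,
        -63699258748250000, 17925377246900000, 147647517863250000]),
     ((6, 0), [ 0, -256890053123200000, -66644490415600000, -5287573804050000, 0,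
        487121887747200000, -204548098387200000, 10374134027250000, -226223167545600000,
        321454818755400000, 220078013192250000, 36633233092200000, -448071301889600000,
        -471501834916550000, 9250222835075000, 1008501807887100000, 169932029808600000,
        -412027651877025000, -73823758931625000, -63384047229012500])]⟩
  cfg := ⟨13, 12, 11, 12, 13, 381⟩
  cov := (.split 2 (.split 0 (.split 1 (.split 2 (.split 3 (.split 0 row43P0 (.split 1 (.split 2 row43P1
    (.split 3 (.split 0 row43P2 row43P3) row43P4)) row43P5)) row43P6) (.split 3 (.split 0 row43P7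
    (.split 1 (.split 2 (.split 3 (.split 0 row43P8 row43P9) row43P10) row43P11) row43P12))
    row43P13)) row43P14) (.split 1 row43P15 row43P16)) (.split 0 (.split 1 row43P17 row43P18)
    (.split 1 (.split 2 (.split 3 row43P19 (.split 0 row43P20 (.split 1 (.split 2 row43P21 (.split
    3 row43P22 (.split 0 (.split 1 row43P23 row43P24) row43P25))) row43P26))) (.split 3 (.split 0
    row43P27 (.split 1 row43P28 (.split 2 row43P29 row43P30))) (.split 0 row43P31 (.split 1
    (.split 2 (.split 3 row43P32 (.split 0 (.split 1 row43P33 row43P34) row43P35)) (.split 3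
    row43P36 (.split 0 row43P37 (.split 1 row43P38 (.split 2 row43P39 (.split 3 row43P40 (.split 0
    row43P41 (.split 1 (.split 2 row43P42 (.split 3 row43P43 row43P44)) row43P45))))))))
    row43P46)))) (.split 2 row43P47 (.split 3 (.split 0 row43P48 (.split 1 (.split 2 (.split 3
    (.split 0 row43P49 row43P50) row43P51) (.split 3 (.split 0 row43P52 (.split 1 row43P53
    row43P54)) row43P55)) row43P56)) row43P57)))))
  lay := ⟨157, 14, 14, 14, 14⟩
  R3 := ⟨[(0, 1), (1, 0), (1, 1), (2, 0), (2, 1), (3, 0), (3, 1), (4, 0), (4, 1), (5, 0)],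
    [
     ((0, 0), [ -5642802539968500, 148918256375652, -479409319658469204, 87254675760016908,
        4647834721815697980, 165987368421005700, -41834469359717132904, 631121210864904240,
        136947566399167340064, -125806096139839236]),
     ((0, 1), [ -51558779610540, 0, -5234106537544788, -618705355326480, 4647501803641090500,
        -1067070388413120048, -41820760959916546440, 5159522455726727700, 363921447361002158988,
        -105161238536595990264]),
     ((0, 2), [ -872428736309544, 0, -78518586267858960, -10469144835714528, -2473335467437557240,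
        -471111517607153760, -41841126858486751056, 4884650837470650312, 263956669043629617360,
        -125523583617889492200]),
     ((0, 3), [ 0, 0, 0, 0, 0, 0, 0, 0, -376505281929772842696, 0]),
     ((1, 0), [ 115414419465072, 0, -82710571063394556, 3734504868909924, -4646309362117997400,
        1549595542118208876, 41839474917667520484, -10411905880330697088, -376470611800385517000,
        125520823019102119668]),
     ((1, 1), [ 1695768120771372, 0, 152619130869423480, 20349217449256464, 4648928427419207148,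
        915714785216540880, 37567751223712763160, 1582057652627865348, 112487064586310901456,
        -125499124662144733440]),
     ((1, 2), [ 2068374664261440, 0, 186153719783529600, 24820495971137280, 5863842173181182400,
        1116922318701177600, 126658990940713539840, 28146442431269675520, 100560592169629812972,
        -125523997638669266940]),
     ((2, 0), [ -1545470532663624, 0, -139092347939726160, -18545646391963488,
        -4648969758986655624, 160168293046920924, 41840129391748634052, -13946611335107106312,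
        -376569791471914110252, 125520144560593373088]),
     ((2, 1), [ -2983975435358784, 0, -268557789182290560, -35807705224305408,
        -8459570359242152640, -1611346735093743360, 3329628017285761056, -40605937724362332672,
        376568904182914018980, -125521055517885978348]),
     ((3, 0), [ 2561913757683756, 0, 230572238191538040, 30742965092205072, 7263025503033448260,
        1383433429149228240, 41840171953763555592, 7102439807972911488, -376569666868186756116,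
        106399650812379280236]),
     ((3, 1), [ 0, 0, 0, 0, 0, 0, 0, 0, 100755146747495765880, 0]),
     ((4, 0), [ -1193905838618388, 0, -107451525475654920, -14326870063420656,
        -3384723052483129980, -644709152853929520, -73110017933635607568, -16246670651919023904,
        116422667164103603652, 125523988391717035488])]⟩
  cfg3 := ⟨9, 8, 9, 10, 11, 572⟩
  cov3 := (.split 0 (.split 1 (.split 2 row43R0 (.split 0 (.split 1 row43R1 (.split 2 row43R2 row43R3))
    (.split 1 (.split 2 (.split 0 row43R4 row43R5) row43R6) row43R7))) (.split 2 row43R8 (.split 0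
    (.split 1 (.split 2 row43R9 row43R10) (.split 2 row43R11 row43R12)) row43R13))) (.split 1
    (.split 2 row43R14 (.split 0 (.split 1 row43R15 row43R16) (.split 1 (.split 2 row43R17 (.split
    0 row43R18 (.split 1 (.split 2 row43R19 (.split 0 row43R20 row43R21)) row43R22))) row43R23)))
    (.split 2 row43R24 (.split 0 row43R25 (.split 1 row43R26 (.split 2 row43R27 row43R28))))))
  lay3 := ⟨86, 5, 4, 16, 1⟩

set_option maxHeartbeats 8000000 in
theorem row43_parts :
    rowRest (terms 0) row43 = true ∧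
    Bern.coverU row43.cfg row43.P row43P0
      (((((((Bern.unitBox).cut 2 Bern.Ax.left).cut 0 Bern.Ax.left).cut 1 Bern.Ax.left).cut 2
    Bern.Ax.left).cut 3 Bern.Ax.left).cut 0 Bern.Ax.left) = true ∧
    Bern.coverU row43.cfg row43.P row43P1
      (((((((((Bern.unitBox).cut 2 Bern.Ax.left).cut 0 Bern.Ax.left).cut 1 Bern.Ax.left).cut 2
    Bern.Ax.left).cut 3 Bern.Ax.left).cut 0 Bern.Ax.right).cut 1 Bern.Ax.left).cut 2
    Bern.Ax.left) = true ∧
    Bern.coverU row43.cfg row43.P row43P2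
      (((((((((((Bern.unitBox).cut 2 Bern.Ax.left).cut 0 Bern.Ax.left).cut 1 Bern.Ax.left).cut 2
    Bern.Ax.left).cut 3 Bern.Ax.left).cut 0 Bern.Ax.right).cut 1 Bern.Ax.left).cut 2
    Bern.Ax.right).cut 3 Bern.Ax.left).cut 0 Bern.Ax.left) = true ∧
    Bern.coverU row43.cfg row43.P row43P3
      (((((((((((Bern.unitBox).cut 2 Bern.Ax.left).cut 0 Bern.Ax.left).cut 1 Bern.Ax.left).cut 2
    Bern.Ax.left).cut 3 Bern.Ax.left).cut 0 Bern.Ax.right).cut 1 Bern.Ax.left).cut 2
    Bern.Ax.right).cut 3 Bern.Ax.left).cut 0 Bern.Ax.right) = true ∧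
    Bern.coverU row43.cfg row43.P row43P4
      ((((((((((Bern.unitBox).cut 2 Bern.Ax.left).cut 0 Bern.Ax.left).cut 1 Bern.Ax.left).cut 2
    Bern.Ax.left).cut 3 Bern.Ax.left).cut 0 Bern.Ax.right).cut 1 Bern.Ax.left).cut 2
    Bern.Ax.right).cut 3 Bern.Ax.right) = true ∧
    Bern.coverU row43.cfg row43.P row43P5
      ((((((((Bern.unitBox).cut 2 Bern.Ax.left).cut 0 Bern.Ax.left).cut 1 Bern.Ax.left).cut 2
    Bern.Ax.left).cut 3 Bern.Ax.left).cut 0 Bern.Ax.right).cut 1 Bern.Ax.right) = true ∧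
    Bern.coverU row43.cfg row43.P row43P6
      ((((((Bern.unitBox).cut 2 Bern.Ax.left).cut 0 Bern.Ax.left).cut 1 Bern.Ax.left).cut 2
    Bern.Ax.left).cut 3 Bern.Ax.right) = true ∧
    Bern.coverU row43.cfg row43.P row43P7
      (((((((Bern.unitBox).cut 2 Bern.Ax.left).cut 0 Bern.Ax.left).cut 1 Bern.Ax.left).cut 2
    Bern.Ax.right).cut 3 Bern.Ax.left).cut 0 Bern.Ax.left) = true ∧
    Bern.coverU row43.cfg row43.P row43P8
      (((((((((((Bern.unitBox).cut 2 Bern.Ax.left).cut 0 Bern.Ax.left).cut 1 Bern.Ax.left).cut 2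
    Bern.Ax.right).cut 3 Bern.Ax.left).cut 0 Bern.Ax.right).cut 1 Bern.Ax.left).cut 2
    Bern.Ax.left).cut 3 Bern.Ax.left).cut 0 Bern.Ax.left) = true ∧
    Bern.coverU row43.cfg row43.P row43P9
      (((((((((((Bern.unitBox).cut 2 Bern.Ax.left).cut 0 Bern.Ax.left).cut 1 Bern.Ax.left).cut 2
    Bern.Ax.right).cut 3 Bern.Ax.left).cut 0 Bern.Ax.right).cut 1 Bern.Ax.left).cut 2
    Bern.Ax.left).cut 3 Bern.Ax.left).cut 0 Bern.Ax.right) = true ∧
    Bern.coverU row43.cfg row43.P row43P10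
      ((((((((((Bern.unitBox).cut 2 Bern.Ax.left).cut 0 Bern.Ax.left).cut 1 Bern.Ax.left).cut 2
    Bern.Ax.right).cut 3 Bern.Ax.left).cut 0 Bern.Ax.right).cut 1 Bern.Ax.left).cut 2
    Bern.Ax.left).cut 3 Bern.Ax.right) = true ∧
    Bern.coverU row43.cfg row43.P row43P11
      (((((((((Bern.unitBox).cut 2 Bern.Ax.left).cut 0 Bern.Ax.left).cut 1 Bern.Ax.left).cut 2
    Bern.Ax.right).cut 3 Bern.Ax.left).cut 0 Bern.Ax.right).cut 1 Bern.Ax.left).cut 2
    Bern.Ax.right) = true ∧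
    Bern.coverU row43.cfg row43.P row43P12
      ((((((((Bern.unitBox).cut 2 Bern.Ax.left).cut 0 Bern.Ax.left).cut 1 Bern.Ax.left).cut 2
    Bern.Ax.right).cut 3 Bern.Ax.left).cut 0 Bern.Ax.right).cut 1 Bern.Ax.right) = true ∧
    Bern.coverU row43.cfg row43.P row43P13
      ((((((Bern.unitBox).cut 2 Bern.Ax.left).cut 0 Bern.Ax.left).cut 1 Bern.Ax.left).cut 2
    Bern.Ax.right).cut 3 Bern.Ax.right) = true ∧
    Bern.coverU row43.cfg row43.P row43P14
      ((((Bern.unitBox).cut 2 Bern.Ax.left).cut 0 Bern.Ax.left).cut 1 Bern.Ax.right) = true ∧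
    Bern.coverU row43.cfg row43.P row43P15
      ((((Bern.unitBox).cut 2 Bern.Ax.left).cut 0 Bern.Ax.right).cut 1 Bern.Ax.left) = true ∧
    Bern.coverU row43.cfg row43.P row43P16
      ((((Bern.unitBox).cut 2 Bern.Ax.left).cut 0 Bern.Ax.right).cut 1 Bern.Ax.right) = true ∧
    Bern.coverU row43.cfg row43.P row43P17
      ((((Bern.unitBox).cut 2 Bern.Ax.right).cut 0 Bern.Ax.left).cut 1 Bern.Ax.left) = true ∧
    Bern.coverU row43.cfg row43.P row43P18
      ((((Bern.unitBox).cut 2 Bern.Ax.right).cut 0 Bern.Ax.left).cut 1 Bern.Ax.right) = true ∧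
    Bern.coverU row43.cfg row43.P row43P19
      ((((((Bern.unitBox).cut 2 Bern.Ax.right).cut 0 Bern.Ax.right).cut 1 Bern.Ax.left).cut 2
    Bern.Ax.left).cut 3 Bern.Ax.left) = true ∧
    Bern.coverU row43.cfg row43.P row43P20
      (((((((Bern.unitBox).cut 2 Bern.Ax.right).cut 0 Bern.Ax.right).cut 1 Bern.Ax.left).cut 2
    Bern.Ax.left).cut 3 Bern.Ax.right).cut 0 Bern.Ax.left) = true ∧
    Bern.coverU row43.cfg row43.P row43P21
      (((((((((Bern.unitBox).cut 2 Bern.Ax.right).cut 0 Bern.Ax.right).cut 1 Bern.Ax.left).cut 2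
    Bern.Ax.left).cut 3 Bern.Ax.right).cut 0 Bern.Ax.right).cut 1 Bern.Ax.left).cut 2
    Bern.Ax.left) = true ∧
    Bern.coverU row43.cfg row43.P row43P22
      ((((((((((Bern.unitBox).cut 2 Bern.Ax.right).cut 0 Bern.Ax.right).cut 1 Bern.Ax.left).cut 2
    Bern.Ax.left).cut 3 Bern.Ax.right).cut 0 Bern.Ax.right).cut 1 Bern.Ax.left).cut 2
    Bern.Ax.right).cut 3 Bern.Ax.left) = true ∧
    Bern.coverU row43.cfg row43.P row43P23
      ((((((((((((Bern.unitBox).cut 2 Bern.Ax.right).cut 0 Bern.Ax.right).cut 1 Bern.Ax.left).cut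
    2 Bern.Ax.left).cut 3 Bern.Ax.right).cut 0 Bern.Ax.right).cut 1 Bern.Ax.left).cut 2
    Bern.Ax.right).cut 3 Bern.Ax.right).cut 0 Bern.Ax.left).cut 1 Bern.Ax.left) = true ∧
    Bern.coverU row43.cfg row43.P row43P24
      ((((((((((((Bern.unitBox).cut 2 Bern.Ax.right).cut 0 Bern.Ax.right).cut 1 Bern.Ax.left).cut
    2 Bern.Ax.left).cut 3 Bern.Ax.right).cut 0 Bern.Ax.right).cut 1 Bern.Ax.left).cut 2
    Bern.Ax.right).cut 3 Bern.Ax.right).cut 0 Bern.Ax.left).cut 1 Bern.Ax.right) = true ∧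
    Bern.coverU row43.cfg row43.P row43P25
      (((((((((((Bern.unitBox).cut 2 Bern.Ax.right).cut 0 Bern.Ax.right).cut 1 Bern.Ax.left).cut 2
    Bern.Ax.left).cut 3 Bern.Ax.right).cut 0 Bern.Ax.right).cut 1 Bern.Ax.left).cut 2
    Bern.Ax.right).cut 3 Bern.Ax.right).cut 0 Bern.Ax.right) = true ∧
    Bern.coverU row43.cfg row43.P row43P26
      ((((((((Bern.unitBox).cut 2 Bern.Ax.right).cut 0 Bern.Ax.right).cut 1 Bern.Ax.left).cut 2
    Bern.Ax.left).cut 3 Bern.Ax.right).cut 0 Bern.Ax.right).cut 1 Bern.Ax.right) = true ∧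
    Bern.coverU row43.cfg row43.P row43P27
      (((((((Bern.unitBox).cut 2 Bern.Ax.right).cut 0 Bern.Ax.right).cut 1 Bern.Ax.left).cut 2
    Bern.Ax.right).cut 3 Bern.Ax.left).cut 0 Bern.Ax.left) = true ∧
    Bern.coverU row43.cfg row43.P row43P28
      ((((((((Bern.unitBox).cut 2 Bern.Ax.right).cut 0 Bern.Ax.right).cut 1 Bern.Ax.left).cut 2
    Bern.Ax.right).cut 3 Bern.Ax.left).cut 0 Bern.Ax.right).cut 1 Bern.Ax.left) = true ∧
    Bern.coverU row43.cfg row43.P row43P29
      (((((((((Bern.unitBox).cut 2 Bern.Ax.right).cut 0 Bern.Ax.right).cut 1 Bern.Ax.left).cut 2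
    Bern.Ax.right).cut 3 Bern.Ax.left).cut 0 Bern.Ax.right).cut 1 Bern.Ax.right).cut 2
    Bern.Ax.left) = true ∧
    Bern.coverU row43.cfg row43.P row43P30
      (((((((((Bern.unitBox).cut 2 Bern.Ax.right).cut 0 Bern.Ax.right).cut 1 Bern.Ax.left).cut 2
    Bern.Ax.right).cut 3 Bern.Ax.left).cut 0 Bern.Ax.right).cut 1 Bern.Ax.right).cut 2
    Bern.Ax.right) = true ∧
    Bern.coverU row43.cfg row43.P row43P31
      (((((((Bern.unitBox).cut 2 Bern.Ax.right).cut 0 Bern.Ax.right).cut 1 Bern.Ax.left).cut 2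
    Bern.Ax.right).cut 3 Bern.Ax.right).cut 0 Bern.Ax.left) = true ∧
    Bern.coverU row43.cfg row43.P row43P32
      ((((((((((Bern.unitBox).cut 2 Bern.Ax.right).cut 0 Bern.Ax.right).cut 1 Bern.Ax.left).cut 2
    Bern.Ax.right).cut 3 Bern.Ax.right).cut 0 Bern.Ax.right).cut 1 Bern.Ax.left).cut 2
    Bern.Ax.left).cut 3 Bern.Ax.left) = true ∧
    Bern.coverU row43.cfg row43.P row43P33
      ((((((((((((Bern.unitBox).cut 2 Bern.Ax.right).cut 0 Bern.Ax.right).cut 1 Bern.Ax.left).cut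
    2 Bern.Ax.right).cut 3 Bern.Ax.right).cut 0 Bern.Ax.right).cut 1 Bern.Ax.left).cut 2
    Bern.Ax.left).cut 3 Bern.Ax.right).cut 0 Bern.Ax.left).cut 1 Bern.Ax.left) = true ∧
    Bern.coverU row43.cfg row43.P row43P34
      ((((((((((((Bern.unitBox).cut 2 Bern.Ax.right).cut 0 Bern.Ax.right).cut 1 Bern.Ax.left).cut
    2 Bern.Ax.right).cut 3 Bern.Ax.right).cut 0 Bern.Ax.right).cut 1 Bern.Ax.left).cut 2
    Bern.Ax.left).cut 3 Bern.Ax.right).cut 0 Bern.Ax.left).cut 1 Bern.Ax.right) = true ∧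
    Bern.coverU row43.cfg row43.P row43P35
      (((((((((((Bern.unitBox).cut 2 Bern.Ax.right).cut 0 Bern.Ax.right).cut 1 Bern.Ax.left).cut 2
    Bern.Ax.right).cut 3 Bern.Ax.right).cut 0 Bern.Ax.right).cut 1 Bern.Ax.left).cut 2
    Bern.Ax.left).cut 3 Bern.Ax.right).cut 0 Bern.Ax.right) = true ∧
    Bern.coverU row43.cfg row43.P row43P36
      ((((((((((Bern.unitBox).cut 2 Bern.Ax.right).cut 0 Bern.Ax.right).cut 1 Bern.Ax.left).cut 2
    Bern.Ax.right).cut 3 Bern.Ax.right).cut 0 Bern.Ax.right).cut 1 Bern.Ax.left).cut 2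
    Bern.Ax.right).cut 3 Bern.Ax.left) = true ∧
    Bern.coverU row43.cfg row43.P row43P37
      (((((((((((Bern.unitBox).cut 2 Bern.Ax.right).cut 0 Bern.Ax.right).cut 1 Bern.Ax.left).cut 2
    Bern.Ax.right).cut 3 Bern.Ax.right).cut 0 Bern.Ax.right).cut 1 Bern.Ax.left).cut 2
    Bern.Ax.right).cut 3 Bern.Ax.right).cut 0 Bern.Ax.left) = true ∧
    Bern.coverU row43.cfg row43.P row43P38
      ((((((((((((Bern.unitBox).cut 2 Bern.Ax.right).cut 0 Bern.Ax.right).cut 1 Bern.Ax.left).cut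
    2 Bern.Ax.right).cut 3 Bern.Ax.right).cut 0 Bern.Ax.right).cut 1 Bern.Ax.left).cut 2
    Bern.Ax.right).cut 3 Bern.Ax.right).cut 0 Bern.Ax.right).cut 1 Bern.Ax.left) = true ∧
    Bern.coverU row43.cfg row43.P row43P39
      (((((((((((((Bern.unitBox).cut 2 Bern.Ax.right).cut 0 Bern.Ax.right).cut 1 Bern.Ax.left).cut
    2 Bern.Ax.right).cut 3 Bern.Ax.right).cut 0 Bern.Ax.right).cut 1 Bern.Ax.left).cut 2
    Bern.Ax.right).cut 3 Bern.Ax.right).cut 0 Bern.Ax.right).cut 1 Bern.Ax.right).cut 2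
    Bern.Ax.left) = true ∧
    Bern.coverU row43.cfg row43.P row43P40
      ((((((((((((((Bern.unitBox).cut 2 Bern.Ax.right).cut 0 Bern.Ax.right).cut 1
    Bern.Ax.left).cut 2 Bern.Ax.right).cut 3 Bern.Ax.right).cut 0 Bern.Ax.right).cut 1
    Bern.Ax.left).cut 2 Bern.Ax.right).cut 3 Bern.Ax.right).cut 0 Bern.Ax.right).cut 1
    Bern.Ax.right).cut 2 Bern.Ax.right).cut 3 Bern.Ax.left) = true ∧
    Bern.coverU row43.cfg row43.P row43P41
      (((((((((((((((Bern.unitBox).cut 2 Bern.Ax.right).cut 0 Bern.Ax.right).cut 1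
    Bern.Ax.left).cut 2 Bern.Ax.right).cut 3 Bern.Ax.right).cut 0 Bern.Ax.right).cut 1
    Bern.Ax.left).cut 2 Bern.Ax.right).cut 3 Bern.Ax.right).cut 0 Bern.Ax.right).cut 1
    Bern.Ax.right).cut 2 Bern.Ax.right).cut 3 Bern.Ax.right).cut 0 Bern.Ax.left) = true ∧
    Bern.coverU row43.cfg row43.P row43P42
      (((((((((((((((((Bern.unitBox).cut 2 Bern.Ax.right).cut 0 Bern.Ax.right).cut 1
    Bern.Ax.left).cut 2 Bern.Ax.right).cut 3 Bern.Ax.right).cut 0 Bern.Ax.right).cut 1
    Bern.Ax.left).cut 2 Bern.Ax.right).cut 3 Bern.Ax.right).cut 0 Bern.Ax.right).cut 1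
    Bern.Ax.right).cut 2 Bern.Ax.right).cut 3 Bern.Ax.right).cut 0 Bern.Ax.right).cut 1
    Bern.Ax.left).cut 2 Bern.Ax.left) = true ∧
    Bern.coverU row43.cfg row43.P row43P43
      ((((((((((((((((((Bern.unitBox).cut 2 Bern.Ax.right).cut 0 Bern.Ax.right).cut 1
    Bern.Ax.left).cut 2 Bern.Ax.right).cut 3 Bern.Ax.right).cut 0 Bern.Ax.right).cut 1
    Bern.Ax.left).cut 2 Bern.Ax.right).cut 3 Bern.Ax.right).cut 0 Bern.Ax.right).cut 1
    Bern.Ax.right).cut 2 Bern.Ax.right).cut 3 Bern.Ax.right).cut 0 Bern.Ax.right).cut 1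
    Bern.Ax.left).cut 2 Bern.Ax.right).cut 3 Bern.Ax.left) = true ∧
    Bern.coverU row43.cfg row43.P row43P44
      ((((((((((((((((((Bern.unitBox).cut 2 Bern.Ax.right).cut 0 Bern.Ax.right).cut 1
    Bern.Ax.left).cut 2 Bern.Ax.right).cut 3 Bern.Ax.right).cut 0 Bern.Ax.right).cut 1
    Bern.Ax.left).cut 2 Bern.Ax.right).cut 3 Bern.Ax.right).cut 0 Bern.Ax.right).cut 1
    Bern.Ax.right).cut 2 Bern.Ax.right).cut 3 Bern.Ax.right).cut 0 Bern.Ax.right).cut 1
    Bern.Ax.left).cut 2 Bern.Ax.right).cut 3 Bern.Ax.right) = true ∧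
    Bern.coverU row43.cfg row43.P row43P45
      ((((((((((((((((Bern.unitBox).cut 2 Bern.Ax.right).cut 0 Bern.Ax.right).cut 1
    Bern.Ax.left).cut 2 Bern.Ax.right).cut 3 Bern.Ax.right).cut 0 Bern.Ax.right).cut 1
    Bern.Ax.left).cut 2 Bern.Ax.right).cut 3 Bern.Ax.right).cut 0 Bern.Ax.right).cut 1
    Bern.Ax.right).cut 2 Bern.Ax.right).cut 3 Bern.Ax.right).cut 0 Bern.Ax.right).cut 1
    Bern.Ax.right) = true ∧
    Bern.coverU row43.cfg row43.P row43P46
      ((((((((Bern.unitBox).cut 2 Bern.Ax.right).cut 0 Bern.Ax.right).cut 1 Bern.Ax.left).cut 2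
    Bern.Ax.right).cut 3 Bern.Ax.right).cut 0 Bern.Ax.right).cut 1 Bern.Ax.right) = true ∧
    Bern.coverU row43.cfg row43.P row43P47
      (((((Bern.unitBox).cut 2 Bern.Ax.right).cut 0 Bern.Ax.right).cut 1 Bern.Ax.right).cut 2
    Bern.Ax.left) = true ∧
    Bern.coverU row43.cfg row43.P row43P48
      (((((((Bern.unitBox).cut 2 Bern.Ax.right).cut 0 Bern.Ax.right).cut 1 Bern.Ax.right).cut 2
    Bern.Ax.right).cut 3 Bern.Ax.left).cut 0 Bern.Ax.left) = true ∧
    Bern.coverU row43.cfg row43.P row43P49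
      (((((((((((Bern.unitBox).cut 2 Bern.Ax.right).cut 0 Bern.Ax.right).cut 1 Bern.Ax.right).cut
    2 Bern.Ax.right).cut 3 Bern.Ax.left).cut 0 Bern.Ax.right).cut 1 Bern.Ax.left).cut 2
    Bern.Ax.left).cut 3 Bern.Ax.left).cut 0 Bern.Ax.left) = true ∧
    Bern.coverU row43.cfg row43.P row43P50
      (((((((((((Bern.unitBox).cut 2 Bern.Ax.right).cut 0 Bern.Ax.right).cut 1 Bern.Ax.right).cut
    2 Bern.Ax.right).cut 3 Bern.Ax.left).cut 0 Bern.Ax.right).cut 1 Bern.Ax.left).cut 2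
    Bern.Ax.left).cut 3 Bern.Ax.left).cut 0 Bern.Ax.right) = true ∧
    Bern.coverU row43.cfg row43.P row43P51
      ((((((((((Bern.unitBox).cut 2 Bern.Ax.right).cut 0 Bern.Ax.right).cut 1 Bern.Ax.right).cut 2
    Bern.Ax.right).cut 3 Bern.Ax.left).cut 0 Bern.Ax.right).cut 1 Bern.Ax.left).cut 2
    Bern.Ax.left).cut 3 Bern.Ax.right) = true ∧
    Bern.coverU row43.cfg row43.P row43P52
      (((((((((((Bern.unitBox).cut 2 Bern.Ax.right).cut 0 Bern.Ax.right).cut 1 Bern.Ax.right).cut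
    2 Bern.Ax.right).cut 3 Bern.Ax.left).cut 0 Bern.Ax.right).cut 1 Bern.Ax.left).cut 2
    Bern.Ax.right).cut 3 Bern.Ax.left).cut 0 Bern.Ax.left) = true ∧
    Bern.coverU row43.cfg row43.P row43P53
      ((((((((((((Bern.unitBox).cut 2 Bern.Ax.right).cut 0 Bern.Ax.right).cut 1 Bern.Ax.right).cut
    2 Bern.Ax.right).cut 3 Bern.Ax.left).cut 0 Bern.Ax.right).cut 1 Bern.Ax.left).cut 2
    Bern.Ax.right).cut 3 Bern.Ax.left).cut 0 Bern.Ax.right).cut 1 Bern.Ax.left) = true ∧
    Bern.coverU row43.cfg row43.P row43P54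
      ((((((((((((Bern.unitBox).cut 2 Bern.Ax.right).cut 0 Bern.Ax.right).cut 1 Bern.Ax.right).cut
    2 Bern.Ax.right).cut 3 Bern.Ax.left).cut 0 Bern.Ax.right).cut 1 Bern.Ax.left).cut 2
    Bern.Ax.right).cut 3 Bern.Ax.left).cut 0 Bern.Ax.right).cut 1 Bern.Ax.right) = true ∧
    Bern.coverU row43.cfg row43.P row43P55
      ((((((((((Bern.unitBox).cut 2 Bern.Ax.right).cut 0 Bern.Ax.right).cut 1 Bern.Ax.right).cut 2
    Bern.Ax.right).cut 3 Bern.Ax.left).cut 0 Bern.Ax.right).cut 1 Bern.Ax.left).cut 2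
    Bern.Ax.right).cut 3 Bern.Ax.right) = true ∧
    Bern.coverU row43.cfg row43.P row43P56
      ((((((((Bern.unitBox).cut 2 Bern.Ax.right).cut 0 Bern.Ax.right).cut 1 Bern.Ax.right).cut 2
    Bern.Ax.right).cut 3 Bern.Ax.left).cut 0 Bern.Ax.right).cut 1 Bern.Ax.right) = true ∧
    Bern.coverU row43.cfg row43.P row43P57
      ((((((Bern.unitBox).cut 2 Bern.Ax.right).cut 0 Bern.Ax.right).cut 1 Bern.Ax.right).cut 2
    Bern.Ax.right).cut 3 Bern.Ax.right) = true ∧
    Bern.coverU row43.cfg3 row43.R3 row43R0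
      ((((box3).cut 0 Bern.Ax.left).cut 1 Bern.Ax.left).cut 2 Bern.Ax.left) = true ∧
    Bern.coverU row43.cfg3 row43.R3 row43R1
      ((((((box3).cut 0 Bern.Ax.left).cut 1 Bern.Ax.left).cut 2 Bern.Ax.right).cut 0
    Bern.Ax.left).cut 1 Bern.Ax.left) = true ∧
    Bern.coverU row43.cfg3 row43.R3 row43R2
      (((((((box3).cut 0 Bern.Ax.left).cut 1 Bern.Ax.left).cut 2 Bern.Ax.right).cut 0
    Bern.Ax.left).cut 1 Bern.Ax.right).cut 2 Bern.Ax.left) = true ∧
    Bern.coverU row43.cfg3 row43.R3 row43R3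
      (((((((box3).cut 0 Bern.Ax.left).cut 1 Bern.Ax.left).cut 2 Bern.Ax.right).cut 0
    Bern.Ax.left).cut 1 Bern.Ax.right).cut 2 Bern.Ax.right) = true ∧
    Bern.coverU row43.cfg3 row43.R3 row43R4
      ((((((((box3).cut 0 Bern.Ax.left).cut 1 Bern.Ax.left).cut 2 Bern.Ax.right).cut 0
    Bern.Ax.right).cut 1 Bern.Ax.left).cut 2 Bern.Ax.left).cut 0 Bern.Ax.left) = true ∧
    Bern.coverU row43.cfg3 row43.R3 row43R5
      ((((((((box3).cut 0 Bern.Ax.left).cut 1 Bern.Ax.left).cut 2 Bern.Ax.right).cut 0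
    Bern.Ax.right).cut 1 Bern.Ax.left).cut 2 Bern.Ax.left).cut 0 Bern.Ax.right) = true ∧
    Bern.coverU row43.cfg3 row43.R3 row43R6
      (((((((box3).cut 0 Bern.Ax.left).cut 1 Bern.Ax.left).cut 2 Bern.Ax.right).cut 0
    Bern.Ax.right).cut 1 Bern.Ax.left).cut 2 Bern.Ax.right) = true ∧
    Bern.coverU row43.cfg3 row43.R3 row43R7
      ((((((box3).cut 0 Bern.Ax.left).cut 1 Bern.Ax.left).cut 2 Bern.Ax.right).cut 0
    Bern.Ax.right).cut 1 Bern.Ax.right) = true ∧
    Bern.coverU row43.cfg3 row43.R3 row43R8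
      ((((box3).cut 0 Bern.Ax.left).cut 1 Bern.Ax.right).cut 2 Bern.Ax.left) = true ∧
    Bern.coverU row43.cfg3 row43.R3 row43R9
      (((((((box3).cut 0 Bern.Ax.left).cut 1 Bern.Ax.right).cut 2 Bern.Ax.right).cut 0
    Bern.Ax.left).cut 1 Bern.Ax.left).cut 2 Bern.Ax.left) = true ∧
    Bern.coverU row43.cfg3 row43.R3 row43R10
      (((((((box3).cut 0 Bern.Ax.left).cut 1 Bern.Ax.right).cut 2 Bern.Ax.right).cut 0
    Bern.Ax.left).cut 1 Bern.Ax.left).cut 2 Bern.Ax.right) = true ∧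
    Bern.coverU row43.cfg3 row43.R3 row43R11
      (((((((box3).cut 0 Bern.Ax.left).cut 1 Bern.Ax.right).cut 2 Bern.Ax.right).cut 0
    Bern.Ax.left).cut 1 Bern.Ax.right).cut 2 Bern.Ax.left) = true ∧
    Bern.coverU row43.cfg3 row43.R3 row43R12
      (((((((box3).cut 0 Bern.Ax.left).cut 1 Bern.Ax.right).cut 2 Bern.Ax.right).cut 0
    Bern.Ax.left).cut 1 Bern.Ax.right).cut 2 Bern.Ax.right) = true ∧
    Bern.coverU row43.cfg3 row43.R3 row43R13
      (((((box3).cut 0 Bern.Ax.left).cut 1 Bern.Ax.right).cut 2 Bern.Ax.right).cut 0 Bern.Ax.right) = true ∧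
    Bern.coverU row43.cfg3 row43.R3 row43R14
      ((((box3).cut 0 Bern.Ax.right).cut 1 Bern.Ax.left).cut 2 Bern.Ax.left) = true ∧
    Bern.coverU row43.cfg3 row43.R3 row43R15
      ((((((box3).cut 0 Bern.Ax.right).cut 1 Bern.Ax.left).cut 2 Bern.Ax.right).cut 0
    Bern.Ax.left).cut 1 Bern.Ax.left) = true ∧
    Bern.coverU row43.cfg3 row43.R3 row43R16
      ((((((box3).cut 0 Bern.Ax.right).cut 1 Bern.Ax.left).cut 2 Bern.Ax.right).cut 0
    Bern.Ax.left).cut 1 Bern.Ax.right) = true ∧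
    Bern.coverU row43.cfg3 row43.R3 row43R17
      (((((((box3).cut 0 Bern.Ax.right).cut 1 Bern.Ax.left).cut 2 Bern.Ax.right).cut 0
    Bern.Ax.right).cut 1 Bern.Ax.left).cut 2 Bern.Ax.left) = true ∧
    Bern.coverU row43.cfg3 row43.R3 row43R18
      ((((((((box3).cut 0 Bern.Ax.right).cut 1 Bern.Ax.left).cut 2 Bern.Ax.right).cut 0
    Bern.Ax.right).cut 1 Bern.Ax.left).cut 2 Bern.Ax.right).cut 0 Bern.Ax.left) = true ∧
    Bern.coverU row43.cfg3 row43.R3 row43R19
      ((((((((((box3).cut 0 Bern.Ax.right).cut 1 Bern.Ax.left).cut 2 Bern.Ax.right).cut 0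
    Bern.Ax.right).cut 1 Bern.Ax.left).cut 2 Bern.Ax.right).cut 0 Bern.Ax.right).cut 1
    Bern.Ax.left).cut 2 Bern.Ax.left) = true ∧
    Bern.coverU row43.cfg3 row43.R3 row43R20
      (((((((((((box3).cut 0 Bern.Ax.right).cut 1 Bern.Ax.left).cut 2 Bern.Ax.right).cut 0
    Bern.Ax.right).cut 1 Bern.Ax.left).cut 2 Bern.Ax.right).cut 0 Bern.Ax.right).cut 1
    Bern.Ax.left).cut 2 Bern.Ax.right).cut 0 Bern.Ax.left) = true ∧
    Bern.coverU row43.cfg3 row43.R3 row43R21
      (((((((((((box3).cut 0 Bern.Ax.right).cut 1 Bern.Ax.left).cut 2 Bern.Ax.right).cut 0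
    Bern.Ax.right).cut 1 Bern.Ax.left).cut 2 Bern.Ax.right).cut 0 Bern.Ax.right).cut 1
    Bern.Ax.left).cut 2 Bern.Ax.right).cut 0 Bern.Ax.right) = true ∧
    Bern.coverU row43.cfg3 row43.R3 row43R22
      (((((((((box3).cut 0 Bern.Ax.right).cut 1 Bern.Ax.left).cut 2 Bern.Ax.right).cut 0
    Bern.Ax.right).cut 1 Bern.Ax.left).cut 2 Bern.Ax.right).cut 0 Bern.Ax.right).cut 1
    Bern.Ax.right) = true ∧
    Bern.coverU row43.cfg3 row43.R3 row43R23
      ((((((box3).cut 0 Bern.Ax.right).cut 1 Bern.Ax.left).cut 2 Bern.Ax.right).cut 0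
    Bern.Ax.right).cut 1 Bern.Ax.right) = true ∧
    Bern.coverU row43.cfg3 row43.R3 row43R24
      ((((box3).cut 0 Bern.Ax.right).cut 1 Bern.Ax.right).cut 2 Bern.Ax.left) = true ∧
    Bern.coverU row43.cfg3 row43.R3 row43R25
      (((((box3).cut 0 Bern.Ax.right).cut 1 Bern.Ax.right).cut 2 Bern.Ax.right).cut 0 Bern.Ax.left) = true ∧
    Bern.coverU row43.cfg3 row43.R3 row43R26
      ((((((box3).cut 0 Bern.Ax.right).cut 1 Bern.Ax.right).cut 2 Bern.Ax.right).cut 0
    Bern.Ax.right).cut 1 Bern.Ax.left) = true ∧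
    Bern.coverU row43.cfg3 row43.R3 row43R27
      (((((((box3).cut 0 Bern.Ax.right).cut 1 Bern.Ax.right).cut 2 Bern.Ax.right).cut 0
    Bern.Ax.right).cut 1 Bern.Ax.right).cut 2 Bern.Ax.left) = true ∧
    Bern.coverU row43.cfg3 row43.R3 row43R28
      (((((((box3).cut 0 Bern.Ax.right).cut 1 Bern.Ax.right).cut 2 Bern.Ax.right).cut 0
    Bern.Ax.right).cut 1 Bern.Ax.right).cut 2 Bern.Ax.right) = true := by
  exact ⟨by decide +kernel,
    by decide +kernel,
    by decide +kernel,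
    by decide +kernel,
    by decide +kernel,
    by decide +kernel,
    by decide +kernel,
    by decide +kernel,
    by decide +kernel,
    by decide +kernel,
    by decide +kernel,
    by decide +kernel,
    by decide +kernel,
    by decide +kernel,
    by decide +kernel,
    by decide +kernel,
    by decide +kernel,
    by decide +kernel,
    by decide +kernel,
    by decide +kernel,
    by decide +kernel,
    by decide +kernel,
    by decide +kernel,
    by decide +kernel,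
    by decide +kernel,
    by decide +kernel,
    by decide +kernel,
    by decide +kernel,
    by decide +kernel,
    by decide +kernel,
    by decide +kernel,
    by decide +kernel,
    by decide +kernel,
    by decide +kernel,
    by decide +kernel,
    by decide +kernel,
    by decide +kernel,
    by decide +kernel,
    by decide +kernel,
    by decide +kernel,
    by decide +kernel,
    by decide +kernel,
    by decide +kernel,
    by decide +kernel,
    by decide +kernel,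
    by decide +kernel,
    by decide +kernel,
    by decide +kernel,
    by decide +kernel,
    by decide +kernel,
    by decide +kernel,
    by decide +kernel,
    by decide +kernel,
    by decide +kernel,
    by decide +kernel,
    by decide +kernel,
    by decide +kernel,
    by decide +kernel,
    by decide +kernel,
    by decide +kernel,
    by decide +kernel,
    by decide +kernel,
    by decide +kernel,
    by decide +kernel,
    by decide +kernel,
    by decide +kernel,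
    by decide +kernel,
    by decide +kernel,
    by decide +kernel,
    by decide +kernel,
    by decide +kernel,
    by decide +kernel,
    by decide +kernel,
    by decide +kernel,
    by decide +kernel,
    by decide +kernel,
    by decide +kernel,
    by decide +kernel,
    by decide +kernel,
    by decide +kernel,
    by decide +kernel,
    by decide +kernel,
    by decide +kernel,
    by decide +kernel,
    by decide +kernel,
    by decide +kernel,
    by decide +kernel,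
    by decide +kernel⟩

theorem row43_rest : rowRest (terms 0) row43 = true := row43_parts.1

theorem row43_cover : Bern.coverU row43.cfg row43.P row43.cov Bern.unitBox = true :=
  (Bern.coverU_split (Bern.coverU_split (Bern.coverU_split (Bern.coverU_split (Bern.coverU_split
    (Bern.coverU_split (row43_parts.2.1) (Bern.coverU_split (Bern.coverU_split (row43_parts.2.2.1)
    (Bern.coverU_split (Bern.coverU_split (row43_parts.2.2.2.1) (row43_parts.2.2.2.2.1))
    (row43_parts.2.2.2.2.2.1))) (row43_parts.2.2.2.2.2.2.1))) (row43_parts.2.2.2.2.2.2.2.1))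
    (Bern.coverU_split (Bern.coverU_split (row43_parts.2.2.2.2.2.2.2.2.1) (Bern.coverU_split
    (Bern.coverU_split (Bern.coverU_split (Bern.coverU_split (row43_parts.2.2.2.2.2.2.2.2.2.1)
    (row43_parts.2.2.2.2.2.2.2.2.2.2.1)) (row43_parts.2.2.2.2.2.2.2.2.2.2.2.1))
    (row43_parts.2.2.2.2.2.2.2.2.2.2.2.2.1)) (row43_parts.2.2.2.2.2.2.2.2.2.2.2.2.2.1)))
    (row43_parts.2.2.2.2.2.2.2.2.2.2.2.2.2.2.1))) (row43_parts.2.2.2.2.2.2.2.2.2.2.2.2.2.2.2.1))
    (Bern.coverU_split (row43_parts.2.2.2.2.2.2.2.2.2.2.2.2.2.2.2.2.1)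
    (row43_parts.2.2.2.2.2.2.2.2.2.2.2.2.2.2.2.2.2.1))) (Bern.coverU_split (Bern.coverU_split
    (row43_parts.2.2.2.2.2.2.2.2.2.2.2.2.2.2.2.2.2.2.1)
    (row43_parts.2.2.2.2.2.2.2.2.2.2.2.2.2.2.2.2.2.2.2.1)) (Bern.coverU_split (Bern.coverU_split
    (Bern.coverU_split (row43_parts.2.2.2.2.2.2.2.2.2.2.2.2.2.2.2.2.2.2.2.2.1) (Bern.coverU_split
    (row43_parts.2.2.2.2.2.2.2.2.2.2.2.2.2.2.2.2.2.2.2.2.2.1) (Bern.coverU_split
    (Bern.coverU_split (row43_parts.2.2.2.2.2.2.2.2.2.2.2.2.2.2.2.2.2.2.2.2.2.2.1)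
    (Bern.coverU_split (row43_parts.2.2.2.2.2.2.2.2.2.2.2.2.2.2.2.2.2.2.2.2.2.2.2.1)
    (Bern.coverU_split (Bern.coverU_split
    (row43_parts.2.2.2.2.2.2.2.2.2.2.2.2.2.2.2.2.2.2.2.2.2.2.2.2.1)
    (row43_parts.2.2.2.2.2.2.2.2.2.2.2.2.2.2.2.2.2.2.2.2.2.2.2.2.2.1))
    (row43_parts.2.2.2.2.2.2.2.2.2.2.2.2.2.2.2.2.2.2.2.2.2.2.2.2.2.2.1))))
    (row43_parts.2.2.2.2.2.2.2.2.2.2.2.2.2.2.2.2.2.2.2.2.2.2.2.2.2.2.2.1)))) (Bern.coverU_split
    (Bern.coverU_split (row43_parts.2.2.2.2.2.2.2.2.2.2.2.2.2.2.2.2.2.2.2.2.2.2.2.2.2.2.2.2.1)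
    (Bern.coverU_split (row43_parts.2.2.2.2.2.2.2.2.2.2.2.2.2.2.2.2.2.2.2.2.2.2.2.2.2.2.2.2.2.1)
    (Bern.coverU_split (row43_parts.2.2.2.2.2.2.2.2.2.2.2.2.2.2.2.2.2.2.2.2.2.2.2.2.2.2.2.2.2.2.1)
    (row43_parts.2.2.2.2.2.2.2.2.2.2.2.2.2.2.2.2.2.2.2.2.2.2.2.2.2.2.2.2.2.2.2.1))))
    (Bern.coverU_split
    (row43_parts.2.2.2.2.2.2.2.2.2.2.2.2.2.2.2.2.2.2.2.2.2.2.2.2.2.2.2.2.2.2.2.2.1)
    (Bern.coverU_split (Bern.coverU_split (Bern.coverU_split
    (row43_parts.2.2.2.2.2.2.2.2.2.2.2.2.2.2.2.2.2.2.2.2.2.2.2.2.2.2.2.2.2.2.2.2.2.1)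
    (Bern.coverU_split (Bern.coverU_split
    (row43_parts.2.2.2.2.2.2.2.2.2.2.2.2.2.2.2.2.2.2.2.2.2.2.2.2.2.2.2.2.2.2.2.2.2.2.1)
    (row43_parts.2.2.2.2.2.2.2.2.2.2.2.2.2.2.2.2.2.2.2.2.2.2.2.2.2.2.2.2.2.2.2.2.2.2.2.1))
    (row43_parts.2.2.2.2.2.2.2.2.2.2.2.2.2.2.2.2.2.2.2.2.2.2.2.2.2.2.2.2.2.2.2.2.2.2.2.2.1)))
    (Bern.coverU_split
    (row43_parts.2.2.2.2.2.2.2.2.2.2.2.2.2.2.2.2.2.2.2.2.2.2.2.2.2.2.2.2.2.2.2.2.2.2.2.2.2.1)
    (Bern.coverU_split
    (row43_parts.2.2.2.2.2.2.2.2.2.2.2.2.2.2.2.2.2.2.2.2.2.2.2.2.2.2.2.2.2.2.2.2.2.2.2.2.2.2.1)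
    (Bern.coverU_split
    (row43_parts.2.2.2.2.2.2.2.2.2.2.2.2.2.2.2.2.2.2.2.2.2.2.2.2.2.2.2.2.2.2.2.2.2.2.2.2.2.2.2.1)
    (Bern.coverU_split
    (row43_parts.2.2.2.2.2.2.2.2.2.2.2.2.2.2.2.2.2.2.2.2.2.2.2.2.2.2.2.2.2.2.2.2.2.2.2.2.2.2.2.2.1)
    (Bern.coverU_split
    (row43_parts.2.2.2.2.2.2.2.2.2.2.2.2.2.2.2.2.2.2.2.2.2.2.2.2.2.2.2.2.2.2.2.2.2.2.2.2.2.2.2.2.2.1)
    (Bern.coverU_split
    (row43_parts.2.2.2.2.2.2.2.2.2.2.2.2.2.2.2.2.2.2.2.2.2.2.2.2.2.2.2.2.2.2.2.2.2.2.2.2.2.2.2.2.2.2.1)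
    (Bern.coverU_split (Bern.coverU_split
    (row43_parts.2.2.2.2.2.2.2.2.2.2.2.2.2.2.2.2.2.2.2.2.2.2.2.2.2.2.2.2.2.2.2.2.2.2.2.2.2.2.2.2.2.2.2.1)
    (Bern.coverU_split
    (row43_parts.2.2.2.2.2.2.2.2.2.2.2.2.2.2.2.2.2.2.2.2.2.2.2.2.2.2.2.2.2.2.2.2.2.2.2.2.2.2.2.2.2.2.2.2.1)
    (row43_parts.2.2.2.2.2.2.2.2.2.2.2.2.2.2.2.2.2.2.2.2.2.2.2.2.2.2.2.2.2.2.2.2.2.2.2.2.2.2.2.2.2.2.2.2.2.1)))
    (row43_parts.2.2.2.2.2.2.2.2.2.2.2.2.2.2.2.2.2.2.2.2.2.2.2.2.2.2.2.2.2.2.2.2.2.2.2.2.2.2.2.2.2.2.2.2.2.2.1)))))))))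
    (row43_parts.2.2.2.2.2.2.2.2.2.2.2.2.2.2.2.2.2.2.2.2.2.2.2.2.2.2.2.2.2.2.2.2.2.2.2.2.2.2.2.2.2.2.2.2.2.2.2.1)))))
    (Bern.coverU_split
    (row43_parts.2.2.2.2.2.2.2.2.2.2.2.2.2.2.2.2.2.2.2.2.2.2.2.2.2.2.2.2.2.2.2.2.2.2.2.2.2.2.2.2.2.2.2.2.2.2.2.2.1)
    (Bern.coverU_split (Bern.coverU_split
    (row43_parts.2.2.2.2.2.2.2.2.2.2.2.2.2.2.2.2.2.2.2.2.2.2.2.2.2.2.2.2.2.2.2.2.2.2.2.2.2.2.2.2.2.2.2.2.2.2.2.2.2.1)
    (Bern.coverU_split (Bern.coverU_split (Bern.coverU_split (Bern.coverU_split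
    (row43_parts.2.2.2.2.2.2.2.2.2.2.2.2.2.2.2.2.2.2.2.2.2.2.2.2.2.2.2.2.2.2.2.2.2.2.2.2.2.2.2.2.2.2.2.2.2.2.2.2.2.2.1)
    (row43_parts.2.2.2.2.2.2.2.2.2.2.2.2.2.2.2.2.2.2.2.2.2.2.2.2.2.2.2.2.2.2.2.2.2.2.2.2.2.2.2.2.2.2.2.2.2.2.2.2.2.2.2.1))
    (row43_parts.2.2.2.2.2.2.2.2.2.2.2.2.2.2.2.2.2.2.2.2.2.2.2.2.2.2.2.2.2.2.2.2.2.2.2.2.2.2.2.2.2.2.2.2.2.2.2.2.2.2.2.2.1))
    (Bern.coverU_split (Bern.coverU_split
    (row43_parts.2.2.2.2.2.2.2.2.2.2.2.2.2.2.2.2.2.2.2.2.2.2.2.2.2.2.2.2.2.2.2.2.2.2.2.2.2.2.2.2.2.2.2.2.2.2.2.2.2.2.2.2.2.1)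
    (Bern.coverU_split
    (row43_parts.2.2.2.2.2.2.2.2.2.2.2.2.2.2.2.2.2.2.2.2.2.2.2.2.2.2.2.2.2.2.2.2.2.2.2.2.2.2.2.2.2.2.2.2.2.2.2.2.2.2.2.2.2.2.1)
    (row43_parts.2.2.2.2.2.2.2.2.2.2.2.2.2.2.2.2.2.2.2.2.2.2.2.2.2.2.2.2.2.2.2.2.2.2.2.2.2.2.2.2.2.2.2.2.2.2.2.2.2.2.2.2.2.2.2.1)))
    (row43_parts.2.2.2.2.2.2.2.2.2.2.2.2.2.2.2.2.2.2.2.2.2.2.2.2.2.2.2.2.2.2.2.2.2.2.2.2.2.2.2.2.2.2.2.2.2.2.2.2.2.2.2.2.2.2.2.2.1)))
    (row43_parts.2.2.2.2.2.2.2.2.2.2.2.2.2.2.2.2.2.2.2.2.2.2.2.2.2.2.2.2.2.2.2.2.2.2.2.2.2.2.2.2.2.2.2.2.2.2.2.2.2.2.2.2.2.2.2.2.2.1)))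
    (row43_parts.2.2.2.2.2.2.2.2.2.2.2.2.2.2.2.2.2.2.2.2.2.2.2.2.2.2.2.2.2.2.2.2.2.2.2.2.2.2.2.2.2.2.2.2.2.2.2.2.2.2.2.2.2.2.2.2.2.2.1))))))

theorem row43_cover3 : Bern.coverU row43.cfg3 row43.R3 row43.cov3 box3 = true :=
  (Bern.coverU_split (Bern.coverU_split (Bern.coverU_split
    (row43_parts.2.2.2.2.2.2.2.2.2.2.2.2.2.2.2.2.2.2.2.2.2.2.2.2.2.2.2.2.2.2.2.2.2.2.2.2.2.2.2.2.2.2.2.2.2.2.2.2.2.2.2.2.2.2.2.2.2.2.2.1)
    (Bern.coverU_split (Bern.coverU_split
    (row43_parts.2.2.2.2.2.2.2.2.2.2.2.2.2.2.2.2.2.2.2.2.2.2.2.2.2.2.2.2.2.2.2.2.2.2.2.2.2.2.2.2.2.2.2.2.2.2.2.2.2.2.2.2.2.2.2.2.2.2.2.2.1)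
    (Bern.coverU_split
    (row43_parts.2.2.2.2.2.2.2.2.2.2.2.2.2.2.2.2.2.2.2.2.2.2.2.2.2.2.2.2.2.2.2.2.2.2.2.2.2.2.2.2.2.2.2.2.2.2.2.2.2.2.2.2.2.2.2.2.2.2.2.2.2.1)
    (row43_parts.2.2.2.2.2.2.2.2.2.2.2.2.2.2.2.2.2.2.2.2.2.2.2.2.2.2.2.2.2.2.2.2.2.2.2.2.2.2.2.2.2.2.2.2.2.2.2.2.2.2.2.2.2.2.2.2.2.2.2.2.2.2.1)))
    (Bern.coverU_split (Bern.coverU_split (Bern.coverU_split
    (row43_parts.2.2.2.2.2.2.2.2.2.2.2.2.2.2.2.2.2.2.2.2.2.2.2.2.2.2.2.2.2.2.2.2.2.2.2.2.2.2.2.2.2.2.2.2.2.2.2.2.2.2.2.2.2.2.2.2.2.2.2.2.2.2.2.1)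
    (row43_parts.2.2.2.2.2.2.2.2.2.2.2.2.2.2.2.2.2.2.2.2.2.2.2.2.2.2.2.2.2.2.2.2.2.2.2.2.2.2.2.2.2.2.2.2.2.2.2.2.2.2.2.2.2.2.2.2.2.2.2.2.2.2.2.2.1))
    (row43_parts.2.2.2.2.2.2.2.2.2.2.2.2.2.2.2.2.2.2.2.2.2.2.2.2.2.2.2.2.2.2.2.2.2.2.2.2.2.2.2.2.2.2.2.2.2.2.2.2.2.2.2.2.2.2.2.2.2.2.2.2.2.2.2.2.2.1))
    (row43_parts.2.2.2.2.2.2.2.2.2.2.2.2.2.2.2.2.2.2.2.2.2.2.2.2.2.2.2.2.2.2.2.2.2.2.2.2.2.2.2.2.2.2.2.2.2.2.2.2.2.2.2.2.2.2.2.2.2.2.2.2.2.2.2.2.2.2.1))))
    (Bern.coverU_split
    (row43_parts.2.2.2.2.2.2.2.2.2.2.2.2.2.2.2.2.2.2.2.2.2.2.2.2.2.2.2.2.2.2.2.2.2.2.2.2.2.2.2.2.2.2.2.2.2.2.2.2.2.2.2.2.2.2.2.2.2.2.2.2.2.2.2.2.2.2.2.1)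
    (Bern.coverU_split (Bern.coverU_split (Bern.coverU_split
    (row43_parts.2.2.2.2.2.2.2.2.2.2.2.2.2.2.2.2.2.2.2.2.2.2.2.2.2.2.2.2.2.2.2.2.2.2.2.2.2.2.2.2.2.2.2.2.2.2.2.2.2.2.2.2.2.2.2.2.2.2.2.2.2.2.2.2.2.2.2.2.1)
    (row43_parts.2.2.2.2.2.2.2.2.2.2.2.2.2.2.2.2.2.2.2.2.2.2.2.2.2.2.2.2.2.2.2.2.2.2.2.2.2.2.2.2.2.2.2.2.2.2.2.2.2.2.2.2.2.2.2.2.2.2.2.2.2.2.2.2.2.2.2.2.2.1))
    (Bern.coverU_split
    (row43_parts.2.2.2.2.2.2.2.2.2.2.2.2.2.2.2.2.2.2.2.2.2.2.2.2.2.2.2.2.2.2.2.2.2.2.2.2.2.2.2.2.2.2.2.2.2.2.2.2.2.2.2.2.2.2.2.2.2.2.2.2.2.2.2.2.2.2.2.2.2.2.1)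
    (row43_parts.2.2.2.2.2.2.2.2.2.2.2.2.2.2.2.2.2.2.2.2.2.2.2.2.2.2.2.2.2.2.2.2.2.2.2.2.2.2.2.2.2.2.2.2.2.2.2.2.2.2.2.2.2.2.2.2.2.2.2.2.2.2.2.2.2.2.2.2.2.2.2.1)))
    (row43_parts.2.2.2.2.2.2.2.2.2.2.2.2.2.2.2.2.2.2.2.2.2.2.2.2.2.2.2.2.2.2.2.2.2.2.2.2.2.2.2.2.2.2.2.2.2.2.2.2.2.2.2.2.2.2.2.2.2.2.2.2.2.2.2.2.2.2.2.2.2.2.2.2.1))))
    (Bern.coverU_split (Bern.coverU_split
    (row43_parts.2.2.2.2.2.2.2.2.2.2.2.2.2.2.2.2.2.2.2.2.2.2.2.2.2.2.2.2.2.2.2.2.2.2.2.2.2.2.2.2.2.2.2.2.2.2.2.2.2.2.2.2.2.2.2.2.2.2.2.2.2.2.2.2.2.2.2.2.2.2.2.2.2.1)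
    (Bern.coverU_split (Bern.coverU_split
    (row43_parts.2.2.2.2.2.2.2.2.2.2.2.2.2.2.2.2.2.2.2.2.2.2.2.2.2.2.2.2.2.2.2.2.2.2.2.2.2.2.2.2.2.2.2.2.2.2.2.2.2.2.2.2.2.2.2.2.2.2.2.2.2.2.2.2.2.2.2.2.2.2.2.2.2.2.1)
    (row43_parts.2.2.2.2.2.2.2.2.2.2.2.2.2.2.2.2.2.2.2.2.2.2.2.2.2.2.2.2.2.2.2.2.2.2.2.2.2.2.2.2.2.2.2.2.2.2.2.2.2.2.2.2.2.2.2.2.2.2.2.2.2.2.2.2.2.2.2.2.2.2.2.2.2.2.2.1))
    (Bern.coverU_split (Bern.coverU_split
    (row43_parts.2.2.2.2.2.2.2.2.2.2.2.2.2.2.2.2.2.2.2.2.2.2.2.2.2.2.2.2.2.2.2.2.2.2.2.2.2.2.2.2.2.2.2.2.2.2.2.2.2.2.2.2.2.2.2.2.2.2.2.2.2.2.2.2.2.2.2.2.2.2.2.2.2.2.2.2.1)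
    (Bern.coverU_split
    (row43_parts.2.2.2.2.2.2.2.2.2.2.2.2.2.2.2.2.2.2.2.2.2.2.2.2.2.2.2.2.2.2.2.2.2.2.2.2.2.2.2.2.2.2.2.2.2.2.2.2.2.2.2.2.2.2.2.2.2.2.2.2.2.2.2.2.2.2.2.2.2.2.2.2.2.2.2.2.2.1)
    (Bern.coverU_split (Bern.coverU_split
    (row43_parts.2.2.2.2.2.2.2.2.2.2.2.2.2.2.2.2.2.2.2.2.2.2.2.2.2.2.2.2.2.2.2.2.2.2.2.2.2.2.2.2.2.2.2.2.2.2.2.2.2.2.2.2.2.2.2.2.2.2.2.2.2.2.2.2.2.2.2.2.2.2.2.2.2.2.2.2.2.2.1)
    (Bern.coverU_split
    (row43_parts.2.2.2.2.2.2.2.2.2.2.2.2.2.2.2.2.2.2.2.2.2.2.2.2.2.2.2.2.2.2.2.2.2.2.2.2.2.2.2.2.2.2.2.2.2.2.2.2.2.2.2.2.2.2.2.2.2.2.2.2.2.2.2.2.2.2.2.2.2.2.2.2.2.2.2.2.2.2.2.1)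
    (row43_parts.2.2.2.2.2.2.2.2.2.2.2.2.2.2.2.2.2.2.2.2.2.2.2.2.2.2.2.2.2.2.2.2.2.2.2.2.2.2.2.2.2.2.2.2.2.2.2.2.2.2.2.2.2.2.2.2.2.2.2.2.2.2.2.2.2.2.2.2.2.2.2.2.2.2.2.2.2.2.2.2.1)))
    (row43_parts.2.2.2.2.2.2.2.2.2.2.2.2.2.2.2.2.2.2.2.2.2.2.2.2.2.2.2.2.2.2.2.2.2.2.2.2.2.2.2.2.2.2.2.2.2.2.2.2.2.2.2.2.2.2.2.2.2.2.2.2.2.2.2.2.2.2.2.2.2.2.2.2.2.2.2.2.2.2.2.2.2.1))))
    (row43_parts.2.2.2.2.2.2.2.2.2.2.2.2.2.2.2.2.2.2.2.2.2.2.2.2.2.2.2.2.2.2.2.2.2.2.2.2.2.2.2.2.2.2.2.2.2.2.2.2.2.2.2.2.2.2.2.2.2.2.2.2.2.2.2.2.2.2.2.2.2.2.2.2.2.2.2.2.2.2.2.2.2.2.1))))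
    (Bern.coverU_split
    (row43_parts.2.2.2.2.2.2.2.2.2.2.2.2.2.2.2.2.2.2.2.2.2.2.2.2.2.2.2.2.2.2.2.2.2.2.2.2.2.2.2.2.2.2.2.2.2.2.2.2.2.2.2.2.2.2.2.2.2.2.2.2.2.2.2.2.2.2.2.2.2.2.2.2.2.2.2.2.2.2.2.2.2.2.2.1)
    (Bern.coverU_split
    (row43_parts.2.2.2.2.2.2.2.2.2.2.2.2.2.2.2.2.2.2.2.2.2.2.2.2.2.2.2.2.2.2.2.2.2.2.2.2.2.2.2.2.2.2.2.2.2.2.2.2.2.2.2.2.2.2.2.2.2.2.2.2.2.2.2.2.2.2.2.2.2.2.2.2.2.2.2.2.2.2.2.2.2.2.2.2.1)
    (Bern.coverU_split
    (row43_parts.2.2.2.2.2.2.2.2.2.2.2.2.2.2.2.2.2.2.2.2.2.2.2.2.2.2.2.2.2.2.2.2.2.2.2.2.2.2.2.2.2.2.2.2.2.2.2.2.2.2.2.2.2.2.2.2.2.2.2.2.2.2.2.2.2.2.2.2.2.2.2.2.2.2.2.2.2.2.2.2.2.2.2.2.2.1)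
    (Bern.coverU_split
    (row43_parts.2.2.2.2.2.2.2.2.2.2.2.2.2.2.2.2.2.2.2.2.2.2.2.2.2.2.2.2.2.2.2.2.2.2.2.2.2.2.2.2.2.2.2.2.2.2.2.2.2.2.2.2.2.2.2.2.2.2.2.2.2.2.2.2.2.2.2.2.2.2.2.2.2.2.2.2.2.2.2.2.2.2.2.2.2.2.1)
    (row43_parts.2.2.2.2.2.2.2.2.2.2.2.2.2.2.2.2.2.2.2.2.2.2.2.2.2.2.2.2.2.2.2.2.2.2.2.2.2.2.2.2.2.2.2.2.2.2.2.2.2.2.2.2.2.2.2.2.2.2.2.2.2.2.2.2.2.2.2.2.2.2.2.2.2.2.2.2.2.2.2.2.2.2.2.2.2.2.2)))))))

theorem row43_ok : rowFor 4 3 row43 = true := by
  simp only [rowFor, Bool.and_eq_true, decide_eq_true_eq]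
  exact ⟨⟨⟨rfl, rfl⟩, rfl⟩, rowCheck_of_quick row43_rest row43_cover row43_cover3⟩

end Vale.Agent.P154.Anti
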