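import Vale.Agent.P154.BudgetRow

/-!
P154: the data of the twenty rows at the channel `-1/2`. The modules of checked rows need only
this file and the checkers.
-/

namespace Vale.Agent.P154.Anti

open Kron BudgetRow

/-- Coefficients, times `30000000`, with the exponents of the two invariants. -/
def row : ℕ → List (ℤ × ℕ × ℕ)
  | 0 => [(9054540, 0, 2), (30000000, 1, 0), (7999830, 1, 1),
      (-5331570, 1, 2), (5153940, 2, 0), (-9521400, 2, 1),
      (-14085960, 3, 0), (20990880, 4, 0)]
  | 1 => [(800000, 0, 0), (-315357, 0, 1), (11302740, 0, 2),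
      (29771235, 1, 0), (92355, 1, 1), (-6452247, 1, 2),
      (6250419, 2, 0), (-13936209, 2, 1), (-3483447, 3, 0),
      (20232339, 4, 0)]
  | 2 => [(1594869, 0, 0), (-980583, 0, 1), (12546147, 0, 2),
      (29772702, 1, 0), (-2945313, 1, 1), (-2619555, 1, 2),
      (5469354, 2, 0), (-27100761, 2, 1), (9007830, 3, 0),
      (19518744, 4, 0)]
  | 3 => [(2388378, 0, 0), (-1782243, 0, 1), (13217814, 0, 2),
      (29705145, 1, 0), (-5028339, 1, 1), (929184, 1, 2),
      (5663247, 2, 0), (-37275531, 2, 1), (17616672, 3, 0),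
      (18830712, 4, 0)]
  | 4 => [(3578628, 0, 0), (-2934387, 0, 1), (14335536, 0, 2),
      (29627736, 1, 0), (-8321487, 1, 1), (6109032, 1, 2),
      (5725851, 2, 0), (-52655004, 2, 1), (30989976, 3, 0),
      (17811567, 4, 0)]
  | 5 => [(4771353, 0, 0), (-4029309, 0, 1), (14912157, 0, 2),
      (29599428, 1, 0), (-9478971, 1, 1), (11831172, 1, 2),
      (5549895, 2, 0), (-66692787, 2, 1), (40913289, 3, 0),
      (16893630, 4, 0)]
  | 6 => [(5965176, 0, 0), (-4996221, 0, 1), (14966058, 0, 2),
      (29493840, 1, 0), (-10629321, 1, 1), (15646068, 1, 2),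
      (5847609, 2, 0), (-74981682, 2, 1), (47186589, 3, 0),
      (15774153, 4, 0)]
  | 7 => [(7954878, 0, 0), (-6732747, 0, 1), (12135936, 0, 2),
      (29738874, 1, 0), (-6032964, 1, 1), (35573964, 1, 2),
      (1016679, 2, 0), (-112824444, 2, 1), (72493887, 3, 0),
      (10953945, 4, 0)]
  | 8 => [(9983439, 0, 0), (-7370661, 0, 1), (12163881, 0, 2),
      (29780946, 1, 0), (-3259206, 1, 1), (47124987, 1, 2),
      (-4291500, 2, 0), (-137529669, 2, 1), (89123049, 3, 0),
      (8556741, 4, 0)]
  | 9 => [(11980125, 0, 0), (-9065760, 0, 1), (7704186, 0, 2),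
      (29311368, 1, 0), (7621341, 1, 1), (63995256, 1, 2),
      (-7715058, 2, 0), (-166864734, 2, 1), (100166934, 3, 0),
      (7162194, 4, 0)]
  | 10 => [(14575821, 0, 0), (-8933562, 0, 1), (13648455, 0, 2),
      (28056969, 1, 0), (1322820, 1, 1), (51004929, 1, 2),
      (143157, 2, 0), (-150772146, 2, 1), (76813062, 3, 0),
      (19214154, 4, 0)]
  | 11 => [(17170611, 0, 0), (-8833392, 0, 1), (17487306, 0, 2),
      (24861621, 1, 0), (-15336966, 1, 1), (25590441, 1, 2),
      (14449206, 2, 0), (-101588250, 2, 1), (46673556, 3, 0),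
      (25110126, 4, 0)]
  | 12 => [(19766097, 0, 0), (-6647952, 0, 1), (35922063, 0, 2),
      (19788591, 1, 0), (-56514489, 1, 1), (-43889517, 1, 2),
      (50712351, 2, 0), (18747270, 2, 1), (-38584356, 3, 0),
      (48228738, 4, 0)]
  | 13 => [(28748904, 0, 0), (-8887152, 0, 1), (53964249, 0, 2),
      (14578059, 1, 0), (-70565055, 1, 1), (-84566109, 1, 2),
      (70328064, 2, 0), (67061463, 2, 1), (-103274076, 3, 0),
      (84751899, 4, 0)]
  | 14 => [(37700274, 0, 0), (12730635, 0, 1), (107269878, 0, 2),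
      (-20595369, 1, 0), (-232984185, 1, 1), (-234313032, 1, 2),
      (196147362, 2, 0), (347714538, 2, 1), (-275723034, 3, 0),
      (119103897, 4, 0)]
  | 15 => [(46715907, 0, 0), (8084745, 0, 1), (136802382, 0, 2),
      (-18097716, 1, 0), (-265907241, 1, 1), (-324334320, 1, 2),
      (242339622, 2, 0), (467906352, 2, 1), (-401724393, 3, 0),
      (187212039, 4, 0)]
  | _ => []

/-- The terms of a coefficient function. -/
def terms (i : ℕ) : List Term := (row i).map fun z => (z.1, z.2.1, z.2.2, 0, 0)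

/-- Numerator and denominator of four times the length of a piece. -/
def gapQ : ℕ → ℕ × ℕ
  | 0 => (8, 25)
  | 1 => (12, 25)
  | 2 => (4, 5)
  | 3 => (26, 25)
  | _ => (18, 5)

/-- The difference of two consecutive coefficient functions. -/
def diffT (i : ℕ) : List Term := terms (i + 1) ++ smulT (-1) (terms i)

/-- The right coefficient `D` of a row, whose left coefficient is `slopeE`. -/
def slopeT (j : ℕ) : ℕ → List Term
  | 0 => smulT (3 * (gapQ j).2) (diffT (3 * j))
  | 1 => smulT (gapQ j).2 (diffT (3 * j) ++ smulT 2 (diffT (3 * j + 1)))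
  | 2 => smulT (gapQ j).2 (smulT 2 (diffT (3 * j + 1)) ++ diffT (3 * j + 2))
  | _ => smulT (3 * (gapQ j).2) (diffT (3 * j + 2))

/-- The left coefficient `e` of a row. -/
def slopeE (j : ℕ) : ℕ := (gapQ j).1 * 30000000

/-- The row is the one of piece `j`, index `m`, and passes the check. -/
def rowFor (j m : ℕ) (r : Row) : Bool :=
  decide (r.W = terms (3 * j + m)) && decide (r.D = slopeT j m) && decide (r.e = slopeE j) &&
    rowCheck (terms 0) r

end Vale.Agent.P154.Anti
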