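import Vale.Agent.P154.Anti.RowsGlue
import Vale.Agent.P154.Anti.Row00
import Vale.Agent.P154.Anti.Row01
import Vale.Agent.P154.Anti.Row02
import Vale.Agent.P154.Anti.Row03
import Vale.Agent.P154.Anti.Row10
import Vale.Agent.P154.Anti.Row11
import Vale.Agent.P154.Anti.Row12
import Vale.Agent.P154.Anti.Row13
import Vale.Agent.P154.Anti.RowB20
import Vale.Agent.P154.Anti.RowB21
import Vale.Agent.P154.Anti.RowB22
import Vale.Agent.P154.Anti.RowB23
import Vale.Agent.P154.Anti.RowB30
import Vale.Agent.P154.Anti.RowB31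
import Vale.Agent.P154.Anti.RowB32
import Vale.Agent.P154.Anti.RowB33
import Vale.Agent.P154.Anti.RowB40
import Vale.Agent.P154.Anti.RowB41
import Vale.Agent.P154.Anti.RowB42
import Vale.Agent.P154.Anti.RowB43

/-!
P154: nonreconstruction on the antiferromagnetic Poisson trees with three colours, from the
twenty checked rows.
-/

namespace Vale.Agent.P154.Anti

open BudgetRow
open scoped NNReal

/-- The twenty rows. -/
noncomputable def poissonRows : ℕ → ℕ → Row
  | 0, 0 => row00
  | 0, 1 => row01
  | 0, 2 => row02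
  | 0, 3 => row03
  | 1, 0 => row10
  | 1, 1 => row11
  | 1, 2 => row12
  | 1, 3 => row13
  | 2, 0 => row20
  | 2, 1 => row21
  | 2, 2 => row22
  | 2, 3 => row23
  | 3, 0 => row30
  | 3, 1 => row31
  | 3, 2 => row32
  | 3, 3 => row33
  | 4, 0 => row40
  | 4, 1 => row41
  | 4, 2 => row42
  | 4, 3 => row43
  | _, _ => row00

/-- Nonreconstruction for three colours on the Poisson trees of mean `d` with `d * lam ^ 2 ≤ 1`,
for every antiferromagnetic `lam`. -/
theorem antiPoisson {lam : ℝ} (h0 : -1 / 2 ≤ lam) (h1 : lam ≤ 0) {d : ℝ≥0}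
    (hd : (d : ℝ) * lam ^ 2 ≤ 1) : NonReconstruction 3 lam (poissonLaw d) := by
  refine antiPoisson_of_rows poissonRows (fun j hj m hm => ?_) h0 h1 hd
  interval_cases j <;> interval_cases m
  exacts [row00_ok, row01_ok, row02_ok, row03_ok, row10_ok,
    row11_ok, row12_ok, row13_ok, row20_ok, row21_ok,
    row22_ok, row23_ok, row30_ok, row31_ok, row32_ok,
    row33_ok, row40_ok, row41_ok, row42_ok, row43_ok]

end Vale.Agent.P154.Anti
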