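import Vale.Agent.P154.Anti.Side

/-!
P154: the twenty merge inequalities from checked rows.
-/

namespace Vale.Agent.P154.Anti

open Kron BudgetRow
open scoped NNReal

lemma polyT_diffT (i : ℕ) (s : Fin 3 → ℝ) :
    polyT (diffT i) s = den * (coef (i + 1) s - coef i s) := by
  have hd : (den : ℝ) ≠ 0 := by norm_num [den]
  simp only [polyT, diffT, evalT_append, evalT_smulT, coef]
  push_cast
  field_simp
  ring

lemma four_gap {j : ℕ} (hj : j ≤ 4) : 4 * gap j = ((gapQ j).1 : ℝ) / (gapQ j).2 := by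
  interval_cases j <;> norm_num [gap, knot, gapQ]

lemma gapQ_pos (j : ℕ) : 0 < (gapQ j).1 ∧ 0 < (gapQ j).2 := by
  unfold gapQ
  split <;> norm_num

lemma polyT_slopeT {j : ℕ} (hj : j ≤ 4) {m : ℕ} (hm : m ≤ 3) (s : Fin 3 → ℝ) :
    polyT (slopeT j m) s = (slopeE j : ℝ) * slope j m s := by
  obtain ⟨hp, hq⟩ := gapQ_pos j
  have hp' : ((gapQ j).1 : ℝ) ≠ 0 := Nat.cast_ne_zero.mpr hp.ne'
  have hq' : ((gapQ j).2 : ℝ) ≠ 0 := Nat.cast_ne_zero.mpr hq.ne'
  have h0 := polyT_diffT (3 * j) s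
  have h1 := polyT_diffT (3 * j + 1) s
  have h2 := polyT_diffT (3 * j + 2) s
  simp only [show 3 * j + 1 + 1 = 3 * j + 2 from rfl, show 3 * j + 2 + 1 = 3 * j + 3 from rfl,
    polyT] at h0 h1 h2
  interval_cases m <;>
    simp only [polyT, slopeT, slope, evalT_smulT, evalT_append, h0, h1, h2, slopeE, den,
      four_gap hj] <;>
    push_cast <;> field_simp

/-- The merge inequalities from checked rows. -/
theorem mergeRows_of_checks (rows : ℕ → ℕ → Row)
    (h : ∀ j ≤ 4, ∀ m ≤ 3, rowFor j m (rows j m) = true) : MergeRows := by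
  intro j hj m hm s hs u hu
  have hr := h j hj m hm
  simp only [rowFor, Bool.and_eq_true, decide_eq_true_eq] at hr
  obtain ⟨⟨⟨hW, hD⟩, he⟩, hc⟩ := hr
  have key := row_sound hc hs hu
  rw [hW, hD, he, polyT_slopeT hj hm s] at key
  have hE : (0 : ℝ) < slopeE j := by
    have := (gapQ_pos j).1
    exact_mod_cast (show 0 < slopeE j by unfold slopeE; positivity)
  have e : mergeAvg (coef (3 * j + m)) s (chanMap (-1 / 2) u) =
      mergeAvg (polyT (terms (3 * j + m))) s (chanMap (-1 / 2) u) / den := by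
    simp only [mergeAvg_eq, coef, ← mul_div_assoc, ← Finset.sum_div]
    rw [div_right_comm]
  rw [e, div_le_iff₀ den_pos]
  have e1 : coef (3 * j + m) s * den = polyT (terms (3 * j + m)) s :=
    div_mul_cancel₀ _ den_pos.ne'
  have e2 : pot u * den = polyT (terms 0) u := by
    rw [pot_eq]; exact div_mul_cancel₀ _ den_pos.ne'
  refine le_of_mul_le_mul_left ?_ hE
  calc _ ≤ _ := key
    _ = _ := by rw [← e1, ← e2]; ring

/-- Nonreconstruction on the Poisson trees from checked rows. -/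
theorem antiPoisson_of_rows (rows : ℕ → ℕ → Row)
    (h : ∀ j ≤ 4, ∀ m ≤ 3, rowFor j m (rows j m) = true) {lam : ℝ} (h0 : -1 / 2 ≤ lam)
    (h1 : lam ≤ 0) {d : ℝ≥0} (hd : (d : ℝ) * lam ^ 2 ≤ 1) :
    NonReconstruction 3 lam (poissonLaw d) :=
  antiPoisson_of_merge (mergeRows_of_checks rows h) h0 h1 hd

end Vale.Agent.P154.Anti
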