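import Vale.Agent.P154.BudgetTable
import Vale.Agent.P154.Anti.RowData

/-!
P154: the budget functional for three states at the channel `-1/2`.

`V s A` is cubic in `A` between the break points `4 * knot j`; the coefficients in the Bernstein
basis are polynomials in the invariants `tI`, `cI`.
-/

namespace Vale.Agent.P154.Anti

open Kron BudgetRow

/-- The common denominator. -/
noncomputable def den : ℝ := 30000000

/-- The coefficient functions. -/
noncomputable def coef (i : ℕ) (s : Fin 3 → ℝ) : ℝ := polyT (terms i) s / den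

/-- The potential in the invariants. -/
noncomputable def potP (t c : ℝ) : ℝ := evalT (terms 0) ![t, c, 0, 0] / den

/-- The potential. -/
noncomputable def pot : (Fin 3 → ℝ) → ℝ := phiOf potP

lemma pot_eq : pot = coef 0 := rfl

/-- The knots. -/
noncomputable def knot : ℕ → ℝ
  | 0 => 0
  | 1 => 2 / 25
  | 2 => 1 / 5
  | 3 => 2 / 5
  | 4 => 33 / 50
  | _ => 39 / 25

/-- The length of a piece. -/
noncomputable def gap (j : ℕ) : ℝ := knot (j + 1) - knot j

/-- A cubic in the Bernstein basis. -/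
noncomputable def cub (a b c d x : ℝ) : ℝ :=
  (1 - x) ^ 3 * a + 3 * (1 - x) ^ 2 * x * b + 3 * (1 - x) * x ^ 2 * c + x ^ 3 * d

/-- Its derivative. -/
noncomputable def dcub (a b c d x : ℝ) : ℝ :=
  3 * ((1 - x) ^ 2 * (b - a) + 2 * (1 - x) * x * (c - b) + x ^ 2 * (d - c))

/-- The coordinate on a piece. -/
noncomputable def loc (j : ℕ) (A : ℝ) : ℝ := (A / 4 - knot j) / gap j

/-- The functional on one piece. -/
noncomputable def Vp (j : ℕ) (s : Fin 3 → ℝ) (A : ℝ) : ℝ :=
  cub (coef (3 * j) s) (coef (3 * j + 1) s) (coef (3 * j + 2) s) (coef (3 * j + 3) s) (loc j A)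

/-- Its derivative in the budget. -/
noncomputable def Dp (j : ℕ) (s : Fin 3 → ℝ) (A : ℝ) : ℝ :=
  dcub (coef (3 * j) s) (coef (3 * j + 1) s) (coef (3 * j + 2) s) (coef (3 * j + 3) s) (loc j A) /
    (4 * gap j)

/-- The piece containing a budget. -/
noncomputable def piece (A : ℝ) : ℕ :=
  if A < 4 * knot 1 then 0 else if A < 4 * knot 2 then 1 else if A < 4 * knot 3 then 2
  else if A < 4 * knot 4 then 3 else 4

/-- The budget functional. -/
noncomputable def V : (Fin 3 → ℝ) → ℝ → ℝ :=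
  glue (4 * knot 1) (Vp 0) (glue (4 * knot 2) (Vp 1) (glue (4 * knot 3) (Vp 2)
    (glue (4 * knot 4) (Vp 3) (Vp 4))))

/-- Its right derivative. -/
noncomputable def D : (Fin 3 → ℝ) → ℝ → ℝ :=
  glue (4 * knot 1) (Dp 0) (glue (4 * knot 2) (Dp 1) (glue (4 * knot 3) (Dp 2)
    (glue (4 * knot 4) (Dp 3) (Dp 4))))

lemma V_eq (s : Fin 3 → ℝ) (A : ℝ) : V s A = Vp (piece A) s A := by
  unfold V glue piece
  split_ifs <;> rfl

lemma D_eq (s : Fin 3 → ℝ) (A : ℝ) : D s A = Dp (piece A) s A := by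
  unfold D glue piece
  split_ifs <;> rfl

lemma piece_le (A : ℝ) : piece A ≤ 4 := by
  unfold piece
  split_ifs <;> omega

lemma gap_pos {j : ℕ} (hj : j ≤ 4) : 0 < gap j := by
  interval_cases j <;> norm_num [gap, knot]

lemma piece_spec {A : ℝ} (h0 : 0 ≤ A) (h1 : A ≤ 156 / 25) :
    4 * knot (piece A) ≤ A ∧ A ≤ 4 * knot (piece A + 1) := by
  unfold piece
  split_ifs with a b c d <;> constructor <;> norm_num [knot] at * <;> linarith

lemma loc_mem {j : ℕ} (hj : j ≤ 4) {A : ℝ} (h0 : 4 * knot j ≤ A) (h1 : A ≤ 4 * knot (j + 1)) :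
    0 ≤ loc j A ∧ loc j A ≤ 1 := by
  have h := gap_pos hj
  refine ⟨div_nonneg (by linarith) h.le, ?_⟩
  rw [loc, div_le_one h, gap]
  linarith

end Vale.Agent.P154.Anti
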